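import Vale.Agent.P229.Defs
import Mathlib.Analysis.Calculus.FDeriv.Symmetric
import Mathlib.Analysis.Calculus.Deriv.Prod
import Mathlib.Analysis.Calculus.ContDiff.Comp
import Mathlib.Analysis.Calculus.Deriv.Comp

/-!
# P229: elementary facts on the partial derivatives used in the box module
-/

open scoped ContDiff

namespace Vale.Agent.P229

variable {E : Type*} [NormedAddCommGroup E] [NormedSpace ℝ E]

theorem bxSmooth_dX {f : ℝ × ℝ → E} (hf : ContDiff ℝ ∞ f) : ContDiff ℝ ∞ (dX f) := by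
  unfold dX
  exact (contDiff_infty_iff_fderiv.1 hf).2.clm_apply contDiff_const

theorem bxSmooth_dY {f : ℝ × ℝ → E} (hf : ContDiff ℝ ∞ f) : ContDiff ℝ ∞ (dY f) := by
  unfold dY
  exact (contDiff_infty_iff_fderiv.1 hf).2.clm_apply contDiff_const

theorem bxHasDerivAt_X {f : ℝ × ℝ → E} (hf : ContDiff ℝ ∞ f) (z : ℝ × ℝ) :
    HasDerivAt (fun s => f (s, z.2)) (dX f z) z.1 := by
  have h : HasDerivAt (fun s : ℝ => (s, z.2)) ((1 : ℝ), (0 : ℝ)) z.1 :=
    (hasDerivAt_id _).prodMk (hasDerivAt_const _ _)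
  exact (hf.differentiable (by simp) z).hasFDerivAt.comp_hasDerivAt z.1 h

theorem bxHasDerivAt_Y {f : ℝ × ℝ → E} (hf : ContDiff ℝ ∞ f) (z : ℝ × ℝ) :
    HasDerivAt (fun s => f (z.1, s)) (dY f z) z.2 := by
  have h : HasDerivAt (fun s : ℝ => (z.1, s)) ((0 : ℝ), (1 : ℝ)) z.2 :=
    (hasDerivAt_const _ _).prodMk (hasDerivAt_id _)
  exact (hf.differentiable (by simp) z).hasFDerivAt.comp_hasDerivAt z.2 h

/-- The derivative of `g (u, y)` in the first variable. -/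
theorem bxHasDerivAt_ptX {g u : ℝ × ℝ → ℝ} (hg : ContDiff ℝ ∞ g) (hu : ContDiff ℝ ∞ u)
    (z : ℝ × ℝ) :
    HasDerivAt (fun s => g (pt u (s, z.2))) (dX g (pt u z) * dX u z) z.1 := by
  have h : HasDerivAt (fun s : ℝ => (u (s, z.2), z.2)) (dX u z, (0 : ℝ)) z.1 :=
    (bxHasDerivAt_X hu z).prodMk (hasDerivAt_const _ _)
  have h' := (hg.differentiable (by simp) (u z, z.2)).hasFDerivAt.comp_hasDerivAt z.1 h
  refine h'.congr_deriv ?_
  have e : ((dX u z, 0) : ℝ × ℝ) = dX u z • ((1 : ℝ), (0 : ℝ)) := by simp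
  rw [e, map_smul, smul_eq_mul, mul_comm]
  rfl

/-- The derivative of `g (u, y)` in the second variable. -/
theorem bxHasDerivAt_ptY {g u : ℝ × ℝ → ℝ} (hg : ContDiff ℝ ∞ g) (hu : ContDiff ℝ ∞ u)
    (z : ℝ × ℝ) :
    HasDerivAt (fun s => g (pt u (z.1, s))) (dX g (pt u z) * dY u z + dY g (pt u z)) z.2 := by
  have h : HasDerivAt (fun s : ℝ => (u (z.1, s), s)) (dY u z, (1 : ℝ)) z.2 :=
    (bxHasDerivAt_Y hu z).prodMk (hasDerivAt_id _)
  have h' := HasFDerivAt.comp_hasDerivAt (f := fun s : ℝ => (u (z.1, s), s)) z.2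
    (hg.differentiable (by simp) (u z, z.2)).hasFDerivAt h
  refine h'.congr_deriv ?_
  have e : ((dY u z, 1) : ℝ × ℝ) = dY u z • ((1 : ℝ), (0 : ℝ)) + ((0 : ℝ), (1 : ℝ)) := by simp
  rw [e, map_add, map_smul, smul_eq_mul, mul_comm]
  rfl

theorem bxMixed {f : ℝ × ℝ → ℝ} (hf : ContDiff ℝ ∞ f) (z : ℝ × ℝ) :
    dY (dX f) z = dX (dY f) z := by
  have h1 : DifferentiableAt ℝ (fderiv ℝ f) z :=
    ((contDiff_infty_iff_fderiv.1 hf).2.differentiable (by simp)) z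
  have hs := (hf.contDiffAt (x := z)).isSymmSndFDerivAt
    (by rw [minSmoothness_of_isRCLikeNormedField]; exact WithTop.coe_le_coe.2 le_top) ((1 : ℝ), (0 : ℝ)) (0, 1)
  show fderiv ℝ (fun w => fderiv ℝ f w (1, 0)) z (0, 1)
    = fderiv ℝ (fun w => fderiv ℝ f w (0, 1)) z (1, 0)
  rw [fderiv_clm_apply h1 (differentiableAt_const _), fderiv_clm_apply h1 (differentiableAt_const _)]
  simp [hs]

end Vale.Agent.P229
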