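import Vale.Agent.P229.BoxBasic
import Mathlib.Analysis.SpecialFunctions.SmoothTransition
import Mathlib.Analysis.SpecialFunctions.ExpDeriv
import Mathlib.MeasureTheory.Integral.IntervalIntegral.FundThmCalculus
import Mathlib.Analysis.Calculus.ContDiff.Deriv
import Mathlib.Analysis.Calculus.Deriv.Inv
import Mathlib.Analysis.Calculus.BumpFunction.InnerProduct

/-!
# P229: the perturbation of the box

All the parameters are powers of the small parameter `t`: `sA` and `sa` are the square roots of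
the curvature `𝔸` of the walls and `a` of the lens.
-/

open scoped ContDiff Topology
open MeasureTheory

namespace Vale.Agent.P229

/-- The transition profile: `1` on `[-1,1]`, `-1` outside `[-2,2]`. -/
noncomputable def zeta0 (s : ℝ) : ℝ := 1 - 2 * Real.smoothTransition ((s ^ 2 - 1) / 3)

/-- A primitive of `zeta0`. -/
noncomputable def zeta1 (s : ℝ) : ℝ := ∫ x in (0 : ℝ)..s, zeta0 x

/-- A second primitive of `zeta0`. -/
noncomputable def zeta2 (s : ℝ) : ℝ := ∫ x in (0 : ℝ)..s, zeta1 x

/-- The bump profile: `1` on `[-1,1]`, supported in `[-2,2]`. -/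
noncomputable def phiB : ContDiffBump (0 : ℝ) := ⟨1, 2, one_pos, one_lt_two⟩

/-- The planar cut-off: `1` on `sq 2`, supported in `sq 4`. -/
noncomputable def chiCut (z : ℝ × ℝ) : ℝ := phiB (z.1 / 2) * phiB (z.2 / 2)

/-- The fixed data of a box: geometric constants and exponents. -/
structure Par where
  /-- Bound on the derivatives of the hodograph functions. -/
  K : ℝ
  /-- Size of the hodograph square relative to the chart square. -/
  κ : ℝ
  /-- Exponent of the walls. -/
  Pe : ℕ
  /-- Exponent of the lens. -/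
  Qe : ℕ
  /-- Smoothness order of the perturbation. -/
  j : ℕ
  one_le_K : 1 ≤ K
  κ_pos : 0 < κ
  Pe_le : Pe + 1 ≤ Qe

namespace Par

variable (c : Par) (t : ℝ)

/-- Lens size over `t`. -/
noncomputable def Γ1 : ℝ := 16 * (c.K + 1)

/-- Outer size of the lens in the hodograph variable, over `t`. -/
noncomputable def pOut : ℝ := c.K * (2 * c.Γ1 + c.K + 1) + 1

/-- Size of the chart square over `t`. -/
noncomputable def cr : ℝ := (3 * c.pOut + 1) / c.κ + c.Γ1

/-- The bump is this small relative to the wave length. -/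
noncomputable def c1 : ℝ := 1 / (8 * (c.K + 1) ^ 2)

/-- `√𝔸`. -/
noncomputable def sA : ℝ := t ^ c.Pe

/-- `√a`. -/
noncomputable def sa : ℝ := t ^ c.Qe

/-- Size of the bump. -/
noncomputable def δ : ℝ := c.c1 * t ^ (2 * c.Qe - c.Pe)

/-- Height of the bump. -/
noncomputable def ε : ℝ := c.δ t ^ (c.j + 1)

/-- Height of the lens. -/
noncomputable def ym : ℝ := t ^ (c.Qe - c.Pe)

/-- Length of the lens. -/
noncomputable def L : ℝ := c.Γ1 * t

/-- Radius of the chart square. -/
noncomputable def r : ℝ := c.cr * t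

/-- The lens profile `a L² Z₂(x/L)`. -/
noncomputable def lensP (x : ℝ) : ℝ := c.sa t ^ 2 * c.L t ^ 2 * zeta2 (x / c.L t)

/-- Background perturbation. -/
noncomputable def betaBg (z : ℝ × ℝ) : ℝ :=
  chiCut ((c.r t)⁻¹ • z) * (-(c.sA t ^ 2 * z.1 ^ 2 * z.2 ^ 2 / 2) + c.lensP t z.1)

/-- The bump. -/
noncomputable def betaF (z : ℝ × ℝ) : ℝ :=
  c.ε t * c.δ t ^ 2 * (phiB (z.1 / c.δ t) * phiB (z.2 / c.δ t))

/-- The perturbation. -/
noncomputable def beta (z : ℝ × ℝ) : ℝ := c.betaBg t z + c.betaF t z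

/-- The weight. -/
noncomputable def W (y : ℝ) : ℝ := c.sa t ^ 2 + c.sA t ^ 2 * y ^ 2

/-- The square root of the weight. -/
noncomputable def om (y : ℝ) : ℝ := Real.sqrt (c.W t y)

end Par

theorem bxZeta0_smooth : ContDiff ℝ ∞ zeta0 :=
  contDiff_const.sub (contDiff_const.mul
    (Real.smoothTransition.contDiff.comp (((contDiff_id.pow 2).sub contDiff_const).div_const 3)))

theorem bxHasDerivAt_zeta1 (s : ℝ) : HasDerivAt zeta1 (zeta0 s) s :=
  intervalIntegral.integral_hasDerivAt_right (bxZeta0_smooth.continuous.intervalIntegrable _ _)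
    (bxZeta0_smooth.continuous.stronglyMeasurableAtFilter _ _) bxZeta0_smooth.continuous.continuousAt

theorem bxZeta1_smooth : ContDiff ℝ ∞ zeta1 := by
  rw [contDiff_infty_iff_deriv]
  refine ⟨fun s => (bxHasDerivAt_zeta1 s).differentiableAt, ?_⟩
  rw [funext fun s => (bxHasDerivAt_zeta1 s).deriv]
  exact bxZeta0_smooth

theorem bxHasDerivAt_zeta2 (s : ℝ) : HasDerivAt zeta2 (zeta1 s) s :=
  intervalIntegral.integral_hasDerivAt_right (bxZeta1_smooth.continuous.intervalIntegrable _ _)
    (bxZeta1_smooth.continuous.stronglyMeasurableAtFilter _ _) bxZeta1_smooth.continuous.continuousAt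

theorem bxZeta2_smooth : ContDiff ℝ ∞ zeta2 := by
  rw [contDiff_infty_iff_deriv]
  refine ⟨fun s => (bxHasDerivAt_zeta2 s).differentiableAt, ?_⟩
  rw [funext fun s => (bxHasDerivAt_zeta2 s).deriv]
  exact bxZeta1_smooth

theorem bxZeta0_one {s : ℝ} (h : |s| ≤ 1) : zeta0 s = 1 := by
  have : s ^ 2 ≤ 1 := (sq_le_one_iff_abs_le_one s).2 h
  simp [zeta0, Real.smoothTransition.zero_of_nonpos
    (div_nonpos_of_nonpos_of_nonneg (by linarith : s ^ 2 - 1 ≤ 0) (by norm_num : (0 : ℝ) ≤ 3))]

theorem bxZeta0_neg_one {s : ℝ} (h : 2 ≤ |s|) : zeta0 s = -1 := by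
  have : 4 ≤ s ^ 2 := by nlinarith [sq_abs s]
  rw [zeta0, Real.smoothTransition.one_of_one_le (by linarith)]; norm_num

theorem bxZeta0_abs (s : ℝ) : |zeta0 s| ≤ 1 := by
  rw [abs_le, zeta0]
  constructor <;>
    linarith [Real.smoothTransition.nonneg ((s ^ 2 - 1) / 3),
      Real.smoothTransition.le_one ((s ^ 2 - 1) / 3)]

theorem bxExpNegInvGlue_hasDerivAt {x : ℝ} (hx : 0 < x) :
    HasDerivAt expNegInvGlue (expNegInvGlue x / x ^ 2) x := by
  have e : expNegInvGlue =ᶠ[𝓝 x] fun y => Real.exp (-y⁻¹) := by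
    filter_upwards [lt_mem_nhds hx] with y hy
    simp [expNegInvGlue, not_le.2 hy]
  refine (((hasDerivAt_inv hx.ne').neg.exp).congr_of_eventuallyEq e).congr_deriv ?_
  rw [e.self_of_nhds]
  simp [div_eq_mul_inv]

theorem bxSmoothTransition_deriv_pos {x : ℝ} (h0 : 0 < x) (h1 : x < 1) :
    0 < deriv Real.smoothTransition x := by
  have a := bxExpNegInvGlue_hasDerivAt h0
  have b := (bxExpNegInvGlue_hasDerivAt (sub_pos.2 h1)).comp x ((hasDerivAt_id x).const_sub 1)
  have := a.div (a.add b) (Real.smoothTransition.pos_denom x).ne'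
  rw [show Real.smoothTransition
    = fun x => expNegInvGlue x / (expNegInvGlue x + expNegInvGlue (1 - x)) from rfl]
  rw [HasDerivAt.deriv (f := fun x => expNegInvGlue x / (expNegInvGlue x + expNegInvGlue (1 - x)))
    this]
  have p := expNegInvGlue.pos_of_pos h0
  have q := expNegInvGlue.pos_of_pos (sub_pos.2 h1)
  simp only [Function.comp, id_eq, Pi.add_apply]
  refine div_pos ?_ (by positivity)
  have e1 : 0 < expNegInvGlue x / x ^ 2 * expNegInvGlue (1 - x) := by positivity
  have e2 : 0 < expNegInvGlue x * (expNegInvGlue (1 - x) / (1 - x) ^ 2) := by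
    have : 0 < (1 - x) ^ 2 := by positivity
    positivity
  nlinarith

theorem bxHasDerivAt_zeta0 (s : ℝ) :
    HasDerivAt zeta0 (-(4 / 3) * s * deriv Real.smoothTransition ((s ^ 2 - 1) / 3)) s := by
  have h : HasDerivAt Real.smoothTransition (deriv Real.smoothTransition ((s ^ 2 - 1) / 3))
      ((s ^ 2 - 1) / 3) :=
    ((Real.smoothTransition.contDiff (n := 1)).differentiable (by simp) _).hasDerivAt
  refine (((h.comp s (((hasDerivAt_pow 2 s).sub_const 1).div_const 3)).const_mul 2).const_sub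
    1).congr_deriv ?_
  simp; ring

/-- `s ζ'(s) ≤ 0`. -/
theorem bxZeta0_mul_deriv (s : ℝ) : s * deriv zeta0 s ≤ 0 := by
  rw [(bxHasDerivAt_zeta0 s).deriv]
  have : 0 ≤ deriv Real.smoothTransition ((s ^ 2 - 1) / 3) := Real.smoothTransition.monotone.deriv_nonneg
  nlinarith [mul_nonneg (mul_self_nonneg s) this]

/-- Where `ζ` vanishes `s ζ'` does not. -/
theorem bxZeta0_nondeg : ∃ c : ℝ, 0 < c ∧ ∀ s, c ≤ zeta0 s ^ 2 + (-(s * deriv zeta0 s)) := by
  set g := fun s => zeta0 s ^ 2 + (-(s * deriv zeta0 s)) with hg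
  have hc : Continuous g := (bxZeta0_smooth.continuous.pow 2).add
    (continuous_id.mul (contDiff_infty_iff_deriv.1 bxZeta0_smooth).2.continuous).neg
  have pos : ∀ s, 0 < g s := by
    intro s
    have hn := bxZeta0_mul_deriv s
    rcases eq_or_ne (zeta0 s) 0 with h0 | h0
    · have hw : Real.smoothTransition ((s ^ 2 - 1) / 3) = 1 / 2 := by
        unfold zeta0 at h0; linarith
      have w0 : 0 < (s ^ 2 - 1) / 3 := by
        by_contra hh
        rw [Real.smoothTransition.zero_of_nonpos (not_lt.1 hh)] at hw; norm_num at hw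
      have w1 : (s ^ 2 - 1) / 3 < 1 := by
        by_contra hh
        rw [Real.smoothTransition.one_of_one_le (not_lt.1 hh)] at hw; norm_num at hw
      have := bxSmoothTransition_deriv_pos w0 w1
      simp only [hg]
      rw [h0, (bxHasDerivAt_zeta0 s).deriv]
      nlinarith [mul_pos (by linarith : (0 : ℝ) < s ^ 2) this]
    · simp only [hg]
      have : 0 < zeta0 s ^ 2 := by positivity
      linarith
  obtain ⟨s0, -, hs0⟩ := isCompact_Icc.exists_isMinOn
    (Set.nonempty_Icc.2 (by norm_num : (-3 : ℝ) ≤ 3)) hc.continuousOn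
  refine ⟨min (g s0) 1, lt_min (pos s0) one_pos, fun s => ?_⟩
  rcases le_or_gt |s| 3 with h | h
  · exact (min_le_left _ _).trans (hs0 (abs_le.1 h))
  · refine (min_le_right _ _).trans ?_
    rw [bxZeta0_neg_one (by linarith)]
    linarith [bxZeta0_mul_deriv s]

end Vale.Agent.P229
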