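import Mathlib.Analysis.InnerProductSpace.PiL2
import Mathlib.Analysis.Calculus.ContDiff.Defs
import Mathlib.Analysis.Calculus.IteratedDeriv.Defs
import Mathlib.Analysis.Real.Sqrt
import Mathlib.Data.Fin.VecNotation
import Mathlib.Data.Matrix.Basic

/-!
# P229: common definitions and the interfaces between the modules

See `notes/P229.md`. Coordinates are pairs; `dX`, `dY` are the two partial derivatives.
-/

open scoped ContDiff RealInnerProductSpace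

namespace Vale.Agent.P229

/-- Euclidean three-space. -/
abbrev E3 := EuclideanSpace ℝ (Fin 3)

section partials

variable {E : Type*} [NormedAddCommGroup E] [NormedSpace ℝ E]

/-- Partial derivative in the first variable. -/
noncomputable def dX (f : ℝ × ℝ → E) : ℝ × ℝ → E := fun z => fderiv ℝ f z (1, 0)

/-- Partial derivative in the second variable. -/
noncomputable def dY (f : ℝ × ℝ → E) : ℝ × ℝ → E := fun z => fderiv ℝ f z (0, 1)

end partials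

/-- The closed square of radius `r` about the origin. -/
def sq (r : ℝ) : Set (ℝ × ℝ) := Set.Icc (-r) r ×ˢ Set.Icc (-r) r

/-- `F` is a smooth isometric immersion on `U` of the metric `dx² + (1+β)² dy²`. -/
def IsBoxImm (β : ℝ × ℝ → ℝ) (U : Set (ℝ × ℝ)) (F : ℝ × ℝ → E3) : Prop :=
  ContDiffOn ℝ ∞ F U ∧
    ∀ z ∈ U, ⟪dX F z, dX F z⟫ = 1 ∧ ⟪dX F z, dY F z⟫ = 0 ∧
      ⟪dY F z, dY F z⟫ = (1 + β z) ^ 2

/-- The box statement: an arbitrarily small perturbation of the Euclidean metric, supported in an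
arbitrarily small square, which excludes immersions with bounded derivatives whose second
fundamental form is non-zero in the `x`-direction at the centre. -/
def BoxSpec : Prop :=
  ∀ (m : ℕ) (M η0 σ : ℝ), 0 < η0 → 0 < σ →
    ∃ β : ℝ × ℝ → ℝ, ContDiff ℝ ∞ β ∧ (∀ z, z ∉ sq σ → β z = 0) ∧ (∀ z, |β z| ≤ 1 / 2) ∧
      (∀ i ≤ m, ∀ z, ‖iteratedFDeriv ℝ i β z‖ ≤ σ) ∧
      ∀ (U : Set (ℝ × ℝ)) (F : ℝ × ℝ → E3), IsOpen U → sq σ ⊆ U → IsBoxImm β U F →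
        (∀ i ≤ 20, ∀ z ∈ sq σ, ‖iteratedFDeriv ℝ i F z‖ ≤ M) →
        η0 ≤ ‖dX (dX F) 0‖ → False

/-! ### The hodograph system -/

/-- `A = ⟪F_x, e⟫` as a function of the hodograph variable `P = p - 1/4` and of `b`. -/
noncomputable def Afun (P b : ℝ) : ℝ := Real.sqrt (2 * (1 / 4 + P) - b ^ 2)

/-- `k' = (1-2p) k̄` in terms of `P = p - 1/4`. -/
noncomputable def kPrime (P k : ℝ) : ℝ := (1 / 2 - 2 * P) * k

/-- `N = u_y + A b k' u_p²`. -/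
noncomputable def Nfun (P b uy up k : ℝ) : ℝ := uy + Afun P b * b * kPrime P k * up ^ 2

/-- `Z = A C - b u_y`. -/
noncomputable def Zfun (P b uy C : ℝ) : ℝ := Afun P b * C - b * uy

/-- The curvature density `k̄ = -C_xx` of `dx² + (1+β)²dy²`. -/
noncomputable def kbar (β : ℝ × ℝ → ℝ) : ℝ × ℝ → ℝ := fun z => -dX (dX β) z

/-- The point `(u(P,y), y)` of the chart. -/
def pt (u : ℝ × ℝ → ℝ) (z : ℝ × ℝ) : ℝ × ℝ := (u z, z.2)

/-- What the geometry module provides: on a square of comparable size in the hodograph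
variables `(P,y)` the functions `u = x(P,y)` and `b` satisfy the first-order system. -/
def GeometrySpec : Prop :=
  ∀ (M η0 : ℝ), 0 < η0 → ∃ r0 κ K : ℝ, 0 < r0 ∧ 0 < κ ∧ 0 < K ∧
    ∀ (r : ℝ) (β : ℝ × ℝ → ℝ) (U : Set (ℝ × ℝ)) (F : ℝ × ℝ → E3),
      0 < r → r ≤ r0 → ContDiff ℝ ∞ β →
      (∀ i ≤ 20, ∀ z ∈ sq r, ‖iteratedFDeriv ℝ i β z‖ ≤ r0) →
      IsOpen U → sq r ⊆ U → IsBoxImm β U F →
      (∀ i ≤ 20, ∀ z ∈ sq r, ‖iteratedFDeriv ℝ i F z‖ ≤ M) →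
      η0 ≤ ‖dX (dX F) 0‖ →
      ∃ u b : ℝ × ℝ → ℝ, ContDiff ℝ ∞ u ∧ ContDiff ℝ ∞ b ∧ u 0 = 0 ∧ b 0 = 0 ∧
        ∀ z ∈ sq (κ * r),
          pt u z ∈ sq r ∧ 1 / K ≤ |dX u z| ∧
          (∀ i ≤ 16, ‖iteratedFDeriv ℝ i u z‖ ≤ K ∨ i = 0) ∧
          (∀ i ≤ 16, ‖iteratedFDeriv ℝ i b z‖ ≤ K) ∧
          dY b z = Afun z.1 (b z) * (kPrime z.1 (kbar β (pt u z)) * dX u z - dX β (pt u z)) ∧
          dX b z = -(Nfun z.1 (b z) (dY u z) (dX u z) (kbar β (pt u z))) /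
            Zfun z.1 (b z) (dY u z) (1 + β (pt u z))

/-! ### The tame composition lemma -/

/-- Pointwise bound for the derivatives of a composition: the top four derivatives of the
inner function appear linearly, with a coefficient built only from its first four derivatives. -/
def TameSpec : Prop :=
  ∀ i : ℕ, 9 ≤ i → ∃ C : ℝ, 0 ≤ C ∧
    ∀ (E : Type) [NormedAddCommGroup E] [NormedSpace ℝ E] (S : ℝ → E) (G : E → ℝ) (t0 Λ0 Λ : ℝ)
      (Γ : ℕ → ℝ),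
      1 ≤ Λ0 → Λ0 ≤ Λ → ContDiffAt ℝ ∞ S t0 → ContDiffAt ℝ ∞ G (S t0) →
      (∀ q ≤ i, ‖iteratedFDeriv ℝ q G (S t0)‖ ≤ Γ q) →
      (∀ l, 1 ≤ l → l ≤ 4 → ‖iteratedDeriv l S t0‖ ≤ Λ0) →
      (∀ l, 1 ≤ l → l + 5 ≤ i → ‖iteratedDeriv l S t0‖ ≤ Λ) →
      ‖iteratedDeriv i (G ∘ S) t0 - fderiv ℝ G (S t0) (iteratedDeriv i S t0)‖ ≤
        C * Λ ^ i * (∑ q ∈ Finset.range (i + 1), Γ q) +
          C * Λ0 ^ i * (∑ q ∈ Finset.range 7, Γ q) *
            (‖iteratedDeriv (i - 1) S t0‖ + ‖iteratedDeriv (i - 2) S t0‖ +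
              ‖iteratedDeriv (i - 3) S t0‖ + ‖iteratedDeriv (i - 4) S t0‖)

/-- The statement of the final theorem. -/
def NoLocalImmersion : Prop :=
  ∃ g : ℝ × ℝ → Matrix (Fin 2) (Fin 2) ℝ,
    (∀ i j, ContDiff ℝ ∞ fun z => g z i j) ∧ (∀ z i j, g z i j = g z j i) ∧
      (∀ z (v : Fin 2 → ℝ), v ≠ 0 → 0 < ∑ i, ∑ j, g z i j * v i * v j) ∧
      ∀ (U : Set (ℝ × ℝ)), IsOpen U → (0 : ℝ × ℝ) ∈ U → ¬ ∃ F : ℝ × ℝ → E3,
        ContDiffOn ℝ ∞ F U ∧ ∀ z ∈ U, ∀ i j,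
          ⟪![dX F z, dY F z] i, ![dX F z, dY F z] j⟫ = g z i j

end Vale.Agent.P229
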