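import Mathlib.Analysis.Calculus.ContDiff.Bounds
import Mathlib.Analysis.Calculus.FDeriv.Symmetric
import Mathlib.Analysis.Normed.Module.FiniteDimension
import Vale.Agent.P229.Defs

/-!
# P229, geometry: uniform bounds on finitely many derivatives
-/

open scoped ContDiff Topology
open Set Filter

namespace Vale.Agent.P229

variable {E F G H : Type*} [NormedAddCommGroup E] [NormedSpace ℝ E]
  [NormedAddCommGroup F] [NormedSpace ℝ F] [NormedAddCommGroup G] [NormedSpace ℝ G]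
  [NormedAddCommGroup H] [NormedSpace ℝ H]

/-- `f` is smooth at `x` with its first `n` derivatives bounded by `R` there. -/
def GeoBD (n : ℕ) (R : ℝ) (f : E → F) (x : E) : Prop :=
  ContDiffAt ℝ ∞ f x ∧ ∀ i ≤ n, ‖iteratedFDeriv ℝ i f x‖ ≤ R

theorem GeoBD.mono {n n' : ℕ} {R R' : ℝ} {f : E → F} {x : E} (h : GeoBD n R f x) (hn : n' ≤ n)
    (hR : R ≤ R') : GeoBD n' R' f x :=
  ⟨h.1, fun i hi => (h.2 i (hi.trans hn)).trans hR⟩

theorem GeoBD.norm_le {n : ℕ} {R : ℝ} {f : E → F} {x : E} (h : GeoBD n R f x) : ‖f x‖ ≤ R := by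
  simpa [norm_iteratedFDeriv_zero] using h.2 0 (Nat.zero_le n)

theorem GeoBD.nonneg {n : ℕ} {R : ℝ} {f : E → F} {x : E} (h : GeoBD n R f x) : 0 ≤ R :=
  (norm_nonneg _).trans h.norm_le

theorem GeoBD.congr {n : ℕ} {R : ℝ} {f g : E → F} {x : E} (h : GeoBD n R f x)
    (e : g =ᶠ[𝓝 x] f) : GeoBD n R g x :=
  ⟨h.1.congr_of_eventuallyEq e, fun i hi => by
    rw [(e.iteratedFDeriv ℝ i).eq_of_nhds]; exact h.2 i hi⟩

theorem GeoBD.norm_fderiv_le {n : ℕ} {R : ℝ} {f : E → F} {x : E} (h : GeoBD (n + 1) R f x) :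
    ‖fderiv ℝ f x‖ ≤ R := by
  simpa [norm_iteratedFDeriv_one] using h.2 1 (by omega)

theorem GeoBD.fderiv {n : ℕ} {R : ℝ} {f : E → F} {x : E} (h : GeoBD (n + 1) R f x) :
    GeoBD n R (fderiv ℝ f) x :=
  ⟨h.1.fderiv_right le_rfl, fun i hi => by
    rw [norm_iteratedFDeriv_fderiv]; exact h.2 (i + 1) (by omega)⟩

theorem GeoBD.fderiv_apply {n : ℕ} {R : ℝ} {f : E → F} {x : E} (h : GeoBD (n + 1) R f x)
    (v : E) (hv : ‖v‖ ≤ 1) : GeoBD n R (fun y => _root_.fderiv ℝ f y v) x := by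
  have h1 : ContDiffAt ℝ ∞ (_root_.fderiv ℝ f) x := h.1.fderiv_right le_rfl
  refine ⟨h1.clm_apply contDiffAt_const, fun i hi => ?_⟩
  refine (norm_iteratedFDeriv_clm_apply_const (n := i) h1 (mod_cast le_top)).trans ?_
  calc ‖v‖ * ‖iteratedFDeriv ℝ i (_root_.fderiv ℝ f) x‖
      ≤ 1 * ‖iteratedFDeriv ℝ i (_root_.fderiv ℝ f) x‖ :=
        mul_le_mul_of_nonneg_right hv (norm_nonneg _)
    _ ≤ R := by rw [one_mul]; exact h.fderiv.2 i hi

theorem GeoBD.of_fderiv {n : ℕ} {R : ℝ} {f : E → F} {x : E} (hf : ContDiffAt ℝ ∞ f x)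
    (h0 : ‖f x‖ ≤ R) (h : GeoBD n R (_root_.fderiv ℝ f) x) : GeoBD (n + 1) R f x := by
  refine ⟨hf, fun i hi => ?_⟩
  rcases i with _ | i
  · simpa [norm_iteratedFDeriv_zero] using h0
  · rw [← norm_iteratedFDeriv_fderiv]; exact h.2 i (by omega)

theorem GeoBD.prodMk {n : ℕ} {R : ℝ} {f : E → F} {g : E → G} {x : E} (hf : GeoBD n R f x)
    (hg : GeoBD n R g x) : GeoBD n R (fun y => (f y, g y)) x := by
  refine ⟨hf.1.prodMk hg.1, fun i hi => ?_⟩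
  rw [iteratedFDeriv_prodMk hf.1 hg.1 (mod_cast le_top), ContinuousMultilinearMap.opNorm_prod]
  exact max_le (hf.2 i hi) (hg.2 i hi)

theorem geoBD_const {n : ℕ} {R : ℝ} (c : F) (x : E) (hc : ‖c‖ ≤ R) :
    GeoBD n R (fun _ => c) x := by
  refine ⟨contDiffAt_const, fun i hi => ?_⟩
  rcases i with _ | i
  · simpa [norm_iteratedFDeriv_zero] using hc
  · simp [iteratedFDeriv_succ_const, (norm_nonneg c).trans hc]

/-- A bound for the derivatives of a composition. -/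
def geoBDComp (n : ℕ) (R : ℝ) : ℝ := (n.factorial : ℝ) * R * max R 1 ^ n

theorem GeoBD.comp {n : ℕ} {R : ℝ} {f : E → F} {g : F → G} {x : E} (hg : GeoBD n R g (f x))
    (hf : GeoBD n R f x) : GeoBD n (geoBDComp n R) (g ∘ f) x := by
  refine ⟨hg.1.comp x hf.1, fun i hi => ?_⟩
  obtain ⟨t, ht, hxt, htg⟩ :=
    hg.1.contDiffWithinAt.contDiffOn' (m := (n : ℕ∞ω)) (mod_cast le_top) (by simp)
  obtain ⟨s, hs, hxs, hsf⟩ :=
    hf.1.contDiffWithinAt.contDiffOn' (m := (n : ℕ∞ω)) (mod_cast le_top) (by simp)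
  rw [insert_eq_of_mem (mem_univ _), univ_inter] at htg hsf
  obtain ⟨s', hs'sub, hs', hxs'⟩ : ∃ s' ⊆ s ∩ f ⁻¹' t, IsOpen s' ∧ x ∈ s' :=
    mem_nhds_iff.1 (Filter.inter_mem (hs.mem_nhds hxs)
      (hf.1.continuousAt.preimage_mem_nhds (ht.mem_nhds hxt)))
  have key := norm_iteratedFDerivWithin_comp_le (n := i) (x := x) (C := R) (D := max R 1) htg
    (hsf.mono fun y hy => (hs'sub hy).1) (mod_cast hi) ht.uniqueDiffOn hs'.uniqueDiffOn
    (fun y hy => (hs'sub hy).2) hxs'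
    (fun j hj => by
      rw [iteratedFDerivWithin_of_isOpen j ht hxt]; exact hg.2 j (hj.trans hi))
    (fun j hj1 hj => by
      rw [iteratedFDerivWithin_of_isOpen j hs' hxs']
      exact ((hf.2 j (hj.trans hi)).trans (le_max_left _ _)).trans
        (le_self_pow₀ (le_max_right _ _) (by omega)))
  rw [iteratedFDerivWithin_of_isOpen i hs' hxs'] at key
  refine key.trans ?_
  have := hg.nonneg
  unfold geoBDComp
  gcongr
  exact le_max_right _ _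

theorem geoBD_fixed {g : F → G} {W K : Set F} (hW : IsOpen W) (hg : ContDiffOn ℝ ∞ g W)
    (hK : IsCompact K) (hKW : K ⊆ W) (n : ℕ) :
    ∃ C : ℝ, ∀ y ∈ K, GeoBD n C g y := by
  have : ∀ i : ℕ, ∃ C : ℝ, 0 ≤ C ∧ ∀ y ∈ K, ‖iteratedFDeriv ℝ i g y‖ ≤ C := by
    intro i
    have hc : ContinuousOn (iteratedFDeriv ℝ i g) W :=
      (hg.continuousOn_iteratedFDerivWithin (mod_cast le_top) hW.uniqueDiffOn).congr
        fun y hy => (iteratedFDerivWithin_of_isOpen i hW hy).symm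
    obtain ⟨C, hC⟩ := hK.exists_bound_of_continuousOn (hc.mono hKW)
    exact ⟨max C 0, le_max_right _ _, fun y hy => (hC y hy).trans (le_max_left _ _)⟩
  choose C hC0 hC using this
  refine ⟨∑ i ∈ Finset.range (n + 1), C i, fun y hy => ⟨hg.contDiffAt (hW.mem_nhds (hKW hy)),
    fun i hi => (hC i y hy).trans ?_⟩⟩
  exact Finset.single_le_sum (fun j _ => hC0 j) (Finset.mem_range.2 (by omega))

theorem geoBD_comp_fixed {g : F → G} {W K : Set F} (hW : IsOpen W) (hg : ContDiffOn ℝ ∞ g W)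
    (hK : IsCompact K) (hKW : K ⊆ W) (n : ℕ) (R : ℝ) :
    ∃ R' : ℝ, ∀ (f : E → F) (x : E), f x ∈ K → GeoBD n R f x → GeoBD n R' (g ∘ f) x := by
  obtain ⟨C, hC⟩ := geoBD_fixed hW hg hK hKW n
  exact ⟨geoBDComp n (max C R), fun f x hx hf =>
    ((hC _ hx).mono le_rfl (le_max_left _ _)).comp (hf.mono le_rfl (le_max_right _ _))⟩

theorem norm_geo_unit_fst : ‖((1 : ℝ), (0 : ℝ))‖ ≤ 1 := by simp [Prod.norm_def]

theorem norm_geo_unit_snd : ‖((0 : ℝ), (1 : ℝ))‖ ≤ 1 := by simp [Prod.norm_def]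

theorem GeoBD.dX {n : ℕ} {R : ℝ} {f : ℝ × ℝ → F} {x : ℝ × ℝ} (h : GeoBD (n + 1) R f x) :
    GeoBD n R (dX f) x :=
  h.fderiv_apply (1, 0) norm_geo_unit_fst

theorem GeoBD.dY {n : ℕ} {R : ℝ} {f : ℝ × ℝ → F} {x : ℝ × ℝ} (h : GeoBD (n + 1) R f x) :
    GeoBD n R (dY f) x :=
  h.fderiv_apply (0, 1) norm_geo_unit_snd

theorem abs_dX_le_norm_fderiv (f : ℝ × ℝ → ℝ) (z : ℝ × ℝ) : |dX f z| ≤ ‖fderiv ℝ f z‖ := by
  rw [← Real.norm_eq_abs]
  exact ((fderiv ℝ f z).le_opNorm _).trans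
    (mul_le_of_le_one_right (norm_nonneg _) norm_geo_unit_fst)

theorem abs_dY_le_norm_fderiv (f : ℝ × ℝ → ℝ) (z : ℝ × ℝ) : |dY f z| ≤ ‖fderiv ℝ f z‖ := by
  rw [← Real.norm_eq_abs]
  exact ((fderiv ℝ f z).le_opNorm _).trans
    (mul_le_of_le_one_right (norm_nonneg _) norm_geo_unit_snd)

theorem fderiv_prod_apply (f : ℝ × ℝ → F) (z v : ℝ × ℝ) :
    fderiv ℝ f z v = v.1 • dX f z + v.2 • dY f z := by
  conv_lhs => rw [show v = v.1 • ((1 : ℝ), (0 : ℝ)) + v.2 • ((0 : ℝ), (1 : ℝ)) by ext <;> simp]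
  rw [map_add, map_smul, map_smul]
  rfl

theorem dY_dX_eq_dX_dY {f : ℝ × ℝ → F} {z : ℝ × ℝ} (hf : ContDiffAt ℝ ∞ f z) :
    dY (dX f) z = dX (dY f) z := by
  have hd : DifferentiableAt ℝ (fderiv ℝ f) z :=
    (hf.fderiv_right (m := ∞) le_rfl).differentiableAt (by simp)
  have hx : dY (dX f) z = fderiv ℝ (fderiv ℝ f) z (0, 1) (1, 0) := by
    show fderiv ℝ (fun y => fderiv ℝ f y (1, 0)) z (0, 1) = _
    rw [fderiv_clm_apply hd (differentiableAt_const _)]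
    simp
  have hy : dX (dY f) z = fderiv ℝ (fderiv ℝ f) z (1, 0) (0, 1) := by
    show fderiv ℝ (fun y => fderiv ℝ f y (0, 1)) z (1, 0) = _
    rw [fderiv_clm_apply hd (differentiableAt_const _)]
    simp
  rw [hx, hy]
  exact (hf.isSymmSndFDerivAt (by simp; exact WithTop.coe_le_coe.2 le_top)).eq _ _

end Vale.Agent.P229
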