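import Mathlib.Analysis.Calculus.IteratedDeriv.Lemmas
import Vale.Agent.P229.BoxParams
import Vale.Agent.P229.GeoBD

/-!
# P229: properties of the perturbation of the box
-/

open scoped ContDiff Topology
open Set Filter

namespace Vale.Agent.P229

/-- Sums of a separated term and a scaled profile. -/
noncomputable def bxSep (A P G : ℝ → ℝ) (B L : ℝ) (z : ℝ × ℝ) : ℝ :=
  A z.2 * P z.1 + B * G (z.1 / L)

theorem bxSep_smooth {A P G : ℝ → ℝ} (hA : ContDiff ℝ ∞ A) (hP : ContDiff ℝ ∞ P)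
    (hG : ContDiff ℝ ∞ G) (B L : ℝ) : ContDiff ℝ ∞ (bxSep A P G B L) :=
  ((hA.comp contDiff_snd).mul (hP.comp contDiff_fst)).add
    (contDiff_const.mul (hG.comp (contDiff_fst.div_const L)))

theorem bxSep_dX {A P G : ℝ → ℝ} (hA : ContDiff ℝ ∞ A) (hP : ContDiff ℝ ∞ P)
    (hG : ContDiff ℝ ∞ G) (B L : ℝ) :
    dX (bxSep A P G B L) = bxSep A (deriv P) (deriv G) (B / L) L := by
  funext z
  have h1 : HasDerivAt (fun s => G (s / L)) (deriv G (z.1 / L) * (1 / L)) z.1 :=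
    HasDerivAt.comp (h := fun s : ℝ => s / L) z.1 ((hG.differentiable (by simp)) _).hasDerivAt
      ((hasDerivAt_id z.1).div_const L)
  have h : HasDerivAt (fun s => A z.2 * P s + B * G (s / L))
      (A z.2 * deriv P z.1 + B * (deriv G (z.1 / L) * (1 / L))) z.1 :=
    (((hP.differentiable (by simp)) _).hasDerivAt.const_mul _).add (h1.const_mul B)
  rw [(bxHasDerivAt_X (bxSep_smooth hA hP hG B L) z).unique h]
  unfold bxSep
  ring

theorem bxSep_dY {A P G : ℝ → ℝ} (hA : ContDiff ℝ ∞ A) (hP : ContDiff ℝ ∞ P)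
    (hG : ContDiff ℝ ∞ G) (B L : ℝ) :
    dY (bxSep A P G B L) = bxSep (deriv A) P G 0 L := by
  funext z
  have h : HasDerivAt (fun s => A s * P z.1 + B * G (z.1 / L)) (deriv A z.2 * P z.1) z.2 :=
    (((hA.differentiable (by simp)) _).hasDerivAt.mul_const _).add_const _
  rw [(bxHasDerivAt_Y (bxSep_smooth hA hP hG B L) z).unique h]
  unfold bxSep
  ring

theorem bxSmooth_deriv {f : ℝ → ℝ} (hf : ContDiff ℝ ∞ f) : ContDiff ℝ ∞ (deriv f) :=
  (contDiff_infty_iff_deriv.1 hf).2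

theorem bxSep_dX_iterate {A : ℝ → ℝ} (hA : ContDiff ℝ ∞ A) :
    ∀ (q : ℕ) {P G : ℝ → ℝ}, ContDiff ℝ ∞ P → ContDiff ℝ ∞ G → ∀ B L : ℝ,
      dX^[q] (bxSep A P G B L) = bxSep A (deriv^[q] P) (deriv^[q] G) (B / L ^ q) L := by
  intro q
  induction q with
  | zero => intro P G _ _ B L; simp
  | succ q ih =>
    intro P G hP hG B L
    rw [Function.iterate_succ_apply, bxSep_dX hA hP hG,
      ih (bxSmooth_deriv hP) (bxSmooth_deriv hG), ← Function.iterate_succ_apply,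
      ← Function.iterate_succ_apply, pow_succ']
    simp only [div_div]

theorem bxDX_congr {f g : ℝ × ℝ → ℝ} {O : Set (ℝ × ℝ)} (hO : IsOpen O) (h : EqOn f g O) :
    EqOn (dX f) (dX g) O := fun z hz => by
  unfold dX
  rw [(Filter.eventuallyEq_of_mem (hO.mem_nhds hz) h).fderiv_eq]

theorem bxDY_congr {f g : ℝ × ℝ → ℝ} {O : Set (ℝ × ℝ)} (hO : IsOpen O) (h : EqOn f g O) :
    EqOn (dY f) (dY g) O := fun z hz => by
  unfold dY
  rw [(Filter.eventuallyEq_of_mem (hO.mem_nhds hz) h).fderiv_eq]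

theorem bxDX_iterate_congr {f g : ℝ × ℝ → ℝ} {O : Set (ℝ × ℝ)} (hO : IsOpen O) :
    ∀ q : ℕ, EqOn f g O → EqOn (dX^[q] f) (dX^[q] g) O := by
  intro q
  induction q with
  | zero => exact fun h => h
  | succ q ih =>
    intro h
    rw [Function.iterate_succ_apply', Function.iterate_succ_apply']
    exact bxDX_congr hO (ih h)

theorem bxDY_iterate_congr {f g : ℝ × ℝ → ℝ} {O : Set (ℝ × ℝ)} (hO : IsOpen O) :
    ∀ q : ℕ, EqOn f g O → EqOn (dY^[q] f) (dY^[q] g) O := by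
  intro q
  induction q with
  | zero => exact fun h => h
  | succ q ih =>
    intro h
    rw [Function.iterate_succ_apply', Function.iterate_succ_apply']
    exact bxDY_congr hO (ih h)

theorem bxIterate_zero (q k : ℕ) : dX^[q] (dY^[k] (fun _ : ℝ × ℝ => (0 : ℝ))) = fun _ => 0 := by
  have hx : dX (fun _ : ℝ × ℝ => (0 : ℝ)) = fun _ => 0 := funext fun z => by simp [dX]
  have hy : dY (fun _ : ℝ × ℝ => (0 : ℝ)) = fun _ => 0 := funext fun z => by simp [dY]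
  rw [Function.iterate_fixed hy, Function.iterate_fixed hx]

theorem bxGeoBD_dY_iterate {R : ℝ} {z : ℝ × ℝ} :
    ∀ (k : ℕ) {n : ℕ} {f : ℝ × ℝ → ℝ}, GeoBD (n + k) R f z → GeoBD n R (dY^[k] f) z := by
  intro k
  induction k with
  | zero => intro n f h; exact h
  | succ k ih =>
    intro n f h
    rw [Function.iterate_succ_apply]
    exact ih h.dY

theorem bxGeoBD_dX_iterate {R : ℝ} {z : ℝ × ℝ} :
    ∀ (k : ℕ) {n : ℕ} {f : ℝ × ℝ → ℝ}, GeoBD (n + k) R f z → GeoBD n R (dX^[k] f) z := by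
  intro k
  induction k with
  | zero => intro n f h; exact h
  | succ k ih =>
    intro n f h
    rw [Function.iterate_succ_apply]
    exact ih h.dX

/-- Derivatives of a scaled profile. -/
theorem bxScaled_bound {Φ : ℝ × ℝ → ℝ} (hΦ : ContDiff ℝ ∞ Φ) (hs : HasCompactSupport Φ) (N : ℕ) :
    ∃ C : ℝ, 0 ≤ C ∧ ∀ r : ℝ, 0 < r → ∀ i ≤ N, ∀ z : ℝ × ℝ,
      ‖iteratedFDeriv ℝ i (fun w => Φ (r⁻¹ • w)) z‖ ≤ C * r⁻¹ ^ i := by
  have : ∀ i : ℕ, ∃ C, ∀ w, ‖iteratedFDeriv ℝ i Φ w‖ ≤ C := fun i =>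
    (hs.iteratedFDeriv i).exists_bound_of_continuous (hΦ.continuous_iteratedFDeriv (mod_cast le_top))
  choose C hC using this
  have hC0 : ∀ i, 0 ≤ C i := fun i => (norm_nonneg _).trans (hC i 0)
  refine ⟨∑ i ∈ Finset.range (N + 1), C i, Finset.sum_nonneg fun i _ => hC0 i,
    fun r hr i hi z => ?_⟩
  set g : (ℝ × ℝ) →L[ℝ] (ℝ × ℝ) := r⁻¹ • ContinuousLinearMap.id ℝ (ℝ × ℝ) with hg
  have e : (fun w => Φ (r⁻¹ • w)) = Φ ∘ g := by ext w; simp [hg]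
  rw [e, g.iteratedFDeriv_comp_right hΦ z (mod_cast le_top)]
  refine (ContinuousMultilinearMap.norm_compContinuousLinearMap_le _ _).trans ?_
  refine mul_le_mul ((hC i _).trans
    (Finset.single_le_sum (fun j _ => hC0 j) (Finset.mem_range.2 (by omega)))) ?_ (by positivity)
    (Finset.sum_nonneg fun i _ => hC0 i)
  have hgn : ‖g‖ ≤ r⁻¹ := by
    rw [hg, norm_smul, Real.norm_eq_abs, abs_of_pos (inv_pos.2 hr)]
    exact mul_le_of_le_one_right (inv_pos.2 hr).le ContinuousLinearMap.norm_id_le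
  calc ∏ _j : Fin i, ‖g‖ ≤ ∏ _j : Fin i, r⁻¹ :=
        Finset.prod_le_prod (fun _ _ => norm_nonneg _) fun _ _ => hgn
    _ = r⁻¹ ^ i := by simp

theorem bxPhiB_zero {s : ℝ} (h : 2 ≤ |s|) : phiB s = 0 :=
  phiB.zero_of_le_dist (by simpa [phiB, Real.dist_eq] using h)

theorem bxPhiB_one {s : ℝ} (h : |s| ≤ 1) : phiB s = 1 :=
  phiB.one_of_mem_closedBall (by simpa [phiB, Real.dist_eq] using h)

theorem bxChiCut_smooth : ContDiff ℝ ∞ chiCut :=
  (phiB.contDiff.comp (contDiff_fst.div_const 2)).mul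
    (phiB.contDiff.comp (contDiff_snd.div_const 2))

theorem bxChiCut_zero {w : ℝ × ℝ} (h : w ∉ sq 4) : chiCut w = 0 := by
  have h' : 4 < |w.1| ∨ 4 < |w.2| := by
    by_contra hh
    simp only [not_or, not_lt] at hh
    exact h ⟨abs_le.1 hh.1, abs_le.1 hh.2⟩
  rcases h' with h' | h'
  · simp [chiCut, bxPhiB_zero (s := w.1 / 2) (by rw [abs_div, abs_two]; linarith)]
  · simp [chiCut, bxPhiB_zero (s := w.2 / 2) (by rw [abs_div, abs_two]; linarith)]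

theorem bxChiCut_one {w : ℝ × ℝ} (h1 : |w.1| ≤ 2) (h2 : |w.2| ≤ 2) : chiCut w = 1 := by
  simp [chiCut, bxPhiB_one (s := w.1 / 2) (by rw [abs_div, abs_two]; linarith),
    bxPhiB_one (s := w.2 / 2) (by rw [abs_div, abs_two]; linarith)]

/-- Wall profile. -/
noncomputable def bxWall (w : ℝ × ℝ) : ℝ := chiCut w * (w.1 ^ 2 * w.2 ^ 2 / 2)

/-- Lens profile. -/
noncomputable def bxLens (k : ℝ) (w : ℝ × ℝ) : ℝ := chiCut w * zeta2 (k * w.1)

/-- Bump profile. -/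
noncomputable def bxBump (w : ℝ × ℝ) : ℝ := phiB w.1 * phiB w.2

theorem bxWall_smooth : ContDiff ℝ ∞ bxWall :=
  bxChiCut_smooth.mul (((contDiff_fst.pow 2).mul (contDiff_snd.pow 2)).div_const 2)

theorem bxLens_smooth (k : ℝ) : ContDiff ℝ ∞ (bxLens k) :=
  bxChiCut_smooth.mul (bxZeta2_smooth.comp (contDiff_const.mul contDiff_fst))

theorem bxBump_smooth : ContDiff ℝ ∞ bxBump :=
  (phiB.contDiff.comp contDiff_fst).mul (phiB.contDiff.comp contDiff_snd)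

theorem bxBump_zero {w : ℝ × ℝ} (h : 2 < |w.1| ∨ 2 < |w.2|) : bxBump w = 0 := by
  rcases h with h | h <;> simp [bxBump, bxPhiB_zero h.le]

theorem bxIsCompact_sq (r : ℝ) : IsCompact (sq r) := isCompact_Icc.prod isCompact_Icc

theorem bxWall_support : HasCompactSupport bxWall :=
  HasCompactSupport.intro (bxIsCompact_sq 4) fun w hw => by simp [bxWall, bxChiCut_zero hw]

theorem bxLens_support (k : ℝ) : HasCompactSupport (bxLens k) :=
  HasCompactSupport.intro (bxIsCompact_sq 4) fun w hw => by simp [bxLens, bxChiCut_zero hw]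

theorem bxBump_support : HasCompactSupport bxBump :=
  HasCompactSupport.intro (bxIsCompact_sq 2) fun w hw => by
    refine bxBump_zero ?_
    by_contra hh
    simp only [not_or, not_lt] at hh
    exact hw ⟨abs_le.1 hh.1, abs_le.1 hh.2⟩

namespace Par

variable (c : Par)

theorem bxΓ1_pos : 0 < c.Γ1 := by
  have := c.one_le_K
  unfold Γ1; linarith

theorem bxpOut_pos : 0 < c.pOut := by
  have := c.one_le_K
  have := c.bxΓ1_pos
  unfold pOut; positivity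

theorem bxcr_pos : 0 < c.cr := by
  have := c.bxpOut_pos
  have := c.bxΓ1_pos
  have := c.κ_pos
  unfold cr; positivity

theorem bxc1_pos : 0 < c.c1 := by
  have := c.one_le_K
  unfold c1; positivity

theorem bxc1_le : c.c1 ≤ 1 := by
  have := c.one_le_K
  unfold c1
  rw [div_le_one (by positivity)]
  nlinarith

theorem bxδ_pos {t : ℝ} (ht : 0 < t) : 0 < c.δ t := mul_pos c.bxc1_pos (pow_pos ht _)

theorem bxδ_le {t : ℝ} (ht : 0 < t) (ht1 : t ≤ 1) : c.δ t ≤ t := by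
  have h : t ^ (2 * c.Qe - c.Pe) ≤ t := by
    simpa using pow_le_pow_of_le_one ht.le ht1 (show 1 ≤ 2 * c.Qe - c.Pe by have := c.Pe_le; omega)
  calc c.δ t ≤ 1 * t := mul_le_mul c.bxc1_le h (pow_pos ht _).le zero_le_one
    _ = t := one_mul t

theorem bxbetaBg_eq {t : ℝ} (ht : 0 < t) : c.betaBg t = fun z =>
    -(c.sA t ^ 2 * c.r t ^ 4) * bxWall ((c.r t)⁻¹ • z) +
      c.sa t ^ 2 * c.L t ^ 2 * bxLens (c.cr / c.Γ1) ((c.r t)⁻¹ • z) := by
  funext z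
  have h1 := c.bxcr_pos.ne'
  have h2 := c.bxΓ1_pos.ne'
  have e : c.cr / c.Γ1 * ((c.r t)⁻¹ * z.1) = z.1 / c.L t := by
    unfold r L; field_simp
  have hr : c.r t ≠ 0 := (mul_pos c.bxcr_pos ht).ne'
  simp only [betaBg, lensP, bxWall, bxLens, Prod.smul_fst, Prod.smul_snd, smul_eq_mul, e]
  field_simp

theorem bxbetaF_eq (t : ℝ) : c.betaF t = fun z =>
    c.ε t * c.δ t ^ 2 * bxBump ((c.δ t)⁻¹ • z) := by
  funext z
  simp [betaF, bxBump, div_eq_inv_mul]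

theorem contDiff_betaBg (t : ℝ) : ContDiff ℝ ∞ (c.betaBg t) := by
  unfold betaBg lensP
  exact (bxChiCut_smooth.comp (contDiff_id.const_smul (c.r t)⁻¹)).mul
    ((((contDiff_const.mul (contDiff_fst.pow 2)).mul (contDiff_snd.pow 2)).div_const 2).neg.add
      (contDiff_const.mul (bxZeta2_smooth.comp (contDiff_fst.div_const _))))

theorem contDiff_betaF (t : ℝ) : ContDiff ℝ ∞ (c.betaF t) := by
  unfold betaF
  exact contDiff_const.mul ((phiB.contDiff.comp (contDiff_fst.div_const _)).mul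
    (phiB.contDiff.comp (contDiff_snd.div_const _)))

theorem contDiff_beta (t : ℝ) : ContDiff ℝ ∞ (c.beta t) :=
  (c.contDiff_betaBg t).add (c.contDiff_betaF t)

theorem bxbetaBg_support {t : ℝ} (ht : 0 < t) {z : ℝ × ℝ} (hz : z ∉ sq (4 * c.r t)) :
    c.betaBg t z = 0 := by
  have hr : 0 < c.r t := mul_pos c.bxcr_pos ht
  have : (c.r t)⁻¹ • z ∉ sq 4 := by
    rintro ⟨h1, h2⟩
    simp only [Prod.smul_fst, Prod.smul_snd, smul_eq_mul, mem_Icc, inv_mul_le_iff₀ hr,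
      le_inv_mul_iff₀ hr] at h1 h2
    exact hz ⟨⟨by linarith [h1.1], by linarith [h1.2]⟩, by linarith [h2.1], by linarith [h2.2]⟩
  simp [betaBg, bxChiCut_zero this]

theorem bxbetaF_support {t : ℝ} (ht : 0 < t) {z : ℝ × ℝ}
    (hz : 2 * c.δ t < |z.1| ∨ 2 * c.δ t < |z.2|) : c.betaF t z = 0 := by
  have hd := c.bxδ_pos ht
  rw [bxbetaF_eq]
  simp only
  rw [bxBump_zero, mul_zero]
  simp only [Prod.smul_fst, Prod.smul_snd, smul_eq_mul, abs_mul, abs_inv, abs_of_pos hd,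
    lt_inv_mul_iff₀ hd]
  rcases hz with h | h
  · left; linarith
  · right; linarith

theorem beta_eventually_small {m : ℕ} (hm : m ≤ c.Pe) (hj : m ≤ c.j) {σ : ℝ} (hσ : 0 < σ) :
    ∃ t0 : ℝ, 0 < t0 ∧ ∀ t : ℝ, 0 < t → t ≤ t0 →
      8 * c.r t ≤ σ ∧ (∀ z, z ∉ sq σ → c.beta t z = 0) ∧ (∀ z, |c.beta t z| ≤ 1 / 2) ∧
      ∀ i ≤ m, ∀ z, ‖iteratedFDeriv ℝ i (c.beta t) z‖ ≤ σ := by
  obtain ⟨CW, hCW0, hCW⟩ := bxScaled_bound bxWall_smooth bxWall_support m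
  obtain ⟨CL, hCL0, hCL⟩ :=
    bxScaled_bound (bxLens_smooth (c.cr / c.Γ1)) (bxLens_support _) m
  obtain ⟨CF, hCF0, hCF⟩ := bxScaled_bound bxBump_smooth bxBump_support m
  have hcr := c.bxcr_pos
  have hΓ := c.bxΓ1_pos
  set S := ∑ i ∈ Finset.range (m + 1),
    ((CW * c.cr ^ 4 + CL * c.Γ1 ^ 2) * c.cr⁻¹ ^ i + CF) + 1 with hS
  have hS1 : 1 ≤ S := le_add_of_nonneg_left (Finset.sum_nonneg fun i _ => by positivity)
  set σ' := min σ (1 / 2) with hσ'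
  refine ⟨min 1 (min (σ / (8 * c.cr + 2)) (σ' / S)), by positivity, fun t ht htt => ?_⟩
  simp only [le_min_iff] at htt
  obtain ⟨ht1, ht2, ht3⟩ := htt
  rw [le_div_iff₀ (by positivity)] at ht2 ht3
  have hδ := c.bxδ_pos ht
  have hδt := c.bxδ_le ht ht1
  have hr : 0 < c.r t := mul_pos hcr ht
  have hrσ : 8 * c.r t ≤ σ := by unfold r; nlinarith
  have key : ∀ i ≤ m, ∀ z, ‖iteratedFDeriv ℝ i (c.beta t) z‖ ≤ σ' := by
    intro i hi z
    have cs : ∀ {Φ : ℝ × ℝ → ℝ}, ContDiff ℝ ∞ Φ → ∀ a : ℝ,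
        ContDiff ℝ (i : ℕ) (fun w => Φ (a • w)) := fun hΦ a =>
      (hΦ.comp (contDiff_id.const_smul a)).of_le (mod_cast le_top)
    have hw := cs bxWall_smooth (c.r t)⁻¹
    have hl := cs (bxLens_smooth (c.cr / c.Γ1)) (c.r t)⁻¹
    have hb := cs bxBump_smooth (c.δ t)⁻¹
    have e : c.beta t = (-(c.sA t ^ 2 * c.r t ^ 4)) • (fun w => bxWall ((c.r t)⁻¹ • w)) +
        (c.sa t ^ 2 * c.L t ^ 2) • (fun w => bxLens (c.cr / c.Γ1) ((c.r t)⁻¹ • w)) +
        (c.ε t * c.δ t ^ 2) • (fun w => bxBump ((c.δ t)⁻¹ • w)) := by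
      funext w
      simp only [beta, c.bxbetaBg_eq ht, c.bxbetaF_eq t, Pi.add_apply, Pi.smul_apply, smul_eq_mul]
    have hw' : ContDiff ℝ (i : ℕ) ((-(c.sA t ^ 2 * c.r t ^ 4)) •
        fun w => bxWall ((c.r t)⁻¹ • w)) := hw.const_smul (-(c.sA t ^ 2 * c.r t ^ 4))
    have hl' : ContDiff ℝ (i : ℕ) ((c.sa t ^ 2 * c.L t ^ 2) •
        fun w => bxLens (c.cr / c.Γ1) ((c.r t)⁻¹ • w)) := hl.const_smul (c.sa t ^ 2 * c.L t ^ 2)
    have hb' : ContDiff ℝ (i : ℕ) ((c.ε t * c.δ t ^ 2) •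
        fun w => bxBump ((c.δ t)⁻¹ • w)) := hb.const_smul (c.ε t * c.δ t ^ 2)
    have hwl : ContDiff ℝ (i : ℕ) ((-(c.sA t ^ 2 * c.r t ^ 4)) •
        (fun w => bxWall ((c.r t)⁻¹ • w)) + (c.sa t ^ 2 * c.L t ^ 2) •
        fun w => bxLens (c.cr / c.Γ1) ((c.r t)⁻¹ • w)) := hw'.add hl'
    rw [e, iteratedFDeriv_add_apply hwl.contDiffAt hb'.contDiffAt,
      iteratedFDeriv_add_apply hw'.contDiffAt hl'.contDiffAt,
      iteratedFDeriv_const_smul_apply hw.contDiffAt, iteratedFDeriv_const_smul_apply hl.contDiffAt,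
      iteratedFDeriv_const_smul_apply hb.contDiffAt]
    refine norm_add₃_le.trans ?_
    rw [norm_smul, norm_smul, norm_smul, Real.norm_eq_abs, Real.norm_eq_abs, Real.norm_eq_abs,
      abs_neg, abs_of_nonneg (by positivity : 0 ≤ c.sA t ^ 2 * c.r t ^ 4),
      abs_of_nonneg (by positivity : 0 ≤ c.sa t ^ 2 * c.L t ^ 2),
      abs_of_nonneg (by unfold ε; positivity : 0 ≤ c.ε t * c.δ t ^ 2)]
    have b1 := mul_le_mul_of_nonneg_left (hCW _ hr i hi z)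
      (by positivity : 0 ≤ c.sA t ^ 2 * c.r t ^ 4)
    have b2 := mul_le_mul_of_nonneg_left (hCL _ hr i hi z)
      (by positivity : 0 ≤ c.sa t ^ 2 * c.L t ^ 2)
    have b3 := mul_le_mul_of_nonneg_left (hCF _ hδ i hi z)
      (by unfold ε; positivity : 0 ≤ c.ε t * c.δ t ^ 2)
    have hPe := c.Pe_le
    have p1 : c.sA t ^ 2 * c.r t ^ 4 * (CW * (c.r t)⁻¹ ^ i) ≤
        CW * c.cr ^ 4 * c.cr⁻¹ ^ i * t := by
      have : c.sA t ^ 2 * c.r t ^ 4 * (CW * (c.r t)⁻¹ ^ i) =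
          CW * c.cr ^ 4 * c.cr⁻¹ ^ i * t ^ (2 * c.Pe + 4 - i) := by
        rw [pow_sub₀ t ht.ne' (by omega)]
        unfold sA r
        rw [mul_inv, mul_pow c.cr⁻¹, inv_pow t]
        ring
      rw [this]
      gcongr
      simpa using pow_le_pow_of_le_one ht.le ht1 (show 1 ≤ 2 * c.Pe + 4 - i by omega)
    have p2 : c.sa t ^ 2 * c.L t ^ 2 * (CL * (c.r t)⁻¹ ^ i) ≤
        CL * c.Γ1 ^ 2 * c.cr⁻¹ ^ i * t := by
      have : c.sa t ^ 2 * c.L t ^ 2 * (CL * (c.r t)⁻¹ ^ i) =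
          CL * c.Γ1 ^ 2 * c.cr⁻¹ ^ i * t ^ (2 * c.Qe + 2 - i) := by
        rw [pow_sub₀ t ht.ne' (by omega)]
        unfold sa L r
        rw [mul_inv, mul_pow c.cr⁻¹, inv_pow t]
        ring
      rw [this]
      gcongr
      simpa using pow_le_pow_of_le_one ht.le ht1 (show 1 ≤ 2 * c.Qe + 2 - i by omega)
    have p3 : c.ε t * c.δ t ^ 2 * (CF * (c.δ t)⁻¹ ^ i) ≤ CF * t := by
      have : c.ε t * c.δ t ^ 2 * (CF * (c.δ t)⁻¹ ^ i) = CF * c.δ t ^ (c.j + 3 - i) := by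
        rw [pow_sub₀ _ hδ.ne' (by omega)]
        unfold ε
        rw [inv_pow]
        ring
      rw [this]
      gcongr
      refine le_trans ?_ hδt
      simpa using pow_le_pow_of_le_one hδ.le (hδt.trans ht1) (show 1 ≤ c.j + 3 - i by omega)
    have hsum : (CW * c.cr ^ 4 + CL * c.Γ1 ^ 2) * c.cr⁻¹ ^ i + CF ≤ S := by
      have := Finset.single_le_sum (s := Finset.range (m + 1))
        (f := fun i => (CW * c.cr ^ 4 + CL * c.Γ1 ^ 2) * c.cr⁻¹ ^ i + CF)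
        (fun j _ => by positivity) (Finset.mem_range.2 (by omega : i < m + 1))
      linarith
    have := mul_le_mul_of_nonneg_right hsum ht.le
    linarith
  refine ⟨hrσ, fun z hz => ?_, fun z => ?_, fun i hi z => (key i hi z).trans (min_le_left _ _)⟩
  · have h1 : z ∉ sq (4 * c.r t) := fun h => hz
      ⟨⟨by linarith [h.1.1], by linarith [h.1.2]⟩, by linarith [h.2.1], by linarith [h.2.2]⟩
    have h2 : 2 * c.δ t < |z.1| ∨ 2 * c.δ t < |z.2| := by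
      by_contra hh
      simp only [not_or, not_lt] at hh
      have hd2 : 2 * c.δ t ≤ σ := by nlinarith
      exact hz ⟨abs_le.1 (hh.1.trans hd2), abs_le.1 (hh.2.trans hd2)⟩
    simp [beta, c.bxbetaBg_support ht h1, c.bxbetaF_support ht h2]
  · have := key 0 (Nat.zero_le _) z
    rw [norm_iteratedFDeriv_zero, Real.norm_eq_abs] at this
    exact this.trans (min_le_right _ _)

/-- The region where the cut-off is `1`. -/
def bxCore (t : ℝ) : Set (ℝ × ℝ) := Metric.ball 0 (2 * c.r t)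

theorem bxsq_core {t : ℝ} (ht : 0 < t) : sq (c.r t) ⊆ c.bxCore t := fun z hz => by
  have hr : 0 < c.r t := mul_pos c.bxcr_pos ht
  rw [bxCore, Metric.mem_ball, dist_zero_right, Prod.norm_def, Real.norm_eq_abs, Real.norm_eq_abs]
  exact lt_of_le_of_lt (max_le (abs_le.2 hz.1) (abs_le.2 hz.2)) (by linarith)

theorem bxbetaBg_core {t : ℝ} (ht : 0 < t) :
    EqOn (c.betaBg t) (bxSep (fun y => -(c.sA t ^ 2 / 2) * y ^ 2) (fun x => x ^ 2) zeta2
      (c.sa t ^ 2 * c.L t ^ 2) (c.L t)) (c.bxCore t) := by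
  intro z hz
  have hr : 0 < c.r t := mul_pos c.bxcr_pos ht
  rw [bxCore, Metric.mem_ball, dist_zero_right, Prod.norm_def, max_lt_iff, Real.norm_eq_abs,
    Real.norm_eq_abs] at hz
  rw [betaBg, bxChiCut_one (w := (c.r t)⁻¹ • z)]
  · simp only [one_mul, lensP, bxSep]; ring
  all_goals
    simp only [Prod.smul_fst, Prod.smul_snd, smul_eq_mul, abs_mul, abs_inv, abs_of_pos hr]
    rw [inv_mul_le_iff₀ hr]
    linarith [hz.1, hz.2]

theorem bxbetaBg_derivs {t : ℝ} (ht : 0 < t) :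
    EqOn (dX (c.betaBg t)) (bxSep (fun y => -(c.sA t ^ 2) * y ^ 2) (fun x => x) zeta1
        (c.sa t ^ 2 * c.L t) (c.L t)) (c.bxCore t) ∧
      EqOn (dY (c.betaBg t)) (bxSep (fun y => -(c.sA t ^ 2) * y) (fun x => x ^ 2) zeta1 0 (c.L t))
        (c.bxCore t) ∧
      EqOn (kbar (c.betaBg t)) (bxSep (fun y => c.sA t ^ 2 * y ^ 2) (fun _ => 1) zeta0
        (-(c.sa t ^ 2)) (c.L t)) (c.bxCore t) ∧
      EqOn (dX (kbar (c.betaBg t))) (bxSep (fun _ => 0) (fun _ => 1) (deriv zeta0)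
        (-(c.sa t ^ 2 / c.L t)) (c.L t)) (c.bxCore t) ∧
      EqOn (dY (kbar (c.betaBg t))) (bxSep (fun y => 2 * c.sA t ^ 2 * y) (fun _ => 1) zeta0 0
        (c.L t)) (c.bxCore t) := by
  have hL : c.L t ≠ 0 := (mul_pos c.bxΓ1_pos ht).ne'
  have hO : IsOpen (c.bxCore t) := Metric.isOpen_ball
  have s2 : ∀ a : ℝ, ContDiff ℝ ∞ (fun y : ℝ => a * y ^ 2) := fun a =>
    contDiff_const.mul (contDiff_id.pow 2)
  have p2 : ContDiff ℝ ∞ (fun x : ℝ => x ^ 2) := contDiff_id.pow 2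
  have d2 : ∀ a : ℝ, deriv (fun y : ℝ => a * y ^ 2) = fun y => 2 * a * y := fun a =>
    funext fun y => by rw [((hasDerivAt_pow 2 y).const_mul a).deriv]; simp; ring
  have dsq : deriv (fun x : ℝ => x ^ 2) = fun x => 2 * x := funext fun x => by simp
  have dz2 : deriv zeta2 = zeta1 := funext fun x => (bxHasDerivAt_zeta2 x).deriv
  have dz1 : deriv zeta1 = zeta0 := funext fun x => (bxHasDerivAt_zeta1 x).deriv
  have e0 := c.bxbetaBg_core ht
  have hx : EqOn (dX (c.betaBg t)) (bxSep (fun y => -(c.sA t ^ 2) * y ^ 2) (fun x => x) zeta1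
      (c.sa t ^ 2 * c.L t) (c.L t)) (c.bxCore t) := fun z hz => by
    rw [bxDX_congr hO e0 hz, bxSep_dX (s2 _) p2 bxZeta2_smooth, dsq, dz2]
    simp only [bxSep]
    field_simp
    try ring
  have hy : EqOn (dY (c.betaBg t)) (bxSep (fun y => -(c.sA t ^ 2) * y) (fun x => x ^ 2) zeta1 0
      (c.L t)) (c.bxCore t) := fun z hz => by
    rw [bxDY_congr hO e0 hz, bxSep_dY (s2 _) p2 bxZeta2_smooth, d2]
    simp only [bxSep]
    ring
  have hk : EqOn (kbar (c.betaBg t)) (bxSep (fun y => c.sA t ^ 2 * y ^ 2) (fun _ => 1) zeta0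
      (-(c.sa t ^ 2)) (c.L t)) (c.bxCore t) := fun z hz => by
    rw [kbar, bxDX_congr hO hx hz, bxSep_dX (P := fun x => x) (s2 _) contDiff_id bxZeta1_smooth, deriv_id'', dz1]
    simp only [bxSep]
    field_simp
    try ring
  refine ⟨hx, hy, hk, fun z hz => ?_, fun z hz => ?_⟩
  · rw [bxDX_congr hO hk hz, bxSep_dX (s2 _) contDiff_const bxZeta0_smooth, deriv_const']
    simp only [bxSep]
    try ring
  · rw [bxDY_congr hO hk hz, bxSep_dY (s2 _) contDiff_const bxZeta0_smooth, d2]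

theorem betaBg_formulas {t : ℝ} (ht : 0 < t) {z : ℝ × ℝ} (hz : z ∈ sq (c.r t)) :
    dX (c.betaBg t) z
        = -(c.sA t ^ 2 * z.1 * z.2 ^ 2) + c.sa t ^ 2 * c.L t * zeta1 (z.1 / c.L t) ∧
      dY (c.betaBg t) z = -(c.sA t ^ 2 * z.1 ^ 2 * z.2) ∧
      kbar (c.betaBg t) z = c.sA t ^ 2 * z.2 ^ 2 - c.sa t ^ 2 * zeta0 (z.1 / c.L t) ∧
      dX (kbar (c.betaBg t)) z = -(c.sa t ^ 2 / c.L t * deriv zeta0 (z.1 / c.L t)) ∧
      dY (kbar (c.betaBg t)) z = 2 * c.sA t ^ 2 * z.2 := by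
  obtain ⟨h1, h2, h3, h4, h5⟩ := c.bxbetaBg_derivs ht
  have hz' := c.bxsq_core ht hz
  refine ⟨?_, ?_, ?_, ?_, ?_⟩
  · rw [h1 hz', bxSep]; ring
  · rw [h2 hz', bxSep]; ring
  · rw [h3 hz', bxSep]; ring
  · rw [h4 hz', bxSep]; ring
  · rw [h5 hz', bxSep]; ring

theorem kbar_beta (t : ℝ) (z : ℝ × ℝ) :
    kbar (c.beta t) z = kbar (c.betaBg t) z + kbar (c.betaF t) z := by
  have d : ∀ {f g : ℝ × ℝ → ℝ}, ContDiff ℝ ∞ f → ContDiff ℝ ∞ g →
      dX (fun w => f w + g w) = fun w => dX f w + dX g w := fun hf hg => funext fun w => by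
    unfold dX
    rw [fderiv_fun_add (hf.differentiable (by simp) w) (hg.differentiable (by simp) w)]
    simp
  unfold kbar
  rw [show c.beta t = fun w => c.betaBg t w + c.betaF t w from rfl,
    d (c.contDiff_betaBg t) (c.contDiff_betaF t),
    d (bxSmooth_dX (c.contDiff_betaBg t)) (bxSmooth_dX (c.contDiff_betaF t))]
  ring

theorem bxom_lower (t : ℝ) (y : ℝ) :
    c.sa t ≤ c.om t y ∧ c.sA t * |y| ≤ c.om t y := by
  unfold om W
  constructor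
  · refine Real.le_sqrt_of_sq_le ?_
    nlinarith [sq_nonneg (c.sA t * y)]
  · refine Real.le_sqrt_of_sq_le ?_
    rw [mul_pow, sq_abs]
    nlinarith [sq_nonneg (c.sa t)]

theorem bxSep_bound {t : ℝ} (ht : 0 < t) (ht1 : t ≤ 1) {A P G : ℝ → ℝ} {f : ℝ × ℝ → ℝ}
    {B CA CB CP CG : ℝ} (hA : ContDiff ℝ ∞ A) (hP : ContDiff ℝ ∞ P) (hG : ContDiff ℝ ∞ G)
    (hf : EqOn f (bxSep A P G B (c.L t)) (c.bxCore t)) (q : ℕ) {z : ℝ × ℝ}
    (hz : z ∈ sq (c.r t)) (hCA : |A z.2| ≤ CA * (c.om t z.2 * c.sA t))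
    (hCB : |B| ≤ CB * (c.om t z.2 * c.sA t) / t)
    (hCP : ∀ x, |x| ≤ c.cr → |deriv^[q] P x| ≤ CP)
    (hCG : ∀ x, |x| ≤ c.cr / c.Γ1 → |deriv^[q] G x| ≤ CG) :
    |dX^[q] f z| ≤ (CA * CP + CB * CG / c.Γ1 ^ q) * (c.om t z.2 * c.sA t) / t ^ (q + 1) := by
  have hΓ := c.bxΓ1_pos
  rw [bxDX_iterate_congr Metric.isOpen_ball q hf (c.bxsq_core ht hz), bxSep_dX_iterate hA q hP hG,
    bxSep]
  refine (abs_add_le _ _).trans ?_
  rw [abs_mul, abs_mul, abs_div, abs_pow]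
  have hcrt : c.r t ≤ c.cr := by
    unfold r; nlinarith [c.bxcr_pos]
  have h1 : |z.1| ≤ c.cr := (abs_le.2 hz.1).trans hcrt
  have h2 : |z.1 / c.L t| ≤ c.cr / c.Γ1 := by
    have hL : (0 : ℝ) < c.L t := mul_pos hΓ ht
    rw [abs_div, abs_of_pos hL, div_le_iff₀ hL]
    calc |z.1| ≤ c.r t := abs_le.2 hz.1
      _ = c.cr / c.Γ1 * c.L t := by unfold r L; field_simp
  have hLt : |c.L t| = c.Γ1 * t := abs_of_pos (mul_pos hΓ ht)
  rw [hLt]
  have hp : (0 : ℝ) < t ^ (q + 1) := pow_pos ht _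
  have hCA' : 0 ≤ CA * (c.om t z.2 * c.sA t) := (abs_nonneg _).trans hCA
  have hCB' : 0 ≤ CB * (c.om t z.2 * c.sA t) / t := (abs_nonneg _).trans hCB
  have hCP' : 0 ≤ CP := (abs_nonneg _).trans (hCP _ h1)
  have t1 : |A z.2| * |deriv^[q] P z.1| ≤ CA * (c.om t z.2 * c.sA t) * CP / t ^ (q + 1) :=
    (mul_le_mul hCA (hCP _ h1) (abs_nonneg _) hCA').trans
      (le_div_self (mul_nonneg hCA' hCP') hp (pow_le_one₀ ht.le ht1))
  have t2 : |B| / (c.Γ1 * t) ^ q * |deriv^[q] G (z.1 / c.L t)| ≤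
      CB * (c.om t z.2 * c.sA t) / t / (c.Γ1 * t) ^ q * CG := by
    have : 0 < (c.Γ1 * t) ^ q := pow_pos (mul_pos hΓ ht) _
    exact mul_le_mul (by gcongr) (hCG _ h2) (abs_nonneg _) (by positivity)
  refine (add_le_add t1 t2).trans (le_of_eq ?_)
  rw [mul_pow, pow_succ]
  field_simp

theorem betaBg_bounds (q : ℕ) : ∃ C : ℝ, 0 ≤ C ∧ ∀ t : ℝ, 0 < t → t ≤ 1 → ∀ z ∈ sq (c.r t),
    |dX^[q] (dX (c.betaBg t)) z| ≤ C * (c.om t z.2 * c.sA t) / t ^ (q + 1) ∧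
    |dX^[q] (dY (c.betaBg t)) z| ≤ C * (c.om t z.2 * c.sA t) / t ^ (q + 1) ∧
    |dX^[q] (kbar (c.betaBg t)) z| ≤ C * (c.om t z.2 * c.sA t) / t ^ (q + 1) ∧
    |dX^[q] (dX (kbar (c.betaBg t))) z| ≤ C * (c.om t z.2 * c.sA t) / t ^ (q + 1) ∧
    |dX^[q] (dY (kbar (c.betaBg t))) z| ≤ C * (c.om t z.2 * c.sA t) / t ^ (q + 1) := by
  have bd : ∀ {g : ℝ → ℝ}, ContDiff ℝ ∞ g → ∀ R : ℝ,
      ∃ C, 0 ≤ C ∧ ∀ x, |x| ≤ R → |deriv^[q] g x| ≤ C := by
    intro g hg R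
    have hc : Continuous (deriv^[q] g) := by
      rw [← iteratedDeriv_eq_iterate]; exact hg.continuous_iteratedDeriv q (mod_cast le_top)
    obtain ⟨C, hC⟩ := (isCompact_Icc (a := -R) (b := R)).exists_bound_of_continuousOn hc.continuousOn
    exact ⟨max C 0, le_max_right _ _, fun x hx => (hC x (abs_le.1 hx)).trans (le_max_left _ _)⟩
  have hcr := c.bxcr_pos
  have hΓ := c.bxΓ1_pos
  obtain ⟨P1, hP10, hP1⟩ := bd contDiff_id c.cr
  obtain ⟨P2, hP20, hP2⟩ := bd (contDiff_id.pow 2) c.cr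
  obtain ⟨P0, hP00, hP0⟩ := bd (contDiff_const (c := (1 : ℝ))) c.cr
  obtain ⟨G1, hG10, hG1⟩ := bd bxZeta1_smooth (c.cr / c.Γ1)
  obtain ⟨G0, hG00, hG0⟩ := bd bxZeta0_smooth (c.cr / c.Γ1)
  obtain ⟨G0', hG0'0, hG0'⟩ := bd (bxSmooth_deriv bxZeta0_smooth) (c.cr / c.Γ1)
  set C1 := c.cr * P1 + c.Γ1 * G1 / c.Γ1 ^ q
  set C2 := 1 * P2 + 0 * G1 / c.Γ1 ^ q
  set C3 := c.cr * P0 + 1 * G0 / c.Γ1 ^ q
  set C4 := 0 * P0 + 1 / c.Γ1 * G0' / c.Γ1 ^ q
  set C5 := 2 * P0 + 0 * G0 / c.Γ1 ^ q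
  have n1 : 0 ≤ C1 := by positivity
  have n2 : 0 ≤ C2 := by positivity
  have n3 : 0 ≤ C3 := by positivity
  have n4 : 0 ≤ C4 := by positivity
  have n5 : 0 ≤ C5 := by positivity
  refine ⟨C1 + C2 + C3 + C4 + C5, by positivity, fun t ht ht1 z hz => ?_⟩
  obtain ⟨h1, h2, h3, h4, h5⟩ := c.bxbetaBg_derivs ht
  obtain ⟨o1, o2⟩ := c.bxom_lower t z.2
  have hsA : 0 < c.sA t := pow_pos ht _
  have hsa : 0 < c.sa t := pow_pos ht _
  have hsaA : c.sa t ≤ c.sA t :=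
    pow_le_pow_of_le_one ht.le ht1 (by have := c.Pe_le; omega)
  have hz2 : |z.2| ≤ c.cr := by
    refine (abs_le.2 hz.2).trans ?_
    unfold r; nlinarith
  set w := c.om t z.2 * c.sA t with hw
  have w0 : 0 ≤ w := mul_nonneg (hsa.le.trans o1) hsA.le
  have wy : c.sA t ^ 2 * |z.2| ≤ w := by
    rw [hw]; nlinarith [mul_le_mul_of_nonneg_right o2 hsA.le]
  have wy2 : c.sA t ^ 2 * z.2 ^ 2 ≤ c.cr * w := by
    rw [← sq_abs z.2]
    nlinarith [mul_le_mul wy hz2 (abs_nonneg _) w0]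
  have wa : c.sa t ^ 2 ≤ w := by
    rw [hw, pow_two]; exact mul_le_mul o1 hsaA hsa.le (hsa.le.trans o1)
  have le_div : ∀ {a b : ℝ}, 0 ≤ b → a ≤ b → a ≤ b / t := fun hb hab =>
    hab.trans (le_div_self hb ht ht1)
  have up : ∀ {a Ci : ℝ}, a ≤ Ci * w / t ^ (q + 1) → Ci ≤ C1 + C2 + C3 + C4 + C5 →
      a ≤ (C1 + C2 + C3 + C4 + C5) * w / t ^ (q + 1) := fun h hle =>
    h.trans (by gcongr)
  have sy : ∀ a : ℝ, ContDiff ℝ ∞ (fun y : ℝ => a * y) := fun a => contDiff_const.mul contDiff_id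
  have sy2 : ∀ a : ℝ, ContDiff ℝ ∞ (fun y : ℝ => a * y ^ 2) := fun a =>
    contDiff_const.mul (contDiff_id.pow 2)
  refine ⟨?_, ?_, ?_, ?_, ?_⟩
  · refine up (c.bxSep_bound ht ht1 (CA := c.cr) (CB := c.Γ1) (sy2 _) contDiff_id bxZeta1_smooth
      h1 q hz ?_ ?_ hP1 hG1) (by linarith)
    · rw [abs_mul, abs_neg, abs_pow, abs_pow, sq_abs, sq_abs]; exact wy2
    · refine le_div (by positivity) ?_
      rw [abs_of_nonneg (show 0 ≤ c.sa t ^ 2 * c.L t from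
        mul_nonneg (sq_nonneg _) (mul_pos hΓ ht).le)]
      calc c.sa t ^ 2 * c.L t ≤ w * (c.Γ1 * 1) :=
            mul_le_mul wa (mul_le_mul_of_nonneg_left ht1 hΓ.le) (mul_pos hΓ ht).le w0
        _ = c.Γ1 * w := by ring
  · refine up (c.bxSep_bound ht ht1 (CA := 1) (CB := 0) (sy _) (contDiff_id.pow 2) bxZeta1_smooth
      h2 q hz ?_ ?_ hP2 hG1) (by linarith)
    · rw [abs_mul, abs_neg, abs_pow, sq_abs, one_mul]; exact wy
    · simp
  · refine up (c.bxSep_bound ht ht1 (CA := c.cr) (CB := 1) (sy2 _) contDiff_const bxZeta0_smooth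
      h3 q hz ?_ ?_ hP0 hG0) (by linarith)
    · rw [abs_mul, abs_pow, abs_pow, sq_abs, sq_abs]; exact wy2
    · refine le_div (by positivity) ?_
      rw [abs_neg, abs_pow, sq_abs, one_mul]; exact wa
  · refine up (c.bxSep_bound ht ht1 (CA := 0) (CB := 1 / c.Γ1) contDiff_const contDiff_const
      (bxSmooth_deriv bxZeta0_smooth) h4 q hz ?_ ?_ hP0 hG0') (by linarith)
    · simp
    · have hL : (0 : ℝ) < c.L t := mul_pos hΓ ht
      rw [abs_neg, abs_of_nonneg (by positivity)]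
      calc c.sa t ^ 2 / c.L t ≤ w / c.L t := by gcongr
        _ = 1 / c.Γ1 * w / t := by unfold L; field_simp
  · refine up (c.bxSep_bound ht ht1 (CA := 2) (CB := 0) (sy _) contDiff_const bxZeta0_smooth
      h5 q hz ?_ ?_ hP0 hG0) (by linarith)
    · rw [abs_mul, abs_of_nonneg (by positivity : (0 : ℝ) ≤ 2 * c.sA t ^ 2), mul_assoc]
      exact mul_le_mul_of_nonneg_left wy zero_le_two
    · simp

theorem betaF_bounds (N : ℕ) : ∃ C : ℝ, 0 ≤ C ∧ ∀ t : ℝ, 0 < t → t ≤ 1 → ∀ q k, q + k ≤ N →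
    ∀ z, |dX^[q] (dY^[k] (c.betaF t)) z| ≤ C * (c.ε t * c.δ t ^ 2) / c.δ t ^ (q + k) := by
  obtain ⟨C, hC0, hC⟩ := bxScaled_bound bxBump_smooth bxBump_support N
  refine ⟨C, hC0, fun t ht ht1 q k hqk z => ?_⟩
  have hδ := c.bxδ_pos ht
  have hδ1 : c.δ t ≤ 1 := (c.bxδ_le ht ht1).trans ht1
  have hb : ContDiff ℝ ∞ (fun w => bxBump ((c.δ t)⁻¹ • w)) :=
    bxBump_smooth.comp (contDiff_id.const_smul (c.δ t)⁻¹)
  have hε : 0 ≤ c.ε t * c.δ t ^ 2 := by unfold ε; positivity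
  have hg : GeoBD (0 + q + k) (C * (c.ε t * c.δ t ^ 2) / c.δ t ^ (q + k)) (c.betaF t) z := by
    refine ⟨(c.contDiff_betaF t).contDiffAt, fun i hi => ?_⟩
    rw [c.bxbetaF_eq t,
      show (fun w => c.ε t * c.δ t ^ 2 * bxBump ((c.δ t)⁻¹ • w)) =
        (c.ε t * c.δ t ^ 2) • (fun w => bxBump ((c.δ t)⁻¹ • w)) from rfl,
      iteratedFDeriv_const_smul_apply (hb.of_le (mod_cast le_top)).contDiffAt, norm_smul,
      Real.norm_eq_abs, abs_of_nonneg hε]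
    refine (mul_le_mul_of_nonneg_left (hC _ hδ i (by omega) z) hε).trans ?_
    rw [inv_pow, ← div_eq_mul_inv, ← mul_div_assoc, mul_comm]
    exact div_le_div_of_nonneg_left (mul_nonneg hC0 hε) (pow_pos hδ _)
      (pow_le_pow_of_le_one hδ.le hδ1 (by omega))
  simpa [Real.norm_eq_abs] using (bxGeoBD_dX_iterate q (bxGeoBD_dY_iterate k hg)).norm_le

theorem betaF_eq_zero {t : ℝ} (ht : 0 < t) (q k : ℕ) {z : ℝ × ℝ}
    (hz : 2 * c.δ t < |z.1| ∨ 2 * c.δ t < |z.2|) : dX^[q] (dY^[k] (c.betaF t)) z = 0 := by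
  have hO : IsOpen {w : ℝ × ℝ | 2 * c.δ t < |w.1| ∨ 2 * c.δ t < |w.2|} :=
    (isOpen_lt continuous_const continuous_fst.abs).union
      (isOpen_lt continuous_const continuous_snd.abs)
  have h := bxDX_iterate_congr hO q (bxDY_iterate_congr hO k
    (g := fun _ => (0 : ℝ)) (fun w hw => c.bxbetaF_support ht hw)) hz
  rw [h, bxIterate_zero]

end Par

end Vale.Agent.P229
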