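import Vale.Agent.P229.BoxEnergyAux

/-!
# P229: Caccioppoli's inequality for a general cut-off
-/

open scoped ContDiff Topology
open MeasureTheory Set Filter

namespace Vale.Agent.P229

theorem bxIntegrable_ind {R : Set (ℝ × ℝ)} (hR : IsCompact R) {f : ℝ × ℝ → ℝ}
    (hf : Continuous f) : Integrable (R.indicator f) :=
  (integrable_indicator_iff hR.measurableSet).2 (hf.continuousOn.integrableOn_compact hR)

theorem bxIntegrable_sq {R : Set (ℝ × ℝ)} (hR : IsCompact R) {ρ f : ℝ × ℝ → ℝ}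
    (hρ : Continuous ρ) (hf : Continuous f) (h0 : ∀ z, z ∉ R → ρ z = 0) :
    Integrable fun z => ρ z ^ 2 * f z :=
  ((hρ.pow 2).mul hf).integrable_of_hasCompactSupport
    (HasCompactSupport.intro hR fun z hz => by simp [h0 z hz])

/-- The quadratic form of the multiplier `-ρ²`. -/
theorem bxQuad_sq {ρ K1 K2 B1 B0 W : ℝ × ℝ → ℝ} (hρ : ContDiff ℝ ∞ ρ) (hK1 : ContDiff ℝ ∞ K1)
    (hK2 : ContDiff ℝ ∞ K2) (z : ℝ × ℝ) :
    quadQ 0 (fun _ => 0) (fun v => -ρ v ^ 2) K1 K2 B1 B0 W z =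
      ρ z ^ 2 * dY W z ^ 2 + ρ z ^ 2 * K2 z * dX W z ^ 2
        + 2 * ρ z ^ 2 * K1 z * (dY W z * dX W z)
        + (B0 z * (-ρ z ^ 2) - 2 * (dX K1 z * (-ρ z ^ 2) + K1 z * (-(2 * ρ z * dX ρ z))))
          * (W z * dY W z)
        + B1 z * (-ρ z ^ 2) * (W z * dX W z)
        + (-(dY ρ z ^ 2 + ρ z * dY (dY ρ) z) - ((2 * dX ρ z ^ 2 + 2 * ρ z * dX (dX ρ) z) * K2 z
            + 4 * ρ z * dX ρ z * dX K2 z + ρ z ^ 2 * dX (dX K2) z) / 2) * W z ^ 2 := by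
  have hl : ContDiff ℝ ∞ (fun v => -ρ v ^ 2) := (hρ.pow 2).neg
  have d : ∀ {f : ℝ × ℝ → ℝ}, ContDiff ℝ ∞ f → ∀ y, DifferentiableAt ℝ f y :=
    fun hf y => hf.differentiable (by simp) y
  have hρx := bxSmooth_dX hρ
  have hρy := bxSmooth_dY hρ
  have lX : dX (fun v => -ρ v ^ 2) = fun v => -(2 * ρ v * dX ρ v) :=
    funext fun v => by rw [dX_neg, dX_pow 2 (d hρ v)]; simp
  have lY : dY (fun v => -ρ v ^ 2) = fun v => -(2 * ρ v * dY ρ v) :=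
    funext fun v => by rw [dY_neg, dY_pow 2 (d hρ v)]; simp
  have e1 : dX (fun v => K1 v * -ρ v ^ 2) z
      = dX K1 z * (-ρ z ^ 2) + K1 z * (-(2 * ρ z * dX ρ z)) := by
    rw [dX_mul (d hK1 z) (d hl z), lX]
  have e2 : dY (dY (fun v => -ρ v ^ 2)) z = -(2 * (dY ρ z * dY ρ z + ρ z * dY (dY ρ) z)) := by
    rw [lY, dY_neg, dY_mul ((d hρ z).const_mul 2) (d hρy z), dY_const_mul 2 (d hρ z)]
    ring
  have e3 : dX (dX (fun v => -ρ v ^ 2 * K2 v)) z = -(2 * (dX ρ z * dX ρ z + ρ z * dX (dX ρ) z))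
      * K2 z + 2 * (-(2 * ρ z * dX ρ z)) * dX K2 z + -ρ z ^ 2 * dX (dX K2) z := by
    have e : dX (fun v => -ρ v ^ 2 * K2 v)
        = fun v => -(2 * ρ v * dX ρ v) * K2 v + -ρ v ^ 2 * dX K2 v :=
      funext fun v => by rw [dX_mul (d hl v) (d hK2 v), lX]
    rw [e, dX_add (d ((((contDiff_const.mul hρ).mul hρx).neg).mul hK2) z)
      (d (hl.mul (bxSmooth_dX hK2)) z),
      dX_mul (d (((contDiff_const.mul hρ).mul hρx).neg) z) (d hK2 z),
      dX_mul (d hl z) (d (bxSmooth_dX hK2) z), lX, dX_neg,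
      dX_mul ((d hρ z).const_mul 2) (d hρx z), dX_const_mul 2 (d hρ z)]
    ring
  simp only [quadQ, cYY, cPP, cYP, c0Y, c00, dX_const, dY_const, zero_mul, mul_zero, e1, e2, e3]
  ring

theorem bxOpL_congr {K1 K2 B1 B0 f g : ℝ × ℝ → ℝ} {z : ℝ × ℝ} (he : f =ᶠ[𝓝 z] g) :
    opL K1 K2 B1 B0 f z = opL K1 K2 B1 B0 g z := by
  have hX : dX f =ᶠ[𝓝 z] dX g := he.eventuallyEq_nhds.mono fun v hv => dX_congr hv
  have hY : dY f =ᶠ[𝓝 z] dY g := he.eventuallyEq_nhds.mono fun v hv => dY_congr hv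
  simp only [opL, dY_congr hY, dY_congr hX, dX_congr hX, hX.eq_of_nhds, hY.eq_of_nhds]

/-- The arithmetic of Caccioppoli's inequality. -/
theorem bxCacc_final {a b q I J t T S B M : ℝ} (ht : t * T = 1) (ht0 : 0 < t)
    (ht' : t ≤ 1 / 256) (hT : 200 ≤ T) (hS : 1 ≤ S) (hM : M ≤ 104 * T * (T ^ 2 * S * B ^ 2))
    (hI : 0 ≤ I) (hJ : 0 ≤ J) (ha : 0 ≤ a) (hb : 0 ≤ b) (_hq : 0 ≤ q)
    (m1 : a / 2 + b / 64 - q - M * I ≤ (2 + T ^ 2 / 1000) * q + 250 * B ^ 2 * J)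
    (m2 : q ≤ 32 * t ^ 2 * (a + 16 * T ^ 2 * S * B ^ 2 * I)) :
    a + b + q ≤ T ^ 3 * T * (T ^ 2 * S * B ^ 2) * (I + J) := by
  have hT1 : 1 ≤ T := by linarith
  have hTS : 1 ≤ T ^ 2 * S := one_le_mul_of_one_le_of_one_le (one_le_pow₀ hT1) hS
  have htt : t ^ 2 ≤ 1 / 65536 := by
    calc t ^ 2 ≤ (1 / 256) ^ 2 := by gcongr
      _ = _ := by norm_num
  have hB : 0 ≤ B ^ 2 := sq_nonneg B
  have k : 0 ≤ 16 * T ^ 2 * S * B ^ 2 * I := by positivity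
  have e : (3 + T ^ 2 / 1000) * (32 * t ^ 2) = 96 * t ^ 2 + 32 / 1000 := by
    linear_combination (32 / 1000 * (t * T + 1)) * ht
  have m3 : (3 + T ^ 2 / 1000) * q ≤ 1 / 16 * (a + 16 * T ^ 2 * S * B ^ 2 * I) := by
    refine (mul_le_mul_of_nonneg_left m2 (by positivity)).trans ?_
    rw [← mul_assoc, e]
    gcongr
    linarith
  have m4 : q ≤ 1 * (a + 16 * T ^ 2 * S * B ^ 2 * I) := by
    refine m2.trans ?_
    gcongr
    linarith
  have c1 := mul_le_mul_of_nonneg_right hM hI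
  have c2 : B ^ 2 * J ≤ T * (T ^ 2 * S * B ^ 2) * J := by
    gcongr
    calc B ^ 2 = 1 * (1 * B ^ 2) := by ring
      _ ≤ T * (T ^ 2 * S * B ^ 2) := by gcongr
  have c3 : T ^ 2 * S * B ^ 2 * I ≤ T * (T ^ 2 * S * B ^ 2) * I := by
    exact mul_le_mul_of_nonneg_right (le_mul_of_one_le_left
      (mul_nonneg (mul_nonneg (sq_nonneg T) (zero_le_one.trans hS)) hB) hT1) hI
  have hT3 : (40000 : ℝ) ≤ T ^ 3 := by
    calc (40000 : ℝ) ≤ 200 ^ 3 := by norm_num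
      _ ≤ T ^ 3 := by gcongr
  have c4 : 40000 * (T * (T ^ 2 * S * B ^ 2) * (I + J))
      ≤ T ^ 3 * (T * (T ^ 2 * S * B ^ 2) * (I + J)) :=
    mul_le_mul_of_nonneg_right hT3 (by positivity)
  linarith

namespace Par

variable (c : Par)

theorem bxSubst {t : ℝ} (ht : 0 < t) {w : ℝ × ℝ → ℝ} (hw : ContDiff ℝ ∞ w) :
    ∃ Wf : ℝ × ℝ → ℝ, ContDiff ℝ ∞ Wf ∧ HasCompactSupport Wf ∧
      ∀ z ∈ c.rect t 1, Wf =ᶠ[𝓝 z] w := by
  have hcut : ContDiff ℝ ∞ (c.cut t 2 3) := by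
    rw [c.bxCut_eq]; exact (c.bxCutP_smooth 2 3).comp (contDiff_id.const_smul t⁻¹)
  refine ⟨fun z => c.cut t 2 3 z * w z, hcut.mul hw,
    HasCompactSupport.intro (c.bxRect_isCompact t 3) fun z hz => ?_, fun z hz => ?_⟩
  · simp [c.bxCut_zero_off (s := 2) ht (by norm_num) (by norm_num) hz]
  · have hp := c.bxpOut_pos
    have h1 : |z.1| < c.pOut * 4 * t := by linarith [hz.1, mul_pos hp ht]
    have h2 : |z.2| < 3 / 2 * t := by linarith [hz.2]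
    have hn : {v : ℝ × ℝ | |v.1| < c.pOut * 4 * t ∧ |v.2| < 3 / 2 * t} ∈ 𝓝 z :=
      ((isOpen_lt continuous_fst.abs continuous_const).inter
        (isOpen_lt continuous_snd.abs continuous_const)).mem_nhds ⟨h1, h2⟩
    filter_upwards [hn] with v hv
    have : v ∈ c.rect t 2 := ⟨by linarith [hv.1], by linarith [hv.2]⟩
    simp [c.bxCut_one (s' := 3) ht (by norm_num) (by norm_num) this]

theorem bxCacc_low {Pe : ℕ} (hPe : c.Pe = Pe) (h40 : 40 ≤ c.Pe) {t : ℝ} (ht0 : 0 < t)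
    (ht256 : t ≤ 1 / 256) {s' : ℝ} (hs' : s' ≤ 1) {K1 K2 B1 B0 w W ρ : ℝ × ℝ → ℝ}
    (hC : c.CoefBd t K1 K2 B1 B0) (hρ : ContDiff ℝ ∞ ρ)
    (hρR : ∀ z, z ∉ c.rect t s' → ρ z = 0) (hρcore : ∀ z ∈ c.core t, ρ z = 0)
    (hρB : ∀ z, |ρ z| ≤ (t⁻¹) ^ 5 ∧ |dX ρ z| ≤ (t⁻¹) ^ 5 ∧ |dY ρ z| ≤ (t⁻¹) ^ 5 ∧
      |dX (dX ρ) z| ≤ (t⁻¹) ^ 5 ∧ |dY (dY ρ) z| ≤ (t⁻¹) ^ 5)
    (hρy : ∀ z, |z.2| < t / 4 → dY ρ z = 0 ∧ dY (dY ρ) z = 0)
    (hW : ∀ z ∈ c.rect t 1, W =ᶠ[𝓝 z] w) (z : ℝ × ℝ) :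
    ρ z ^ 2 * (dY w z ^ 2 / 2 + c.W t z.2 * dX w z ^ 2 / 64) - ρ z ^ 2 * w z ^ 2
      - ((t⁻¹) ^ 5) ^ 2 * (64 + 32 * (t⁻¹) ^ 2 * (t⁻¹) ^ (2 * Pe) + 8 * (t⁻¹) ^ 3)
        * (c.rect t s').indicator (fun v => c.W t v.2 * w v ^ 2) z ≤
      quadQ 0 (fun _ => 0) (fun v => -ρ v ^ 2) K1 K2 B1 B0 W z := by
  rw [bxQuad_sq hρ hC.sm1 hC.sm2]
  by_cases hz : z ∈ c.rect t s'
  · have hz1 := c.bxRect_mono ht0.le hs' hz
    have he := hW z hz1
    rw [dX_congr he, dY_congr he, he.eq_of_nhds, indicator_of_mem hz]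
    have ht1 : t ≤ 1 := by linarith
    have hT1 : 1 ≤ t⁻¹ := (one_le_inv₀ ht0).2 ht1
    have h6 : c.sA t * (t⁻¹) ^ 6 ≤ t := c.bxSA_small ht0 ht1 h40 (by norm_num)
    have hsA : 0 ≤ c.sA t := pow_nonneg ht0.le _
    have hsm : ∀ f ∈ ([K1, K2, B1, B0, dX K1, dX K2, dX (dX K2)] : List (ℝ × ℝ → ℝ)),
        |f z| ≤ c.sA t * (t⁻¹) ^ 6 * c.om t z.2 := fun f hf =>
      (hC.small z hz1 f hf).trans_eq (by ring)
    obtain ⟨p0, p1, p2, p3, p4⟩ := hρB z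
    exact bxCacc_algebra (Real.sqrt_nonneg _) (c.bxOm_sq ht0 _) (by positivity) (h6.trans ht256)
      hT1 (hsm K1 (by simp)) (hsm _ (by simp)) (hsm B1 (by simp)) (hsm B0 (by simp))
      (hC.byW z hz1).2 (fun hr => hC.outer z hz1 fun hc => hr (hρcore z hc)) (by positivity)
      p0 p1 p2 p3 p4 ((lt_or_ge |z.2| (t / 4)).imp (hρy z) (c.bxW_far ht0 hPe)) (by positivity)
      le_rfl
  · have hcl := c.bxRect_isClosed t s'
    simp [indicator_of_notMem hz, hρR z hz, dX_eq_zero_off hcl hρR hz, dY_eq_zero_off hcl hρR hz]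

theorem bxCacc_up (h40 : 40 ≤ c.Pe) {t : ℝ} (ht0 : 0 < t) (ht2 : t ≤ 1 / 2)
    {s' : ℝ} (hs' : s' ≤ 1) {K1 K2 B1 B0 w W G ρ : ℝ × ℝ → ℝ}
    (hρR : ∀ z, z ∉ c.rect t s' → ρ z = 0) (hρcore : ∀ z ∈ c.core t, ρ z = 0)
    (hρB : ∀ z, |ρ z| ≤ (t⁻¹) ^ 5) (hW : ∀ z ∈ c.rect t 1, W =ᶠ[𝓝 z] w)
    (hL : ∀ z ∈ c.rect t s', z ∉ c.core t → |opL K1 K2 B1 B0 w z| ≤
        c.om t z.2 * c.sA t * (t⁻¹) ^ 10 * |w z| + G z) (z : ℝ × ℝ) :
    multM 0 (fun _ => 0) (fun v => -ρ v ^ 2) W z * opL K1 K2 B1 B0 W z ≤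
      (2 + (t⁻¹) ^ 2 / 1000) * (ρ z ^ 2 * w z ^ 2) + 250 * ((t⁻¹) ^ 5) ^ 2
        * (c.rect t s').indicator (fun v => G v ^ 2 / c.W t v.2) z := by
  simp only [multM, zero_mul, zero_add]
  by_cases hz : z ∈ c.rect t s'
  · have hz1 := c.bxRect_mono ht0.le hs' hz
    have he := hW z hz1
    rw [indicator_of_mem hz, he.eq_of_nhds, bxOpL_congr he]
    generalize hT : t⁻¹ = T at *
    have hT1 : 1 ≤ T := by rw [← hT]; exact (one_le_inv₀ ht0).2 (by linarith)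
    have hWp := c.bxW_pos ht0 z.2
    have hr2 : 0 ≤ ρ z ^ 2 := sq_nonneg _
    have hJ : 0 ≤ G z ^ 2 / c.W t z.2 := div_nonneg (sq_nonneg _) hWp.le
    by_cases hzc : z ∈ c.core t
    · simp [hρcore z hzc]; positivity
    have hW1 : c.W t z.2 ≤ 1 := c.bxW_le_one ht0 ht2 (by linarith [hz1.2])
    have h10 : c.om t z.2 * c.sA t * T ^ 10 ≤ 1 := by
      rw [mul_assoc]
      refine mul_le_one₀ (Real.sqrt_le_one.2 hW1) ?_ ?_
      · exact mul_nonneg (pow_nonneg ht0.le _) (by positivity)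
      · rw [← hT]
        exact (c.bxSA_small ht0 (by linarith) h40 (by norm_num)).trans (by linarith)
    have hy : |w z| * |G z| ≤ T ^ 2 / 1000 * w z ^ 2 + 250 * (G z ^ 2 / c.W t z.2) := by
      have hy := bxYoung (a := |w z|) (b := |G z|) (show (0 : ℝ) < T ^ 2 / 1000 by positivity)
      rw [sq_abs, sq_abs] at hy
      refine hy.trans (add_le_add le_rfl ?_)
      calc G z ^ 2 / (4 * (T ^ 2 / 1000)) ≤ G z ^ 2 / (4 * (1 / 1000)) := by
            gcongr; exact one_le_pow₀ hT1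
        _ = 250 * G z ^ 2 := by ring
        _ ≤ _ := by gcongr; exact le_div_self (sq_nonneg _) hWp hW1
    calc -ρ z ^ 2 * w z * opL K1 K2 B1 B0 w z
        ≤ ρ z ^ 2 * (|w z| * |opL K1 K2 B1 B0 w z|) := by
          rw [← abs_mul, neg_mul, neg_mul, mul_assoc, ← mul_neg]
          exact mul_le_mul_of_nonneg_left (neg_le_abs _) hr2
      _ ≤ ρ z ^ 2 * (|w z| * (1 * |w z| + |G z|)) := by
          gcongr
          exact (hL z hz hzc).trans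
            (add_le_add (mul_le_mul_of_nonneg_right h10 (abs_nonneg _)) (le_abs_self _))
      _ = ρ z ^ 2 * (w z ^ 2 + |w z| * |G z|) := by rw [← sq_abs (w z)]; ring
      _ ≤ ρ z ^ 2 * (w z ^ 2 + (T ^ 2 / 1000 * w z ^ 2 + 250 * (G z ^ 2 / c.W t z.2))) := by
          gcongr
      _ = (1 + T ^ 2 / 1000) * (ρ z ^ 2 * w z ^ 2)
            + 250 * ρ z ^ 2 * (G z ^ 2 / c.W t z.2) := by ring
      _ ≤ _ := by
          gcongr ?_ * _ + 250 * ?_ * _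
          · linarith
          · exact sq_le_sq' (abs_le.1 (hρB z)).1 (abs_le.1 (hρB z)).2
  · simp [indicator_of_notMem hz, hρR z hz]

theorem bxCacc_poinc {Pe : ℕ} (hPe : c.Pe = Pe) {t : ℝ} (ht0 : 0 < t) {s' : ℝ} (hs' : s' ≤ 1)
    {w ρ : ℝ × ℝ → ℝ} {B : ℝ} (hw : ContDiff ℝ ∞ w) (hρ : ContDiff ℝ ∞ ρ)
    (hρR : ∀ z, z ∉ c.rect t s' → ρ z = 0) (hρB : ∀ z, |dY ρ z| ≤ B)
    (hρy : ∀ z, |z.2| < t / 4 → dY ρ z = 0) :
    ∫ z, ρ z ^ 2 * w z ^ 2 ≤ 32 * t ^ 2 * ((∫ z, ρ z ^ 2 * dY w z ^ 2) +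
      16 * (t⁻¹) ^ 2 * (t⁻¹) ^ (2 * Pe) * B ^ 2 * ∫ z in c.rect t s', c.W t z.2 * w z ^ 2) := by
  have hRc : IsCompact (c.rect t s') := c.bxRect_isCompact t s'
  generalize hK : 16 * (t⁻¹) ^ 2 * (t⁻¹) ^ (2 * Pe) = K
  have hK0 : 0 ≤ K := by rw [← hK]; positivity
  have hwc := hw.continuous
  have ia : Integrable fun z => ρ z ^ 2 * dY w z ^ 2 :=
    bxIntegrable_sq hRc hρ.continuous ((bxSmooth_dY hw).continuous.pow 2) hρR
  have iI : Integrable ((c.rect t s').indicator fun v => c.W t v.2 * w v ^ 2) :=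
    bxIntegrable_ind hRc ((c.bxW_continuous t).mul (hwc.pow 2))
  have hpw : ∀ z, dY (fun v => ρ v * w v) z ^ 2 ≤ 2 * (ρ z ^ 2 * dY w z ^ 2)
      + 2 * (K * B ^ 2) * (c.rect t s').indicator (fun v => c.W t v.2 * w v ^ 2) z := by
    intro z
    rw [dY_mul (hρ.differentiable (by simp) z) (hw.differentiable (by simp) z)]
    by_cases hz : z ∈ c.rect t s'
    · rw [indicator_of_mem hz]
      have h2 : dY ρ z ^ 2 * w z ^ 2 ≤ K * B ^ 2 * (c.W t z.2 * w z ^ 2) := by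
        rcases lt_or_ge |z.2| (t / 4) with h | h
        · rw [hρy z h]
          have := c.bxW_pos ht0 z.2
          simp; positivity
        · have h1 := c.bxW_far ht0 hPe h
          rw [hK] at h1
          calc dY ρ z ^ 2 * w z ^ 2 ≤ B ^ 2 * w z ^ 2 := by
                gcongr ?_ * _
                exact sq_le_sq' (abs_le.1 (hρB z)).1 (abs_le.1 (hρB z)).2
            _ ≤ B ^ 2 * w z ^ 2 * (K * c.W t z.2) := le_mul_of_one_le_right (by positivity) h1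
            _ = _ := by ring
      linarith [add_sq_le (a := dY ρ z * w z) (b := ρ z * dY w z), mul_pow (dY ρ z) (w z) 2,
        mul_pow (ρ z) (dY w z) 2]
    · simp [indicator_of_notMem hz, hρR z hz, dY_eq_zero_off hRc.isClosed hρR hz]
  have hf : ContDiff ℝ ∞ fun v => ρ v * w v := hρ.mul hw
  have hfs : HasCompactSupport fun v => ρ v * w v :=
    HasCompactSupport.intro hRc fun z hz => by simp [hρR z hz]
  have hp := poincare_dY (hf.of_le (by simp)) hfs (Y := 2 * t) fun v hv => by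
    simp [hρR v fun h => by linarith [(c.bxRect_mono ht0.le hs' h).2]]
  have hdc : Continuous fun z => dY (fun v => ρ v * w v) z ^ 2 :=
    (bxSmooth_dY hf).continuous.pow 2
  have id2 : Integrable fun z => dY (fun v => ρ v * w v) z ^ 2 :=
    hdc.integrable_of_hasCompactSupport (HasCompactSupport.intro hRc fun z hz => by
      simp [dY_eq_zero_off (f := fun v => ρ v * w v) hRc.isClosed
        (fun v hv => by simp [hρR v hv]) hz])
  have isum : Integrable fun z => 2 * (ρ z ^ 2 * dY w z ^ 2)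
      + 2 * (K * B ^ 2) * (c.rect t s').indicator (fun v => c.W t v.2 * w v ^ 2) z :=
    (ia.const_mul 2).add (iI.const_mul (2 * (K * B ^ 2)))
  have h3 : ∫ z, dY (fun v => ρ v * w v) z ^ 2 ≤
      ∫ z, (2 * (ρ z ^ 2 * dY w z ^ 2)
      + 2 * (K * B ^ 2) * (c.rect t s').indicator (fun v => c.W t v.2 * w v ^ 2) z) :=
    integral_mono id2 isum hpw
  rw [integral_add (ia.const_mul _) (iI.const_mul _), integral_const_mul, integral_const_mul,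
    integral_indicator hRc.measurableSet] at h3
  simp only [mul_pow] at hp
  refine hp.trans ((mul_le_mul_of_nonneg_left h3 (by positivity)).trans_eq ?_)
  ring

/-- Caccioppoli's inequality with a cut-off vanishing on the core. -/
theorem cacc_gen (Pe : ℕ) : ∃ N : ℕ, ∀ c : Par, c.Pe = Pe → 40 ≤ c.Pe →
    ∀ s' : ℝ, s' ≤ 1 → ∀ᶠ t in 𝓝[>] (0 : ℝ),
    ∀ K1 K2 B1 B0 w G ρ : ℝ × ℝ → ℝ, c.CoefBd t K1 K2 B1 B0 → ContDiff ℝ ∞ w → Continuous G →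
      ContDiff ℝ ∞ ρ → (∀ z, z ∉ c.rect t s' → ρ z = 0) → (∀ z ∈ c.core t, ρ z = 0) →
      (∀ z, |ρ z| ≤ (t⁻¹) ^ 5 ∧ |dX ρ z| ≤ (t⁻¹) ^ 5 ∧ |dY ρ z| ≤ (t⁻¹) ^ 5 ∧
        |dX (dX ρ) z| ≤ (t⁻¹) ^ 5 ∧ |dY (dY ρ) z| ≤ (t⁻¹) ^ 5) →
      (∀ z, |z.2| < t / 4 → dY ρ z = 0 ∧ dY (dY ρ) z = 0) →
      (∀ z ∈ c.rect t s', z ∉ c.core t → |opL K1 K2 B1 B0 w z| ≤
        c.om t z.2 * c.sA t * (t⁻¹) ^ 10 * |w z| + G z) →
      ∫ z, ρ z ^ 2 * (dY w z ^ 2 + c.W t z.2 * dX w z ^ 2 + w z ^ 2) ≤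
        (t⁻¹) ^ N * ((∫ z in c.rect t s', c.W t z.2 * w z ^ 2) +
          ∫ z in c.rect t s', G z ^ 2 / c.W t z.2) := by
  refine ⟨2 * Pe + 16, fun c hPe h40 s' hs' => ?_⟩
  filter_upwards [bxSmall_eventually (show (0 : ℝ) < 1 / 256 by norm_num),
    bxInv_eventually 200] with t ht hT200
  intro K1 K2 B1 B0 w G ρ hC hw hG hρ hρR hρcore hρB hρy hL
  obtain ⟨ht0, ht256⟩ := ht
  obtain ⟨W, hWs, hWsupp, hWe⟩ := c.bxSubst ht0 hw
  have hRc : IsCompact (c.rect t s') := c.bxRect_isCompact t s'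
  have hlow := c.bxCacc_low hPe h40 ht0 ht256 hs' hC hρ hρR hρcore hρB hρy hWe
  have hup := c.bxCacc_up h40 ht0 (by linarith) hs' hρR hρcore (fun z => (hρB z).1) hWe hL
  have hpo := c.bxCacc_poinc hPe ht0 hs' hw hρ hρR (fun z => (hρB z).2.2.1)
    (fun z h => (hρy z h).1)
  have hid := bxMult_integral 0 (ζ := fun _ => 0) (lam := fun v => -ρ v ^ 2) (B1 := B1) (B0 := B0)
    contDiff_const (hρ.pow 2).neg hC.sm1 hC.sm2 hC.ct1 hC.ct0 hWs hWsupp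
  have hWc := c.bxW_continuous t
  have hWpos : ∀ z : ℝ × ℝ, 0 < c.W t z.2 := fun z => c.bxW_pos ht0 _
  have hwc := hw.continuous
  have hρc := hρ.continuous
  have ia : Integrable fun z => ρ z ^ 2 * dY w z ^ 2 :=
    bxIntegrable_sq hRc hρc ((bxSmooth_dY hw).continuous.pow 2) hρR
  have ib : Integrable fun z => ρ z ^ 2 * (c.W t z.2 * dX w z ^ 2) :=
    bxIntegrable_sq hRc hρc (hWc.mul ((bxSmooth_dX hw).continuous.pow 2)) hρR
  have iq : Integrable fun z => ρ z ^ 2 * w z ^ 2 := bxIntegrable_sq hRc hρc (hwc.pow 2) hρR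
  have iI : Integrable ((c.rect t s').indicator fun v => c.W t v.2 * w v ^ 2) :=
    bxIntegrable_ind hRc (hWc.mul (hwc.pow 2))
  have iJ : Integrable ((c.rect t s').indicator fun v => G v ^ 2 / c.W t v.2) :=
    bxIntegrable_ind hRc ((hG.pow 2).div hWc fun v => (hWpos v).ne')
  have := hC.ct1
  have := hC.ct0
  have := hC.sm1.continuous
  have := hC.sm2.continuous
  have hl : ContDiff ℝ ∞ fun v => -ρ v ^ 2 := (hρ.pow 2).neg
  have := hWs.continuous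
  have := (bxSmooth_dX hWs).continuous
  have := (bxSmooth_dY hWs).continuous
  have iquad : Integrable (quadQ 0 (fun _ => 0) (fun v => -ρ v ^ 2) K1 K2 B1 B0 W) := by
    have := (bxSmooth_dX (hC.sm1.mul hl)).continuous
    have := (bxSmooth_dY (bxSmooth_dY hl)).continuous
    have := (bxSmooth_dX (bxSmooth_dX (hl.mul hC.sm2))).continuous
    have := hl.continuous
    refine Continuous.integrable_of_hasCompactSupport ?_
      (HasCompactSupport.intro hWsupp fun z hz => ?_)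
    · unfold quadQ cYY cPP cYP c0Y c00
      simp only [dY_const, zero_mul, mul_zero, dX_const]
      fun_prop
    · have h := notMem_tsupport_iff_eventuallyEq.1 hz
      have h1 : fderiv ℝ W z = 0 := by rw [h.fderiv_eq]; simp
      simp [quadQ, dX, dY, h.eq_of_nhds, h1]
  have imul : Integrable fun z =>
      multM 0 (fun _ => 0) (fun v => -ρ v ^ 2) W z * opL K1 K2 B1 B0 W z := by
    have := (bxSmooth_dX (bxSmooth_dX hWs)).continuous
    have := (bxSmooth_dY (bxSmooth_dX hWs)).continuous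
    have := (bxSmooth_dY (bxSmooth_dY hWs)).continuous
    refine Continuous.integrable_of_hasCompactSupport (by unfold multM opL; fun_prop)
      (HasCompactSupport.intro hRc fun z hz => ?_)
    simp [multM, hρR z hz]
  have h2 := integral_mono imul
    ((iq.const_mul (2 + (t⁻¹) ^ 2 / 1000)).add (iJ.const_mul (250 * ((t⁻¹) ^ 5) ^ 2))) hup
  simp only [Pi.add_apply] at h2
  rw [integral_add (iq.const_mul _) (iJ.const_mul _), integral_const_mul, integral_const_mul,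
    integral_indicator hRc.measurableSet] at h2
  have i1 : Integrable fun z =>
      ρ z ^ 2 * dY w z ^ 2 / 2 + ρ z ^ 2 * (c.W t z.2 * dX w z ^ 2) / 64 :=
    (ia.div_const 2).add (ib.div_const 64)
  have i2 : Integrable fun z => ρ z ^ 2 * dY w z ^ 2 / 2
      + ρ z ^ 2 * (c.W t z.2 * dX w z ^ 2) / 64 - ρ z ^ 2 * w z ^ 2 := i1.sub iq
  have h1 := integral_mono (i2.sub (iI.const_mul
      (((t⁻¹) ^ 5) ^ 2 * (64 + 32 * (t⁻¹) ^ 2 * (t⁻¹) ^ (2 * Pe) + 8 * (t⁻¹) ^ 3)))) iquad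
    fun z => le_trans (le_of_eq (by simp only [Pi.sub_apply]; ring)) (hlow z)
  simp only [Pi.sub_apply] at h1
  rw [hid, integral_sub i2 (iI.const_mul _), integral_sub i1 iq,
    integral_add (ia.div_const 2) (ib.div_const 64), integral_div, integral_div,
    integral_const_mul, integral_indicator hRc.measurableSet] at h1
  have eL : ∫ z, ρ z ^ 2 * (dY w z ^ 2 + c.W t z.2 * dX w z ^ 2 + w z ^ 2)
      = (∫ z, ρ z ^ 2 * dY w z ^ 2) + (∫ z, ρ z ^ 2 * (c.W t z.2 * dX w z ^ 2))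
        + ∫ z, ρ z ^ 2 * w z ^ 2 := by
    simp only [mul_add]
    rw [integral_add (f := fun z => ρ z ^ 2 * dY w z ^ 2 + ρ z ^ 2 * (c.W t z.2 * dX w z ^ 2))
      (ia.add ib) iq, integral_add ia ib]
  have hT1 : 1 ≤ t⁻¹ := by linarith
  have hS : 1 ≤ (t⁻¹) ^ (2 * Pe) := one_le_pow₀ hT1
  have hM : ((t⁻¹) ^ 5) ^ 2 * (64 + 32 * (t⁻¹) ^ 2 * (t⁻¹) ^ (2 * Pe) + 8 * (t⁻¹) ^ 3)
      ≤ 104 * t⁻¹ * ((t⁻¹) ^ 2 * (t⁻¹) ^ (2 * Pe) * ((t⁻¹) ^ 5) ^ 2) := by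
    generalize t⁻¹ = T at hS hT1 ⊢
    generalize T ^ (2 * Pe) = S at hS ⊢
    have hTS : 1 ≤ T ^ 2 * S := one_le_mul_of_one_le_of_one_le (one_le_pow₀ hT1) hS
    have a1 : (1 : ℝ) ≤ T * (T ^ 2 * S) := one_le_mul_of_one_le_of_one_le hT1 hTS
    have a2 : T ^ 2 * S ≤ T * (T ^ 2 * S) := le_mul_of_one_le_left (by positivity) hT1
    have a3 : T ^ 3 ≤ T * (T ^ 2 * S) := by
      calc T ^ 3 = T * (T ^ 2 * 1) := by ring
        _ ≤ _ := by gcongr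
    have h1 : (64 : ℝ) + 32 * T ^ 2 * S + 8 * T ^ 3 ≤ 104 * T * (T ^ 2 * S) := by linarith
    exact (mul_le_mul_of_nonneg_left h1 (sq_nonneg (T ^ 5))).trans_eq (by ring)
  rw [eL]
  refine (bxCacc_final (mul_inv_cancel₀ ht0.ne') ht0 ht256 hT200 hS hM
    (setIntegral_nonneg hRc.measurableSet fun z _ => mul_nonneg (hWpos z).le (sq_nonneg _))
    (setIntegral_nonneg hRc.measurableSet fun z _ => div_nonneg (sq_nonneg _) (hWpos z).le)
    (integral_nonneg fun z => mul_nonneg (sq_nonneg _) (sq_nonneg _))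
    (integral_nonneg fun z => mul_nonneg (sq_nonneg _) (mul_nonneg (hWpos z).le (sq_nonneg _)))
    (integral_nonneg fun z => mul_nonneg (sq_nonneg _) (sq_nonneg _))
    (h1.trans h2) hpo).trans_eq ?_
  ring

end Par

end Vale.Agent.P229
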