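import Vale.Agent.P229.BoxCoefBd

/-!
# P229: the hypotheses of the linear estimates hold for the coefficients
-/

open scoped ContDiff Topology
open Set Filter

namespace Vale.Agent.P229

open BoxEq

theorem bxD_bound {K : ℝ} (hK : 1 ≤ K) {g : J8 → ℝ} (hg : ∀ J ∈ jetDom, ContDiffAt ℝ ∞ g J) :
    ∃ R : ℝ, 1 ≤ R ∧ ∀ J, |dUP (cutJ K g) J| ≤ R ∧ |dUY (cutJ K g) J| ≤ R := by
  obtain ⟨C, hC1, hC⟩ := bxCutJ_bound hK hg 1
  refine ⟨C, hC1, fun J => ?_⟩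
  have h := hC 1 le_rfl J
  rw [norm_iteratedFDeriv_one] at h
  have n : ∀ k : Fin 8, |fderiv ℝ (cutJ K g) J (Pi.single k 1)| ≤ C := fun k => by
    rw [← Real.norm_eq_abs]
    refine ((fderiv ℝ (cutJ K g) J).le_opNorm _).trans ?_
    rw [Pi.norm_single]; simpa using h
  exact ⟨n 3, n 2⟩

theorem bxProd_derivs {F u G : ℝ × ℝ → ℝ} (hF : ContDiff ℝ ∞ F) (hu : ContDiff ℝ ∞ u)
    (hG : ContDiff ℝ ∞ G) (z : ℝ × ℝ) :
    dX (fun w => F (pt u w) * G w) z = dX F (pt u z) * dX u z * G z + F (pt u z) * dX G z ∧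
    dX (dX (fun w => F (pt u w) * G w)) z =
      (dX (dX F) (pt u z) * dX u z * dX u z + dX F (pt u z) * dX (dX u) z) * G z
        + 2 * (dX F (pt u z) * dX u z * dX G z) + F (pt u z) * dX (dX G) z := by
  have d : ∀ {f : ℝ × ℝ → ℝ}, ContDiff ℝ ∞ f → ∀ w, DifferentiableAt ℝ f w := fun hf w =>
    hf.differentiable (by simp) w
  have hFp := bxPt_smooth hF hu
  have hFX := bxPt_smooth (bxSmooth_dX hF) hu
  have e1 : dX (fun w => F (pt u w) * G w) =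
      fun w => dX F (pt u w) * dX u w * G w + F (pt u w) * dX G w := funext fun w => by
    rw [dX_mul (d hFp w) (d hG w), congr_fun (bxDX_pt hF hu) w]
  refine ⟨congr_fun e1 z, ?_⟩
  rw [e1, dX_add (d ((hFX.mul (bxSmooth_dX hu)).mul hG) z) (d (hFp.mul (bxSmooth_dX hG)) z),
    dX_mul (d (hFX.mul (bxSmooth_dX hu)) z) (d hG z),
    dX_mul (d hFX z) (d (bxSmooth_dX hu) z), dX_mul (d hFp z) (d (bxSmooth_dX hG) z),
    congr_fun (bxDX_pt (bxSmooth_dX hF) hu) z, congr_fun (bxDX_pt hF hu) z]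
  ring

theorem bxK_arith {k kx kxx p pp G G1 G2 K Rg A B C : ℝ} (hK : 1 ≤ K) (hR : 1 ≤ Rg)
    (hk : |k| ≤ A) (hkx : |kx| ≤ B) (hkxx : |kxx| ≤ C) (hp : |p| ≤ K) (hpp : |pp| ≤ K)
    (hG : |G| ≤ Rg) (hG1 : |G1| ≤ Rg) (hG2 : |G2| ≤ Rg) (hAB : A ≤ B) (hBC : B ≤ C) :
    |kx * p * G + k * G1| ≤ 2 * K ^ 2 * Rg * B ∧
    |(kxx * p * p + kx * pp) * G + 2 * (kx * p * G1) + k * G2| ≤ 5 * K ^ 2 * Rg * C := by
  have hA : 0 ≤ A := (abs_nonneg k).trans hk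
  have hB : 0 ≤ B := hA.trans hAB
  have hC : 0 ≤ C := hB.trans hBC
  have hK2 : K ≤ K ^ 2 := le_self_pow₀ hK two_ne_zero
  have hK21 : 1 ≤ K ^ 2 := one_le_pow₀ hK
  constructor
  · refine (abs_add_le _ _).trans ?_
    rw [abs_mul, abs_mul, abs_mul]
    calc |kx| * |p| * |G| + |k| * |G1| ≤ B * K ^ 2 * Rg + B * K ^ 2 * Rg := by
          refine add_le_add (mul_le_mul (mul_le_mul hkx (hp.trans hK2) (abs_nonneg _) hB) hG
            (abs_nonneg _) (by positivity)) ?_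
          exact (mul_le_mul (hk.trans hAB) hG1 (abs_nonneg _) hB).trans
            (mul_le_mul_of_nonneg_right (le_mul_of_one_le_right hB hK21) (by linarith))
      _ = _ := by ring
  · refine (abs_add_three _ _ _).trans ?_
    rw [abs_mul, abs_mul, abs_mul, abs_mul, abs_mul, abs_two]
    have a1 : |kxx * p * p + kx * pp| ≤ 2 * K ^ 2 * C := by
      refine (abs_add_le _ _).trans ?_
      rw [abs_mul, abs_mul, abs_mul]
      calc |kxx| * |p| * |p| + |kx| * |pp| ≤ C * K * K + C * K ^ 2 := by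
            gcongr
            · exact hkx.trans hBC
            · exact hpp.trans hK2
        _ = _ := by ring
    calc |kxx * p * p + kx * pp| * |G| + 2 * (|kx| * |p| * |G1|) + |k| * |G2|
        ≤ 2 * K ^ 2 * C * Rg + 2 * (C * K ^ 2 * Rg) + C * K ^ 2 * Rg := by
          refine add_le_add (add_le_add (mul_le_mul a1 hG (abs_nonneg _) (by positivity)) ?_) ?_
          · refine mul_le_mul_of_nonneg_left ?_ zero_le_two
            exact mul_le_mul (mul_le_mul (hkx.trans hBC) (hp.trans hK2) (abs_nonneg _) hC) hG1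
              (abs_nonneg _) (by positivity)
          · exact (mul_le_mul (hk.trans (hAB.trans hBC)) hG2 (abs_nonneg _) hC).trans
              (mul_le_mul_of_nonneg_right (le_mul_of_one_le_right hC hK21) (by linarith))
      _ = _ := by ring

theorem bxFive {a b c d e x y z v w B R : ℝ} (ha : |a| ≤ B) (hb : |b| ≤ B) (hc : |c| ≤ B)
    (hd : |d| ≤ B) (he : |e| ≤ B) (hx : |x| ≤ R) (hy : |y| ≤ R) (hz : |z| ≤ R) (hv : |v| ≤ R)
    (hw : |w| ≤ R) : |a * x + b * y + c * z + d * v + e * w| ≤ 5 * B * R := by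
  have m : ∀ {p q : ℝ}, |p| ≤ B → |q| ≤ R → |p * q| ≤ B * R := fun hp hq => by
    rw [abs_mul]; exact mul_le_mul hp hq (abs_nonneg _) ((abs_nonneg _).trans hp)
  refine (abs_add_le _ _).trans ?_
  have h1 := abs_add_le (a * x + b * y + c * z) (d * v)
  have h2 := abs_add_three (a * x) (b * y) (c * z)
  linarith [m ha hx, m hb hy, m hc hz, m hd hv, m he hw]

namespace Par

variable (c : Par)

theorem bumpSet_core : ∀ᶠ t in 𝓝[>] (0 : ℝ), c.bumpSet t ⊆ c.core t := by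
  have hPQ := c.Pe_le
  filter_upwards [bxEv_pos, bxEv_small (2 * c.K * (c.K + 1)) c.bxpOut_pos,
    bxEv_small 2 (show (0 : ℝ) < 1 / 4 by norm_num)] with t ⟨ht, ht1⟩ h1 h2 z hz
  have hδ : c.δ t ≤ t * t := by
    calc c.δ t ≤ 1 * t ^ (2 * c.Qe - c.Pe) :=
          mul_le_mul_of_nonneg_right c.bxc1_le (by positivity)
      _ ≤ t ^ 2 := by rw [one_mul]; exact pow_le_pow_of_le_one ht.le ht1 (by omega)
      _ = t * t := pow_two t
  have hK := c.one_le_K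
  refine ⟨hz.1.trans ?_, hz.2.trans ?_⟩
  · calc 2 * c.K * (c.K + 1) * c.δ t ≤ 2 * c.K * (c.K + 1) * (t * t) := by gcongr
      _ = 2 * c.K * (c.K + 1) * t * t := by ring
      _ ≤ c.pOut * t := by gcongr
  · calc 2 * c.δ t ≤ 2 * (t * t) := by gcongr
      _ = 2 * t * t := by ring
      _ ≤ 1 / 4 * t := by gcongr
      _ = t / 4 := by ring

theorem k_split (t : ℝ) (p : ℝ × ℝ) :
    dX (kbar (c.beta t)) p = dX (kbar (c.betaBg t)) p + dX (kbar (c.betaF t)) p ∧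
    dX (dX (kbar (c.beta t))) p =
      dX (dX (kbar (c.betaBg t))) p + dX (dX (kbar (c.betaF t))) p := by
  obtain ⟨-, -, -, e, -⟩ := c.pert_split t
  rw [e]
  exact ⟨rfl, congr_fun (bxDX_addF (bxSmooth_dX (bxSmooth_kbar (c.contDiff_betaBg t)))
    (bxSmooth_dX (bxSmooth_kbar (c.contDiff_betaF t)))) p⟩

theorem k_basic (hP : 4 ≤ c.Pe) (hj : 12 ≤ c.j) (hQ : 4 ≤ c.Qe) :
    ∃ R : ℝ, 1 ≤ R ∧ ∀ᶠ t in 𝓝[>] (0 : ℝ), ∀ u b : ℝ × ℝ → ℝ, c.Sol t u b → ∀ z ∈ c.rect t 1,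
      c.Pt t u z R ∧ |kbar (c.beta t) (pt u z)| ≤ 2 * c.W t z.2 ∧
      |dX (kbar (c.beta t)) (pt u z)| ≤ 2 * R * c.W t z.2 * t⁻¹ ∧
      |dX (dX (kbar (c.beta t))) (pt u z)| ≤ 2 * R * c.W t z.2 * t⁻¹ ^ 2 := by
  obtain ⟨R, hR, hpt⟩ := c.pt_bounds hP hj hQ
  refine ⟨R, hR, ?_⟩
  filter_upwards [bxEv_pos, hpt] with t ⟨ht, ht1⟩ hpt u b h z hz
  have hp := hpt u b h z hz
  have hW0 := c.W_pos ht z.2
  have hd := c.bxδ_pos ht
  have hd1' : c.δ t ≤ 1 := (c.bxδ_le ht ht1).trans ht1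
  have he := c.ε_pos ht
  have hT1 : (1 : ℝ) ≤ t⁻¹ := (one_le_inv₀ ht).2 ht1
  have hA1 : t * (c.sA t * c.W t z.2) ≤ c.W t z.2 := by
    rw [← mul_assoc]
    exact mul_le_of_le_one_left hW0.le
      (mul_le_one₀ ht1 (c.sA_pos ht).le (pow_le_one₀ ht.le ht1))
  have hf := hp.fsmall.trans hA1
  have hι : ∀ x : ℝ, 0 ≤ x → c.indB t z * x ≤ x := fun x hx =>
    mul_le_of_le_one_left hx (c.indB_le_one t z)
  have hd2 : c.ε t ≤ c.ε t / c.δ t ^ 2 :=
    le_div_self he.le (pow_pos hd 2) (pow_le_one₀ hd.le hd1')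
  have hd12 : c.ε t / c.δ t ≤ c.ε t / c.δ t ^ 2 :=
    div_le_div_of_nonneg_left he.le (pow_pos hd 2) (by
      calc c.δ t ^ 2 = c.δ t * c.δ t := pow_two _
        _ ≤ 1 * c.δ t := by gcongr
        _ = c.δ t := one_mul _)
  obtain ⟨s1, s2⟩ := c.k_split t (pt u z)
  have hRW : c.W t z.2 ≤ R * c.W t z.2 * t⁻¹ := by
    calc c.W t z.2 = 1 * c.W t z.2 * 1 := by ring
      _ ≤ R * c.W t z.2 * t⁻¹ := by gcongr
  have hRW2 : R * c.W t z.2 * t⁻¹ ≤ R * c.W t z.2 * t⁻¹ ^ 2 := by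
    gcongr; exact le_self_pow₀ hT1 two_ne_zero
  refine ⟨hp, ?_, ?_, ?_⟩
  · rw [c.kbar_beta]
    refine (abs_add_le _ _).trans ((add_le_add hp.kBg hp.kF).trans ?_)
    have := hι _ (by positivity : 0 ≤ R * c.ε t)
    have := mul_le_mul_of_nonneg_left hd2 (by linarith : 0 ≤ R)
    linarith
  · rw [s1]
    refine (abs_add_le _ _).trans ((add_le_add hp.kxBg hp.kxF).trans ?_)
    have := hι _ (by positivity : 0 ≤ R * (c.ε t / c.δ t))
    have := mul_le_mul_of_nonneg_left hd12 (by linarith : 0 ≤ R)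
    linarith
  · rw [s2]
    refine (abs_add_le _ _).trans ((add_le_add hp.kxxBg hp.kxxF).trans ?_)
    have := hι _ (by positivity : 0 ≤ R * (c.ε t / c.δ t ^ 2))
    linarith

/-- A coefficient with the factor `k`. -/
theorem K_bound (hP : 4 ≤ c.Pe) (hj : 12 ≤ c.j) (hQ : 4 ≤ c.Qe) {g : J8 → ℝ}
    (hg : ∀ J ∈ jetDom, ContDiffAt ℝ ∞ g J) :
    ∃ C : ℝ, 1 ≤ C ∧ ∀ᶠ t in 𝓝[>] (0 : ℝ), ∀ u b : ℝ × ℝ → ℝ, c.Sol t u b → ∀ z ∈ c.rect t 1,
      |kbar (c.beta t) (pt u z) * c.gAt t u b g z| ≤ C * c.W t z.2 ∧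
      |dX (fun w => kbar (c.beta t) (pt u w) * c.gAt t u b g w) z| ≤ C * c.W t z.2 * t⁻¹ ∧
      |dX (dX (fun w => kbar (c.beta t) (pt u w) * c.gAt t u b g w)) z| ≤
        C * c.W t z.2 * t⁻¹ ^ 2 := by
  have hK := c.one_le_K
  obtain ⟨R, hR, hk⟩ := c.k_basic hP hj hQ
  obtain ⟨Rg, hRg, hd⟩ := c.coef_deriv hP (by omega) hg
  refine ⟨2 * R * Rg * (5 * c.K ^ 2), one_le_mul_of_one_le_of_one_le
    (one_le_mul_of_one_le_of_one_le (by linarith) hRg) (by nlinarith), ?_⟩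
  filter_upwards [bxEv_pos, hk, hd] with t ⟨ht, ht1⟩ hk hd u b h z hz
  obtain ⟨g0, g1, -, g2⟩ := hd u b h z hz
  obtain ⟨-, bk, bkx, bkxx⟩ := hk u b h z hz
  obtain ⟨e1, e2⟩ := bxProd_derivs (bxSmooth_kbar (c.contDiff_beta t)) h.smu (gAt_smooth h hg) z
  have hW0 := c.W_pos ht z.2
  have hm := c.rect_sub_sq ht hz
  have hT1 : (1 : ℝ) ≤ t⁻¹ := (one_le_inv₀ ht).2 ht1
  have hp : |dX u z| ≤ c.K := (h.iter_bound hm 1 0 (by norm_num)).1 le_rfl
  have hpp : |dX (dX u) z| ≤ c.K := (h.iter_bound hm 2 0 (by norm_num)).1 (by norm_num)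
  have h2 : 2 * c.W t z.2 ≤ 2 * R * c.W t z.2 * t⁻¹ := by
    calc 2 * c.W t z.2 = 2 * 1 * c.W t z.2 * 1 := by ring
      _ ≤ _ := by gcongr
  have h3 : 2 * R * c.W t z.2 * t⁻¹ ≤ 2 * R * c.W t z.2 * t⁻¹ ^ 2 := by
    gcongr; exact le_self_pow₀ hT1 two_ne_zero
  obtain ⟨a1, a2⟩ := bxK_arith hK hRg bk bkx bkxx hp hpp g0 g1 g2 h2 h3
  refine ⟨?_, ?_, ?_⟩
  · rw [abs_mul]
    calc |kbar (c.beta t) (pt u z)| * |c.gAt t u b g z| ≤ 2 * c.W t z.2 * Rg := by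
          exact mul_le_mul bk g0 (abs_nonneg _) (by positivity)
      _ = 2 * 1 * Rg * 1 * c.W t z.2 := by ring
      _ ≤ _ := by gcongr; nlinarith
  · rw [e1]
    refine a1.trans ?_
    calc 2 * c.K ^ 2 * Rg * (2 * R * c.W t z.2 * t⁻¹)
        ≤ 5 * c.K ^ 2 * Rg * (2 * R * c.W t z.2 * t⁻¹) := by gcongr; linarith
      _ = _ := by ring
  · rw [e2]
    exact a2.trans (le_of_eq (by ring))

/-- The lower order coefficients. -/
theorem B_bound (hP : 4 ≤ c.Pe) (hj : 12 ≤ c.j) (hQ : 4 ≤ c.Qe) (i : ℕ) :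
    ∀ᶠ t in 𝓝[>] (0 : ℝ), ∀ u b : ℝ × ℝ → ℝ, c.Sol t u b → ∀ z ∈ c.rect t 1,
      |c.cB1 t u b i z| ≤ c.om t z.2 * c.sA t * t⁻¹ ^ 6 ∧
      |c.cB0 t u b i z| ≤ c.om t z.2 * c.sA t * t⁻¹ ^ 6 := by
  have hK := c.one_le_K
  obtain ⟨R, hR, hk⟩ := c.k_basic hP hj hQ
  obtain ⟨C1, hC1, hK1⟩ := c.K_bound hP hj hQ (g := a1v) fun J hJ => (bxSm_coef hJ).2.2.2.2.1
  obtain ⟨C2, hC2, hK2⟩ := c.K_bound hP hj hQ (g := a2v) fun J hJ => (bxSm_coef hJ).2.2.2.2.2.1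
  obtain ⟨D1, hD11, hD1⟩ := bxD_bound hK (g := a1v) fun J hJ => (bxSm_coef hJ).2.2.2.2.1
  obtain ⟨D2, hD21, hD2⟩ := bxD_bound hK (g := a2v) fun J hJ => (bxSm_coef hJ).2.2.2.2.2.1
  obtain ⟨E0, hE01, hE0⟩ := bxD_bound hK (g := g0v) fun J hJ => (bxSm_coef hJ).2.2.2.2.2.2.1
  obtain ⟨E1, hE11, hE1⟩ := bxD_bound hK (g := g1v) fun J hJ => (bxSm_coef hJ).2.2.2.2.2.2.2.1
  obtain ⟨E2, hE21, hE2⟩ := bxD_bound hK (g := g2v) fun J hJ => (bxSm_coef hJ).2.2.2.2.2.2.2.2.1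
  obtain ⟨E3, hE31, hE3⟩ := bxD_bound hK (g := g3v)
    fun J hJ => (bxSm_coef hJ).2.2.2.2.2.2.2.2.2.1
  obtain ⟨E4, hE41, hE4⟩ := bxD_bound hK (g := g4v)
    fun J hJ => (bxSm_coef hJ).2.2.2.2.2.2.2.2.2.2
  filter_upwards [bxEv_pos, hk, hK1, hK2, c.W_le_one (by omega),
    bxEv_T (4 * i * (C1 + C2) + 30 * c.K * (D1 + D2 + E0 + E1 + E2 + E3 + E4) + 4 * R + 8)]
    with t ⟨ht, ht1⟩ hk hK1 hK2 hW hT u b h z hz
  set Rg : ℝ := D1 + D2 + E0 + E1 + E2 + E3 + E4 with hRg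
  obtain ⟨hp, bk, -, -⟩ := hk u b h z hz
  obtain ⟨-, a1, -⟩ := hK1 u b h z hz
  obtain ⟨-, b1, -⟩ := hK2 u b h z hz
  have hm := c.rect_sub_sq ht hz
  have hpp : |dX (dX u) z| ≤ c.K := (h.iter_bound hm 2 0 (by norm_num)).1 (by norm_num)
  have hpy : |dX (dY u) z| ≤ c.K := (h.iter_bound hm 1 1 (by norm_num)).1 (by norm_num)
  obtain ⟨-, -, -, hW2⟩ := hW z.2 (c.rect_small ht.le le_rfl hz).2
  have hW0 := c.W_pos ht z.2
  have hwA : 0 ≤ c.om t z.2 * c.sA t := mul_nonneg (c.om_pos ht _).le (c.sA_pos ht).le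
  have hT1 : (1 : ℝ) ≤ t⁻¹ := (one_le_inv₀ ht).2 ht1
  have hiC : 0 ≤ 4 * (i : ℝ) * (C1 + C2) := by positivity
  have hRg0 : 7 ≤ Rg := by linarith
  have hKR : 0 ≤ 30 * c.K * Rg := by positivity
  set w : ℝ := c.om t z.2 * c.sA t * t⁻¹ ^ 3 with hw
  have hw0 : 0 ≤ w := by positivity
  have kB : |kbar (c.beta t) (pt u z)| ≤ 4 * w := by
    refine bk.trans ?_
    calc 2 * c.W t z.2 ≤ 2 * (c.om t z.2 * c.sA t * 2) * 1 := by
          rw [mul_one]; gcongr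
      _ ≤ 4 * (c.om t z.2 * c.sA t) * t⁻¹ ^ 3 := by
          rw [show 2 * (c.om t z.2 * c.sA t * 2) = 4 * (c.om t z.2 * c.sA t) by ring]
          gcongr; exact one_le_pow₀ hT1
      _ = 4 * w := by rw [hw]; ring
  have kxB : |dX (kbar (c.betaBg t)) (pt u z)| ≤ 4 * w := by
    refine hp.kxBg.trans ?_
    calc R * c.W t z.2 * t⁻¹ ≤ t⁻¹ * (c.om t z.2 * c.sA t * 2) * t⁻¹ := by
          gcongr; linarith
      _ = 2 * (c.om t z.2 * c.sA t) * t⁻¹ ^ 2 := by ring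
      _ ≤ 4 * (c.om t z.2 * c.sA t) * t⁻¹ ^ 3 := by gcongr <;> norm_num
      _ = 4 * w := by rw [hw]; ring
  have kyB : |dY (kbar (c.betaBg t)) (pt u z)| ≤ 4 * w := by
    refine hp.kyBg.trans ?_
    obtain ⟨-, o2⟩ := c.bxom_lower t z.2
    calc 2 * c.sA t ^ 2 * |z.2| = 2 * (c.sA t * |z.2| * c.sA t) * 1 := by ring
      _ ≤ 4 * (c.om t z.2 * c.sA t) * t⁻¹ ^ 3 := by
          refine mul_le_mul (mul_le_mul (by norm_num) (mul_le_mul_of_nonneg_right o2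
            (c.sA_pos ht).le) ?_ (by norm_num)) (one_le_pow₀ hT1) zero_le_one (by positivity)
          have := c.sA_pos ht
          positivity
      _ = 4 * w := by rw [hw]; ring
  have hsum : ∀ D : (J8 → ℝ) → J8 → ℝ, (∀ J, |D (cutJ c.K g0v) J| ≤ Rg) →
      (∀ J, |D (cutJ c.K g1v) J| ≤ Rg) → (∀ J, |D (cutJ c.K g2v) J| ≤ Rg) →
      (∀ J, |D (cutJ c.K g3v) J| ≤ Rg) → (∀ J, |D (cutJ c.K g4v) J| ≤ Rg) →
      |c.sumG t u b D z| ≤ 20 * w * Rg := fun D d0 d1 d2 d3 d4 => by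
    refine (bxFive (B := 4 * w) kB kxB kyB (hp.cx.trans (by linarith)) (hp.cy.trans (by linarith))
      (d0 _) (d1 _) (d2 _) (d3 _) (d4 _)).trans (le_of_eq (by ring))
  have hB : ∀ (I dK x1 x2 d1 d2 S : ℝ), 0 ≤ I → I ≤ 2 * i →
      |dK| ≤ (C1 + C2) * c.W t z.2 * t⁻¹ →
      |x1| ≤ c.K → |x2| ≤ c.K → |d1| ≤ Rg → |d2| ≤ Rg → |S| ≤ 20 * w * Rg →
      |I * dK + x1 * (kbar (c.beta t) (pt u z) * d1)
        + 2 * x2 * (kbar (c.beta t) (pt u z) * d2) + S| ≤ c.om t z.2 * c.sA t * t⁻¹ ^ 6 := by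
    intro I dK x1 x2 d1 d2 S hI hI2 hdK hx1 hx2 hd1 hd2 hS
    refine ((abs_add_le _ _).trans (add_le_add (abs_add_three _ _ _) hS)).trans ?_
    rw [abs_mul, abs_mul, abs_mul, abs_mul, abs_mul, abs_mul, abs_two, abs_of_nonneg hI]
    calc I * |dK| + |x1| * (|kbar (c.beta t) (pt u z)| * |d1|)
          + 2 * |x2| * (|kbar (c.beta t) (pt u z)| * |d2|) + 20 * w * Rg
        ≤ 2 * i * ((C1 + C2) * (c.om t z.2 * c.sA t * 2) * t⁻¹) + c.K * (4 * w * Rg)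
          + 2 * c.K * (4 * w * Rg) + 20 * w * Rg := by
          gcongr
          exact hdK.trans (by gcongr)
      _ ≤ 4 * i * (C1 + C2) * (c.om t z.2 * c.sA t) * t⁻¹ + 32 * c.K * Rg * w := by
          have := mul_le_mul_of_nonneg_right hK (by positivity : 0 ≤ 20 * w * Rg)
          linarith
      _ ≤ t⁻¹ * (c.om t z.2 * c.sA t) * t⁻¹ + 2 * t⁻¹ * w := by
          refine add_le_add (mul_le_mul_of_nonneg_right (mul_le_mul_of_nonneg_right
            (by linarith) hwA) (by positivity)) (mul_le_mul_of_nonneg_right (by linarith) hw0)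
      _ = c.om t z.2 * c.sA t * (t⁻¹ ^ 2 + 2 * t⁻¹ ^ 4) := by rw [hw]; ring
      _ ≤ c.om t z.2 * c.sA t * (t⁻¹ ^ 5 + t⁻¹ ^ 5) := by
          refine mul_le_mul_of_nonneg_left (add_le_add (pow_le_pow_right₀ hT1 (by norm_num)) ?_) hwA
          rw [pow_succ' t⁻¹ 4]; gcongr; linarith
      _ ≤ c.om t z.2 * c.sA t * t⁻¹ ^ 6 := by
          rw [← two_mul, pow_succ' t⁻¹ 5]; gcongr; linarith
  constructor
  · exact hB _ _ _ _ _ _ _ (by positivity) (by linarith [Nat.cast_nonneg (α := ℝ) i])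
      (b1.trans (by gcongr; linarith)) hpp hpy
      ((hD2 _).1.trans (by linarith)) ((hD1 _).1.trans (by linarith))
      (hsum dUP (fun J => (hE0 J).1.trans (by linarith)) (fun J => (hE1 J).1.trans (by linarith))
        (fun J => (hE2 J).1.trans (by linarith)) (fun J => (hE3 J).1.trans (by linarith))
        (fun J => (hE4 J).1.trans (by linarith)))
  · exact hB _ _ _ _ _ _ _ (by positivity) le_rfl (a1.trans (by gcongr; linarith)) hpp hpy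
      ((hD2 _).2.trans (by linarith)) ((hD1 _).2.trans (by linarith))
      (hsum dUY (fun J => (hE0 J).2.trans (by linarith)) (fun J => (hE1 J).2.trans (by linarith))
        (fun J => (hE2 J).2.trans (by linarith)) (fun J => (hE3 J).2.trans (by linarith))
        (fun J => (hE4 J).2.trans (by linarith)))

/-- The coefficient `a2` is near `1/4`. -/
theorem a2_near (hP : 4 ≤ c.Pe) (hj : 4 ≤ c.j) : ∃ C : ℝ, 0 ≤ C ∧ ∀ᶠ t in 𝓝[>] (0 : ℝ),
    ∀ u b : ℝ × ℝ → ℝ, c.Sol t u b → ∀ z ∈ c.rect t 1,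
      |c.gAt t u b a2v z - 1 / 4| ≤ C * (|z.1| + |z.2| + |c.beta t (pt u z)|) := by
  obtain ⟨C, hC0, hC⟩ := bxA2_near c.one_le_K
  refine ⟨C * (c.K + 1), mul_nonneg hC0 (by linarith [c.one_le_K]), ?_⟩
  filter_upwards [bxEv_pos, c.jet_mem (by omega) (by omega)] with t ⟨ht, _⟩ hjet u b h z hz
  have hjm := hjet u b h z hz
  have := hC _ hjm
  rw [gAt, (bxCutJ_eventually c.one_le_K a2v hjm).eq_of_nhds]
  have e4 : jetJ (c.beta t) u b z 4 - 1 = c.beta t (pt u z) := by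
    show 1 + c.beta t (pt u z) - 1 = _; ring
  rw [show jetJ (c.beta t) u b z 0 = z.1 from rfl, show jetJ (c.beta t) u b z 1 = b z from rfl,
    e4] at this
  refine this.trans ?_
  rw [mul_assoc]
  refine mul_le_mul_of_nonneg_left ?_ hC0
  have := (h.lipschitz ht hz).2
  have := c.one_le_K
  nlinarith [abs_nonneg z.1, abs_nonneg z.2, abs_nonneg (c.beta t (pt u z))]

/-- Outside the core `K2` is positive. -/
theorem K2_outer (hP : 4 ≤ c.Pe) (hj : 12 ≤ c.j) (hQ : c.Pe + 4 ≤ c.Qe) :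
    ∀ᶠ t in 𝓝[>] (0 : ℝ), ∀ u b : ℝ × ℝ → ℝ, c.Sol t u b → ∀ z ∈ c.rect t 1, z ∉ c.core t →
      c.W t z.2 / 16 ≤ c.cK2 t u b z := by
  obtain ⟨R, hR, hk⟩ := c.k_basic hP hj (by omega)
  obtain ⟨CA, hCA0, hA⟩ := c.a2_near hP (by omega)
  filter_upwards [bxEv_pos, hk, hA, c.bumpSet_core,
    c.pert_small (by omega) (by omega) (ν := 1 / (80 * (CA + 1))) (by positivity),
    bxEv_small (CA * (3 * c.pOut + 1)) (show (0 : ℝ) < 1 / 80 by norm_num),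
    bxEv_small 16 one_pos]
    with t ⟨ht, ht1⟩ hk hA hcore hsm hCt h16 u b h z hz hout
  obtain ⟨hp, -, -, -⟩ := hk u b h z hz
  have hm := c.rect_sub_sq ht hz
  have hnb : z ∉ c.bumpSet t := fun hb => hout (hcore hb)
  have hkF : kbar (c.betaF t) (pt u z) = 0 := by
    have := hp.kF
    rw [indB, indicator_of_notMem hnb, zero_mul, abs_nonpos_iff] at this
    exact this
  obtain ⟨-, -, f3, -, -⟩ := c.betaBg_formulas ht (h.mem z hm)
  have hW0 := c.W_pos ht z.2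
  have hkW : c.W t z.2 / 2 ≤ kbar (c.beta t) (pt u z) := by
    rw [c.kbar_beta, hkF, add_zero, f3]
    have hζ := (abs_le.1 (bxZeta0_abs ((pt u z).1 / c.L t))).2
    have hA2n : 0 ≤ c.sA t ^ 2 * z.2 ^ 2 := by positivity
    rcases Classical.em (c.pOut * t < |z.1|) with hP' | hP'
    · have hL : (0 : ℝ) < c.L t := mul_pos c.bxΓ1_pos ht
      rw [bxZeta0_neg_one (by
        rw [abs_div, abs_of_pos hL, le_div_iff₀ hL]
        exact h.off_core ht hz hP')]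
      simp only [pt, W] at *
      linarith [sq_nonneg (c.sa t)]
    · have hy : t / 4 < |z.2| := by
        by_contra hy
        exact hout ⟨not_lt.1 hP', not_lt.1 hy⟩
      have hsa : c.sa t ≤ c.sA t * (t / 16) := by
        have : c.sa t ≤ c.sA t * (t * t) := by
          unfold sa sA
          rw [← pow_two, ← pow_add]
          exact pow_le_pow_of_le_one ht.le ht1 (by omega)
        refine this.trans ?_
        gcongr
        · exact (c.sA_pos ht).le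
        · nlinarith
      have h2 : c.sa t ^ 2 ≤ c.sA t ^ 2 * (z.2 ^ 2 / 4) := by
        calc c.sa t ^ 2 ≤ (c.sA t * (t / 16)) ^ 2 :=
              pow_le_pow_left₀ (c.sa_pos ht).le hsa 2
          _ = c.sA t ^ 2 * ((t / 16) ^ 2) := by ring
          _ ≤ _ := by
            gcongr
            rw [← sq_abs z.2]
            nlinarith
      have h3 := mul_le_of_le_one_right (sq_nonneg (c.sa t)) hζ
      simp only [pt, W] at *
      linarith
  have hA5 : 1 / 5 ≤ c.gAt t u b a2v z := by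
    have := hA u b h z hz
    obtain ⟨z1, z2⟩ := c.rect_small ht.le le_rfl hz
    have hb' : CA * (|z.1| + |z.2|) ≤ 1 / 80 := by
      refine le_trans ?_ hCt
      rw [mul_assoc]
      exact mul_le_mul_of_nonneg_left (by linarith) hCA0
    have hb'' : CA * |c.beta t (pt u z)| ≤ 1 / 80 := by
      obtain ⟨s, -, -, -⟩ := hsm (pt u z)
      calc CA * |c.beta t (pt u z)| ≤ CA * (1 / (80 * (CA + 1))) := by gcongr
        _ ≤ 1 / 80 := by rw [mul_one_div, div_le_iff₀ (by positivity)]; linarith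
    linarith [(abs_le.1 this).1]
  calc c.W t z.2 / 16 ≤ c.W t z.2 / 2 * (1 / 5) := by linarith
    _ ≤ kbar (c.beta t) (pt u z) * c.gAt t u b a2v z := by
        gcongr
        exact le_trans (by linarith) hkW

theorem coef_bd (hP : 4 ≤ c.Pe) (hj : 12 ≤ c.j) (hQ : c.Pe + 4 ≤ c.Qe) (i : ℕ) :
    ∀ᶠ t in 𝓝[>] (0 : ℝ), ∀ u b : ℝ × ℝ → ℝ, c.Sol t u b →
      c.CoefBd t (c.cK1 t u b) (c.cK2 t u b) (c.cB1 t u b i) (c.cB0 t u b i) := by
  obtain ⟨C1, hC1, hK1⟩ := c.K_bound hP hj (by omega) (g := a1v)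
    fun J hJ => (bxSm_coef hJ).2.2.2.2.1
  obtain ⟨C2, hC2, hK2⟩ := c.K_bound hP hj (by omega) (g := a2v)
    fun J hJ => (bxSm_coef hJ).2.2.2.2.2.1
  filter_upwards [bxEv_pos, hK1, hK2, c.B_bound hP hj (by omega) i, c.K2_outer hP hj hQ,
    c.W_le_one (by omega), bxEv_T (2 * (C1 + C2))]
    with t ⟨ht, ht1⟩ hK1 hK2 hB hO hW hT u b h
  obtain ⟨sm1, sm2⟩ := bxK_smooth h
  obtain ⟨ct1, ct0⟩ := bxB_cont h i
  have hT1 : (1 : ℝ) ≤ t⁻¹ := (one_le_inv₀ ht).2 ht1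
  have key : ∀ z ∈ c.rect t 1, ∀ x C : ℝ, 0 ≤ C → C ≤ C1 + C2 → ∀ q ≤ 2,
      x ≤ C * c.W t z.2 * t⁻¹ ^ q →
      x ≤ c.om t z.2 * c.sA t * t⁻¹ ^ 6 ∧ x ≤ c.W t z.2 * t⁻¹ ^ 3 := by
    intro z hz x C hC hC' q hq hx
    have hwA : 0 ≤ c.om t z.2 * c.sA t := mul_nonneg (c.om_pos ht _).le (c.sA_pos ht).le
    obtain ⟨-, -, -, hW2⟩ := hW z.2 (c.rect_small ht.le le_rfl hz).2
    have hW0 := c.W_pos ht z.2
    have hq3 : t⁻¹ ^ q ≤ t⁻¹ ^ 2 := pow_le_pow_right₀ hT1 hq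
    constructor
    · refine hx.trans ?_
      calc C * c.W t z.2 * t⁻¹ ^ q ≤ C * (c.om t z.2 * c.sA t * 2) * t⁻¹ ^ 2 := by gcongr
        _ = c.om t z.2 * c.sA t * (2 * C * t⁻¹ ^ 2) := by ring
        _ ≤ c.om t z.2 * c.sA t * (t⁻¹ * t⁻¹ ^ 5) := by
            gcongr
            · linarith
            · norm_num
        _ = _ := by ring
    · refine hx.trans ?_
      calc C * c.W t z.2 * t⁻¹ ^ q = c.W t z.2 * (C * t⁻¹ ^ q) := by ring
        _ ≤ c.W t z.2 * (t⁻¹ * t⁻¹ ^ 2) := by gcongr; linarith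
        _ = _ := by ring
  refine ⟨sm1, sm2, ct1, ct0, fun z hz f hf => ?_, fun z hz => ?_, fun z hz hout => ?_⟩
  · obtain ⟨a0, a1, -⟩ := hK1 u b h z hz
    obtain ⟨b0, b1, b2⟩ := hK2 u b h z hz
    obtain ⟨B1b, B0b⟩ := hB u b h z hz
    simp only [List.mem_cons, List.not_mem_nil, or_false] at hf
    rcases hf with rfl | rfl | rfl | rfl | rfl | rfl | rfl
    · exact (key z hz _ C1 (by linarith) (by linarith) 0 (by norm_num) (by rw [pow_zero, mul_one]; exact a0)).1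
    · exact (key z hz _ C2 (by linarith) (by linarith) 0 (by norm_num) (by rw [pow_zero, mul_one]; exact b0)).1
    · exact B1b
    · exact B0b
    · exact (key z hz _ C1 (by linarith) (by linarith) 1 (by norm_num) (by rw [pow_one]; exact a1)).1
    · exact (key z hz _ C2 (by linarith) (by linarith) 1 (by norm_num) (by rw [pow_one]; exact b1)).1
    · exact (key z hz _ C2 (by linarith) (by linarith) 2 le_rfl b2).1
  · obtain ⟨a0, -, -⟩ := hK1 u b h z hz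
    obtain ⟨b0, -, -⟩ := hK2 u b h z hz
    have hW0 := c.W_pos ht z.2
    have : ∀ C, C ≤ C1 + C2 → 0 ≤ C → C * c.W t z.2 ≤ c.W t z.2 * t⁻¹ := fun C hC hC0 => by
      rw [mul_comm]; gcongr; linarith
    exact ⟨a0.trans (this C1 (by linarith) (by linarith)),
      b0.trans (this C2 (by linarith) (by linarith))⟩
  · obtain ⟨-, b1, b2⟩ := hK2 u b h z hz
    exact ⟨hO u b h z hz hout,
      (key z hz _ C2 (by linarith) (by linarith) 1 (by norm_num) (by rw [pow_one]; exact b1)).2,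
      (key z hz _ C2 (by linarith) (by linarith) 2 le_rfl b2).2⟩

end Par

end Vale.Agent.P229
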