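import Vale.Agent.P229.BoxPair
import Vale.Agent.P229.BoxCoefBd2

/-!
# P229: the coefficients near the centre
-/

open scoped ContDiff Topology
open Set Filter

namespace Vale.Agent.P229

open BoxEq

/-- First and second derivative of a product when the lens part of the first factor is constant. -/
theorem bxCent_arith {q kF kx kxx p pp g g1 g2 W f d d2 i R K G : ℝ}
    (hR : 1 ≤ R) (hK : 1 ≤ K) (hG : 1 ≤ G) (hi : 0 ≤ i) (hf : 0 ≤ f) (hfd : f ≤ d) (hdd : d ≤ d2)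
    (hq : |q| ≤ W) (hkF : |kF| ≤ i * (R * f)) (hkx : |kx| ≤ i * (R * d))
    (hkxx : |kxx| ≤ i * (R * d2)) (hp : |p| ≤ K) (hpp : |pp| ≤ K) (hg : |g| ≤ G) (hg1 : |g1| ≤ G)
    (hg2 : |g2| ≤ G) :
    |kx * p * g + (q + kF) * g1| ≤ 6 * R * K ^ 2 * G * (W + d * i) ∧
    |(kxx * p * p + kx * pp) * g + 2 * (kx * p * g1) + (q + kF) * g2| ≤
      6 * R * K ^ 2 * G * (W + d2 * i) := by
  have hW : 0 ≤ W := (abs_nonneg q).trans hq
  have hd : 0 ≤ d := hf.trans hfd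
  have hd2 : 0 ≤ d2 := hd.trans hdd
  have hK2 : K ≤ K ^ 2 := le_self_pow₀ hK two_ne_zero
  have hk : ∀ e, f ≤ e → |q + kF| ≤ R * K ^ 2 * (W + e * i) := fun e he => by
    refine (abs_add_le _ _).trans ?_
    calc |q| + |kF| ≤ 1 * 1 * W + i * (R * e) :=
          add_le_add (by rw [one_mul, one_mul]; exact hq) (hkF.trans (by gcongr))
      _ ≤ R * K ^ 2 * W + i * (R * e) * K ^ 2 := by
          refine add_le_add (by gcongr; exact one_le_pow₀ hK) ?_
          exact le_mul_of_one_le_right (by have := hf.trans he; positivity) (one_le_pow₀ hK)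
      _ = _ := by ring
  constructor
  · refine (abs_add_le _ _).trans ?_
    rw [abs_mul, abs_mul, abs_mul]
    calc |kx| * |p| * |g| + |q + kF| * |g1|
        ≤ i * (R * d) * K ^ 2 * G + R * K ^ 2 * (W + d * i) * G := by
          refine add_le_add ?_ (mul_le_mul (hk d hfd) hg1 (abs_nonneg _) (by positivity))
          gcongr; exact hp.trans hK2
      _ ≤ _ := by
          have : 0 ≤ R * K ^ 2 * G := by positivity
          nlinarith [mul_nonneg this hW, mul_nonneg this (mul_nonneg hd hi)]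
  · refine (abs_add_three _ _ _).trans ?_
    rw [abs_mul, abs_mul, abs_mul, abs_mul, abs_mul, abs_two]
    have a : |kxx * p * p + kx * pp| ≤ 2 * (i * (R * d2)) * K ^ 2 := by
      refine (abs_add_le _ _).trans ?_
      rw [abs_mul, abs_mul, abs_mul]
      calc |kxx| * |p| * |p| + |kx| * |pp| ≤ i * (R * d2) * K * K + i * (R * d2) * K ^ 2 := by
            gcongr
            · exact hkx.trans (by gcongr)
            · exact hpp.trans hK2
        _ = _ := by ring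
    calc |kxx * p * p + kx * pp| * |g| + 2 * (|kx| * |p| * |g1|) + |q + kF| * |g2|
        ≤ 2 * (i * (R * d2)) * K ^ 2 * G + 2 * (i * (R * d2) * K ^ 2 * G) +
            R * K ^ 2 * (W + d2 * i) * G := by
          refine add_le_add (add_le_add ?_ ?_) (mul_le_mul (hk d2 (hfd.trans hdd)) hg2
            (abs_nonneg _) (by positivity))
          · exact mul_le_mul a hg (abs_nonneg _) (by positivity)
          · refine mul_le_mul_of_nonneg_left ?_ zero_le_two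
            exact mul_le_mul (mul_le_mul (hkx.trans (by gcongr)) (hp.trans hK2) (abs_nonneg _)
              (by positivity)) hg1 (abs_nonneg _) (by positivity)
      _ ≤ _ := by
          have : 0 ≤ R * K ^ 2 * G := by positivity
          nlinarith [mul_nonneg this hW, mul_nonneg this (mul_nonneg hd2 hi)]

/-- The value of a coefficient near the centre. -/
theorem bxCent_value {q kF g W f i n β R G C B : ℝ} (hR : 1 ≤ R) (hC : 0 ≤ C) (hB : 1 ≤ B)
    (hf : 0 ≤ f) (hi : 0 ≤ i) (hn : 0 ≤ n) (hW1 : W ≤ 1) (hq : |q| ≤ W)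
    (hkF : |kF| ≤ i * (R * f)) (hg : |g| ≤ G) (hg' : |g - 1 / 4| ≤ C * (n + |β|))
    (hβ : |β| ≤ B * n + i * f) :
    |(q + kF) * g - q / 4| ≤ (R * G + C * (1 + B)) * (W * n + f * i) := by
  have hW : 0 ≤ W := (abs_nonneg q).trans hq
  have hG : 0 ≤ G := (abs_nonneg g).trans hg
  rw [show (q + kF) * g - q / 4 = kF * g + q * (g - 1 / 4) by ring]
  refine (abs_add_le _ _).trans ?_
  rw [abs_mul, abs_mul]
  calc |kF| * |g| + |q| * |g - 1 / 4| ≤ i * (R * f) * G + W * (C * (n + (B * n + i * f))) := by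
        refine add_le_add (mul_le_mul hkF hg (abs_nonneg _) (by positivity)) ?_
        exact mul_le_mul hq (hg'.trans (by gcongr)) (abs_nonneg _) hW
    _ = R * G * (f * i) + C * (1 + B) * (W * n) + C * W * (f * i) := by ring
    _ ≤ R * G * (f * i) + C * (1 + B) * (W * n) + C * (1 + B) * (f * i) := by
        gcongr ?_ + ?_
        · rfl
        · refine mul_le_mul_of_nonneg_right ?_ (by positivity)
          nlinarith
    _ ≤ _ := by nlinarith [mul_nonneg (mul_nonneg (by linarith : 0 ≤ R) hG) (mul_nonneg hW hn)]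

namespace Par

variable (c : Par)

theorem ind_eq_indB (t v : ℝ) (z : ℝ × ℝ) :
    (c.bumpSet t).indicator (fun _ => v) z = v * c.indB t z := by
  by_cases h : z ∈ c.bumpSet t <;> simp [indB, h]

theorem betaF_abs {t : ℝ} (ht : 0 < t) (ht1 : t ≤ 1) {u b : ℝ × ℝ → ℝ} (h : c.Sol t u b)
    {z : ℝ × ℝ} (hz : z ∈ c.rect t 1) : |c.betaF t (pt u z)| ≤ c.indB t z * c.ε t := by
  by_cases hb : z ∈ c.bumpSet t
  · have hd := c.bxδ_pos ht
    have hd1 : c.δ t ≤ 1 := (c.bxδ_le ht ht1).trans ht1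
    have he := c.ε_pos ht
    rw [c.indB_mem hb, one_mul, betaF, abs_mul, abs_mul, abs_mul, abs_pow, abs_of_pos hd,
      abs_of_pos he]
    calc c.ε t * c.δ t ^ 2 * (|phiB ((pt u z).1 / c.δ t)| * |phiB ((pt u z).2 / c.δ t)|)
        ≤ c.ε t * 1 * (1 * 1) := by
          gcongr
          · exact pow_le_one₀ hd.le hd1
          · exact bpPhiB_abs _
          · exact bpPhiB_abs _
      _ = c.ε t := by ring
  · rw [c.bxbetaF_support ht (h.off_bump ht hz hb), abs_zero]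
    exact mul_nonneg (c.indB_nonneg t z) (c.ε_pos ht).le

theorem betaBg_abs {t : ℝ} (ht : 0 < t) (ht1 : t ≤ 1) {B : ℝ} (hB : 1 ≤ B)
    (hBz : ∀ s, |zeta2 s| ≤ B * s ^ 2) {p : ℝ × ℝ} (hp : p ∈ sq (c.r t)) (hp2 : |p.2| ≤ 1) :
    |c.betaBg t p| ≤ 2 * B * p.1 ^ 2 := by
  rw [c.bxbetaBg_core ht (c.bxsq_core ht hp), bxSep]
  refine (abs_add_le _ _).trans ?_
  have hsA : c.sA t ^ 2 ≤ 1 := pow_le_one₀ (pow_nonneg ht.le _) (pow_le_one₀ ht.le ht1)
  have hsa : c.sa t ^ 2 ≤ 1 := pow_le_one₀ (pow_nonneg ht.le _) (pow_le_one₀ ht.le ht1)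
  have hy : p.2 ^ 2 ≤ 1 := (sq_le_one_iff_abs_le_one _).2 hp2
  have hL : (0 : ℝ) < c.L t := mul_pos c.bxΓ1_pos ht
  have h1 : |-(c.sA t ^ 2 / 2) * p.2 ^ 2 * p.1 ^ 2| ≤ B * p.1 ^ 2 := by
    rw [abs_mul, abs_mul, abs_neg, abs_of_nonneg (by positivity : 0 ≤ c.sA t ^ 2 / 2),
      abs_of_nonneg (sq_nonneg p.2), abs_of_nonneg (sq_nonneg p.1)]
    calc c.sA t ^ 2 / 2 * p.2 ^ 2 * p.1 ^ 2 ≤ 1 * 1 * p.1 ^ 2 := by gcongr; linarith
      _ ≤ B * p.1 ^ 2 := by rw [one_mul]; exact mul_le_mul_of_nonneg_right hB (sq_nonneg _)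
  have h2 : |c.sa t ^ 2 * c.L t ^ 2 * zeta2 (p.1 / c.L t)| ≤ B * p.1 ^ 2 := by
    rw [abs_mul, abs_of_nonneg (by positivity : 0 ≤ c.sa t ^ 2 * c.L t ^ 2)]
    calc c.sa t ^ 2 * c.L t ^ 2 * |zeta2 (p.1 / c.L t)|
        ≤ 1 * c.L t ^ 2 * (B * (p.1 / c.L t) ^ 2) := by
          gcongr
          exact hBz _
      _ = B * p.1 ^ 2 := by field_simp
  calc _ ≤ B * p.1 ^ 2 + B * p.1 ^ 2 := add_le_add h1 h2
    _ = _ := by ring

theorem kbar_cent {t : ℝ} (ht : 0 < t) {p : ℝ × ℝ} (hp : p ∈ sq (c.r t))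
    (hs : |p.1 / c.L t| < 1) :
    kbar (c.beta t) p = (c.sA t ^ 2 * p.2 ^ 2 - c.sa t ^ 2) + kbar (c.betaF t) p ∧
      dX (kbar (c.beta t)) p = dX (kbar (c.betaF t)) p ∧
      dX (dX (kbar (c.beta t))) p = dX (dX (kbar (c.betaF t))) p ∧
      |c.sA t ^ 2 * p.2 ^ 2 - c.sa t ^ 2| ≤ c.W t p.2 := by
  obtain ⟨-, -, f3, -, -⟩ := c.betaBg_formulas ht hp
  have hk0 : ∀ q : ℕ, dX^[q + 1] (kbar (c.betaBg t)) p = 0 := fun q => by
    rw [c.kBg_iter ht hp q, bxZeta0_iter_zero hs q]; simp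
  refine ⟨?_, ?_, ?_, ?_⟩
  · rw [c.kbar_beta, f3, bxZeta0_one hs.le, mul_one]
  · rw [(c.k_split t p).1, show dX (kbar (c.betaBg t)) p = 0 from hk0 0, zero_add]
  · rw [(c.k_split t p).2, show dX (dX (kbar (c.betaBg t))) p = 0 from hk0 1, zero_add]
  · rw [abs_le, W]
    constructor <;> nlinarith [sq_nonneg (c.sA t * p.2), sq_nonneg (c.sa t)]

/-- The coefficients near the centre. -/
theorem cent_bd : ∀ c : Par, 40 ≤ c.Pe → 12 ≤ c.j → ∀ μ : ℕ, 1 ≤ μ → c.Pe + 4 ≤ c.Qe →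
    ∀ᶠ t in 𝓝[>] (0 : ℝ), ∀ u b : ℝ × ℝ → ℝ, c.Sol t u b →
      c.CentBd t μ (c.cK1 t u b) (c.cK2 t u b) := by
  intro c hP hj μ _ hQ
  have hK := c.one_le_K
  have sa1 : ∀ J ∈ jetDom, ContDiffAt ℝ ∞ a1v J := fun J hJ => (bxSm_coef hJ).2.2.2.2.1
  have sa2 : ∀ J ∈ jetDom, ContDiffAt ℝ ∞ a2v J := fun J hJ => (bxSm_coef hJ).2.2.2.2.2.1
  obtain ⟨R, hR, hpt⟩ := c.pt_bounds (by omega) hj (by omega)
  obtain ⟨G1, hG1, hd1⟩ := c.coef_deriv (by omega) (by omega) sa1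
  obtain ⟨G2, hG2, hd2⟩ := c.coef_deriv (by omega) (by omega) sa2
  obtain ⟨CA, hCA, hA⟩ := c.a2_near (by omega) (by omega)
  obtain ⟨B, hB1, hBz, -⟩ := bxZeta_bound
  filter_upwards [bxEv_pos, hpt, hd1, hd2, hA, c.W_le_one (by omega),
    bxEv_small (c.K * 3) one_pos,
    bxEv_T (6 * R * c.K ^ 2 * G1 + 6 * R * c.K ^ 2 * G2 + (R * G2 + CA * (1 + 2 * B * c.K)))]
    with t ⟨ht, ht1⟩ hpt hd1 hd2 hA hW hu1 hT u b h
  refine ⟨fun z hz1 hz2 => ?_⟩
  have hym : c.ym t ≤ t := by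
    simpa [ym] using pow_le_pow_of_le_one ht.le ht1 (show 1 ≤ c.Qe - c.Pe by omega)
  have hwd : c.width t μ ≤ t :=
    (mul_le_of_le_one_right (pow_nonneg ht.le _) (pow_le_one₀ ht.le ht1)).trans hym
  have hp := c.bxpOut_ge
  have hpt2 : t ≤ c.pOut * t := le_mul_of_one_le_left ht.le hp
  have hz : z ∈ c.rect t 1 := ⟨by linarith, by linarith⟩
  obtain ⟨z1, z2⟩ := c.rect_small ht.le le_rfl hz
  have hm := c.rect_sub_sq ht hz
  have hmem := h.mem z hm
  have hu : |u z| ≤ c.K * (|z.1| + |z.2|) := (h.lipschitz ht hz).1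
  have hu3 : c.K * (|z.1| + |z.2|) ≤ c.K * 3 * t := by
    rw [mul_assoc]; exact mul_le_mul_of_nonneg_left (by linarith) (by linarith)
  have hL : (0 : ℝ) < c.L t := mul_pos c.bxΓ1_pos ht
  have hs : |u z / c.L t| < 1 := by
    rw [abs_div, abs_of_pos hL, div_lt_one hL]
    refine lt_of_le_of_lt (hu.trans hu3) ?_
    rw [L, bxΓ1_eq]
    exact mul_lt_mul_of_pos_right (by linarith) ht
  set q : ℝ := c.sA t ^ 2 * z.2 ^ 2 - c.sa t ^ 2 with hq
  obtain ⟨hk, hkx, hkxx, hqW⟩ :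
      kbar (c.beta t) (pt u z) = q + kbar (c.betaF t) (pt u z) ∧
        dX (kbar (c.beta t)) (pt u z) = dX (kbar (c.betaF t)) (pt u z) ∧
        dX (dX (kbar (c.beta t))) (pt u z) = dX (dX (kbar (c.betaF t))) (pt u z) ∧
        |q| ≤ c.W t z.2 := c.kbar_cent ht hmem (p := pt u z) hs
  obtain ⟨hW1, -, -, -⟩ := hW z.2 z2
  have P := hpt u b h z hz
  have hd := c.bxδ_pos ht
  have hd1' : c.δ t ≤ 1 := (c.bxδ_le ht ht1).trans ht1
  have he := c.ε_pos ht
  have i0 := c.indB_nonneg t z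
  have f1 : c.ε t ≤ c.ε t / c.δ t := le_div_self he.le hd hd1'
  have f2 : c.ε t / c.δ t ≤ c.ε t / c.δ t ^ 2 :=
    div_le_div_of_nonneg_left he.le (pow_pos hd 2) (pow_le_of_le_one hd.le hd1' two_ne_zero)
  have hup : |dX u z| ≤ c.K := (h.iter_bound hm 1 0 (by norm_num)).1 le_rfl
  have hupp : |dX (dX u) z| ≤ c.K := (h.iter_bound hm 2 0 (by norm_num)).1 (by norm_num)
  obtain ⟨a0, a1, -, a2⟩ := hd1 u b h z hz
  obtain ⟨b0, b1, -, b2⟩ := hd2 u b h z hz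
  have sk := bxSmooth_kbar (c.contDiff_beta t)
  obtain ⟨e1, -⟩ := bxProd_derivs sk h.smu (gAt_smooth h sa1) z
  obtain ⟨d1, d2⟩ := bxProd_derivs sk h.smu (gAt_smooth h sa2) z
  have A1 := bxCent_arith hR hK hG1 i0 he.le f1 f2 hqW P.kF P.kxF P.kxxF hup hupp a0 a1 a2
  have A2 := bxCent_arith hR hK hG2 i0 he.le f1 f2 hqW P.kF P.kxF P.kxxF hup hupp b0 b1 b2
  have hβ : |c.beta t (pt u z)| ≤ 2 * B * c.K * (|z.1| + |z.2|) + c.indB t z * c.ε t := by
    refine (abs_add_le _ _).trans (add_le_add ?_ (c.betaF_abs ht ht1 h hz))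
    refine (c.betaBg_abs ht ht1 hB1 hBz hmem (show |(pt u z).2| ≤ 1 from z2.trans ht1)).trans ?_
    show 2 * B * u z ^ 2 ≤ _
    have hu' : |u z| ≤ 1 := hu.trans (hu3.trans hu1)
    calc 2 * B * u z ^ 2 = 2 * B * (|u z| * |u z|) := by rw [← pow_two, sq_abs]
      _ ≤ 2 * B * (1 * (c.K * (|z.1| + |z.2|))) := by gcongr
      _ = _ := by ring
  have A0 := bxCent_value (g := c.gAt t u b a2v z) hR hCA (B := 2 * B * c.K)
    (one_le_mul_of_one_le_of_one_le (by linarith) hK) he.le i0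
    (by positivity : 0 ≤ |z.1| + |z.2|) hW1 hqW P.kF b0 (hA u b h z hz) hβ
  have hW0 := c.W_pos ht z.2
  have hi1 : (0 : ℝ) ≤ 6 * R * c.K ^ 2 * G1 := by positivity
  have hi2 : (0 : ℝ) ≤ 6 * R * c.K ^ 2 * G2 := by positivity
  have hi3 : (0 : ℝ) ≤ R * G2 + CA * (1 + 2 * B * c.K) := by positivity
  rw [c.ind_eq_indB, c.ind_eq_indB, c.ind_eq_indB, cK2_eq, cK1_eq, d2, d1, e1]
  beta_reduce
  rw [hk, hkx, hkxx]
  exact ⟨A0.trans (mul_le_mul_of_nonneg_right (by linarith) (by positivity)),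
    A2.1.trans (mul_le_mul_of_nonneg_right (by linarith) (by positivity)),
    A2.2.trans (mul_le_mul_of_nonneg_right (by linarith) (by positivity)),
    A1.1.trans (mul_le_mul_of_nonneg_right (by linarith) (by positivity))⟩

end Par

end Vale.Agent.P229
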