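import Vale.Agent.P229.BoxDeriv

/-!
# P229: the coefficients of the differentiated equation
-/

open scoped ContDiff Topology
open Set Filter

namespace Vale.Agent.P229

open BoxEq

namespace Par

variable (c : Par) (t : ℝ) (u b : ℝ × ℝ → ℝ)

/-- A coefficient along the solution. -/
noncomputable def gAt (g : J8 → ℝ) (z : ℝ × ℝ) : ℝ := cutJ c.K g (jetJ (c.beta t) u b z)

/-- Half the coefficient of `u_py`. -/
noncomputable def cK1 : ℝ × ℝ → ℝ :=
  termFun (kbar (c.beta t)) (cutJ c.K a1v) (c.beta t) u b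

/-- The coefficient of `u_pp`. -/
noncomputable def cK2 : ℝ × ℝ → ℝ :=
  termFun (kbar (c.beta t)) (cutJ c.K a2v) (c.beta t) u b

/-- The derivative of the smooth part of the lower order terms. -/
noncomputable def sumG (D : (J8 → ℝ) → J8 → ℝ) (z : ℝ × ℝ) : ℝ :=
  kbar (c.beta t) (pt u z) * D (cutJ c.K g0v) (jetJ (c.beta t) u b z)
    + dX (kbar (c.betaBg t)) (pt u z) * D (cutJ c.K g1v) (jetJ (c.beta t) u b z)
    + dY (kbar (c.betaBg t)) (pt u z) * D (cutJ c.K g2v) (jetJ (c.beta t) u b z)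
    + dX (c.beta t) (pt u z) * D (cutJ c.K g3v) (jetJ (c.beta t) u b z)
    + dY (c.beta t) (pt u z) * D (cutJ c.K g4v) (jetJ (c.beta t) u b z)

/-- The coefficient of `∂^{i+1} u`. -/
noncomputable def cB1 (i : ℕ) (z : ℝ × ℝ) : ℝ :=
  i * dX (c.cK2 t u b) z
    + dX (dX u) z * (kbar (c.beta t) (pt u z) * dUP (cutJ c.K a2v) (jetJ (c.beta t) u b z))
    + 2 * dX (dY u) z * (kbar (c.beta t) (pt u z) * dUP (cutJ c.K a1v) (jetJ (c.beta t) u b z))
    + c.sumG t u b dUP z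

/-- The coefficient of `∂^i u_y`. -/
noncomputable def cB0 (i : ℕ) (z : ℝ × ℝ) : ℝ :=
  2 * i * dX (c.cK1 t u b) z
    + dX (dX u) z * (kbar (c.beta t) (pt u z) * dUY (cutJ c.K a2v) (jetJ (c.beta t) u b z))
    + 2 * dX (dY u) z * (kbar (c.beta t) (pt u z) * dUY (cutJ c.K a1v) (jetJ (c.beta t) u b z))
    + c.sumG t u b dUY z

/-- The source of the bump. -/
noncomputable def cGf : ℝ × ℝ → ℝ := fun z =>
  termFun (dX (kbar (c.betaF t))) (cutJ c.K g1v) (c.beta t) u b z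
    + termFun (dY (kbar (c.betaF t))) (cutJ c.K g2v) (c.beta t) u b z

/-- The multiplier of `W_y`. -/
noncomputable def zetaM (z : ℝ × ℝ) : ℝ := z.2 / 2 - 2 * z.1 * c.gAt t u b gamJ z

/-- The multiplier of `W`. -/
noncomputable def lamM (τ : ℝ) (z : ℝ × ℝ) : ℝ := -(1 / 4) + τ * zeta0 (u z / c.L t)

variable {c t u b}

theorem gAt_smooth (h : c.Sol t u b) {g : J8 → ℝ} (hg : ∀ J ∈ jetDom, ContDiffAt ℝ ∞ g J) :
    ContDiff ℝ ∞ (c.gAt t u b g) :=
  (bxCutJ_smooth c.one_le_K hg).comp (bxJetJ_smooth (c.contDiff_beta t) h.smu h.smb)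

theorem cK1_eq : c.cK1 t u b = fun z => kbar (c.beta t) (pt u z) * c.gAt t u b a1v z := rfl

theorem cK2_eq : c.cK2 t u b = fun z => kbar (c.beta t) (pt u z) * c.gAt t u b a2v z := rfl

theorem bxK_smooth (h : c.Sol t u b) :
    ContDiff ℝ ∞ (c.cK1 t u b) ∧ ContDiff ℝ ∞ (c.cK2 t u b) := by
  have hk := bxPt_smooth (bxSmooth_kbar (c.contDiff_beta t)) h.smu
  exact ⟨hk.mul (gAt_smooth h fun J hJ => (bxSm_coef hJ).2.2.2.2.1),
    hk.mul (gAt_smooth h fun J hJ => (bxSm_coef hJ).2.2.2.2.2.1)⟩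

theorem bxMult_smooth (h : c.Sol t u b) (τ : ℝ) :
    ContDiff ℝ ∞ (c.zetaM t u b) ∧ ContDiff ℝ ∞ (c.lamM t u τ) :=
  ⟨(contDiff_snd.div_const 2).sub ((contDiff_const.mul contDiff_fst).mul
      (gAt_smooth h fun J hJ => (bxSm_coef hJ).2.2.2.1)),
    contDiff_const.add (contDiff_const.mul (bxZeta0_smooth.comp (h.smu.div_const _)))⟩

theorem bxB_cont (h : c.Sol t u b) (i : ℕ) :
    Continuous (c.cB1 t u b i) ∧ Continuous (c.cB0 t u b i) := by
  obtain ⟨h1, h2⟩ := bxK_smooth h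
  have hj := (bxJetJ_smooth (c.contDiff_beta t) h.smu h.smb).continuous
  have hb := c.contDiff_beta t
  have hB := c.contDiff_betaBg t
  have hD : ∀ (D : Fin 8) (g : J8 → ℝ), (∀ J ∈ jetDom, ContDiffAt ℝ ∞ g J) →
      Continuous fun z => fderiv ℝ (cutJ c.K g) (jetJ (c.beta t) u b z) (Pi.single D 1) :=
    fun D g hg => (((bxCutJ_smooth c.one_le_K hg).continuous_fderiv (by simp)).comp hj).clm_apply
      continuous_const
  have k0 := (bxPt_smooth (bxSmooth_kbar hb) h.smu).continuous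
  have k1 := (bxPt_smooth (bxSmooth_dX (bxSmooth_kbar hB)) h.smu).continuous
  have k2 := (bxPt_smooth (bxSmooth_dY (bxSmooth_kbar hB)) h.smu).continuous
  have k3 := (bxPt_smooth (bxSmooth_dX hb) h.smu).continuous
  have k4 := (bxPt_smooth (bxSmooth_dY hb) h.smu).continuous
  have u1 := (bxSmooth_dX (bxSmooth_dX h.smu)).continuous
  have u2 := (bxSmooth_dX (bxSmooth_dY h.smu)).continuous
  have d1 := (bxSmooth_dX h1).continuous
  have d2 := (bxSmooth_dX h2).continuous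
  have e1 := hD 2 a1v fun J hJ => (bxSm_coef hJ).2.2.2.2.1
  have e2 := hD 3 a1v fun J hJ => (bxSm_coef hJ).2.2.2.2.1
  have e3 := hD 2 a2v fun J hJ => (bxSm_coef hJ).2.2.2.2.2.1
  have e4 := hD 3 a2v fun J hJ => (bxSm_coef hJ).2.2.2.2.2.1
  have f0 := fun D => hD D g0v fun J hJ => (bxSm_coef hJ).2.2.2.2.2.2.1
  have f1 := fun D => hD D g1v fun J hJ => (bxSm_coef hJ).2.2.2.2.2.2.2.1
  have f2 := fun D => hD D g2v fun J hJ => (bxSm_coef hJ).2.2.2.2.2.2.2.2.1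
  have f3 := fun D => hD D g3v fun J hJ => (bxSm_coef hJ).2.2.2.2.2.2.2.2.2.1
  have f4 := fun D => hD D g4v fun J hJ => (bxSm_coef hJ).2.2.2.2.2.2.2.2.2.2
  have hS : ∀ D : Fin 8, Continuous (c.sumG t u b fun g J => fderiv ℝ g J (Pi.single D 1)) :=
    fun D => ((((k0.mul (f0 D)).add (k1.mul (f1 D))).add (k2.mul (f2 D))).add
      (k3.mul (f3 D))).add (k4.mul (f4 D))
  constructor
  · exact (((continuous_const.mul d2).add (u1.mul (k0.mul e4))).add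
      ((continuous_const.mul u2).mul (k0.mul e2))).add (hS 3)
  · exact (((continuous_const.mul d1).add (u1.mul (k0.mul e3))).add
      ((continuous_const.mul u2).mul (k0.mul e1))).add (hS 2)

variable (c)

/-- Powers of the bump are negligible. -/
theorem bump_small (hj : 12 ≤ c.j) (N : ℕ) (hQ : N + 1 ≤ c.Qe) :
    ∀ᶠ t in 𝓝[>] (0 : ℝ),
      c.ε t / c.δ t ^ 9 * (t⁻¹) ^ N ≤ c.sa t ^ 2 * c.sA t * t := by
  have hPQ := c.Pe_le
  have e : 2 * c.Qe + c.Pe + 1 + N ≤ 4 * (2 * c.Qe - c.Pe) := by omega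
  filter_upwards [bxEv_pos] with t ⟨ht, ht1⟩
  have hd := c.bxδ_pos ht
  have hd1 : c.δ t ≤ 1 := (c.bxδ_le ht ht1).trans ht1
  have h1 : c.ε t / c.δ t ^ 9 ≤ t ^ (2 * c.Qe + c.Pe + 1 + N) := by
    rw [div_le_iff₀ (pow_pos hd 9)]
    calc c.ε t ≤ c.δ t ^ (4 + 9) := pow_le_pow_of_le_one hd.le hd1 (by omega)
      _ = c.δ t ^ 4 * c.δ t ^ 9 := pow_add _ _ _
      _ ≤ (t ^ (2 * c.Qe - c.Pe)) ^ 4 * c.δ t ^ 9 := by
          gcongr
          exact mul_le_of_le_one_left (by positivity) c.bxc1_le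
      _ ≤ _ := by
          gcongr
          rw [← pow_mul]
          exact pow_le_pow_of_le_one ht.le ht1 (by omega)
  calc c.ε t / c.δ t ^ 9 * t⁻¹ ^ N ≤ t ^ (2 * c.Qe + c.Pe + 1 + N) * t⁻¹ ^ N := by gcongr
    _ = c.sa t ^ 2 * c.sA t * t := by
      rw [pow_add _ (2 * c.Qe + c.Pe + 1) N, mul_assoc, inv_pow,
        mul_inv_cancel₀ (pow_ne_zero _ ht.ne'), mul_one]
      unfold sa sA; ring

theorem W_le_one (hP : 1 ≤ c.Pe) : ∀ᶠ t in 𝓝[>] (0 : ℝ), ∀ y : ℝ, |y| ≤ t →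
    c.W t y ≤ 1 ∧ c.om t y ≤ 1 ∧ c.sa t ^ 2 ≤ c.W t y ∧ c.W t y ≤ c.om t y * c.sA t * 2 := by
  filter_upwards [bxEv_pos, bxEv_small 1 (show (0 : ℝ) < 1 / 2 by norm_num)] with t ⟨ht, ht1⟩ hh y hy
  have hPQ := c.Pe_le
  have hA : c.sA t ≤ t := by simpa [sA] using pow_le_pow_of_le_one ht.le ht1 hP
  have ha : c.sa t ≤ c.sA t := pow_le_pow_of_le_one ht.le ht1 (by omega)
  have ha0 := c.sa_pos ht
  have hA0 := c.sA_pos ht
  obtain ⟨o1, o2⟩ := c.bxom_lower t y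
  have o0 := c.om_pos ht y
  have hW : c.W t y ≤ 1 := by
    unfold W
    have e1 : c.sa t ^ 2 ≤ (1 / 2) ^ 2 := pow_le_pow_left₀ ha0.le (by linarith) 2
    have e2 : c.sA t ^ 2 * y ^ 2 ≤ (1 / 2) ^ 2 * (1 / 2) ^ 2 := by
      rw [← sq_abs y]
      gcongr <;> linarith
    linarith
  refine ⟨hW, ?_, ?_, ?_⟩
  · rw [← c.om_sq ht y] at hW
    exact (pow_le_one_iff_of_nonneg o0.le two_ne_zero).1 hW
  · unfold W; exact le_add_of_nonneg_right (by positivity)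
  · rw [← c.om_sq ht y, pow_two, mul_assoc]
    refine mul_le_mul_of_nonneg_left ?_ o0.le
    unfold om
    rw [Real.sqrt_le_left (by positivity)]
    unfold W
    have e1 : c.sa t ^ 2 ≤ c.sA t ^ 2 := pow_le_pow_left₀ ha0.le ha 2
    have e2 : c.sA t ^ 2 * y ^ 2 ≤ c.sA t ^ 2 * 1 := by
      rw [← sq_abs y]; gcongr; exact pow_le_one₀ (abs_nonneg y) (by linarith)
    linarith [sq_nonneg (c.sA t)]

end Par

end Vale.Agent.P229
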