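import Vale.Agent.P229.BoxCoef

/-!
# P229: sizes of the coefficients
-/

open scoped ContDiff Topology
open Set Filter

namespace Vale.Agent.P229

open BoxEq

theorem bxZeta0_iter_zero {s : ℝ} (hs : |s| < 1) (q : ℕ) : deriv^[q + 1] zeta0 s = 0 := by
  have h : zeta0 =ᶠ[𝓝 s] fun _ => (1 : ℝ) := by
    filter_upwards [(isOpen_lt continuous_abs continuous_const).mem_nhds hs] with x hx
    exact bxZeta0_one (le_of_lt hx)
  rw [← iteratedDeriv_eq_iterate, h.iteratedDeriv_eq, iteratedDeriv_const, if_neg (by omega)]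

theorem bxZeta_bound : ∃ B : ℝ, 1 ≤ B ∧ (∀ s, |zeta2 s| ≤ B * s ^ 2) ∧
    ∀ q ≤ 4, ∀ s, |deriv^[q + 1] zeta0 s| ≤ B := by
  have hc : ∀ q : ℕ, Continuous (deriv^[q] zeta0) := fun q => by
    rw [← iteratedDeriv_eq_iterate]
    exact bxZeta0_smooth.continuous_iteratedDeriv q (mod_cast le_top)
  have : ∀ q : ℕ, ∃ C, 0 ≤ C ∧ ∀ s, |deriv^[q + 1] zeta0 s| ≤ C := fun q => by
    obtain ⟨C, hC⟩ := (isCompact_Icc (a := (-3 : ℝ)) (b := 3)).exists_bound_of_continuousOn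
      (hc (q + 1)).continuousOn
    refine ⟨max C 0, le_max_right _ _, fun s => ?_⟩
    rcases le_or_gt |s| 3 with h | h
    · exact (hC s (abs_le.1 h)).trans (le_max_left _ _)
    · have e : zeta0 =ᶠ[𝓝 s] fun _ => (-1 : ℝ) := by
        filter_upwards [(isOpen_lt continuous_const continuous_abs).mem_nhds h] with x hx
        exact bxZeta0_neg_one (le_of_lt (lt_trans (by norm_num) hx))
      rw [← iteratedDeriv_eq_iterate, e.iteratedDeriv_eq, iteratedDeriv_const, if_neg (by omega),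
        abs_zero]
      exact le_max_right _ _
  choose C hC0 hC using this
  refine ⟨1 + ∑ q ∈ Finset.range 5, C q, le_add_of_nonneg_right (Finset.sum_nonneg fun q _ => hC0 q),
    fun s => ?_, fun q hq s => (hC q s).trans ?_⟩
  · have z1 : ∀ x, |zeta1 x| ≤ |x| := fun x => by
      have := intervalIntegral.norm_integral_le_of_norm_le_const (a := (0 : ℝ)) (b := x)
        (f := zeta0) (C := 1) fun y _ => by rw [Real.norm_eq_abs]; exact bxZeta0_abs y
      simpa [zeta1, Real.norm_eq_abs] using this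
    have := intervalIntegral.norm_integral_le_of_norm_le_const (a := (0 : ℝ)) (b := s)
      (f := zeta1) (C := |s|) fun y hy => by
        rw [Real.norm_eq_abs]
        refine (z1 y).trans ?_
        rcases le_total 0 s with h0 | h0
        · rw [uIoc_of_le h0] at hy
          rw [abs_of_pos hy.1, abs_of_nonneg h0]; exact hy.2
        · rw [uIoc_of_ge h0] at hy
          rw [abs_of_nonpos hy.2, abs_of_nonpos h0]; linarith [hy.1]
    rw [sub_zero, Real.norm_eq_abs, ← pow_two, sq_abs] at this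
    exact this.trans (le_mul_of_one_le_left (sq_nonneg s)
      (le_add_of_nonneg_right (Finset.sum_nonneg fun q _ => hC0 q)))
  · have := Finset.single_le_sum (f := C) (fun j _ => hC0 j)
      (Finset.mem_range.2 (by omega : q < 5))
    linarith

theorem bxAbsorb {t ι x w W A a o : ℝ} (ht : 0 < t) (_ : 0 < W) (hWa : a ^ 2 ≤ W) (hA : 0 < A)
    (_ : 0 < a) (ho : 0 < o) (hoW : o ^ 2 = W) (ho1 : o ≤ 1) (hι : 0 ≤ ι) (hι1 : ι ≤ 1)
    (hx : t⁻¹ * x ≤ a ^ 2 * A * t) (ht1 : t ≤ 1 / 2) (hw : w = o * A * t⁻¹ ^ 2) :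
    w + ι * t⁻¹ * x ≤ o * A * t⁻¹ ^ 3 := by
  have e1 : ι * t⁻¹ * x ≤ o * A * 1 := by
    rcases le_total 0 x with h0 | h0
    · calc ι * t⁻¹ * x ≤ 1 * (a ^ 2 * A * t) := by
            rw [mul_assoc]; exact mul_le_mul hι1 hx (by positivity) zero_le_one
        _ ≤ o * A * 1 := by
            rw [one_mul]
            gcongr
            · calc a ^ 2 ≤ o ^ 2 := by rw [hoW]; exact hWa
                _ ≤ o := by rw [pow_two]; exact mul_le_of_le_one_left ho.le ho1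
            · linarith
    · exact le_trans (mul_nonpos_of_nonneg_of_nonpos (mul_nonneg hι (inv_pos.2 ht).le) h0)
        (by positivity)
  have hT : 2 ≤ t⁻¹ := by rw [le_inv_comm₀ two_pos ht]; linarith
  have h1 : (1 : ℝ) ≤ t⁻¹ ^ 2 := one_le_pow₀ (by linarith)
  have hoA : 0 ≤ o * A * t⁻¹ ^ 2 := by positivity
  rw [hw]
  calc o * A * t⁻¹ ^ 2 + ι * t⁻¹ * x ≤ o * A * t⁻¹ ^ 2 + o * A * t⁻¹ ^ 2 :=
        add_le_add le_rfl (e1.trans (mul_le_mul_of_nonneg_left h1 (mul_nonneg ho.le hA.le)))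
    _ = o * A * t⁻¹ ^ 2 * 2 := by ring
    _ ≤ o * A * t⁻¹ ^ 2 * t⁻¹ := mul_le_mul_of_nonneg_left hT hoA
    _ = _ := by ring

namespace Par

variable (c : Par)

/-- The perturbation at the chart point of a point of a solution: only constants enter. -/
structure Pt (t : ℝ) (u : ℝ × ℝ → ℝ) (z : ℝ × ℝ) (R : ℝ) : Prop where
  kBg : |kbar (c.betaBg t) (pt u z)| ≤ c.W t z.2
  kxBg : |dX (kbar (c.betaBg t)) (pt u z)| ≤ R * c.W t z.2 * t⁻¹
  kxxBg : |dX (dX (kbar (c.betaBg t))) (pt u z)| ≤ R * c.W t z.2 * (t⁻¹) ^ 2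
  kyBg : |dY (kbar (c.betaBg t)) (pt u z)| ≤ 2 * c.sA t ^ 2 * |z.2|
  cx : |dX (c.beta t) (pt u z)| ≤ c.om t z.2 * c.sA t * (t⁻¹) ^ 3
  cy : |dY (c.beta t) (pt u z)| ≤ c.om t z.2 * c.sA t * (t⁻¹) ^ 3
  kF : |kbar (c.betaF t) (pt u z)| ≤ c.indB t z * (R * c.ε t)
  kxF : |dX (kbar (c.betaF t)) (pt u z)| ≤ c.indB t z * (R * (c.ε t / c.δ t))
  kxxF : |dX (dX (kbar (c.betaF t))) (pt u z)| ≤ c.indB t z * (R * (c.ε t / c.δ t ^ 2))
  kyF : |dY (kbar (c.betaF t)) (pt u z)| ≤ c.indB t z * (R * (c.ε t / c.δ t))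
  fsmall : R * (c.ε t / c.δ t ^ 2) ≤ t * (c.sA t * c.W t z.2)

theorem pt_bounds (hP : 4 ≤ c.Pe) (hj : 12 ≤ c.j) (hQ : 4 ≤ c.Qe) :
    ∃ R : ℝ, 1 ≤ R ∧ ∀ᶠ t in 𝓝[>] (0 : ℝ), ∀ u b : ℝ × ℝ → ℝ, c.Sol t u b →
      ∀ z ∈ c.rect t 1, c.Pt t u z R := by
  obtain ⟨B, hB1, -, hB⟩ := bxZeta_bound
  obtain ⟨CF, hCF0, hCF⟩ := c.betaF_bounds 4
  refine ⟨B + CF + 1, by linarith, ?_⟩
  filter_upwards [bxEv_pos, c.pert_at 0, bxEv_T (B + CF + 1), c.bump_small hj 3 (by omega),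
    c.W_le_one (by omega), bxEv_small 1 (show (0 : ℝ) < 1 / 2 by norm_num)]
    with t ⟨ht, ht1⟩ hp hRT hbs hW ht2' u b h z hz
  obtain ⟨z1, z2⟩ := c.rect_small ht.le le_rfl hz
  have ht2 : t ≤ 1 / 2 := by linarith
  obtain ⟨hW1, ho1, hWa, -⟩ := hW z.2 z2
  have hm := h.mem z (c.rect_sub_sq ht hz)
  have hd := c.bxδ_pos ht
  have hd1 : c.δ t ≤ 1 := (c.bxδ_le ht ht1).trans ht1
  have he := c.ε_pos ht
  have hW0 := c.W_pos ht z.2
  have hL : (0 : ℝ) < c.L t := mul_pos c.bxΓ1_pos ht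
  have hL1 : t ≤ c.L t := le_mul_of_one_le_left ht.le (by
    have := c.one_le_K; rw [c.bxΓ1_eq]; linarith)
  obtain ⟨-, -, f3, -, f5⟩ := c.betaBg_formulas ht hm
  have hp0 := hp u b h z hz
  simp only [zero_add] at hp0
  have hkx : ∀ q ≤ 4, |dX^[q + 1] (kbar (c.betaBg t)) (pt u z)| ≤
      B * c.W t z.2 * t⁻¹ ^ (q + 1) := by
    intro q hq
    rw [c.kBg_iter ht hm q, abs_neg, abs_mul, abs_div, abs_of_pos (pow_pos hL _),
      abs_of_nonneg (sq_nonneg _)]
    calc c.sa t ^ 2 / c.L t ^ (q + 1) * |deriv^[q + 1] zeta0 ((pt u z).1 / c.L t)|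
        ≤ c.W t z.2 / t ^ (q + 1) * B := by
          gcongr
          exact hB q hq _
      _ = _ := by rw [inv_pow]; ring
  have hR : B ≤ B + CF + 1 := by linarith
  have hR0 : 0 ≤ B + CF + 1 := by linarith
  have fb : ∀ p k, p + k ≤ 4 → ∀ w : ℝ, c.δ t ^ 2 / c.δ t ^ (p + k) = w →
      |dX^[p] (dY^[k] (c.betaF t)) (pt u z)| ≤ c.indB t z * ((B + CF + 1) * (c.ε t * w)) := by
    rintro p k hpk w rfl
    by_cases hb : z ∈ c.bumpSet t
    · rw [c.indB_mem hb, one_mul]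
      refine (hCF t ht ht1 p k hpk _).trans ?_
      calc CF * (c.ε t * c.δ t ^ 2) / c.δ t ^ (p + k)
          = CF * (c.ε t * (c.δ t ^ 2 / c.δ t ^ (p + k))) := by ring
        _ ≤ _ := by
          refine mul_le_mul_of_nonneg_right (by linarith) ?_
          positivity
    · rw [c.betaF_eq_zero ht p k (h.off_bump ht hz hb), abs_zero]
      have := c.indB_nonneg t z
      positivity
  have hs := c.contDiff_betaF t
  have hk : ∀ p, dX^[p] (kbar (c.betaF t)) (pt u z) = -dX^[p + 2] (c.betaF t) (pt u z) := fun p => by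
    rw [c.bxKbar_F, bxIter_neg (bxSmooth_iter hs 2), ← Function.iterate_add_apply]
  refine ⟨?_, ?_, ?_, ?_, ?_, ?_, ?_, ?_, ?_, ?_, ?_⟩
  · rw [f3]
    unfold W
    refine (abs_sub _ _).trans ?_
    rw [abs_of_nonneg (by positivity : 0 ≤ c.sA t ^ 2 * (pt u z).2 ^ 2), abs_mul,
      abs_of_nonneg (sq_nonneg _)]
    have := mul_le_of_le_one_right (sq_nonneg (c.sa t)) (bxZeta0_abs ((pt u z).1 / c.L t))
    simp only [pt] at this ⊢
    linarith
  · refine le_trans ?_ (le_of_le_of_eq (show B * c.W t z.2 * t⁻¹ ≤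
      (B + CF + 1) * c.W t z.2 * t⁻¹ by gcongr) rfl)
    simpa using hkx 0 (by norm_num)
  · refine le_trans ?_ (show B * c.W t z.2 * t⁻¹ ^ 2 ≤ (B + CF + 1) * c.W t z.2 * t⁻¹ ^ 2 by gcongr)
    exact hkx 1 (by norm_num)
  · rw [f5, abs_mul, abs_of_nonneg (by positivity : 0 ≤ 2 * c.sA t ^ 2)]
    rfl
  · refine hp0.cx.trans ?_
    rw [pow_zero, div_one]
    refine bxAbsorb ht hW0 hWa (c.sA_pos ht) (c.sa_pos ht) (c.om_pos ht _) (c.om_sq ht _) ho1
      (c.indB_nonneg t z) (c.indB_le_one t z) ?_ ht2 rfl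
    calc t⁻¹ * (c.ε t * c.δ t) ≤ c.ε t / c.δ t ^ 9 * t⁻¹ ^ 3 := by
          rw [mul_comm t⁻¹]
          refine mul_le_mul ?_ (le_self_pow₀ ((one_le_inv₀ ht).2 ht1) (by norm_num)) (by positivity)
            (by positivity)
          rw [le_div_iff₀ (pow_pos hd _), mul_assoc]
          exact mul_le_of_le_one_right he.le (mul_le_one₀ hd1 (by positivity) (pow_le_one₀ hd.le hd1))
      _ ≤ _ := hbs
  · refine hp0.cy.trans ?_
    rw [pow_zero, div_one]
    refine bxAbsorb ht hW0 hWa (c.sA_pos ht) (c.sa_pos ht) (c.om_pos ht _) (c.om_sq ht _) ho1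
      (c.indB_nonneg t z) (c.indB_le_one t z) ?_ ht2 rfl
    calc t⁻¹ * (c.ε t * c.δ t) ≤ c.ε t / c.δ t ^ 9 * t⁻¹ ^ 3 := by
          rw [mul_comm t⁻¹]
          refine mul_le_mul ?_ (le_self_pow₀ ((one_le_inv₀ ht).2 ht1) (by norm_num)) (by positivity)
            (by positivity)
          rw [le_div_iff₀ (pow_pos hd _), mul_assoc]
          exact mul_le_of_le_one_right he.le (mul_le_one₀ hd1 (by positivity) (pow_le_one₀ hd.le hd1))
      _ ≤ _ := hbs
  · have := hk 0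
    rw [Function.iterate_zero_apply] at this
    rw [this, abs_neg]
    refine (fb 2 0 (by norm_num) _ rfl).trans (le_of_eq ?_)
    simp [pow_ne_zero 2 hd.ne']
  · have := hk 1
    rw [Function.iterate_one] at this
    rw [this, abs_neg]
    refine (fb 3 0 (by norm_num) _ rfl).trans (le_of_eq ?_)
    field_simp
  · have := hk 2
    simp only [Function.iterate_succ_apply, Function.iterate_zero_apply] at this
    rw [this, abs_neg]
    refine (fb 4 0 (by norm_num) _ rfl).trans (le_of_eq ?_)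
    field_simp
  · have e : dY (kbar (c.betaF t)) (pt u z) = -dX^[2] (dY (c.betaF t)) (pt u z) := by
      rw [c.bxKbar_F, dY_neg, congr_fun (bxMixed_iter hs 2) (pt u z)]
    rw [e, abs_neg]
    refine (fb 2 1 (by norm_num) _ rfl).trans (le_of_eq ?_)
    field_simp
  · calc (B + CF + 1) * (c.ε t / c.δ t ^ 2) ≤ t⁻¹ ^ 3 * (c.ε t / c.δ t ^ 9) := by
          refine mul_le_mul (hRT.trans (le_self_pow₀ ((one_le_inv₀ ht).2 ht1) (by norm_num))) ?_
            (by positivity) (by positivity)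
          exact div_le_div_of_nonneg_left he.le (pow_pos hd _)
            (pow_le_pow_of_le_one hd.le hd1 (by norm_num))
      _ ≤ c.sa t ^ 2 * c.sA t * t := by rw [mul_comm]; exact hbs
      _ ≤ t * (c.sA t * c.W t z.2) := by
          have := c.sA_pos ht
          calc c.sa t ^ 2 * c.sA t * t = t * (c.sA t * c.sa t ^ 2) := by ring
            _ ≤ _ := by gcongr

end Par

end Vale.Agent.P229
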