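import Vale.Agent.P229.BoxExpand
import Vale.Agent.P229.BoxParams

/-!
# P229: the coefficients as functions of the jets

A coefficient is multiplied by a cut-off which is `1` near the jets that occur, so that it becomes
smooth with bounded derivatives on the whole space of jets.
-/

open scoped ContDiff Topology
open Set Filter

namespace Vale.Agent.P229

open BoxEq

/-- The half sides of the box of jets. -/
noncomputable def jetRad (K : ℝ) : Fin 8 → ℝ :=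
  ![1 / 32, 1 / (32 * (K + 1)), K + 1, K + 1, 1 / 16, 1 / (8 * (K + 1) ^ 2), 1, 1]

/-- The centre of the box of jets. -/
noncomputable def jetCtr : J8 := ![0, 0, 0, 0, 1, 0, 0, 0]

/-- The jets that occur. -/
def jetIn (K : ℝ) : Set J8 := {J | ∀ k, |J k - jetCtr k| < jetRad K k}

/-- The cut-off on the jets. -/
noncomputable def chiJ (K : ℝ) (J : J8) : ℝ := ∏ k, phiB ((J k - jetCtr k) / jetRad K k)

/-- The jets at which all coefficients are defined. -/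
def jetDom : Set J8 :=
  {J | 0 < 2 * (1 / 4 + J 0) - J 1 ^ 2 ∧ zv J ≠ 0 ∧ dv J ≠ 0 ∧ d0v J ≠ 0}

/-- A coefficient made global. -/
noncomputable def cutJ (K : ℝ) (g : J8 → ℝ) (J : J8) : ℝ := chiJ K J * g J

/-- The right-hand side of the equation for `b_p`. -/
noncomputable def hvJ (J : J8) : ℝ := -(nv J) / zv J

/-- `b u_p / Z`. -/
noncomputable def gamJ (J : J8) : ℝ := J 1 * J 3 / zv J

theorem bxJetRad_pos {K : ℝ} (hK : 1 ≤ K) (k : Fin 8) : 0 < jetRad K k := by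
  fin_cases k <;> simp [jetRad] <;> positivity

/-- What holds on the closed box with doubled sides. -/
theorem bxJet_facts {K : ℝ} (hK : 1 ≤ K) {J : J8} (h : ∀ k, |J k - jetCtr k| ≤ 2 * jetRad K k) :
    3 / 5 ≤ av J ∧ av J ≤ 1 ∧ 3 / 8 ≤ qv J ∧ qv J ≤ 5 / 8 ∧ 2 / 5 ≤ zv J ∧
      1 / 2 ≤ dv J ∧ dv J ≤ 3 / 2 ∧ 1 / 2 ≤ d0v J ∧ 7 / 8 ≤ J 4 ∧
      0 < 2 * (1 / 4 + J 0) - J 1 ^ 2 := by
  have h0 := h 0
  have h1 := h 1
  have h2 := h 2
  have h3 := h 3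
  have h4 := h 4
  have h5 := h 5
  simp [jetCtr, jetRad] at h0 h1 h2 h3 h4 h5
  have hK1 : (0 : ℝ) < K + 1 := by linarith
  have e0 : |J 0| ≤ 1 / 16 := by linarith
  have e1 : |J 1| * (K + 1) ≤ 1 / 16 := by
    have : (K + 1)⁻¹ * (K + 1) = 1 := inv_mul_cancel₀ hK1.ne'
    have := mul_le_mul_of_nonneg_right h1 hK1.le
    nlinarith
  have e1' : |J 1| ≤ 1 / 16 := le_trans (le_mul_of_one_le_right (abs_nonneg _) (by linarith)) e1
  have e5 : |J 5| * (K + 1) ^ 2 ≤ 1 / 4 := by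
    have : ((K + 1) ^ 2)⁻¹ * (K + 1) ^ 2 = 1 := inv_mul_cancel₀ (by positivity)
    have := mul_le_mul_of_nonneg_right h5 (sq_nonneg (K + 1))
    nlinarith
  obtain ⟨a0, b0⟩ := abs_le.1 e0
  obtain ⟨a4, b4⟩ := abs_le.1 h4
  have s1 : J 1 ^ 2 ≤ 1 / 256 := by nlinarith [abs_nonneg (J 1), sq_abs (J 1)]
  have rad : 0 < 2 * (1 / 4 + J 0) - J 1 ^ 2 := by linarith
  have hA1 : 3 / 5 ≤ av J := by
    show 3 / 5 ≤ Real.sqrt _
    exact Real.le_sqrt_of_sq_le (by linarith)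
  have hA2 : av J ≤ 1 := by
    show Real.sqrt _ ≤ 1
    exact Real.sqrt_le_one.2 (by nlinarith [sq_nonneg (J 1)])
  have hby : |J 1 * J 2| ≤ 1 / 8 := by
    rw [abs_mul]
    calc |J 1| * |J 2| ≤ |J 1| * (2 * (K + 1)) := mul_le_mul_of_nonneg_left h2 (abs_nonneg _)
      _ ≤ 1 / 8 := by linarith
  have hZ : 2 / 5 ≤ zv J := by
    show 2 / 5 ≤ av J * J 4 - J 1 * J 2
    have := (abs_le.1 hby).2
    nlinarith
  have hq : |qv J| ≤ 5 / 8 := by
    show |1 / 2 - 2 * J 0| ≤ _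
    rw [abs_le]; constructor <;> linarith
  have hbN : |J 1 * nv J| ≤ 1 / 8 + 1 / 16 := by
    have e : J 1 * nv J = J 1 * J 2 + av J * J 1 ^ 2 * (qv J * J 5) * J 3 ^ 2 := by
      simp only [nv, Nfun, kPrime, av, qv]; ring
    rw [e]
    refine (abs_add_le _ _).trans (add_le_add hby ?_)
    rw [abs_mul, abs_mul, abs_mul, abs_mul, abs_pow, abs_pow, abs_of_nonneg (by linarith : 0 ≤ av J)]
    calc av J * |J 1| ^ 2 * (|qv J| * |J 5|) * |J 3| ^ 2
        ≤ 1 * (1 / 16) ^ 2 * (5 / 8 * |J 5|) * (2 * (K + 1)) ^ 2 := by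
          gcongr
      _ = 5 / 512 * (|J 5| * (K + 1) ^ 2) := by ring
      _ ≤ 1 / 16 := by linarith
  have hd : |J 1 * nv J / zv J| ≤ 1 / 2 := by
    rw [abs_div, abs_of_pos (by linarith : 0 < zv J), div_le_iff₀ (by linarith)]
    linarith
  have hd0 : |J 1 * J 2 / zv J| ≤ 1 / 2 := by
    rw [abs_div, abs_of_pos (by linarith : 0 < zv J), div_le_iff₀ (by linarith)]
    linarith
  obtain ⟨d1, d2⟩ := abs_le.1 hd
  obtain ⟨d3, -⟩ := abs_le.1 hd0
  refine ⟨hA1, hA2, ?_, ?_, hZ, ?_, ?_, ?_, by linarith, rad⟩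
  · show _ ≤ 1 / 2 - 2 * J 0; linarith
  · show 1 / 2 - 2 * J 0 ≤ _; linarith
  · show _ ≤ 1 + J 1 * nv J / zv J; linarith
  · show 1 + J 1 * nv J / zv J ≤ _; linarith
  · show _ ≤ 1 + J 1 * J 2 / zv J; linarith

theorem bxJetIn_facts {K : ℝ} (hK : 1 ≤ K) {J : J8} (h : J ∈ jetIn K) :
    ∀ k, |J k - jetCtr k| ≤ 2 * jetRad K k := fun k => by
  linarith [h k, bxJetRad_pos hK k]

theorem bxJetIn_open (K : ℝ) : IsOpen (jetIn K) := by
  have : jetIn K = ⋂ k, {J : J8 | |J k - jetCtr k| < jetRad K k} := by ext J; simp [jetIn]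
  rw [this]
  exact isOpen_iInter_of_finite fun k =>
    isOpen_lt ((continuous_apply k).sub continuous_const).abs continuous_const

theorem bxJetIn_dom {K : ℝ} (hK : 1 ≤ K) {J : J8} (h : J ∈ jetIn K) : J ∈ jetDom := by
  obtain ⟨-, -, -, -, hZ, hD, -, hD0, -, hR⟩ := bxJet_facts hK (bxJetIn_facts hK h)
  exact ⟨hR, by linarith, by linarith, by linarith⟩

theorem bxChiJ_smooth (K : ℝ) : ContDiff ℝ ∞ (chiJ K) := by
  unfold chiJ
  exact contDiff_prod fun k _ => phiB.contDiff.comp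
    (((contDiff_apply ℝ ℝ k).sub contDiff_const).div_const _)

theorem bxChiJ_one {K : ℝ} (hK : 1 ≤ K) {J : J8} (h : J ∈ jetIn K) : chiJ K J = 1 := by
  refine Finset.prod_eq_one fun k _ => phiB.one_of_mem_closedBall ?_
  have : |(J k - jetCtr k) / jetRad K k| ≤ 1 := by
    rw [abs_div, abs_of_pos (bxJetRad_pos hK k), div_le_one (bxJetRad_pos hK k)]
    exact (h k).le
  simpa [phiB, Real.dist_eq, abs_div] using this

/-- The closed box outside which `chiJ` vanishes. -/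
def jetBox (K : ℝ) : Set J8 := {J | ∀ k, |J k - jetCtr k| ≤ 2 * jetRad K k}

theorem bxJetBox_compact {K : ℝ} : IsCompact (jetBox K) := by
  have : jetBox K = Set.univ.pi fun k =>
      Icc (jetCtr k - 2 * jetRad K k) (jetCtr k + 2 * jetRad K k) := by
    ext J
    simp only [jetBox, mem_ofPred_eq, abs_sub_le_iff, mem_univ_pi, mem_Icc]
    constructor <;> intro h k <;> constructor <;> linarith [(h k).1, (h k).2]
  rw [this]
  exact isCompact_univ_pi fun k => isCompact_Icc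

theorem bxChiJ_zero {K : ℝ} (hK : 1 ≤ K) {J : J8} (h : J ∉ jetBox K) : chiJ K J = 0 := by
  simp only [jetBox, mem_ofPred_eq, not_forall, not_le] at h
  obtain ⟨k, hk⟩ := h
  refine Finset.prod_eq_zero (Finset.mem_univ k) (phiB.zero_of_le_dist ?_)
  have : 2 ≤ |(J k - jetCtr k) / jetRad K k| := by
    rw [abs_div, abs_of_pos (bxJetRad_pos hK k), le_div_iff₀ (bxJetRad_pos hK k)]
    exact hk.le
  simpa [phiB, Real.dist_eq, abs_div] using this

theorem bxCutJ_smooth {K : ℝ} (hK : 1 ≤ K) {g : J8 → ℝ}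
    (hg : ∀ J ∈ jetDom, ContDiffAt ℝ ∞ g J) : ContDiff ℝ ∞ (cutJ K g) := by
  refine contDiff_iff_contDiffAt.2 fun J => ?_
  by_cases h : J ∈ jetBox K
  · obtain ⟨-, -, -, -, hZ, hD, -, hD0, -, hR⟩ := bxJet_facts hK h
    exact (bxChiJ_smooth K).contDiffAt.mul (hg J ⟨hR, by linarith, by linarith, by linarith⟩)
  · refine (contDiffAt_const (c := (0 : ℝ))).congr_of_eventuallyEq ?_
    filter_upwards [bxJetBox_compact.isClosed.isOpen_compl.mem_nhds h] with J' hJ'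
    simp [cutJ, bxChiJ_zero hK hJ']

theorem bxCutJ_bound {K : ℝ} (hK : 1 ≤ K) {g : J8 → ℝ} (hg : ∀ J ∈ jetDom, ContDiffAt ℝ ∞ g J)
    (i : ℕ) : ∃ C : ℝ, 1 ≤ C ∧ ∀ q ≤ i, ∀ J, ‖iteratedFDeriv ℝ q (cutJ K g) J‖ ≤ C := by
  have hs : HasCompactSupport (cutJ K g) :=
    HasCompactSupport.intro (bxJetBox_compact (K := K)) fun J hJ => by simp [cutJ, bxChiJ_zero hK hJ]
  have : ∀ q : ℕ, ∃ C, ∀ J, ‖iteratedFDeriv ℝ q (cutJ K g) J‖ ≤ C := fun q =>
    (hs.iteratedFDeriv q).exists_bound_of_continuous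
      ((bxCutJ_smooth hK hg).continuous_iteratedFDeriv (mod_cast le_top))
  choose C hC using this
  refine ⟨1 + ∑ q ∈ Finset.range (i + 1), |C q|, le_add_of_nonneg_right (by positivity),
    fun q hq J => (hC q J).trans ((le_abs_self _).trans ?_)⟩
  have := Finset.single_le_sum (f := fun q => |C q|) (fun _ _ => abs_nonneg _)
    (Finset.mem_range.2 (by omega : q < i + 1))
  linarith

theorem bxCutJ_eventually {K : ℝ} (hK : 1 ≤ K) (g : J8 → ℝ) {J : J8} (h : J ∈ jetIn K) :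
    cutJ K g =ᶠ[𝓝 J] g := by
  filter_upwards [(bxJetIn_open K).mem_nhds h] with J' hJ'
  simp [cutJ, bxChiJ_one hK hJ']

theorem bxSm_av {J : J8} (h : J ∈ jetDom) : ContDiffAt ℝ ∞ av J := by
  unfold av Afun
  exact (((contDiffAt_const.add (contDiff_apply ℝ ℝ (0 : Fin 8)).contDiffAt)).const_smul (2 : ℝ)
    |>.sub ((contDiff_apply ℝ ℝ (1 : Fin 8)).contDiffAt.pow 2)).sqrt (ne_of_gt h.1)

theorem bxSm_coef {J : J8} (h : J ∈ jetDom) :
    ContDiffAt ℝ ∞ zv J ∧ ContDiffAt ℝ ∞ nv J ∧ ContDiffAt ℝ ∞ hvJ J ∧ ContDiffAt ℝ ∞ gamJ J ∧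
      ContDiffAt ℝ ∞ a1v J ∧ ContDiffAt ℝ ∞ a2v J ∧ ContDiffAt ℝ ∞ g0v J ∧
      ContDiffAt ℝ ∞ g1v J ∧ ContDiffAt ℝ ∞ g2v J ∧ ContDiffAt ℝ ∞ g3v J ∧
      ContDiffAt ℝ ∞ g4v J := by
  have ha := bxSm_av h
  have hA : av J ≠ 0 := (Real.sqrt_pos.2 h.1).ne'
  obtain ⟨-, hZ, hD, hD0⟩ := h
  have p : ∀ k : Fin 8, ContDiffAt ℝ ∞ (fun J : J8 => J k) J := fun k =>
    (contDiff_apply ℝ ℝ k).contDiffAt
  have hq : ContDiffAt ℝ ∞ qv J := contDiffAt_const.sub (contDiffAt_const.mul (p 0))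
  have hz : ContDiffAt ℝ ∞ zv J := (ha.mul (p 4)).sub ((p 1).mul (p 2))
  have hn : ContDiffAt ℝ ∞ nv J :=
    (p 2).add (((ha.mul (p 1)).mul (hq.mul (p 5))).mul ((p 3).pow 2))
  have hd : ContDiffAt ℝ ∞ dv J := contDiffAt_const.add (((p 1).mul hn).div hz hZ)
  have hd0 : ContDiffAt ℝ ∞ d0v J := contDiffAt_const.add (((p 1).mul (p 2)).div hz hZ)
  have hdd : dv J * d0v J ≠ 0 := mul_ne_zero hD hD0
  refine ⟨hz, hn, hn.neg.div hz hZ, ((p 1).mul (p 3)).div hz hZ, ?_, ?_, ?_, ?_, ?_, ?_, ?_⟩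
  all_goals
    simp +unfoldPartialApp only [a1v, a2v, g0v, g0num, flatv, g1v, g2v, g3v, g4v]
    fun_prop (disch := assumption)

theorem bxDUP_eq {g : J8 → ℝ} {J : J8} {v : ℝ} (hg : DifferentiableAt ℝ g J)
    (h : HasDerivAt (fun s : ℝ => g (J + s • (Pi.single (3 : Fin 8) (1 : ℝ) : J8))) v 0) : dUP g J = v := by
  have hl : HasDerivAt (fun s : ℝ => J + s • Pi.single (3 : Fin 8) (1 : ℝ))
      (Pi.single (3 : Fin 8) (1 : ℝ)) 0 := by
    simpa using ((hasDerivAt_id (0 : ℝ)).smul_const (Pi.single (3 : Fin 8) (1 : ℝ))).const_add J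
  exact (HasFDerivAt.comp_hasDerivAt (0 : ℝ) (by simpa using hg.hasFDerivAt) hl).unique h

theorem bxDUP_cut {K : ℝ} (hK : 1 ≤ K) (g : J8 → ℝ) {J : J8} (h : J ∈ jetIn K) :
    dUP (cutJ K g) J = dUP g J ∧ dUY (cutJ K g) J = dUY g J := by
  simp [dUP, dUY, (bxCutJ_eventually hK g h).fderiv_eq]

theorem bxA1_eq {J : J8} (h : J ∈ jetDom) : a1v J = gamJ J * a2v J := by
  have := h.2.1
  simp only [a1v, a2v, gamJ]
  field_simp

/-- `g3` and `g4` do not depend on `u_p`. -/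
theorem bxDUP_g34 {J : J8} (h : J ∈ jetDom) : dUP g3v J = 0 ∧ dUP g4v J = 0 := by
  obtain ⟨-, -, -, -, -, -, -, -, -, h3, h4⟩ := bxSm_coef h
  constructor
  · refine bxDUP_eq (h3.differentiableAt (by simp)) ?_
    exact (hasDerivAt_const (0 : ℝ) (g3v J)).congr_of_eventuallyEq (Eventually.of_forall fun s => by
      simp [g3v, d0v, zv, av])
  · refine bxDUP_eq (h4.differentiableAt (by simp)) ?_
    exact (hasDerivAt_const (0 : ℝ) (g4v J)).congr_of_eventuallyEq (Eventually.of_forall fun s => by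
      simp [g4v, d0v, zv, av])

theorem bxSecond {K cc x k j D : ℝ} (hK : 1 ≤ K) (hcc : |cc| ≤ 2) (hx : |x| ≤ K + 1)
    (hk : |k| ≤ 3 * |j|) (hD : 1 / 2 ≤ D) :
    |cc * x ^ 2 * (k * (2 * x)) / D ^ 2| ≤ 100 * (K + 1) ^ 3 * |j| := by
  have hD2 : 1 / 4 ≤ D ^ 2 := by nlinarith
  have h0 : 0 ≤ (K + 1) ^ 3 * |j| := by positivity
  rw [abs_div, abs_of_pos (by linarith : 0 < D ^ 2), div_le_iff₀ (by linarith), abs_mul, abs_mul,
    abs_mul, abs_mul, abs_pow, abs_two]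
  calc |cc| * |x| ^ 2 * (|k| * (2 * |x|)) ≤ 2 * (K + 1) ^ 2 * (3 * |j| * (2 * (K + 1))) := by
        gcongr
    _ = 12 * ((K + 1) ^ 3 * |j|) := by ring
    _ ≤ 100 * ((K + 1) ^ 3 * |j|) * D ^ 2 := by nlinarith
    _ = _ := by ring

/-- The derivatives of `g1` and `g2` in `u_p`. -/
theorem bxDUP_g12 {K : ℝ} (hK : 1 ≤ K) : ∃ C : ℝ, 0 ≤ C ∧ ∀ J ∈ jetIn K,
    |dUP g1v J - 2 * J 3 * a2v J| ≤ C * (|J 1| + |J 5|) ∧
    |dUP g2v J - 2 * gamJ J * a2v J| ≤ C * |J 5| := by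
  refine ⟨1000 * (K + 1) ^ 4, by positivity, fun J hJ => ?_⟩
  have hd := bxJetIn_dom hK hJ
  obtain ⟨-, -, -, -, -, -, -, h1, h2, -, -⟩ := bxSm_coef hd
  obtain ⟨hA, hA1, hq, hq1, hZ, hD, hD1, -, hC, -⟩ := bxJet_facts hK (bxJetIn_facts hK hJ)
  set e : J8 := Pi.single 3 1 with he
  have ev : ∀ s : ℝ, (J + s • e) 3 = J 3 + s := fun s => by simp [he]
  have eo : ∀ (s : ℝ) (k : Fin 8), k ≠ 3 → (J + s • e) k = J k := fun s k hk => by
    simp [he, Pi.single_eq_of_ne hk]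
  set κd : ℝ := J 1 * (av J * J 1 * (qv J * J 5)) / zv J with hκ
  have eD : ∀ s : ℝ, dv (J + s • e) = 1 + J 1 * J 2 / zv J + κd * (J 3 + s) ^ 2 := fun s => by
    simp only [dv, nv, Nfun, kPrime, zv, qv, av, hκ, ev, eo _ 0 (by decide), eo _ 1 (by decide),
      eo _ 2 (by decide), eo _ 4 (by decide), eo _ 5 (by decide)]
    ring
  have hs3 : HasDerivAt (fun s : ℝ => J 3 + s) 1 0 := (hasDerivAt_id 0).const_add _
  have hDd : HasDerivAt (fun s : ℝ => dv (J + s • e)) (κd * (2 * J 3)) 0 := by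
    simp only [eD]
    simpa using ((hs3.pow 2).const_mul κd).const_add (1 + J 1 * J 2 / zv J)
  have hD0 : dv (J + (0 : ℝ) • e) ≠ 0 := by simpa using hd.2.2.1
  set c1 : ℝ := av J ^ 2 * J 4 * qv J with hc1
  set c2 : ℝ := av J * J 1 * qv J with hc2
  have d : ∀ cc : ℝ, HasDerivAt (fun s : ℝ => cc * (J 3 + s) ^ 2 / dv (J + s • e))
      (cc * (2 * J 3) / dv J - cc * J 3 ^ 2 * (κd * (2 * J 3)) / dv J ^ 2) 0 := fun cc => by
    refine (((hs3.pow 2).const_mul cc).div hDd hD0).congr_deriv ?_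
    simp only [zero_smul, add_zero, Pi.pow_apply]
    have := hd.2.2.1
    field_simp
    push_cast
    ring
  have e1 : dUP g1v J = c1 * (2 * J 3) / dv J - c1 * J 3 ^ 2 * (κd * (2 * J 3)) / dv J ^ 2 := by
    refine bxDUP_eq (h1.differentiableAt (by simp))
      ((d c1).congr_of_eventuallyEq (Eventually.of_forall fun s => ?_))
    simp [g1v, hc1, qv, av, ← he, ev, eo _ 0, eo _ 1, eo _ 4]
  have e2 : dUP g2v J = c2 * (2 * J 3) / dv J - c2 * J 3 ^ 2 * (κd * (2 * J 3)) / dv J ^ 2 := by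
    refine bxDUP_eq (h2.differentiableAt (by simp))
      ((d c2).congr_of_eventuallyEq (Eventually.of_forall fun s => ?_))
    simp [g2v, hc2, qv, av, ← he, ev, eo _ 0, eo _ 1]
  have h3 : |J 3| ≤ K + 1 := by
    have := (hJ 3).le; simpa [jetCtr, jetRad] using this
  have h2b : |J 2| ≤ K + 1 := by
    have := (hJ 2).le; simpa [jetCtr, jetRad] using this
  have hb : |J 1| ≤ 1 := by
    have h := (hJ 1).le; simp [jetCtr, jetRad] at h
    refine h.trans (mul_le_one₀ ?_ (by norm_num) (by norm_num))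
    exact inv_le_one_of_one_le₀ (by linarith)
  have hC2 : |J 4| ≤ 2 := by
    have h := (hJ 4).le; simp [jetCtr, jetRad] at h
    rw [abs_le] at h ⊢; constructor <;> linarith [h.1, h.2]
  have hκb : |κd| ≤ 3 * |J 5| := by
    rw [hκ, abs_div, abs_of_pos (by linarith : 0 < zv J), div_le_iff₀ (by linarith), abs_mul,
      abs_mul, abs_mul, abs_mul, abs_of_nonneg (by linarith : 0 ≤ av J),
      abs_of_nonneg (by linarith : 0 ≤ qv J)]
    calc |J 1| * (av J * |J 1| * (qv J * |J 5|)) ≤ 1 * (1 * 1 * (1 * |J 5|)) := by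
          gcongr; linarith
      _ ≤ _ := by nlinarith [abs_nonneg (J 5)]
  have hc1b : |c1| ≤ 2 := by
    rw [hc1, abs_mul, abs_mul, abs_pow, abs_of_nonneg (by linarith : 0 ≤ av J),
      abs_of_nonneg (by linarith : 0 ≤ qv J)]
    calc av J ^ 2 * |J 4| * qv J ≤ 1 ^ 2 * 2 * 1 := by gcongr; linarith
      _ = 2 := by norm_num
  have hc2b : |c2| ≤ 1 := by
    rw [hc2, abs_mul, abs_mul, abs_of_nonneg (by linarith : 0 ≤ av J),
      abs_of_nonneg (by linarith : 0 ≤ qv J)]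
    calc av J * |J 1| * qv J ≤ 1 * 1 * 1 := by gcongr; linarith
      _ = 1 := by norm_num
  have second : ∀ cc : ℝ, |cc| ≤ 2 →
      |cc * J 3 ^ 2 * (κd * (2 * J 3)) / dv J ^ 2| ≤ 100 * (K + 1) ^ 3 * |J 5| := fun cc hcc =>
    bxSecond hK hcc h3 hκb hD
  have hp34 : (K + 1) ^ 3 ≤ (K + 1) ^ 4 := pow_le_pow_right₀ (by linarith) (by norm_num)
  have hp14 : K + 1 ≤ (K + 1) ^ 4 := le_self_pow₀ (by linarith) (by norm_num)
  have hp24 : (K + 1) ^ 2 ≤ (K + 1) ^ 4 := pow_le_pow_right₀ (by linarith) (by norm_num)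
  constructor
  · have m : c1 * (2 * J 3) / dv J - 2 * J 3 * a2v J =
        2 * J 3 * av J * qv J * (J 1 * J 2) / dv J := by
      simp only [hc1, a2v, zv, Zfun, av]
      field_simp
      ring
    rw [e1, show c1 * (2 * J 3) / dv J - c1 * J 3 ^ 2 * (κd * (2 * J 3)) / dv J ^ 2
      - 2 * J 3 * a2v J = 2 * J 3 * av J * qv J * (J 1 * J 2) / dv J
        - c1 * J 3 ^ 2 * (κd * (2 * J 3)) / dv J ^ 2 by rw [← m]; ring]
    refine (abs_sub _ _).trans ?_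
    have first : |2 * J 3 * av J * qv J * (J 1 * J 2) / dv J| ≤ 4 * (K + 1) ^ 2 * |J 1| := by
      rw [abs_div, abs_of_pos (by linarith : 0 < dv J), div_le_iff₀ (by linarith), abs_mul,
        abs_mul, abs_mul, abs_mul, abs_mul, abs_two, abs_of_nonneg (by linarith : 0 ≤ av J),
        abs_of_nonneg (by linarith : 0 ≤ qv J)]
      calc 2 * |J 3| * av J * qv J * (|J 1| * |J 2|)
          ≤ 2 * (K + 1) * 1 * 1 * (|J 1| * (K + 1)) := by gcongr; linarith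
        _ = 2 * (K + 1) ^ 2 * |J 1| := by ring
        _ ≤ _ := by
          have : 0 ≤ (K + 1) ^ 2 * |J 1| := by positivity
          nlinarith
    have s1 := second c1 hc1b
    clear_value κd c1 c2
    calc _ ≤ 4 * (K + 1) ^ 2 * |J 1| + 100 * (K + 1) ^ 3 * |J 5| := add_le_add first s1
      _ ≤ 1000 * (K + 1) ^ 4 * |J 1| + 1000 * (K + 1) ^ 4 * |J 5| := by gcongr <;> linarith
      _ = _ := by ring
  · have m : c2 * (2 * J 3) / dv J = 2 * gamJ J * a2v J := by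
      have := hd.2.1
      simp only [hc2, a2v, gamJ]
      field_simp
    rw [e2, m, show 2 * gamJ J * a2v J - c2 * J 3 ^ 2 * (κd * (2 * J 3)) / dv J ^ 2
      - 2 * gamJ J * a2v J = -(c2 * J 3 ^ 2 * (κd * (2 * J 3)) / dv J ^ 2) by ring, abs_neg]
    refine (second c2 (by linarith)).trans ?_
    gcongr; linarith

/-- The value of `a2` at the centre. -/
theorem bxA2_near {K : ℝ} (hK : 1 ≤ K) : ∃ C : ℝ, 0 ≤ C ∧ ∀ J ∈ jetIn K,
    |a2v J - 1 / 4| ≤ C * (|J 0| + |J 1| + |J 4 - 1|) := by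
  obtain ⟨C, hC1, hC⟩ := bxCutJ_bound hK (g := a2v)
    (fun J hJ => (bxSm_coef hJ).2.2.2.2.2.1) 1
  refine ⟨C, by linarith, fun J hJ => ?_⟩
  set J' : J8 := ![0, 0, J 2, J 3, 1, J 5, J 6, J 7] with hJ'
  have hin : J' ∈ jetIn K := fun k => by
    have h2 := hJ 2
    have h3 := hJ 3
    have h5 := hJ 5
    have h6 := hJ 6
    have h7 := hJ 7
    have hr := bxJetRad_pos hK k
    fin_cases k <;>
      simp [jetCtr, hJ', jetRad] at h2 h3 h5 h6 h7 hr ⊢ <;> assumption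
  have hv : a2v J' = 1 / 4 := by
    have hs : Real.sqrt (2 / 4) * Real.sqrt (2 / 4) = 2 / 4 := Real.mul_self_sqrt (by norm_num)
    have e : av J' = Real.sqrt (2 / 4) := by
      simp only [av, Afun, hJ', Matrix.cons_val_zero, Matrix.cons_val_one]; norm_num
    have ez : zv J' = Real.sqrt (2 / 4) := by
      rw [← e]; simp [zv, Zfun, av, hJ']
    have eq' : qv J' = 1 / 2 := by simp [qv, hJ']
    have ed : dv J' = 1 := by simp [dv, hJ']
    rw [a2v, e, ez, eq', ed, hs]; norm_num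
  have hd : Differentiable ℝ (cutJ K a2v) :=
    (bxCutJ_smooth hK fun J hJ => (bxSm_coef hJ).2.2.2.2.2.1).differentiable (by simp)
  have key := Convex.norm_image_sub_le_of_norm_fderiv_le (𝕜 := ℝ) (f := cutJ K a2v)
    (s := Set.univ) (fun x _ => hd x)
    (fun x _ => by rw [← norm_iteratedFDeriv_one]; exact hC 1 le_rfl x)
    convex_univ (mem_univ J') (mem_univ J)
  rw [(bxCutJ_eventually hK a2v hin).eq_of_nhds, (bxCutJ_eventually hK a2v hJ).eq_of_nhds, hv,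
    Real.norm_eq_abs] at key
  refine key.trans (mul_le_mul_of_nonneg_left ?_ (by linarith))
  refine (pi_norm_le_iff_of_nonneg (by positivity)).2 fun k => ?_
  have := abs_nonneg (J 0)
  have := abs_nonneg (J 1)
  have := abs_nonneg (J 4 - 1)
  fin_cases k <;> simp [hJ', Real.norm_eq_abs] <;> linarith

/-- Sizes of the coefficients. -/
theorem bxVals {K : ℝ} (hK : 1 ≤ K) {J : J8} (h : J ∈ jetIn K) :
    3 / 50 ≤ a2v J ∧ a2v J ≤ 3 ∧ J 3 ^ 2 / 20 ≤ g1v J ∧ |gamJ J| ≤ 3 * (K + 1) * |J 1| ∧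
      |g2v J| ≤ 2 * (K + 1) ^ 2 * |J 1| := by
  obtain ⟨hA, hA1, hq, hq1, hZ, hD, hD1, -, hC, -⟩ := bxJet_facts hK (bxJetIn_facts hK h)
  have h4 := (h 4).le
  have h2 := (h 2).le
  have h1 := (h 1).le
  have h3 := (h 3).le
  simp [jetCtr, jetRad] at h4 h2 h1 h3
  have h4' : J 4 ≤ 17 / 16 := by linarith [(abs_le.1 h4).2]
  have hb : |J 1| * |J 2| ≤ 1 / 32 := by
    calc |J 1| * |J 2| ≤ (K + 1)⁻¹ * (1 / 32) * (K + 1) := by gcongr; simpa using h1
      _ = 1 / 32 := by field_simp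
  have hZ1 : zv J ≤ 2 := by
    show av J * J 4 - J 1 * J 2 ≤ 2
    rw [← abs_mul] at hb
    nlinarith [(abs_le.1 hb).1]
  have hZA : zv J * av J * qv J ≤ 2 * 1 * (5 / 8) := by gcongr
  have hZA' : 2 / 5 * (3 / 5) * (3 / 8) ≤ zv J * av J * qv J := by gcongr
  have hg : (3 / 5) ^ 2 * (7 / 8) * (3 / 8) * J 3 ^ 2 ≤ av J ^ 2 * J 4 * qv J * J 3 ^ 2 := by
    gcongr
  refine ⟨?_, ?_, ?_, ?_, ?_⟩
  · rw [a2v, le_div_iff₀ (by linarith)]; linarith
  · rw [a2v, div_le_iff₀ (by linarith)]; linarith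
  · rw [g1v, le_div_iff₀ (by linarith)]
    have : J 3 ^ 2 / 20 * dv J ≤ J 3 ^ 2 / 20 * (3 / 2) := by gcongr
    nlinarith [sq_nonneg (J 3)]
  · rw [gamJ, abs_div, abs_of_pos (by linarith : 0 < zv J), div_le_iff₀ (by linarith), abs_mul]
    calc |J 1| * |J 3| ≤ |J 1| * (K + 1) := by gcongr
      _ ≤ _ := by nlinarith [mul_nonneg (abs_nonneg (J 1)) (by linarith : (0 : ℝ) ≤ K + 1)]
  · rw [g2v, abs_div, abs_of_pos (by linarith : 0 < dv J), div_le_iff₀ (by linarith), abs_mul,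
      abs_mul, abs_mul, abs_pow, abs_of_nonneg (by linarith : 0 ≤ av J),
      abs_of_nonneg (by linarith : 0 ≤ qv J)]
    calc av J * |J 1| * qv J * |J 3| ^ 2 ≤ 1 * |J 1| * 1 * (K + 1) ^ 2 := by gcongr; linarith
      _ ≤ _ := by nlinarith [mul_nonneg (abs_nonneg (J 1)) (sq_nonneg (K + 1))]

end Vale.Agent.P229
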