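import Mathlib.Algebra.QuadraticDiscriminant
import Mathlib.Analysis.Calculus.ContDiff.Bounds
import Mathlib.Analysis.Calculus.LineDeriv.IntegrationByParts
import Mathlib.MeasureTheory.Integral.IntegralEqImproper
import Mathlib.MeasureTheory.Integral.IntervalIntegral.FundThmCalculus
import Mathlib.MeasureTheory.Integral.Prod
import Mathlib.MeasureTheory.Measure.Lebesgue.Basic
import Vale.Agent.P229.GeoBD

/-!
# P229: calculus in the two variables

Rules for the partial derivatives `dX`, `dY`, integration by parts on the plane, the Poincaré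
inequality in a strip, the supremum bound by the mixed derivative, and the thin strip estimate.
-/

open scoped ContDiff Topology
open Set Filter MeasureTheory

namespace Vale.Agent.P229

variable {f g : ℝ × ℝ → ℝ} {z : ℝ × ℝ}

/-! ### Smoothness and supports -/

theorem contDiff_dX {m n : ℕ∞ω} (hf : ContDiff ℝ n f) (hmn : m + 1 ≤ n) :
    ContDiff ℝ m (dX f) :=
  (hf.fderiv_right hmn).clm_apply contDiff_const

theorem contDiff_dY {m n : ℕ∞ω} (hf : ContDiff ℝ n f) (hmn : m + 1 ≤ n) :
    ContDiff ℝ m (dY f) :=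
  (hf.fderiv_right hmn).clm_apply contDiff_const

theorem contDiff_dX_top (hf : ContDiff ℝ ∞ f) : ContDiff ℝ ∞ (dX f) :=
  contDiff_dX hf le_rfl

theorem contDiff_dY_top (hf : ContDiff ℝ ∞ f) : ContDiff ℝ ∞ (dY f) :=
  contDiff_dY hf le_rfl

theorem contDiff_dX_iterate (hf : ContDiff ℝ ∞ f) (l : ℕ) : ContDiff ℝ ∞ (dX^[l] f) := by
  induction l with
  | zero => exact hf
  | succ l ih => rw [Function.iterate_succ_apply']; exact contDiff_dX_top ih

theorem contDiff_dY_iterate (hf : ContDiff ℝ ∞ f) (l : ℕ) : ContDiff ℝ ∞ (dY^[l] f) := by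
  induction l with
  | zero => exact hf
  | succ l ih => rw [Function.iterate_succ_apply']; exact contDiff_dY_top ih

theorem continuous_dX (hf : ContDiff ℝ 1 f) : Continuous (dX f) :=
  (hf.continuous_fderiv one_ne_zero).clm_apply continuous_const

theorem continuous_dY (hf : ContDiff ℝ 1 f) : Continuous (dY f) :=
  (hf.continuous_fderiv one_ne_zero).clm_apply continuous_const

theorem dX_const (c : ℝ) : dX (fun _ : ℝ × ℝ => c) z = 0 := by
  simp [dX]

theorem dY_const (c : ℝ) : dY (fun _ : ℝ × ℝ => c) z = 0 := by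
  simp [dY]

theorem dX_congr (h : f =ᶠ[𝓝 z] g) : dX f z = dX g z := by
  simp only [dX, h.fderiv_eq]

theorem dY_congr (h : f =ᶠ[𝓝 z] g) : dY f z = dY g z := by
  simp only [dY, h.fderiv_eq]

theorem dX_eq_zero_off {s : Set (ℝ × ℝ)} (hs : IsClosed s) (h : ∀ w, w ∉ s → f w = 0)
    (hz : z ∉ s) : dX f z = 0 := by
  have : f =ᶠ[𝓝 z] fun _ => (0 : ℝ) := eventually_of_mem (hs.isOpen_compl.mem_nhds hz) h
  rw [dX_congr this]; exact dX_const 0

theorem dY_eq_zero_off {s : Set (ℝ × ℝ)} (hs : IsClosed s) (h : ∀ w, w ∉ s → f w = 0)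
    (hz : z ∉ s) : dY f z = 0 := by
  have : f =ᶠ[𝓝 z] fun _ => (0 : ℝ) := eventually_of_mem (hs.isOpen_compl.mem_nhds hz) h
  rw [dY_congr this]; exact dY_const 0

theorem dX_iterate_eq_zero_off {s : Set (ℝ × ℝ)} (hs : IsClosed s) (h : ∀ w, w ∉ s → f w = 0)
    (l : ℕ) : ∀ w, w ∉ s → dX^[l] f w = 0 := by
  induction l with
  | zero => exact h
  | succ l ih => intro w hw; rw [Function.iterate_succ_apply']; exact dX_eq_zero_off hs ih hw

theorem hasCompactSupport_dX (hc : HasCompactSupport f) : HasCompactSupport (dX f) :=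
  hc.fderiv_apply (𝕜 := ℝ) (1, 0)

theorem hasCompactSupport_dY (hc : HasCompactSupport f) : HasCompactSupport (dY f) :=
  hc.fderiv_apply (𝕜 := ℝ) (0, 1)

theorem hasCompactSupport_dX_iterate (hc : HasCompactSupport f) (l : ℕ) :
    HasCompactSupport (dX^[l] f) := by
  induction l with
  | zero => exact hc
  | succ l ih => rw [Function.iterate_succ_apply']; exact hasCompactSupport_dX ih

/-! ### Rules -/

theorem dX_add (hf : DifferentiableAt ℝ f z) (hg : DifferentiableAt ℝ g z) :
    dX (fun w => f w + g w) z = dX f z + dX g z := by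
  simp [dX, fderiv_fun_add hf hg]

theorem dY_add (hf : DifferentiableAt ℝ f z) (hg : DifferentiableAt ℝ g z) :
    dY (fun w => f w + g w) z = dY f z + dY g z := by
  simp [dY, fderiv_fun_add hf hg]

theorem dX_sub (hf : DifferentiableAt ℝ f z) (hg : DifferentiableAt ℝ g z) :
    dX (fun w => f w - g w) z = dX f z - dX g z := by
  simp [dX, fderiv_fun_sub hf hg]

theorem dY_sub (hf : DifferentiableAt ℝ f z) (hg : DifferentiableAt ℝ g z) :
    dY (fun w => f w - g w) z = dY f z - dY g z := by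
  simp [dY, fderiv_fun_sub hf hg]

theorem dX_neg : dX (fun w => -f w) z = -dX f z := by
  simp [dX, fderiv_fun_neg]

theorem dY_neg : dY (fun w => -f w) z = -dY f z := by
  simp [dY, fderiv_fun_neg]

theorem dX_mul (hf : DifferentiableAt ℝ f z) (hg : DifferentiableAt ℝ g z) :
    dX (fun w => f w * g w) z = dX f z * g z + f z * dX g z := by
  simp [dX, fderiv_fun_mul hf hg]; ring

theorem dY_mul (hf : DifferentiableAt ℝ f z) (hg : DifferentiableAt ℝ g z) :
    dY (fun w => f w * g w) z = dY f z * g z + f z * dY g z := by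
  simp [dY, fderiv_fun_mul hf hg]; ring

theorem dX_const_mul (c : ℝ) (hf : DifferentiableAt ℝ f z) :
    dX (fun w => c * f w) z = c * dX f z := by
  simp [dX, fderiv_const_mul hf c]

theorem dY_const_mul (c : ℝ) (hf : DifferentiableAt ℝ f z) :
    dY (fun w => c * f w) z = c * dY f z := by
  simp [dY, fderiv_const_mul hf c]

theorem dX_comp {φ : ℝ → ℝ} (hφ : DifferentiableAt ℝ φ (f z)) (hf : DifferentiableAt ℝ f z) :
    dX (fun w => φ (f w)) z = deriv φ (f z) * dX f z := by
  simp only [dX]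
  rw [show (fun w => φ (f w)) = φ ∘ f from rfl,
    (hφ.hasDerivAt.comp_hasFDerivAt z hf.hasFDerivAt).fderiv]
  simp

theorem dY_comp {φ : ℝ → ℝ} (hφ : DifferentiableAt ℝ φ (f z)) (hf : DifferentiableAt ℝ f z) :
    dY (fun w => φ (f w)) z = deriv φ (f z) * dY f z := by
  simp only [dY]
  rw [show (fun w => φ (f w)) = φ ∘ f from rfl,
    (hφ.hasDerivAt.comp_hasFDerivAt z hf.hasFDerivAt).fderiv]
  simp

theorem dX_pow (n : ℕ) (hf : DifferentiableAt ℝ f z) :
    dX (fun w => f w ^ n) z = n * f z ^ (n - 1) * dX f z := by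
  rw [dX_comp (φ := fun t : ℝ => t ^ n) (by fun_prop) hf]
  simp

theorem dY_pow (n : ℕ) (hf : DifferentiableAt ℝ f z) :
    dY (fun w => f w ^ n) z = n * f z ^ (n - 1) * dY f z := by
  rw [dY_comp (φ := fun t : ℝ => t ^ n) (by fun_prop) hf]
  simp

theorem dX_fst : dX (fun w : ℝ × ℝ => w.1) z = 1 := by
  simp [dX, fderiv_fst]

theorem dY_fst : dY (fun w : ℝ × ℝ => w.1) z = 0 := by
  simp [dY, fderiv_fst]

theorem dX_snd : dX (fun w : ℝ × ℝ => w.2) z = 0 := by
  simp [dX, fderiv_snd]

theorem dY_snd : dY (fun w : ℝ × ℝ => w.2) z = 1 := by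
  simp [dY, fderiv_snd]

theorem dX_of_fst {φ : ℝ → ℝ} (hφ : DifferentiableAt ℝ φ z.1) :
    dX (fun w : ℝ × ℝ => φ w.1) z = deriv φ z.1 := by
  rw [dX_comp (f := fun w : ℝ × ℝ => w.1) hφ differentiableAt_fst, dX_fst, mul_one]

theorem dY_of_fst {φ : ℝ → ℝ} (hφ : DifferentiableAt ℝ φ z.1) :
    dY (fun w : ℝ × ℝ => φ w.1) z = 0 := by
  rw [dY_comp (f := fun w : ℝ × ℝ => w.1) hφ differentiableAt_fst, dY_fst, mul_zero]

theorem dX_of_snd {φ : ℝ → ℝ} (hφ : DifferentiableAt ℝ φ z.2) :
    dX (fun w : ℝ × ℝ => φ w.2) z = 0 := by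
  rw [dX_comp (f := fun w : ℝ × ℝ => w.2) hφ differentiableAt_snd, dX_snd, mul_zero]

theorem dY_of_snd {φ : ℝ → ℝ} (hφ : DifferentiableAt ℝ φ z.2) :
    dY (fun w : ℝ × ℝ => φ w.2) z = deriv φ z.2 := by
  rw [dY_comp (f := fun w : ℝ × ℝ => w.2) hφ differentiableAt_snd, dY_snd, mul_one]

theorem hasDerivAt_sliceX {x y : ℝ} (hf : DifferentiableAt ℝ f (x, y)) :
    HasDerivAt (fun s => f (s, y)) (dX f (x, y)) x := by
  have h : HasDerivAt (fun s : ℝ => ((s, y) : ℝ × ℝ)) ((1 : ℝ), (0 : ℝ)) x :=
    (hasDerivAt_id x).prodMk (hasDerivAt_const x y)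
  exact hf.hasFDerivAt.comp_hasDerivAt x h

theorem hasDerivAt_sliceY {x y : ℝ} (hf : DifferentiableAt ℝ f (x, y)) :
    HasDerivAt (fun s => f (x, s)) (dY f (x, y)) y := by
  have h : HasDerivAt (fun s : ℝ => ((x, s) : ℝ × ℝ)) ((0 : ℝ), (1 : ℝ)) y :=
    (hasDerivAt_const y x).prodMk (hasDerivAt_id y)
  exact hf.hasFDerivAt.comp_hasDerivAt y h

theorem dX_dY_comm (hf : ContDiff ℝ ∞ f) : dX (dY f) = dY (dX f) :=
  funext fun _ => (dY_dX_eq_dX_dY hf.contDiffAt).symm

theorem dY_dX_iterate_comm (hf : ContDiff ℝ ∞ f) (l : ℕ) :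
    dY (dX^[l] f) = dX^[l] (dY f) := by
  induction l with
  | zero => rfl
  | succ l ih =>
    rw [Function.iterate_succ_apply', Function.iterate_succ_apply',
      ← dX_dY_comm (contDiff_dX_iterate hf l), ih]

theorem dX_iterate_eq_iteratedDeriv (hf : ContDiff ℝ ∞ f) (l : ℕ) (z : ℝ × ℝ) :
    dX^[l] f z = iteratedDeriv l (fun s => f (s, z.2)) z.1 := by
  induction l generalizing z with
  | zero => simp
  | succ l ih =>
    rw [Function.iterate_succ_apply', iteratedDeriv_succ]
    have h : iteratedDeriv l (fun s => f (s, z.2)) = fun s => dX^[l] f (s, z.2) :=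
      funext fun s => (ih (s, z.2)).symm
    rw [h]
    exact (hasDerivAt_sliceX ((contDiff_dX_iterate hf l).differentiable (by simp) _)).deriv.symm

theorem dY_iterate_eq_iteratedDeriv (hf : ContDiff ℝ ∞ f) (l : ℕ) (z : ℝ × ℝ) :
    dY^[l] f z = iteratedDeriv l (fun s => f (z.1, s)) z.2 := by
  induction l generalizing z with
  | zero => simp
  | succ l ih =>
    rw [Function.iterate_succ_apply', iteratedDeriv_succ]
    have h : iteratedDeriv l (fun s => f (z.1, s)) = fun s => dY^[l] f (z.1, s) :=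
      funext fun s => (ih (z.1, s)).symm
    rw [h]
    exact (hasDerivAt_sliceY ((contDiff_dY_iterate hf l).differentiable (by simp) _)).deriv.symm

theorem norm_iteratedFDeriv_dX_le (hf : ContDiff ℝ ∞ f) (j : ℕ) (z : ℝ × ℝ) :
    ‖iteratedFDeriv ℝ j (dX f) z‖ ≤ ‖iteratedFDeriv ℝ (j + 1) f z‖ := by
  refine (norm_iteratedFDeriv_clm_apply_const (f := fderiv ℝ f) (c := ((1 : ℝ), (0 : ℝ)))
    (hf.fderiv_right (m := ∞) le_rfl).contDiffAt (mod_cast le_top) (n := j)).trans ?_
  rw [norm_iteratedFDeriv_fderiv]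
  exact mul_le_of_le_one_left (norm_nonneg _) norm_geo_unit_fst

theorem norm_iteratedFDeriv_dY_le (hf : ContDiff ℝ ∞ f) (j : ℕ) (z : ℝ × ℝ) :
    ‖iteratedFDeriv ℝ j (dY f) z‖ ≤ ‖iteratedFDeriv ℝ (j + 1) f z‖ := by
  refine (norm_iteratedFDeriv_clm_apply_const (f := fderiv ℝ f) (c := ((0 : ℝ), (1 : ℝ)))
    (hf.fderiv_right (m := ∞) le_rfl).contDiffAt (mod_cast le_top) (n := j)).trans ?_
  rw [norm_iteratedFDeriv_fderiv]
  exact mul_le_of_le_one_left (norm_nonneg _) norm_geo_unit_snd

theorem norm_iteratedFDeriv_dX_iterate_le (hf : ContDiff ℝ ∞ f) (j l : ℕ) (z : ℝ × ℝ) :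
    ‖iteratedFDeriv ℝ j (dX^[l] f) z‖ ≤ ‖iteratedFDeriv ℝ (j + l) f z‖ := by
  induction l generalizing j with
  | zero => simp
  | succ l ih =>
    rw [Function.iterate_succ_apply']
    refine (norm_iteratedFDeriv_dX_le (contDiff_dX_iterate hf l) j z).trans ((ih (j + 1)).trans ?_)
    rw [Nat.add_right_comm, Nat.add_assoc]

theorem norm_iteratedFDeriv_dY_iterate_le (hf : ContDiff ℝ ∞ f) (j l : ℕ) (z : ℝ × ℝ) :
    ‖iteratedFDeriv ℝ j (dY^[l] f) z‖ ≤ ‖iteratedFDeriv ℝ (j + l) f z‖ := by
  induction l generalizing j with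
  | zero => simp
  | succ l ih =>
    rw [Function.iterate_succ_apply']
    refine (norm_iteratedFDeriv_dY_le (contDiff_dY_iterate hf l) j z).trans ((ih (j + 1)).trans ?_)
    rw [Nat.add_right_comm, Nat.add_assoc]

theorem abs_dX_iterate_dY_iterate_le (hf : ContDiff ℝ ∞ f) (l k : ℕ) (z : ℝ × ℝ) :
    |dX^[l] (dY^[k] f) z| ≤ ‖iteratedFDeriv ℝ (l + k) f z‖ := by
  have h := (norm_iteratedFDeriv_dX_iterate_le (contDiff_dY_iterate hf k) 0 l z).trans
    (norm_iteratedFDeriv_dY_iterate_le hf (0 + l) k z)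
  rw [norm_iteratedFDeriv_zero, Real.norm_eq_abs, Nat.zero_add] at h
  exact h

/-! ### Integrals -/

theorem integrable_of_compact (hf : Continuous f) (hc : HasCompactSupport f) : Integrable f :=
  hf.integrable_of_hasCompactSupport hc

theorem isAddHaar_volume_plane : (volume : Measure (ℝ × ℝ)).IsAddHaarMeasure := by
  rw [Measure.volume_eq_prod]; infer_instance

theorem integral_mul_dX (hf : ContDiff ℝ 1 f) (hg : ContDiff ℝ 1 g)
    (hc : HasCompactSupport f ∨ HasCompactSupport g) :
    ∫ w, f w * dX g w = -∫ w, dX f w * g w := by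
  have := isAddHaar_volume_plane
  refine integral_mul_fderiv_eq_neg_fderiv_mul_of_integrable (v := ((1 : ℝ), (0 : ℝ))) ?_ ?_ ?_
    (fun x _ => hf.differentiable one_ne_zero x) (fun x _ => hg.differentiable one_ne_zero x)
  · refine integrable_of_compact ((continuous_dX hf).mul hg.continuous) ?_
    exact hc.elim (fun h => (hasCompactSupport_dX h).mul_right) fun h => h.mul_left
  · refine integrable_of_compact (hf.continuous.mul (continuous_dX hg)) ?_
    exact hc.elim (fun h => h.mul_right) fun h => (hasCompactSupport_dX h).mul_left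
  · refine integrable_of_compact (hf.continuous.mul hg.continuous) ?_
    exact hc.elim (fun h => h.mul_right) fun h => h.mul_left

theorem integral_mul_dY (hf : ContDiff ℝ 1 f) (hg : ContDiff ℝ 1 g)
    (hc : HasCompactSupport f ∨ HasCompactSupport g) :
    ∫ w, f w * dY g w = -∫ w, dY f w * g w := by
  have := isAddHaar_volume_plane
  refine integral_mul_fderiv_eq_neg_fderiv_mul_of_integrable (v := ((0 : ℝ), (1 : ℝ))) ?_ ?_ ?_
    (fun x _ => hf.differentiable one_ne_zero x) (fun x _ => hg.differentiable one_ne_zero x)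
  · refine integrable_of_compact ((continuous_dY hf).mul hg.continuous) ?_
    exact hc.elim (fun h => (hasCompactSupport_dY h).mul_right) fun h => h.mul_left
  · refine integrable_of_compact (hf.continuous.mul (continuous_dY hg)) ?_
    exact hc.elim (fun h => h.mul_right) fun h => (hasCompactSupport_dY h).mul_left
  · refine integrable_of_compact (hf.continuous.mul hg.continuous) ?_
    exact hc.elim (fun h => h.mul_right) fun h => h.mul_left

theorem integral_dX_eq_zero (hf : ContDiff ℝ 1 f) (hc : HasCompactSupport f) :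
    ∫ w, dX f w = 0 := by
  simpa [dX_const] using integral_mul_dX hf (contDiff_const (c := (1 : ℝ))) (.inl hc)

theorem integral_dY_eq_zero (hf : ContDiff ℝ 1 f) (hc : HasCompactSupport f) :
    ∫ w, dY f w = 0 := by
  simpa [dY_const] using integral_mul_dY hf (contDiff_const (c := (1 : ℝ))) (.inl hc)

theorem poincare_dY (hf : ContDiff ℝ 1 f) (hc : HasCompactSupport f) {Y : ℝ}
    (hY : ∀ w : ℝ × ℝ, Y ≤ |w.2| → f w = 0) :
    ∫ w, f w ^ 2 ≤ 4 * Y ^ 2 * ∫ w, dY f w ^ 2 := by
  have hc2 : HasCompactSupport fun w => f w ^ 2 := hc.comp_left (g := fun t : ℝ => t ^ 2) (by simp)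
  have hd2 : HasCompactSupport fun w => dY f w ^ 2 :=
    (hasCompactSupport_dY hc).comp_left (g := fun t : ℝ => t ^ 2) (by simp)
  have hi : Integrable fun w => f w ^ 2 := integrable_of_compact (hf.continuous.pow 2) hc2
  have hi' : Integrable fun w => dY f w ^ 2 :=
    integrable_of_compact ((continuous_dY hf).pow 2) hd2
  have key := integral_mul_dY (f := fun w => f w ^ 2) (g := fun w : ℝ × ℝ => w.2)
    (hf.pow 2) contDiff_snd (.inl hc2)
  simp only [dY_snd, mul_one, dY_pow 2 (hf.differentiable one_ne_zero _)] at key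
  rw [← integral_neg] at key
  have hle : ∫ w, f w ^ 2 ≤ ∫ w, (1 / 2 * f w ^ 2 + 2 * Y ^ 2 * dY f w ^ 2) := by
    conv_lhs => rw [key]
    refine integral_mono ?_ ((hi.const_mul _).add (hi'.const_mul _)) fun w => ?_
    · refine (integrable_of_compact ?_ ?_).neg
      · exact ((continuous_const.mul (hf.continuous.pow _)).mul (continuous_dY hf)).mul
          continuous_snd
      · exact ((hasCompactSupport_dY hc).mul_left).mul_right
    · show -(((2 : ℕ) : ℝ) * f w ^ (2 - 1) * dY f w * w.2) ≤ _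
      rcases le_or_gt Y |w.2| with h | h
      · simp [hY w h]; positivity
      · have h2 : w.2 ^ 2 ≤ Y ^ 2 := by
          rw [← sq_abs w.2]; exact pow_le_pow_left₀ (abs_nonneg _) h.le 2
        nlinarith [sq_nonneg (f w + 2 * w.2 * dY f w),
          mul_le_mul_of_nonneg_right h2 (sq_nonneg (dY f w))]
  rw [integral_add (hi.const_mul _) (hi'.const_mul _), integral_const_mul, integral_const_mul]
    at hle
  linarith

/-- Slices of a compactly supported function have compact support. -/
theorem hasCompactSupport_sliceY (hc : HasCompactSupport f) (x : ℝ) :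
    HasCompactSupport fun t => f (x, t) :=
  HasCompactSupport.intro (hc.isCompact.image continuous_snd) fun t ht =>
    image_eq_zero_of_notMem_tsupport fun h => ht ⟨(x, t), h, rfl⟩

theorem hasCompactSupport_sliceX (hc : HasCompactSupport f) (y : ℝ) :
    HasCompactSupport fun s => f (s, y) :=
  HasCompactSupport.intro (hc.isCompact.image continuous_fst) fun s hs =>
    image_eq_zero_of_notMem_tsupport fun h => hs ⟨(s, y), h, rfl⟩

theorem abs_le_integral_abs_dY (hf : ContDiff ℝ 1 f) (hc : HasCompactSupport f) (x y : ℝ) :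
    |f (x, y)| ≤ ∫ t, |dY f (x, t)| := by
  have hs : ContDiff ℝ 1 fun t => f (x, t) := hf.comp (contDiff_const.prodMk contDiff_id)
  have h := (hasCompactSupport_sliceY hc x).integral_Iic_deriv_eq hs y
  have hd : (deriv fun t => f (x, t)) = fun t => dY f (x, t) :=
    funext fun t => (hasDerivAt_sliceY (hf.differentiable one_ne_zero _)).deriv
  rw [hd] at h
  rw [← h, ← Real.norm_eq_abs]
  refine (norm_integral_le_integral_norm _).trans
    (setIntegral_le_integral ?_ (.of_forall fun _ => norm_nonneg _))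
  exact (((continuous_dY hf).comp (continuous_const.prodMk continuous_id)).integrable_of_hasCompactSupport
    (hasCompactSupport_sliceY (hasCompactSupport_dY hc) x)).norm

theorem abs_le_integral_abs_dX (hf : ContDiff ℝ 1 f) (hc : HasCompactSupport f) (x y : ℝ) :
    |f (x, y)| ≤ ∫ s, |dX f (s, y)| := by
  have hs : ContDiff ℝ 1 fun s => f (s, y) := hf.comp (contDiff_id.prodMk contDiff_const)
  have h := (hasCompactSupport_sliceX hc y).integral_Iic_deriv_eq hs x
  have hd : (deriv fun s => f (s, y)) = fun s => dX f (s, y) :=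
    funext fun s => (hasDerivAt_sliceX (hf.differentiable one_ne_zero _)).deriv
  rw [hd] at h
  rw [← h, ← Real.norm_eq_abs]
  refine (norm_integral_le_integral_norm _).trans
    (setIntegral_le_integral ?_ (.of_forall fun _ => norm_nonneg _))
  exact (((continuous_dX hf).comp (continuous_id.prodMk continuous_const)).integrable_of_hasCompactSupport
    (hasCompactSupport_sliceX (hasCompactSupport_dX hc) y)).norm

theorem abs_le_integral_abs_dX_dY (hf : ContDiff ℝ 2 f) (hc : HasCompactSupport f) (z : ℝ × ℝ) :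
    |f z| ≤ ∫ w, |dX (dY f) w| := by
  have h1 : ContDiff ℝ 1 f := hf.of_le (by norm_num)
  have h2 : ContDiff ℝ 1 (dY f) := contDiff_dY hf (by norm_num)
  have hcd := hasCompactSupport_dY hc
  have hI : Integrable fun w => |dX (dY f) w| :=
    (integrable_of_compact (continuous_dX h2) (hasCompactSupport_dX hcd)).abs
  rw [Measure.volume_eq_prod, integral_prod_symm _ (Measure.volume_eq_prod ℝ ℝ ▸ hI)]
  refine (abs_le_integral_abs_dY h1 hc z.1 z.2).trans
    (integral_mono ?_ ?_ fun t => abs_le_integral_abs_dX h2 hcd z.1 t)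
  · exact (((continuous_dY h1).comp (continuous_const.prodMk continuous_id)).integrable_of_hasCompactSupport
      (hasCompactSupport_sliceY hcd z.1)).abs
  · exact (Measure.volume_eq_prod ℝ ℝ ▸ hI).integral_prod_right

theorem integral_abs_le_sqrt_mul (hf : Continuous f) {a b c d : ℝ} (hab : a ≤ b) (hcd : c ≤ d)
    (hs : ∀ w, w ∉ Icc a b ×ˢ Icc c d → f w = 0) :
    ∫ w, |f w| ≤ Real.sqrt ((b - a) * (d - c)) * Real.sqrt (∫ w, f w ^ 2) := by
  set R := Icc a b ×ˢ Icc c d with hR
  have hK : IsCompact R := isCompact_Icc.prod isCompact_Icc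
  have hA : volume.real R = (b - a) * (d - c) := by
    rw [hR, measureReal_def, Measure.volume_eq_prod, Measure.prod_prod, Real.volume_Icc,
      Real.volume_Icc, ENNReal.toReal_mul, ENNReal.toReal_ofReal (by linarith),
      ENNReal.toReal_ofReal (by linarith)]
  have hJ : ∫ w, f w ^ 2 = ∫ w in R, f w ^ 2 :=
    (setIntegral_eq_integral_of_forall_compl_eq_zero fun w hw => by simp [hs w hw]).symm
  have hI : ∫ w, |f w| = ∫ w in R, |f w| :=
    (setIntegral_eq_integral_of_forall_compl_eq_zero fun w hw => by simp [hs w hw]).symm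
  have hi1 : IntegrableOn (fun w => f w ^ 2) R := (hf.pow 2).continuousOn.integrableOn_compact hK
  have hi2 : IntegrableOn (fun w => |f w|) R := hf.abs.continuousOn.integrableOn_compact hK
  have key : ∀ t : ℝ, 0 ≤ (b - a) * (d - c) * (t * t) + (-2 * ∫ w in R, |f w|) * t +
      ∫ w in R, f w ^ 2 := by
    intro t
    have h : (0 : ℝ) ≤ ∫ w in R, (f w ^ 2 + ((-2 * t) * |f w| + t * t)) :=
      setIntegral_nonneg hK.measurableSet fun w _ => by
        nlinarith [sq_nonneg (|f w| - t), sq_abs (f w)]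
    have hc1 : IntegrableOn (fun _ : ℝ × ℝ => t * t) R := continuousOn_const.integrableOn_compact hK
    have h2 : IntegrableOn (fun w => -2 * t * |f w|) R := hi2.const_mul (-2 * t)
    have h3 : IntegrableOn (fun w => -2 * t * |f w| + t * t) R := h2.add hc1
    rw [integral_add hi1 h3, integral_add h2 hc1, integral_const_mul, setIntegral_const, hA,
      smul_eq_mul] at h
    linarith
  have hd := discrim_le_zero key
  simp only [discrim] at hd
  rw [hI, hJ, ← Real.sqrt_mul (mul_nonneg (by linarith) (by linarith))]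
  refine Real.le_sqrt_of_sq_le ?_
  nlinarith [hd]

theorem abs_le_sqrt_area_mul (hf : ContDiff ℝ 2 f) {a b c d : ℝ} (hab : a ≤ b) (hcd : c ≤ d)
    (hs : ∀ w, w ∉ Icc a b ×ˢ Icc c d → f w = 0) (z : ℝ × ℝ) :
    |f z| ≤ Real.sqrt ((b - a) * (d - c)) * Real.sqrt (∫ w, dX (dY f) w ^ 2) := by
  have hcl : IsClosed (Icc a b ×ˢ Icc c d) := isClosed_Icc.prod isClosed_Icc
  refine (abs_le_integral_abs_dX_dY hf
    (HasCompactSupport.intro (isCompact_Icc.prod isCompact_Icc) hs) z).trans ?_
  exact integral_abs_le_sqrt_mul (continuous_dX (contDiff_dY hf (by norm_num))) hab hcd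
    fun w hw => dX_eq_zero_off hcl (fun v hv => dY_eq_zero_off hcl hs hv) hw

/-- One-dimensional form of the strip estimate. -/
theorem sq_le_strip_one_dim {g g' : ℝ → ℝ} (hg : ∀ t, HasDerivAt g (g' t) t) (hg' : Continuous g')
    {h y : ℝ} (hh : 0 < h) (hy : y ∈ Icc (-(2 * h)) (2 * h)) :
    g y ^ 2 ≤ 5 / (4 * h) * (∫ t in Icc (-(2 * h)) (2 * h), g t ^ 2) +
      h * ∫ t in Icc (-(2 * h)) (2 * h), g' t ^ 2 := by
  set I := Icc (-(2 * h)) (2 * h) with hI
  have hgc : Continuous g := continuous_iff_continuousAt.2 fun t => (hg t).continuousAt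
  have hi : ∀ {p : ℝ → ℝ}, Continuous p → IntegrableOn p I :=
    fun hp => hp.continuousOn.integrableOn_compact isCompact_Icc
  set A := ∫ t in I, g t ^ 2 with hA
  set B := ∫ t in I, g' t ^ 2 with hB
  have hm : ∀ t ∈ I, g y ^ 2 - (A / h + h * B) ≤ g t ^ 2 := by
    intro t ht
    have hft : ∫ s in t..y, 2 * g s * g' s = g y ^ 2 - g t ^ 2 := by
      refine intervalIntegral.integral_eq_sub_of_hasDerivAt (f := fun s => g s ^ 2)
        (f' := fun s => 2 * g s * g' s) (fun s _ => ?_)
        (Continuous.intervalIntegrable (by fun_prop) _ _)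
      refine ((hg s).pow 2).congr_deriv ?_
      norm_num
    have hsub : Set.uIoc t y ⊆ I := uIoc_subset_uIcc.trans (uIcc_subset_Icc ht hy)
    have hle : |∫ s in t..y, 2 * g s * g' s| ≤ A / h + h * B := by
      rw [← Real.norm_eq_abs]
      refine intervalIntegral.norm_integral_le_integral_norm_uIoc.trans ?_
      refine (setIntegral_mono_set (hi (((continuous_const.mul hgc).mul hg').norm))
        (.of_forall fun _ => norm_nonneg _) hsub.eventuallyLE).trans ?_
      calc ∫ s in I, ‖2 * g s * g' s‖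
          ≤ ∫ s in I, (1 / h * g s ^ 2 + h * g' s ^ 2) := by
            refine setIntegral_mono (hi (((continuous_const.mul hgc).mul hg').norm))
              (hi ((continuous_const.mul (hgc.pow 2)).add (continuous_const.mul (hg'.pow 2))))
              fun s => ?_
            have e : 1 / h * g s ^ 2 + h * g' s ^ 2 - |2 * g s * g' s| =
                1 / h * (|g s| - h * |g' s|) ^ 2 := by
              rw [abs_mul, abs_mul, ← sq_abs (g s), ← sq_abs (g' s)]
              simp only [abs_two]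
              field_simp
              ring
            rw [Real.norm_eq_abs]
            nlinarith [e, mul_nonneg (one_div_nonneg.2 hh.le) (sq_nonneg (|g s| - h * |g' s|))]
        _ = A / h + h * B := by
            have p1 : IntegrableOn (fun s => 1 / h * g s ^ 2) I := hi (by fun_prop)
            have p2 : IntegrableOn (fun s => h * g' s ^ 2) I := hi (by fun_prop)
            rw [integral_add p1 p2, integral_const_mul, integral_const_mul]
            ring
    linarith [(abs_le.1 hle).2]
  have hconst := setIntegral_mono_on (g := fun t => g t ^ 2) (hi continuous_const)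
    (hi (hgc.pow 2)) measurableSet_Icc hm
  rw [setIntegral_const, smul_eq_mul, hI, Real.volume_real_Icc_of_le (by linarith), ← hI, ← hA]
    at hconst
  have h4 : g y ^ 2 - (A / h + h * B) ≤ A / (4 * h) := by
    rw [le_div_iff₀ (by linarith)]; nlinarith [hconst]
  have e : 5 / (4 * h) * A = A / h + A / (4 * h) := by field_simp; ring
  linarith

theorem strip_estimate (hf : ContDiff ℝ 1 f) (hc : HasCompactSupport f) {d h : ℝ} (hd : 0 ≤ d)
    (hh : 0 < h) (hdh : d ≤ 2 * h) :
    ∫ w in {w : ℝ × ℝ | |w.2| ≤ d}, f w ^ 2 ≤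
      3 * d * ((1 / h) * (∫ w in {w : ℝ × ℝ | |w.2| ≤ 2 * h}, f w ^ 2) +
        h * ∫ w, dY f w ^ 2) := by
  have hset : ∀ e : ℝ, {w : ℝ × ℝ | |w.2| ≤ e} = univ ×ˢ Icc (-e) e := fun e => by
    ext w; simp [abs_le]
  have hi : Integrable fun w => f w ^ 2 :=
    integrable_of_compact (hf.continuous.pow 2) (hc.comp_left (g := fun t : ℝ => t ^ 2) (by simp))
  have hi' : Integrable fun w => dY f w ^ 2 :=
    integrable_of_compact ((continuous_dY hf).pow 2)
      ((hasCompactSupport_dY hc).comp_left (g := fun t : ℝ => t ^ 2) (by simp))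
  rw [Measure.volume_eq_prod] at hi hi'
  set I := Icc (-(2 * h)) (2 * h) with hI
  have hslice : ∀ x, ∫ y in Icc (-d) d, f (x, y) ^ 2 ≤
      2 * d * (5 / (4 * h) * (∫ y in I, f (x, y) ^ 2) + h * ∫ y in I, dY f (x, y) ^ 2) := by
    intro x
    have hb := setIntegral_mono_on (μ := volume)
      ((hf.continuous.comp (continuous_const.prodMk continuous_id)).pow 2
        |>.continuousOn.integrableOn_compact (isCompact_Icc (a := -d) (b := d)))
      (continuousOn_const.integrableOn_compact isCompact_Icc) measurableSet_Icc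
      fun y hy => sq_le_strip_one_dim (g := fun t => f (x, t)) (g' := fun t => dY f (x, t))
        (fun t => hasDerivAt_sliceY (hf.differentiable one_ne_zero _))
        ((continuous_dY hf).comp (continuous_const.prodMk continuous_id)) hh
        (Icc_subset_Icc (by linarith) hdh hy)
    rw [setIntegral_const, smul_eq_mul, Real.volume_real_Icc_of_le (by linarith)] at hb
    refine hb.trans (le_of_eq ?_)
    ring
  have e1 : ∀ {p : ℝ × ℝ → ℝ} (t : Set ℝ), Integrable p ((volume : Measure ℝ).prod volume) →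
      ∫ w in univ ×ˢ t, p w = ∫ x, ∫ y in t, p (x, y) := by
    intro p t hp
    rw [Measure.volume_eq_prod, setIntegral_prod _ hp.integrableOn, Measure.restrict_univ]
  have e2 : ∀ {p : ℝ × ℝ → ℝ} (t : Set ℝ), Integrable p ((volume : Measure ℝ).prod volume) →
      Integrable fun x => ∫ y in t, p (x, y) := by
    intro p t hp
    have h1 := hp.integrableOn (s := univ ×ˢ t)
    rw [IntegrableOn, ← Measure.prod_restrict, Measure.restrict_univ] at h1
    exact h1.integral_prod_left
  have hB : ∫ w in univ ×ˢ I, dY f w ^ 2 ≤ ∫ w, dY f w ^ 2 :=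
    setIntegral_le_integral (Measure.volume_eq_prod ℝ ℝ ▸ hi') (.of_forall fun _ => sq_nonneg _)
  have hA0 : 0 ≤ ∫ w in univ ×ˢ I, f w ^ 2 := integral_nonneg fun _ => sq_nonneg _
  have hB0 : 0 ≤ ∫ w, dY f w ^ 2 := integral_nonneg fun _ => sq_nonneg _
  rw [hset, hset, ← hI]
  calc ∫ w in univ ×ˢ Icc (-d) d, f w ^ 2
      = ∫ x, ∫ y in Icc (-d) d, f (x, y) ^ 2 := e1 _ hi
    _ ≤ ∫ x, 2 * d * (5 / (4 * h) * (∫ y in I, f (x, y) ^ 2) +
          h * ∫ y in I, dY f (x, y) ^ 2) :=
        integral_mono (e2 _ hi)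
          ((((e2 I hi).const_mul _).add ((e2 I hi').const_mul _)).const_mul _) hslice
    _ = 2 * d * (5 / (4 * h) * (∫ w in univ ×ˢ I, f w ^ 2) +
          h * ∫ w in univ ×ˢ I, dY f w ^ 2) := by
        rw [integral_const_mul, integral_add ((e2 I hi).const_mul _) ((e2 I hi').const_mul _),
          integral_const_mul, integral_const_mul, e1 I hi, e1 I hi']
    _ ≤ 3 * d * (1 / h * (∫ w in univ ×ˢ I, f w ^ 2) + h * ∫ w, dY f w ^ 2) := by
        have h54 : 5 / (4 * h) * (∫ w in univ ×ˢ I, f w ^ 2) =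
            5 / 4 * (1 / h * ∫ w in univ ×ˢ I, f w ^ 2) := by field_simp
        have hA1 : 0 ≤ 1 / h * ∫ w in univ ×ˢ I, f w ^ 2 := mul_nonneg (by positivity) hA0
        rw [h54]
        nlinarith [mul_le_mul_of_nonneg_left hB (mul_nonneg hd hh.le),
          mul_nonneg hd hA1, mul_nonneg (mul_nonneg hd hh.le) hB0]

end Vale.Agent.P229
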