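import Vale.Agent.P229.BoxSol
import Vale.Agent.P229.BoxDom
import Vale.Agent.P229.Calc
import Mathlib.Analysis.Calculus.Deriv.MeanValue

/-!
# P229: elementary control of a solution on the rectangles
-/

open scoped ContDiff Topology
open Set Filter

namespace Vale.Agent.P229

theorem bxEv_pos : ∀ᶠ t in 𝓝[>] (0 : ℝ), 0 < t ∧ t ≤ 1 := by
  filter_upwards [self_mem_nhdsWithin, mem_nhdsWithin_of_mem_nhds (Iic_mem_nhds one_pos)] with t h h1
  exact ⟨h, h1⟩

theorem bxEv_small (C : ℝ) {ν : ℝ} (hν : 0 < ν) : ∀ᶠ t in 𝓝[>] (0 : ℝ), C * t ≤ ν := by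
  have h : Tendsto (fun t : ℝ => C * t) (𝓝[>] 0) (𝓝 0) :=
    ((continuous_const_mul C).tendsto' 0 0 (mul_zero C)).mono_left nhdsWithin_le_nhds
  exact (h.eventually (Iio_mem_nhds hν)).mono fun t ht => le_of_lt ht

theorem bxEv_T (C : ℝ) : ∀ᶠ t in 𝓝[>] (0 : ℝ), C ≤ t⁻¹ :=
  tendsto_inv_nhdsGT_zero.eventually (eventually_ge_atTop C)

/-- A constant times a higher power is below a lower power. -/
theorem bxEv_pow (C : ℝ) {a b : ℕ} (h : b < a) : ∀ᶠ t in 𝓝[>] (0 : ℝ), C * t ^ a ≤ t ^ b := by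
  filter_upwards [bxEv_pos, bxEv_small |C| one_pos] with t ⟨ht, ht1⟩ hC
  obtain ⟨k, rfl⟩ : ∃ k, a = b + 1 + k := ⟨a - b - 1, by omega⟩
  calc C * t ^ (b + 1 + k) ≤ |C| * t ^ (b + 1 + k) :=
        mul_le_mul_of_nonneg_right (le_abs_self C) (by positivity)
    _ = |C| * t * t ^ b * t ^ k := by ring
    _ ≤ 1 * t ^ b * 1 := by gcongr; exact pow_le_one₀ ht.le ht1
    _ = t ^ b := by ring

namespace Par

variable (c : Par)

theorem bxΓ1_eq : c.Γ1 = 16 * (c.K + 1) := rfl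

theorem bxpOut_ge : 1 ≤ c.pOut := by
  have := c.one_le_K
  have := c.bxΓ1_pos
  unfold pOut
  nlinarith

theorem rect_subset {t s s' : ℝ} (ht : 0 ≤ t) (h : s ≤ s') : c.rect t s ⊆ c.rect t s' := by
  intro z hz
  have := c.bxpOut_pos
  exact ⟨hz.1.trans (by gcongr), hz.2.trans (by gcongr)⟩

theorem rect_small {t s : ℝ} (ht : 0 ≤ t) (hs : s ≤ 1) {z : ℝ × ℝ} (hz : z ∈ c.rect t s) :
    |z.1| ≤ 3 * c.pOut * t ∧ |z.2| ≤ t := by
  obtain ⟨h1, h2⟩ := c.rect_subset ht hs hz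
  exact ⟨by linarith, by linarith⟩

theorem rect_eq {t s : ℝ} : c.rect t s =
    Icc (-(c.pOut * (2 + s) * t)) (c.pOut * (2 + s) * t) ×ˢ
      Icc (-((1 + s) / 2 * t)) ((1 + s) / 2 * t) := by
  ext z; simp only [rect, mem_ofPred_eq, abs_le, mem_prod, mem_Icc]

theorem rect_compact (t s : ℝ) : IsCompact (c.rect t s) := by
  rw [c.rect_eq]; exact isCompact_Icc.prod isCompact_Icc

theorem rect_nhds {t : ℝ} (ht : 0 < t) {z : ℝ × ℝ} (hz : z ∈ c.rect t 1) :
    sq (c.κ * c.r t) ∈ 𝓝 z := by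
  obtain ⟨h1, h2⟩ := c.rect_small ht.le le_rfl hz
  have hp := c.bxpOut_ge
  have hk := c.κ_pos
  have e : (3 * c.pOut + 1) * t ≤ c.κ * c.r t := by
    have : 0 ≤ c.κ * c.Γ1 * t := by have := c.bxΓ1_pos; positivity
    have e' : c.κ * c.r t = (3 * c.pOut + 1) * t + c.κ * c.Γ1 * t := by
      unfold r cr; field_simp
    linarith
  obtain ⟨a1, b1⟩ := abs_le.1 h1
  obtain ⟨a2, b2⟩ := abs_le.1 h2
  exact prod_mem_nhds (Icc_mem_nhds (by linarith) (by linarith))
    (Icc_mem_nhds (by nlinarith) (by nlinarith))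

theorem rect_sub_sq {t : ℝ} (ht : 0 < t) {z : ℝ × ℝ} (hz : z ∈ c.rect t 1) :
    z ∈ sq (c.κ * c.r t) := mem_of_mem_nhds (c.rect_nhds ht hz)

variable {c} {t : ℝ} {u b : ℝ × ℝ → ℝ}

/-- The derivatives of order at most `16` are bounded. -/
theorem Sol.iter_bound (h : c.Sol t u b) {z : ℝ × ℝ} (hz : z ∈ sq (c.κ * c.r t)) (l k : ℕ)
    (hl : l + k ≤ 16) :
    (1 ≤ l + k → |dX^[l] (dY^[k] u) z| ≤ c.K) ∧ |dX^[l] (dY^[k] b) z| ≤ c.K := by
  refine ⟨fun h1 => ?_, ?_⟩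
  · exact (abs_dX_iterate_dY_iterate_le h.smu l k z).trans (h.bdu z hz _ h1 hl)
  · exact (abs_dX_iterate_dY_iterate_le h.smb l k z).trans (h.bdb z hz _ hl)

theorem Sol.lipschitz (h : c.Sol t u b) (ht : 0 < t) {z : ℝ × ℝ} (hz : z ∈ c.rect t 1) :
    |u z| ≤ c.K * (|z.1| + |z.2|) ∧ |b z| ≤ c.K * (|z.1| + |z.2|) := by
  have hm := c.rect_sub_sq ht hz
  have h0 : (0 : ℝ × ℝ) ∈ sq (c.κ * c.r t) := c.rect_sub_sq ht (by
    refine ⟨?_, ?_⟩
    · simp; have := c.bxpOut_pos; positivity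
    · simp; positivity)
  have hn : ‖z‖ ≤ |z.1| + |z.2| := by
    rw [Prod.norm_def, Real.norm_eq_abs, Real.norm_eq_abs]
    exact max_le (le_add_of_nonneg_right (abs_nonneg _)) (le_add_of_nonneg_left (abs_nonneg _))
  have hK : 0 ≤ c.K := le_trans zero_le_one c.one_le_K
  have hconv : Convex ℝ (sq (c.κ * c.r t)) := (convex_Icc _ _).prod (convex_Icc _ _)
  constructor
  · have := Convex.norm_image_sub_le_of_norm_fderiv_le (𝕜 := ℝ) (f := u)
      (fun x _ => h.smu.differentiable (by simp) x)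
      (fun x hx => by rw [← norm_iteratedFDeriv_one]; exact h.bdu x hx 1 le_rfl (by norm_num))
      hconv h0 hm
    rw [h.u0, sub_zero, sub_zero, Real.norm_eq_abs] at this
    exact this.trans (mul_le_mul_of_nonneg_left hn hK)
  · have := Convex.norm_image_sub_le_of_norm_fderiv_le (𝕜 := ℝ) (f := b)
      (fun x _ => h.smb.differentiable (by simp) x)
      (fun x hx => by rw [← norm_iteratedFDeriv_one]; exact h.bdb x hx 1 (by norm_num))
      hconv h0 hm
    rw [h.b0, sub_zero, sub_zero, Real.norm_eq_abs] at this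
    exact this.trans (mul_le_mul_of_nonneg_left hn hK)

theorem Sol.lower (h : c.Sol t u b) (ht : 0 < t) {z : ℝ × ℝ} (hz : z ∈ c.rect t 1) :
    |z.1| ≤ c.K * (|u z| + c.K * |z.2|) := by
  have hK : 0 < c.K := lt_of_lt_of_le zero_lt_one c.one_le_K
  rcases eq_or_ne z.1 0 with h0 | h0
  · rw [h0, abs_zero]; positivity
  have mem : ∀ s : ℝ, |s| ≤ |z.1| → (s, (0 : ℝ)) ∈ c.rect t 1 := fun s hs =>
    ⟨hs.trans hz.1, by simp; positivity⟩
  have hd : ∀ s : ℝ, HasDerivAt (fun s => u (s, 0)) (dX u (s, 0)) s := fun s =>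
    bxHasDerivAt_X h.smu (s, 0)
  have key : |z.1| ≤ c.K * |u (z.1, 0)| := by
    have hu0 : u ((0 : ℝ), (0 : ℝ)) = 0 := h.u0
    obtain ⟨ξ, hξ, he⟩ : ∃ ξ : ℝ, |ξ| ≤ |z.1| ∧ u (z.1, 0) = dX u (ξ, 0) * z.1 := by
      rcases lt_or_gt_of_ne h0 with hn | hp
      · obtain ⟨ξ, hξ, he⟩ := exists_hasDerivAt_eq_slope (fun s => u (s, 0)) _ hn
          (fun s _ => (hd s).continuousAt.continuousWithinAt) (fun s _ => hd s)
        simp only [hu0, zero_sub] at he
        refine ⟨ξ, ?_, ?_⟩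
        · rw [abs_of_neg hn, abs_of_neg hξ.2]; linarith [hξ.1]
        · rw [he]; field_simp
      · obtain ⟨ξ, hξ, he⟩ := exists_hasDerivAt_eq_slope (fun s => u (s, 0)) _ hp
          (fun s _ => (hd s).continuousAt.continuousWithinAt) (fun s _ => hd s)
        simp only [hu0, sub_zero] at he
        refine ⟨ξ, ?_, ?_⟩
        · rw [abs_of_pos hp, abs_of_pos hξ.1]; linarith [hξ.2]
        · rw [he]; field_simp
    have hup := h.up _ (c.rect_sub_sq ht (mem ξ hξ))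
    rw [he, abs_mul, ← mul_assoc]
    refine le_mul_of_one_le_left (abs_nonneg _) ?_
    rw [div_le_iff₀ hK] at hup
    linarith
  have hdy : |u (z.1, 0) - u z| ≤ c.K * |z.2| := by
    have := Convex.norm_image_sub_le_of_norm_fderiv_le (𝕜 := ℝ) (f := u)
      (fun x _ => h.smu.differentiable (by simp) x)
      (fun x hx => by rw [← norm_iteratedFDeriv_one]; exact h.bdu x hx 1 le_rfl (by norm_num))
      ((convex_Icc _ _).prod (convex_Icc _ _)) (c.rect_sub_sq ht hz)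
      (c.rect_sub_sq ht (mem z.1 le_rfl))
    simpa [Prod.norm_def, Real.norm_eq_abs] using this
  refine key.trans (mul_le_mul_of_nonneg_left ?_ hK.le)
  linarith [abs_sub_abs_le_abs_sub (u (z.1, 0)) (u z)]

/-- Where the bump lives in the hodograph variables. -/
theorem Sol.off_bump (h : c.Sol t u b) (ht : 0 < t) {z : ℝ × ℝ} (hz : z ∈ c.rect t 1)
    (hb : z ∉ c.bumpSet t) : 2 * c.δ t < |(pt u z).1| ∨ 2 * c.δ t < |(pt u z).2| := by
  by_contra hh
  simp only [not_or, not_lt, pt] at hh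
  refine hb ⟨?_, hh.2⟩
  have hK : 0 ≤ c.K := le_trans zero_le_one c.one_le_K
  calc |z.1| ≤ c.K * (|u z| + c.K * |z.2|) := h.lower ht hz
    _ ≤ c.K * (2 * c.δ t + c.K * (2 * c.δ t)) := by gcongr <;> linarith
    _ = _ := by ring

/-- Outside the core the lens is absent or weak. -/
theorem Sol.off_core (h : c.Sol t u b) (ht : 0 < t) {z : ℝ × ℝ} (hz : z ∈ c.rect t 1)
    (hc : c.pOut * t < |z.1|) : 2 * c.L t ≤ |u z| := by
  have hK : 0 < c.K := lt_of_lt_of_le zero_lt_one c.one_le_K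
  have h1 := h.lower ht hz
  have h2 := (c.rect_small ht.le le_rfl hz).2
  by_contra hh
  push Not at hh
  have h3 : c.K * (|u z| + c.K * |z.2|) ≤ c.K * (2 * c.L t + c.K * t) := by gcongr
  have e : c.pOut * t = c.K * (2 * c.L t + c.K * t) + (c.K + 1) * t := by
    unfold pOut L; ring
  nlinarith

/-- Derivatives vary little. -/
theorem Sol.dX_near (h : c.Sol t u b) (ht : 0 < t) {z : ℝ × ℝ} (hz : z ∈ c.rect t 1) :
    |dX u z - dX u 0| ≤ c.K * (|z.1| + |z.2|) ∧ |dY u z - dY u 0| ≤ c.K * (|z.1| + |z.2|) := by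
  have hK : 0 ≤ c.K := le_trans zero_le_one c.one_le_K
  have h0 : (0 : ℝ × ℝ) ∈ c.rect t 1 := by
    refine ⟨?_, ?_⟩
    · simp; have := c.bxpOut_pos; positivity
    · simp; positivity
  have hn : ‖z - 0‖ ≤ |z.1| + |z.2| := by
    rw [sub_zero, Prod.norm_def, Real.norm_eq_abs, Real.norm_eq_abs]
    exact max_le (le_add_of_nonneg_right (abs_nonneg _)) (le_add_of_nonneg_left (abs_nonneg _))
  have hconv : Convex ℝ (sq (c.κ * c.r t)) := (convex_Icc _ _).prod (convex_Icc _ _)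
  constructor
  · have := Convex.norm_image_sub_le_of_norm_fderiv_le (𝕜 := ℝ) (f := dX u) (C := c.K)
      (fun x _ => (bxSmooth_dX h.smu).differentiable (by simp) x)
      (fun x hx => by
        rw [← norm_iteratedFDeriv_one]
        exact (norm_iteratedFDeriv_dX_le h.smu 1 x).trans (h.bdu x hx 2 (by norm_num) (by norm_num)))
      hconv (c.rect_sub_sq ht h0) (c.rect_sub_sq ht hz)
    exact this.trans (mul_le_mul_of_nonneg_left hn hK)
  · have := Convex.norm_image_sub_le_of_norm_fderiv_le (𝕜 := ℝ) (f := dY u) (C := c.K)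
      (fun x _ => (bxSmooth_dY h.smu).differentiable (by simp) x)
      (fun x hx => by
        rw [← norm_iteratedFDeriv_one]
        exact (norm_iteratedFDeriv_dY_le h.smu 1 x).trans (h.bdu x hx 2 (by norm_num) (by norm_num)))
      hconv (c.rect_sub_sq ht h0) (c.rect_sub_sq ht hz)
    exact this.trans (mul_le_mul_of_nonneg_left hn hK)

end Par

end Vale.Agent.P229
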