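import Vale.Agent.P229.BoxEnergyAux

/-!
# P229: the cut-offs of the energy estimates and their derivatives
-/

open scoped ContDiff Topology
open MeasureTheory Set Filter

namespace Vale.Agent.P229

/-- `f` does not depend on `y` in the strip `|y| < a`. -/
def BxStrip (a : ℝ) (f : ℝ × ℝ → ℝ) : Prop :=
  ∀ v v' : ℝ × ℝ, |v.2| < a → |v'.2| < a → v.1 = v'.1 → f v = f v'

theorem BxStrip.dX {a : ℝ} {f : ℝ × ℝ → ℝ} (h : BxStrip a f) (hf : ContDiff ℝ ∞ f) :
    BxStrip a (dX f) := by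
  intro v v' hv hv' e
  have h1 := bxHasDerivAt_X hf v
  have h2 := bxHasDerivAt_X hf v'
  have e2 : (fun s => f (s, v.2)) = fun s => f (s, v'.2) := funext fun s => h _ _ hv hv' rfl
  rw [e2, e] at h1
  exact h1.unique h2

theorem BxStrip.dY_eq_zero {a : ℝ} {f : ℝ × ℝ → ℝ} (h : BxStrip a f) (hf : ContDiff ℝ ∞ f)
    {z : ℝ × ℝ} (hz : |z.2| < a) : dY f z = 0 := by
  refine (bxHasDerivAt_Y hf z).unique ((hasDerivAt_const z.2 (f z)).congr_of_eventuallyEq ?_)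
  filter_upwards [(isOpen_lt continuous_abs continuous_const).mem_nhds hz] with s hs
  exact h (z.1, s) z hs hz rfl

theorem BxStrip.dY {a : ℝ} {f : ℝ × ℝ → ℝ} (h : BxStrip a f) (hf : ContDiff ℝ ∞ f) :
    BxStrip a (Vale.Agent.P229.dY f) := fun v v' hv hv' _ => by
  rw [h.dY_eq_zero hf hv, h.dY_eq_zero hf hv']

namespace Par

variable (c : Par)

theorem bxCut_smooth (t s s' : ℝ) : ContDiff ℝ ∞ (c.cut t s s') := by
  rw [c.bxCut_eq]; exact (c.bxCutP_smooth s s').comp (contDiff_id.const_smul t⁻¹)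

theorem bxHole_smooth (t : ℝ) : ContDiff ℝ ∞ (c.hole t) := by
  rw [c.bxHole_eq]; exact c.bxHoleP_smooth.comp (contDiff_id.const_smul t⁻¹)

theorem bxCut_nonneg (t s s' : ℝ) (z : ℝ × ℝ) : 0 ≤ c.cut t s s' z :=
  mul_nonneg (bxProf_nonneg _ _ _) (bxProf_nonneg _ _ _)

theorem bxCut_le_one (t s s' : ℝ) (z : ℝ × ℝ) : c.cut t s s' z ≤ 1 :=
  mul_le_one₀ (bxProf_le_one _ _ _) (bxProf_nonneg _ _ _) (bxProf_le_one _ _ _)

theorem bxCut_strip {t s s' : ℝ} (ht : 0 < t) (hs : 0 ≤ s) (h : s < s') :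
    BxStrip (t / 2) (c.cut t s s') := by
  intro v v' hv hv' e
  have key : ∀ y : ℝ, |y| < t / 2 → prof ((1 + s) / 2) ((1 + s') / 2) (y / t) = 1 := by
    intro y hy
    refine bxProf_one (by linarith) (by linarith) ?_
    rw [abs_div, abs_of_pos ht, div_le_iff₀ ht]
    nlinarith [mul_nonneg hs ht.le]
  simp only [cut, key _ hv, key _ hv', e]

theorem bxHole_strip {t : ℝ} (ht : 0 < t) : BxStrip (t / 4) (c.hole t) := by
  intro v v' hv hv' e
  have key : ∀ y : ℝ, |y| < t / 4 → prof (1 / 4) (3 / 8) (y / t) = 1 := by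
    intro y hy
    refine bxProf_one (by norm_num) (by norm_num) ?_
    rw [abs_div, abs_of_pos ht, div_le_iff₀ ht]
    linarith
  simp only [hole, key _ hv, key _ hv', e]

theorem bxHole_one {t : ℝ} (ht : 0 < t) {z : ℝ × ℝ} (hz : z ∈ c.core t) : c.hole t z = 1 := by
  have hp := c.bxpOut_pos
  rw [hole, bxProf_one hp.le (by linarith)
      (by rw [abs_div, abs_of_pos ht, div_le_iff₀ ht]; exact hz.1),
    bxProf_one (by norm_num) (by norm_num)
      (by rw [abs_div, abs_of_pos ht, div_le_iff₀ ht]; linarith [hz.2]), one_mul]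

theorem bxHole_zero {t : ℝ} (ht : 0 < t) {z : ℝ × ℝ}
    (hz : 3 / 2 * c.pOut * t ≤ |z.1| ∨ 3 / 8 * t ≤ |z.2|) : c.hole t z = 0 := by
  have hp := c.bxpOut_pos
  rcases hz with h | h
  · rw [hole, bxProf_zero hp.le (by linarith)
      (by rw [abs_div, abs_of_pos ht, le_div_iff₀ ht]; exact h), zero_mul]
  · rw [hole, bxProf_zero (lo := 1 / 4) (by norm_num) (by norm_num)
      (by rw [abs_div, abs_of_pos ht, le_div_iff₀ ht]; exact h), mul_zero]

/-- The core lies well inside every rectangle. -/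
theorem bxCore_nhds {t s : ℝ} (ht : 0 < t) (hs : 0 ≤ s) {z : ℝ × ℝ} (hz : z ∈ c.core t) :
    c.rect t s ∈ 𝓝 z := by
  have hp := mul_pos c.bxpOut_pos ht
  have h1 : |z.1| < c.pOut * 2 * t := by linarith [hz.1]
  have h2 : |z.2| < t / 2 := by linarith [hz.2]
  refine Filter.mem_of_superset (((isOpen_lt continuous_fst.abs continuous_const).inter
    (isOpen_lt continuous_snd.abs continuous_const)).mem_nhds ⟨h1, h2⟩) ?_
  rintro v ⟨a, b⟩
  have := mul_nonneg hp.le hs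
  exact ⟨by linarith [show |v.1| < c.pOut * 2 * t from a],
    by linarith [show |v.2| < t / 2 from b, mul_nonneg hs ht.le]⟩

theorem bxCut_core {t s s' : ℝ} (ht : 0 < t) (hs : 0 ≤ s) (h : s < s') {z : ℝ × ℝ}
    (hz : z ∈ c.core t) : c.cut t s s' =ᶠ[𝓝 z] fun _ => 1 := by
  filter_upwards [c.bxCore_nhds ht hs hz] with v hv using c.bxCut_one ht hs h hv

theorem bxBump_core : ∀ᶠ t in 𝓝[>] (0 : ℝ), c.bumpSet t ⊆ c.core t := by
  have hK := c.one_le_K
  have hp := c.bxpOut_pos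
  filter_upwards [bxSmall_eventually (show (0 : ℝ) < min (1 / 8)
    (c.pOut / (2 * c.K * (c.K + 1))) by positivity)] with t ht
  obtain ⟨ht0, htm⟩ := ht
  simp only [le_min_iff] at htm
  have hδ : c.δ t ≤ t * t := by
    have h2 : t ^ (2 * c.Qe - c.Pe) ≤ t ^ 2 :=
      pow_le_pow_of_le_one ht0.le (by linarith) (by have := c.Pe_le; omega)
    calc c.δ t ≤ 1 * t ^ 2 := mul_le_mul c.bxc1_le h2 (pow_pos ht0 _).le zero_le_one
      _ = t * t := by ring
  rintro z ⟨h1, h2⟩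
  refine ⟨h1.trans ?_, h2.trans ?_⟩
  · calc 2 * c.K * (c.K + 1) * c.δ t ≤ 2 * c.K * (c.K + 1) * (t * t) := by gcongr
      _ = t * (2 * c.K * (c.K + 1)) * t := by ring
      _ ≤ c.pOut * t := by
          gcongr; exact (le_div_iff₀ (by positivity)).1 htm.2
  · calc 2 * c.δ t ≤ 2 * (t * t) := by gcongr
      _ ≤ 2 * (t * (1 / 8)) := by gcongr; exact htm.1
      _ = t / 4 := by ring

theorem bxScaled_T5 {Φ : ℝ × ℝ → ℝ} (hΦ : ContDiff ℝ ∞ Φ) (hs : HasCompactSupport Φ) :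
    ∀ᶠ t in 𝓝[>] (0 : ℝ), ∀ z, ∀ a b : ℕ, a + b ≤ 4 →
      |dX^[a] (dY^[b] (fun w => Φ (t⁻¹ • w))) z| ≤ (t⁻¹) ^ 5 := by
  obtain ⟨C, hC⟩ := bxScaled_derivs hΦ hs
  filter_upwards [bxSmall_eventually one_pos, bxInv_eventually C] with t ht hCt z a b hab
  refine (hC t ht.1 ht.2 z a b hab).trans ?_
  calc C * (t⁻¹) ^ 4 ≤ t⁻¹ * (t⁻¹) ^ 4 :=
        mul_le_mul_of_nonneg_right hCt (pow_nonneg (inv_nonneg.2 ht.1.le) _)
    _ = _ := by ring

/-- The cut-off and its derivatives up to the fourth order. -/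
theorem bxCut_derivs {s s' : ℝ} (hs : 0 ≤ s) (h : s < s') :
    ∀ᶠ t in 𝓝[>] (0 : ℝ), ∀ z, ∀ a b : ℕ, a + b ≤ 4 →
      |dX^[a] (dY^[b] (c.cut t s s')) z| ≤ (t⁻¹) ^ 5 := by
  filter_upwards [bxScaled_T5 (c.bxCutP_smooth s s') (c.bxCutP_support hs h)] with t ht
  rw [c.bxCut_eq]; exact ht

end Par

end Vale.Agent.P229
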