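import Vale.Agent.P229.BoxPert
import Mathlib.Analysis.Normed.Operator.Prod

/-!
# P229: first derivatives of the coefficients along a solution
-/

open scoped ContDiff Topology
open Set Filter

namespace Vale.Agent.P229

theorem bxDX_pt {F u : ℝ × ℝ → ℝ} (hF : ContDiff ℝ ∞ F) (hu : ContDiff ℝ ∞ u) :
    dX (fun w => F (pt u w)) = fun w => dX F (pt u w) * dX u w :=
  funext fun w => (bxHasDerivAt_X (bxPt_smooth hF hu) w).unique (bxHasDerivAt_ptX hF hu w)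

theorem bxDY_pt {F u : ℝ × ℝ → ℝ} (hF : ContDiff ℝ ∞ F) (hu : ContDiff ℝ ∞ u) :
    dY (fun w => F (pt u w)) = fun w => dX F (pt u w) * dY u w + dY F (pt u w) :=
  funext fun w => (bxHasDerivAt_Y (bxPt_smooth hF hu) w).unique (bxHasDerivAt_ptY hF hu w)

theorem bxGeoBD_pi {ι : Type*} [Fintype ι] {n : ℕ} {R : ℝ} {f : ℝ × ℝ → ι → ℝ} {x : ℝ × ℝ}
    (hR : 0 ≤ R) (h : ∀ k, GeoBD n R (fun y => f y k) x) : GeoBD n R f x := by
  refine ⟨contDiffAt_pi.2 fun k => (h k).1, fun i hi => ?_⟩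
  have hf : ContDiffAt ℝ ∞ f x := contDiffAt_pi.2 fun k => (h k).1
  refine ContinuousMultilinearMap.opNorm_le_bound hR fun m => ?_
  refine (pi_norm_le_iff_of_nonneg (by positivity)).2 fun k => ?_
  have e := (ContinuousLinearMap.proj (R := ℝ) (φ := fun _ : ι => ℝ) k).iteratedFDeriv_comp_left
    hf (mod_cast le_top) (i := i)
  have h' := ((iteratedFDeriv ℝ i (fun y => f y k) x).le_opNorm m).trans
    (mul_le_mul_of_nonneg_right ((h k).2 i hi) (by positivity))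
  rw [show (fun y => f y k) = (ContinuousLinearMap.proj (R := ℝ) (φ := fun _ : ι => ℝ) k) ∘ f from rfl,
    e] at h'
  exact h'

theorem bxGeoBD_lin (n : ℕ) (L : ℝ × ℝ →L[ℝ] ℝ) (hL : ‖L‖ ≤ 1) {x : ℝ × ℝ} (hx : |L x| ≤ 1) :
    GeoBD (n + 1) 1 L x := by
  refine GeoBD.of_fderiv L.contDiff.contDiffAt (by simpa using hx) ?_
  have e : fderiv ℝ (L : ℝ × ℝ → ℝ) = fun _ => L := funext fun y => L.fderiv
  rw [e]
  exact geoBD_const L x hL

theorem bxGeoBD_const_add {n : ℕ} {R : ℝ} {f : ℝ × ℝ → ℝ} {x : ℝ × ℝ} (h : GeoBD (n + 1) R f x)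
    (a : ℝ) {R' : ℝ} (hR : R ≤ R') (hx : |a + f x| ≤ R') :
    GeoBD (n + 1) R' (fun y => a + f y) x := by
  refine GeoBD.of_fderiv (contDiffAt_const.add h.1) (by simpa using hx) ?_
  have e : fderiv ℝ (fun y => a + f y) = fderiv ℝ f := funext fun y => fderiv_const_add _
  rw [e]
  exact h.fderiv.mono le_rfl hR

theorem bxGeoBD_neg {n : ℕ} {R : ℝ} {f : ℝ × ℝ → ℝ} {x : ℝ × ℝ} (h : GeoBD n R f x) :
    GeoBD n R (fun y => -f y) x := by
  refine ⟨h.1.neg, fun i hi => ?_⟩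
  rw [show (fun y => -f y) = -f from rfl, iteratedFDeriv_neg_apply, norm_neg]
  exact h.2 i hi

namespace Par

variable (c : Par)

/-- The perturbation is small with four derivatives. -/
theorem pert_four (hP : 4 ≤ c.Pe) (hj : 4 ≤ c.j) {ν : ℝ} (hν : 0 < ν) :
    ∀ᶠ t in 𝓝[>] (0 : ℝ), ∀ z : ℝ × ℝ, GeoBD 4 ν (c.beta t) z := by
  obtain ⟨t0, ht0, h⟩ := c.beta_eventually_small hP hj hν
  filter_upwards [bxEv_pos, mem_nhdsWithin_of_mem_nhds (Iic_mem_nhds ht0)] with t ⟨ht, _⟩ htt z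
  exact ⟨(c.contDiff_beta t).contDiffAt, fun i hi => (h t ht htt).2.2.2 i hi z⟩

/-- A global coefficient along a solution has bounded derivatives of order at most two. -/
theorem coef_deriv (hP : 4 ≤ c.Pe) (hj : 4 ≤ c.j) {g : J8 → ℝ}
    (hg : ∀ J ∈ jetDom, ContDiffAt ℝ ∞ g J) : ∃ R : ℝ, 1 ≤ R ∧ ∀ᶠ t in 𝓝[>] (0 : ℝ),
    ∀ u b : ℝ × ℝ → ℝ, c.Sol t u b → ∀ z ∈ c.rect t 1,
      |cutJ c.K g (jetJ (c.beta t) u b z)| ≤ R ∧
      |dX (fun w => cutJ c.K g (jetJ (c.beta t) u b w)) z| ≤ R ∧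
      |dY (fun w => cutJ c.K g (jetJ (c.beta t) u b w)) z| ≤ R ∧
      |dX (dX (fun w => cutJ c.K g (jetJ (c.beta t) u b w))) z| ≤ R := by
  have hK := c.one_le_K
  obtain ⟨Cg, hCg1, hCg⟩ := bxCutJ_bound hK hg 2
  set Rp : ℝ := c.K + 1 with hRp
  set R1 : ℝ := geoBDComp 2 Rp + c.K + 1 with hR1
  set R2 : ℝ := geoBDComp 2 (max Cg R1) with hR2
  have g0 : ∀ R : ℝ, 0 ≤ R → 0 ≤ geoBDComp 2 R := fun R hR => by unfold geoBDComp; positivity
  refine ⟨1 + R2, le_add_of_nonneg_right (g0 _ (le_trans (by linarith) (le_max_left _ _))), ?_⟩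
  filter_upwards [bxEv_pos, c.pert_four hP hj (ν := 1 / 2) (by norm_num),
    bxEv_small (c.K * (3 * c.pOut + 1)) one_pos, bxEv_small (3 * c.pOut) one_pos,
    bxEv_small 1 one_pos] with t ⟨ht, _⟩ hβ hu1 hP1 ht1 u b h z hz
  obtain ⟨z1, z2⟩ := c.rect_small ht.le le_rfl hz
  have hm := c.rect_sub_sq ht hz
  have bu : GeoBD 2 c.K u z := by
    refine ⟨h.smu.contDiffAt, fun i hi => ?_⟩
    rcases i with _ | i
    · rw [norm_iteratedFDeriv_zero, Real.norm_eq_abs]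
      calc |u z| ≤ c.K * (|z.1| + |z.2|) := (h.lipschitz ht hz).1
        _ ≤ c.K * (3 * c.pOut * t + t) := by gcongr
        _ = c.K * (3 * c.pOut + 1) * t := by ring
        _ ≤ 1 := hu1
        _ ≤ c.K := hK
    · exact h.bdu z hm _ (by omega) (by omega)
  have bX : GeoBD 2 c.K (dX u) z :=
    ⟨(bxSmooth_dX h.smu).contDiffAt, fun i hi =>
      (norm_iteratedFDeriv_dX_le h.smu i z).trans (h.bdu z hm _ (by omega) (by omega))⟩
  have bY : GeoBD 2 c.K (dY u) z :=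
    ⟨(bxSmooth_dY h.smu).contDiffAt, fun i hi =>
      (norm_iteratedFDeriv_dY_le h.smu i z).trans (h.bdu z hm _ (by omega) (by omega))⟩
  have bb : GeoBD 2 c.K b z := ⟨h.smb.contDiffAt, fun i hi => h.bdb z hm i (by omega)⟩
  have e1 : GeoBD 2 1 (fun w : ℝ × ℝ => w.1) z :=
    bxGeoBD_lin 1 (ContinuousLinearMap.fst ℝ ℝ ℝ) (ContinuousLinearMap.norm_fst_le ℝ ℝ ℝ)
      (show |z.1| ≤ 1 by linarith)
  have e2 : GeoBD 2 1 (fun w : ℝ × ℝ => w.2) z :=
    bxGeoBD_lin 1 (ContinuousLinearMap.snd ℝ ℝ ℝ) (ContinuousLinearMap.norm_snd_le ℝ ℝ ℝ)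
      (show |z.2| ≤ 1 by linarith)
  have bpt : GeoBD 2 Rp (pt u) z :=
    (bu.mono le_rfl (by linarith)).prodMk (e2.mono le_rfl (by linarith))
  have comp : ∀ F : ℝ × ℝ → ℝ, GeoBD 2 (1 / 2) F (pt u z) →
      GeoBD 2 (geoBDComp 2 Rp) (fun w => F (pt u w)) z := fun F hF =>
    (hF.mono le_rfl (by linarith)).comp bpt
  have hb4 := hβ (pt u z)
  have g0R := g0 Rp (by linarith)
  have hjet : GeoBD 2 R1 (jetJ (c.beta t) u b) z := by
    refine bxGeoBD_pi (by linarith) fun k => ?_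
    fin_cases k
    · exact e1.mono le_rfl (by linarith)
    · exact bb.mono le_rfl (by linarith)
    · exact bY.mono le_rfl (by linarith)
    · exact bX.mono le_rfl (by linarith)
    · refine bxGeoBD_const_add (comp _ (hb4.mono (by norm_num) le_rfl)) 1 (by linarith) ?_
      have := hb4.norm_le
      rw [Real.norm_eq_abs] at this
      exact (abs_add_le _ _).trans (by rw [abs_one]; linarith)
    · exact (comp _ (bxGeoBD_neg (GeoBD.dX (GeoBD.dX hb4)))).mono le_rfl (by linarith)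
    · exact (comp _ ((GeoBD.dX hb4).mono (by norm_num) le_rfl)).mono le_rfl (by linarith)
    · exact (comp _ ((GeoBD.dY hb4).mono (by norm_num) le_rfl)).mono le_rfl (by linarith)
  have hG : GeoBD 2 R2 (fun w => cutJ c.K g (jetJ (c.beta t) u b w)) z :=
    (GeoBD.mono ⟨(bxCutJ_smooth hK hg).contDiffAt, fun i hi => hCg i hi _⟩ le_rfl
      (le_max_left _ _)).comp (hjet.mono le_rfl (le_max_right _ _))
  have n0 := hG.norm_le
  have n1 := (GeoBD.dX (n := 1) hG).norm_le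
  have n2 := (GeoBD.dY (n := 1) hG).norm_le
  have n3 := (GeoBD.dX (n := 0) (GeoBD.dX (n := 1) hG)).norm_le
  rw [Real.norm_eq_abs] at n0 n1 n2 n3
  exact ⟨by linarith, by linarith, by linarith, by linarith⟩

/-- The curvature density of the lens, differentiated in `x`. -/
theorem kBg_iter {t : ℝ} (ht : 0 < t) {p : ℝ × ℝ} (hp : p ∈ sq (c.r t)) (q : ℕ) :
    dX^[q + 1] (kbar (c.betaBg t)) p =
      -(c.sa t ^ 2 / c.L t ^ (q + 1) * deriv^[q + 1] zeta0 (p.1 / c.L t)) := by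
  obtain ⟨-, -, h3, -, -⟩ := c.bxbetaBg_derivs ht
  have hA : ContDiff ℝ ∞ (fun y : ℝ => c.sA t ^ 2 * y ^ 2) :=
    contDiff_const.mul (contDiff_id.pow 2)
  rw [bxDX_iterate_congr Metric.isOpen_ball (q + 1) h3 (c.bxsq_core ht hp),
    bxSep_dX_iterate hA (q + 1) contDiff_const bxZeta0_smooth]
  have e : deriv^[q + 1] (fun _ : ℝ => (1 : ℝ)) = fun _ => 0 := by
    rw [Function.iterate_succ_apply, deriv_const']
    induction q with
    | zero => rfl
    | succ q ih => rw [Function.iterate_succ_apply, deriv_const', ih]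
  simp only [bxSep, e]
  ring

end Par

end Vale.Agent.P229
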