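import Vale.Agent.P229.BoxCacc
import Vale.Agent.P229.BoxCut

/-!
# P229: the energy estimates of the linear equation
-/

open scoped ContDiff Topology
open MeasureTheory Set Filter

namespace Vale.Agent.P229

theorem bxSq3 (x y z : ℝ) : (x + y + z) ^ 2 ≤ 3 * (x ^ 2 + y ^ 2 + z ^ 2) := by
  nlinarith [sq_nonneg (x - y), sq_nonneg (x - z), sq_nonneg (y - z)]

/-- The product of the multiplier and the source, absorbed by the quadratic form. -/
theorem bxEn_algebra {p ze l a b q H g cm om Wt C t T : ℝ} (hom : 0 < om) (hW : om ^ 2 = Wt)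
    (hom1 : om ≤ 1) (ht : 0 < t) (hT : T * t = 1) (ht' : t ≤ 1 / 256)
    (hC : 64 * C ^ 2 * t ≤ 1) (hp : |p| ≤ C * t) (hz : |ze| ≤ C * t) (hl : |l| ≤ 1)
    (hH : |H| ≤ t * om * |q| + |g| + |cm|) :
    |(1 * p * b + ze * a + l * q) * H| ≤
      (t * Wt * b ^ 2 + a ^ 2 + 2 * (T ^ 2 * q ^ 2)) / 256
        + 9 * (g ^ 2 / Wt) + 9 * (cm ^ 2 / Wt) := by
  have hCt : 0 ≤ C * t := (abs_nonneg _).trans hp
  have hM : |1 * p * b + ze * a + l * q| * om ≤ C * t * (om * |b|) + C * t * |a| + |q| := by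
    calc |1 * p * b + ze * a + l * q| * om
        ≤ (|1 * p * b| + |ze * a| + |l * q|) * om :=
          mul_le_mul_of_nonneg_right (abs_add_three _ _ _) hom.le
      _ = |p| * (om * |b|) + |ze| * |a| * om + |l| * |q| * om := by
          rw [one_mul, abs_mul, abs_mul, abs_mul]; ring
      _ ≤ C * t * (om * |b|) + C * t * |a| * 1 + 1 * |q| * 1 := by gcongr
      _ = _ := by ring
  have hX : |H| / om ≤ t * |q| + |g| / om + |cm| / om := by
    rw [div_le_iff₀ hom]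
    refine hH.trans (le_of_eq ?_)
    field_simp
  have e1 := (pow_le_pow_left₀ (by positivity) hM 2).trans (bxSq3 _ _ _)
  have e2 := (pow_le_pow_left₀ (by positivity) hX 2).trans (bxSq3 _ _ _)
  simp only [mul_pow, div_pow, sq_abs, hW] at e1 e2
  have hy := bxYoung (a := |1 * p * b + ze * a + l * q| * om) (b := |H| / om)
    (show (0 : ℝ) < 1 / 12 by norm_num)
  have eM : |(1 * p * b + ze * a + l * q) * H|
      = (|1 * p * b + ze * a + l * q| * om) * (|H| / om) := by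
    rw [abs_mul]; field_simp
  simp only [mul_pow, div_pow, sq_abs, hW] at hy
  have hT2 : 256 ≤ T := by
    have : T = 1 / t := by rw [eq_div_iff ht.ne', hT]
    rw [this, le_div_iff₀ ht]; linarith
  have hct : C ^ 2 * t ^ 2 / 4 ≤ t / 256 := by
    have := mul_le_mul_of_nonneg_right hC ht.le
    linarith
  have hWt : 0 ≤ Wt := by rw [← hW]; positivity
  have k1 := mul_le_mul_of_nonneg_right hct (mul_nonneg hWt (sq_nonneg b))
  have hct1 : C ^ 2 * t ^ 2 / 4 ≤ 1 / 256 := by linarith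
  have k2 := mul_le_mul_of_nonneg_right hct1 (sq_nonneg a)
  have hT64 : (256 : ℝ) * 256 ≤ T ^ 2 := by
    rw [pow_two]; exact mul_le_mul hT2 hT2 (by norm_num) (by linarith)
  have hq1 : q ^ 2 / 4 ≤ T ^ 2 * q ^ 2 / 256 := by
    have := mul_le_mul_of_nonneg_right hT64 (sq_nonneg q)
    linarith [sq_nonneg q]
  have hq2 : 9 * (t ^ 2 * q ^ 2) ≤ T ^ 2 * q ^ 2 / 256 := by
    have h1 : t ^ 2 ≤ 1 := pow_le_one₀ ht.le (by linarith)
    have := mul_le_mul_of_nonneg_right h1 (sq_nonneg q)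
    have := mul_le_mul_of_nonneg_right hT64 (sq_nonneg q)
    linarith [sq_nonneg q]
  rw [eM]
  linear_combination hy + (1 / 12) * e1 + 3 * e2 + k1 + k2 + hq1 + hq2

namespace Par

variable (c : Par)

/-- The quantity controlling the commutator with a cut-off `φ`. -/
noncomputable def bxD (t : ℝ) (φ w : ℝ × ℝ → ℝ) (z : ℝ × ℝ) : ℝ :=
  (dY φ z ^ 2 + dX φ z ^ 2 + dX (dX φ) z ^ 2) *
    (dY w z ^ 2 + c.W t z.2 * dX w z ^ 2 + w z ^ 2)

/-- The pointwise inequality of the energy estimate. -/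
theorem bxEn_point {Pe : ℕ} (hPe : c.Pe = Pe) (h40 : 40 ≤ c.Pe) {t : ℝ} (ht0 : 0 < t)
    (ht256 : t ≤ 1 / 256) (hC64 : 64 * (3 * c.pOut + 1) ^ 2 * t ≤ 1)
    {s' : ℝ} (hs' : s' ≤ 1) {K1 K2 B1 B0 ζ lam φ w G F : ℝ × ℝ → ℝ}
    (hC : c.CoefBd t K1 K2 B1 B0) (hM : c.MultBd t ζ lam K1 K2 B1 B0)
    (hφ : ContDiff ℝ ∞ φ) (hw : ContDiff ℝ ∞ w)
    (hφR : ∀ z, z ∉ c.rect t s' → φ z = 0) (hφ0 : ∀ z, 0 ≤ φ z) (hφ1 : ∀ z, φ z ≤ 1)
    (hφB : ∀ z, |dY (dX φ) z| ≤ (t⁻¹) ^ 5 ∧ |dY (dY φ) z| ≤ (t⁻¹) ^ 5)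
    (hφy : ∀ z, |z.2| < t / 4 → dY φ z = 0 ∧ dY (dX φ) z = 0 ∧ dY (dY φ) z = 0)
    (hG : ∀ z, 0 ≤ G z)
    (hL : ∀ z ∈ c.rect t s', |opL K1 K2 B1 B0 w z + F z| ≤
      c.om t z.2 * c.sA t * (t⁻¹) ^ 10 * |w z| + G z) (z : ℝ × ℝ) :
    31 / 256 * dY (fun v => φ v * w v) z ^ 2
      + 255 / 256 * t * (c.W t z.2 * dX (fun v => φ v * w v) z ^ 2)
      - 6 / 256 * (t⁻¹) ^ 2 * (φ z * w z) ^ 2
      - 9 * (c.rect t s').indicator (fun v => G v ^ 2 / c.W t v.2) z
      - 9 * (81 * (4 * (16 * (t⁻¹) ^ 2 * (t⁻¹) ^ (2 * Pe)) ^ 2 * ((t⁻¹) ^ 5) ^ 2))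
        * (c.bxD t φ w z + (c.rect t s').indicator (fun v => c.W t v.2 * w v ^ 2) z)
      ≤ quadQ 1 ζ lam K1 K2 B1 B0 (fun v => φ v * w v) z
        - multM 1 ζ lam (fun v => φ v * w v) z *
          (opL K1 K2 B1 B0 (fun v => φ v * w v) z + φ z * F z) := by
  by_cases hz : z ∈ c.rect t s'
  · rw [indicator_of_mem hz, indicator_of_mem hz]
    have hz1 := c.bxRect_mono ht0.le hs' hz
    have ht1 : t ≤ 1 := by linarith
    have hT1 : 1 ≤ t⁻¹ := (one_le_inv₀ ht0).2 ht1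
    have hWp := c.bxW_pos ht0 z.2
    have hom : 0 < c.om t z.2 := Real.sqrt_pos.2 hWp
    have hW1 : c.W t z.2 ≤ 1 := c.bxW_le_one ht0 (by linarith) (by linarith [hz1.2])
    have hp := c.bxpOut_pos
    have hsA : 0 ≤ c.sA t := pow_nonneg ht0.le _
    have h10 : c.sA t * (t⁻¹) ^ 10 ≤ t := c.bxSA_small ht0 ht1 h40 (by norm_num)
    have h6 : c.sA t * (t⁻¹) ^ 6 ≤ t := c.bxSA_small ht0 ht1 h40 (by norm_num)
    have hsm : ∀ f ∈ ([K1, K2, B1, B0, dX K1, dX K2, dX (dX K2)] : List (ℝ × ℝ → ℝ)),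
        |f z| ≤ c.sA t * (t⁻¹) ^ 6 * c.om t z.2 := fun f hf =>
      (hC.small z hz1 f hf).trans_eq (by ring)
    have hfar : (dY φ z = 0 ∧ dY (dX φ) z = 0 ∧ dY (dY φ) z = 0) ∨
        1 ≤ 16 * (t⁻¹) ^ 2 * (t⁻¹) ^ (2 * Pe) * c.W t z.2 :=
      (lt_or_ge |z.2| (t / 4)).imp (hφy z) (c.bxW_far ht0 hPe)
    have hcm := bxComm_algebra (φx := dX φ z) (φxx := dX (dX φ) z) (w := w z) (wy := dY w z)
      (wp := dX w z) hom (c.bxOm_sq ht0 _) (h6.trans ht1) hT1
      (hsm K1 (by simp)) (hsm B1 (by simp)) (hsm B0 (by simp)) (hC.byW z hz1).2 hW1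
      (one_le_pow₀ hT1) (hφB z).1 (hφB z).2 (one_le_pow₀ hT1) hfar
    have hH : |opL K1 K2 B1 B0 (fun v => φ v * w v) z + φ z * F z| ≤
        t * c.om t z.2 * |φ z * w z| + |G z| + |2 * dY φ z * dY w z + dY (dY φ) z * w z
        + 2 * K1 z * dX φ z * dY w z + 2 * K1 z * dY φ z * dX w z
        + 2 * K1 z * dY (dX φ) z * w z + 2 * K2 z * dX φ z * dX w z
        + K2 z * dX (dX φ) z * w z + B1 z * dX φ z * w z + B0 z * dY φ z * w z| := by
      rw [bxOpL_mul hφ hw, add_right_comm, ← mul_add]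
      refine (abs_add_le _ _).trans (add_le_add ?_ le_rfl)
      rw [abs_mul, abs_of_nonneg (hφ0 z), abs_mul, abs_of_nonneg (hφ0 z), abs_of_nonneg (hG z)]
      calc φ z * |opL K1 K2 B1 B0 w z + F z|
          ≤ φ z * (c.om t z.2 * c.sA t * (t⁻¹) ^ 10 * |w z| + G z) :=
            mul_le_mul_of_nonneg_left (hL z hz) (hφ0 z)
        _ = c.sA t * (t⁻¹) ^ 10 * (c.om t z.2 * (φ z * |w z|)) + φ z * G z := by ring
        _ ≤ t * (c.om t z.2 * (φ z * |w z|)) + 1 * G z := by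
            have := mul_nonneg hom.le (mul_nonneg (hφ0 z) (abs_nonneg (w z)))
            exact add_le_add (mul_le_mul_of_nonneg_right h10 this)
              (mul_le_mul_of_nonneg_right (hφ1 z) (hG z))
        _ = _ := by ring
    have hζ : |ζ z| ≤ (3 * c.pOut + 1) * t :=
      (hM.absζ z hz1).trans (by linarith [hz1.1, hz1.2])
    have hp1 : |z.1| ≤ (3 * c.pOut + 1) * t := by linarith [hz1.1]
    have hal := bxEn_algebra (a := dY (fun v => φ v * w v) z) (b := dX (fun v => φ v * w v) z)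
      (q := φ z * w z) hom (c.bxOm_sq ht0 _) (Real.sqrt_le_one.2 hW1) ht0
      (inv_mul_cancel₀ ht0.ne') ht256 hC64 hp1 hζ (hM.absl z hz1) hH
    have hpos := hM.pos (fun v => φ v * w v) z hz1
    have e : (φ z * w z) ^ 2 / (64 * t ^ 2) = (t⁻¹) ^ 2 * (φ z * w z) ^ 2 / 64 := by
      rw [inv_pow]; field_simp
    rw [e] at hpos
    simp only [multM, bxD]
    linarith [(abs_le.1 hal).2]
  · have hcl := c.bxRect_isClosed t s'
    have h0 : ∀ v, v ∉ c.rect t s' → φ v * w v = 0 := fun v hv => by simp [hφR v hv]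
    simp [indicator_of_notMem hz, bxD, multM, quadQ, dX_eq_zero_off hcl hφR hz,
      dY_eq_zero_off hcl hφR hz, dX_eq_zero_off hcl (fun v hv => dX_eq_zero_off hcl hφR hv) hz,
      dX_eq_zero_off hcl h0 hz, dY_eq_zero_off hcl h0 hz, hφR z hz]

/-- Caccioppoli's inequality outside the core. -/
theorem caccioppoli (Pe : ℕ) : ∃ N : ℕ, ∀ c : Par, c.Pe = Pe → 40 ≤ c.Pe →
    ∀ s s' : ℝ, 0 ≤ s → s < s' → s' ≤ 1 → ∀ᶠ t in 𝓝[>] (0 : ℝ),
    ∀ K1 K2 B1 B0 w G : ℝ × ℝ → ℝ, c.CoefBd t K1 K2 B1 B0 → ContDiff ℝ ∞ w → Continuous G →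
      (∀ z ∈ c.rect t s', z ∉ c.core t → |opL K1 K2 B1 B0 w z| ≤
        c.om t z.2 * c.sA t * (t⁻¹) ^ 10 * |w z| + G z) →
      ∫ z in c.rect t s \ {z | |z.1| < 3 / 2 * c.pOut * t ∧ |z.2| < 3 / 8 * t},
          (dY w z ^ 2 + c.W t z.2 * dX w z ^ 2 + w z ^ 2) ≤
        (t⁻¹) ^ N * ((∫ z in c.rect t s', c.W t z.2 * w z ^ 2) +
          ∫ z in c.rect t s', G z ^ 2 / c.W t z.2) := by
  obtain ⟨N, hN⟩ := cacc_gen Pe
  refine ⟨N, fun c hPe h40 s s' hs hss hs' => ?_⟩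
  have hΨ : ContDiff ℝ ∞ fun w => c.cutP s s' w * (1 - c.holeP w) :=
    (c.bxCutP_smooth s s').mul (contDiff_const.sub c.bxHoleP_smooth)
  filter_upwards [hN c hPe h40 s' hs', self_mem_nhdsWithin,
    bxScaled_T5 hΨ (c.bxCutP_support hs hss).mul_right] with t hN ht0 hder
  rw [mem_Ioi] at ht0
  intro K1 K2 B1 B0 w G hC hw hG hL
  set ρ : ℝ × ℝ → ℝ := fun z => c.cut t s s' z * (1 - c.hole t z) with hρdef
  have hρ : ContDiff ℝ ∞ ρ :=
    (c.bxCut_smooth t s s').mul (contDiff_const.sub (c.bxHole_smooth t))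
  have eρ : ρ = fun z => c.cutP s s' (t⁻¹ • z) * (1 - c.holeP (t⁻¹ • z)) := by
    rw [hρdef, c.bxCut_eq, c.bxHole_eq]
  have hstrip : BxStrip (t / 4) ρ := fun v v' hv hv' e => by
    simp only [hρdef]
    rw [c.bxCut_strip ht0 hs hss v v' (by linarith) (by linarith) e,
      c.bxHole_strip ht0 v v' hv hv' e]
  have hd : ∀ z, ∀ a b : ℕ, a + b ≤ 4 → |dX^[a] (dY^[b] ρ) z| ≤ (t⁻¹) ^ 5 := by
    rw [eρ]; exact hder
  have key := hN K1 K2 B1 B0 w G ρ hC hw hG hρ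
    (fun z hz => by simp [hρdef, c.bxCut_zero_off ht0 hs hss hz])
    (fun z hz => by simp [hρdef, c.bxHole_one ht0 hz])
    (fun z => ⟨hd z 0 0 (by norm_num), hd z 1 0 (by norm_num), hd z 0 1 (by norm_num),
      hd z 2 0 (by norm_num), hd z 0 2 (by norm_num)⟩)
    (fun z hz => ⟨hstrip.dY_eq_zero hρ hz, (hstrip.dY hρ).dY_eq_zero (bxSmooth_dY hρ) hz⟩) hL
  set S := c.rect t s \ {z | |z.1| < 3 / 2 * c.pOut * t ∧ |z.2| < 3 / 8 * t} with hS
  have hSm : MeasurableSet S := (c.bxRect_isClosed t s).measurableSet.diff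
    ((isOpen_lt continuous_fst.abs continuous_const).inter
      (isOpen_lt continuous_snd.abs continuous_const)).measurableSet
  have hone : ∀ z ∈ S, ρ z = 1 := by
    rintro z ⟨hz, hz'⟩
    have hh : 3 / 2 * c.pOut * t ≤ |z.1| ∨ 3 / 8 * t ≤ |z.2| := by
      by_contra hh
      simp only [not_or, not_le] at hh
      exact hz' hh
    simp [hρdef, c.bxCut_one ht0 hs hss hz, c.bxHole_zero ht0 hh]
  refine le_trans ?_ key
  rw [setIntegral_congr_fun hSm (g := fun z => ρ z ^ 2 *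
    (dY w z ^ 2 + c.W t z.2 * dX w z ^ 2 + w z ^ 2)) fun z hz => by simp [hone z hz]]
  refine setIntegral_le_integral (bxIntegrable_sq (c.bxRect_isCompact t s') hρ.continuous ?_
    fun z hz => by simp [hρdef, c.bxCut_zero_off ht0 hs hss hz]) (.of_forall fun z => ?_)
  · exact (((bxSmooth_dY hw).continuous.pow 2).add
      ((c.bxW_continuous t).mul ((bxSmooth_dX hw).continuous.pow 2))).add (hw.continuous.pow 2)
  · exact mul_nonneg (sq_nonneg _) (add_nonneg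
      (add_nonneg (sq_nonneg _) (mul_nonneg (c.bxW_pos ht0 _).le (sq_nonneg _))) (sq_nonneg _))

/-- The final arithmetic of the energy estimate. -/
theorem bxEn_final {a b q X I J P K t T : ℝ} (ht : 0 < t) (hT : T * t = 1) (ht' : t ≤ 1 / 256)
    (hq : q ≤ 4 * t ^ 2 * a) (ha : 0 ≤ a) (hb : 0 ≤ b) (hI : 0 ≤ I) (hJ : 0 ≤ J) (hK : 1 ≤ K)
    (hP : 1 ≤ P)
    (m : 31 / 256 * a + 255 / 256 * t * b - 6 / 256 * T ^ 2 * q - 9 * J - 9 * K * (3 * (P * (I + J)) + I) ≤ X) :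
    a + b + T ^ 2 * q ≤ 74 * T * K * P * (I + J) + 2 * T * X := by
  have hT0 : 0 ≤ T := by
    have : T = 1 / t := by rw [eq_div_iff ht.ne', hT]
    rw [this]; positivity
  have hq' : T ^ 2 * q ≤ 4 * a := by
    refine (mul_le_mul_of_nonneg_left hq (sq_nonneg T)).trans_eq ?_
    linear_combination (4 * a * (T * t + 1)) * hT
  have hIJ : 0 ≤ I + J := add_nonneg hI hJ
  have hKP : 1 ≤ K * P := one_le_mul_of_one_le_of_one_le hK hP
  have r1 : J ≤ K * P * (I + J) :=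
    le_trans (by linarith) (le_mul_of_one_le_left hIJ hKP)
  have r2 : K * I ≤ K * (P * (I + J)) :=
    mul_le_mul_of_nonneg_left (le_trans (by linarith) (le_mul_of_one_le_left hIJ hP)) (by linarith)
  have e : t * (a + b + T ^ 2 * q) ≤ 2 * X + 74 * (K * P * (I + J)) := by
    have := mul_le_mul_of_nonneg_left hq' ht.le
    have := mul_le_mul_of_nonneg_right ht' ha
    have := mul_nonneg ht.le hb
    have hKPI : 0 ≤ K * P * (I + J) := mul_nonneg (by linarith) hIJ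
    nlinarith
  have h := mul_le_mul_of_nonneg_left e hT0
  rw [← mul_assoc, hT, one_mul] at h
  linarith

/-- The energy estimate: `F` is the source in the support of the bump. -/
theorem energy_estimate (Pe : ℕ) : ∃ N : ℕ, ∀ c : Par, c.Pe = Pe → 40 ≤ c.Pe →
    ∀ s s' : ℝ, 0 ≤ s → s < s' → s' ≤ 1 → ∀ᶠ t in 𝓝[>] (0 : ℝ),
    ∀ K1 K2 B1 B0 ζ lam w G F : ℝ × ℝ → ℝ, c.CoefBd t K1 K2 B1 B0 →
      c.MultBd t ζ lam K1 K2 B1 B0 → ContDiff ℝ ∞ w → Continuous G → (∀ z, 0 ≤ G z) →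
      Integrable F → (∀ z, z ∉ c.bumpSet t → F z = 0) →
      (∀ z ∈ c.rect t s', |opL K1 K2 B1 B0 w z + F z| ≤
        c.om t z.2 * c.sA t * (t⁻¹) ^ 10 * |w z| + G z) →
      c.energy t (fun z => c.cut t s s' z * w z) ≤
        (t⁻¹) ^ N * ((∫ z in c.rect t s', c.W t z.2 * w z ^ 2) +
          ∫ z in c.rect t s', G z ^ 2 / c.W t z.2) +
        2 * t⁻¹ * |∫ z, multM 1 ζ lam w z * F z| := by
  obtain ⟨N0, hN⟩ := cacc_gen Pe
  refine ⟨4 * Pe + N0 + 19, fun c hPe h40 s s' hs hss hs' => ?_⟩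
  have hp := c.bxpOut_pos
  filter_upwards [hN c hPe h40 s' hs',
    bxSmall_eventually (show (0 : ℝ) < min (1 / 256) (1 / (64 * (3 * c.pOut + 1) ^ 2)) by
      positivity),
    c.bxBump_core, c.bxCut_derivs hs hss] with t hN ht hbump hd
  obtain ⟨ht0, htm⟩ := ht
  simp only [le_min_iff] at htm
  obtain ⟨ht256, htC⟩ := htm
  intro K1 K2 B1 B0 ζ lam w G F hC hM hw hG hG0 hF hF0 hL
  set φ := c.cut t s s' with hφdef
  have hφ : ContDiff ℝ ∞ φ := c.bxCut_smooth t s s'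
  have hRc : IsCompact (c.rect t s') := c.bxRect_isCompact t s'
  have hcl := hRc.isClosed
  have hφR : ∀ z, z ∉ c.rect t s' → φ z = 0 := fun z hz => c.bxCut_zero_off ht0 hs hss hz
  have hst : BxStrip (t / 2) φ := c.bxCut_strip ht0 hs hss
  have hcore : ∀ z ∈ c.core t, φ =ᶠ[𝓝 z] fun _ => 1 := fun z hz => c.bxCut_core ht0 hs hss hz
  have hφx := bxSmooth_dX hφ
  have hφy := bxSmooth_dY hφ
  have hyx : dY (dX φ) = dX (dY φ) := funext (bxMixed hφ)
  have hyxx : dY (dX (dX φ)) = dX (dX (dY φ)) := by rw [funext (bxMixed hφx), hyx]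
  -- the cut-offs of Caccioppoli's inequality
  have hLF : ∀ z ∈ c.rect t s', z ∉ c.core t → |opL K1 K2 B1 B0 w z| ≤
      c.om t z.2 * c.sA t * (t⁻¹) ^ 10 * |w z| + G z := fun z hz hzc => by
    simpa [hF0 z fun h => hzc (hbump h)] using hL z hz
  have cac : ∀ ρ : ℝ × ℝ → ℝ, ContDiff ℝ ∞ ρ → (∀ z, z ∉ c.rect t s' → ρ z = 0) →
      (∀ z ∈ c.core t, ρ z = 0) → BxStrip (t / 2) ρ →
      (∀ z, |ρ z| ≤ (t⁻¹) ^ 5 ∧ |dX ρ z| ≤ (t⁻¹) ^ 5 ∧ |dY ρ z| ≤ (t⁻¹) ^ 5 ∧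
        |dX (dX ρ) z| ≤ (t⁻¹) ^ 5 ∧ |dY (dY ρ) z| ≤ (t⁻¹) ^ 5) →
      ∫ z, ρ z ^ 2 * (dY w z ^ 2 + c.W t z.2 * dX w z ^ 2 + w z ^ 2) ≤
        (t⁻¹) ^ N0 * ((∫ z in c.rect t s', c.W t z.2 * w z ^ 2) +
          ∫ z in c.rect t s', G z ^ 2 / c.W t z.2) :=
    fun ρ hρ h1 h2 h3 h4 => hN K1 K2 B1 B0 w G ρ hC hw hG hρ h1 h2 h4
      (fun z hz => ⟨h3.dY_eq_zero hρ (by linarith),
        (h3.dY hρ).dY_eq_zero (bxSmooth_dY hρ) (by linarith)⟩) hLF
  have cy := cac (dY φ) hφy (fun z hz => dY_eq_zero_off hcl hφR hz)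
    (fun z hz => (dY_congr (hcore z hz)).trans (dY_const 1)) (hst.dY hφ) fun z =>
    ⟨hd z 0 1 (by norm_num), hd z 1 1 (by norm_num), hd z 0 2 (by norm_num),
      hd z 2 1 (by norm_num), hd z 0 3 (by norm_num)⟩
  have cx := cac (dX φ) hφx (fun z hz => dX_eq_zero_off hcl hφR hz)
    (fun z hz => (dX_congr (hcore z hz)).trans (dX_const 1)) (hst.dX hφ) fun z =>
    ⟨hd z 1 0 (by norm_num), hd z 2 0 (by norm_num), by rw [hyx]; exact hd z 1 1 (by norm_num),
      hd z 3 0 (by norm_num),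
      by rw [hyx, funext (bxMixed hφy)]; exact hd z 1 2 (by norm_num)⟩
  have cxx := cac (dX (dX φ)) (bxSmooth_dX hφx)
    (fun z hz => dX_eq_zero_off hcl (fun v hv => dX_eq_zero_off hcl hφR hv) hz)
    (fun z hz => by
      have h : dX φ =ᶠ[𝓝 z] fun _ => 0 :=
        (hcore z hz).eventuallyEq_nhds.mono fun v hv => (dX_congr hv).trans (dX_const 1)
      exact (dX_congr h).trans (dX_const 0))
    ((hst.dX hφ).dX hφx) fun z =>
    ⟨hd z 2 0 (by norm_num), hd z 3 0 (by norm_num),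
      by rw [hyxx]; exact hd z 2 1 (by norm_num), hd z 4 0 (by norm_num),
      by rw [hyxx, funext (bxMixed (bxSmooth_dX hφy)), funext (bxMixed hφy)]
         exact hd z 2 2 (by norm_num)⟩
  -- the pointwise inequality
  have hpt := c.bxEn_point hPe h40 ht0 ht256
    (by rw [le_div_iff₀ (by positivity)] at htC; linarith) hs' hC hM hφ hw hφR
    (c.bxCut_nonneg t s s') (c.bxCut_le_one t s s')
    (fun z => ⟨by rw [hyx]; exact hd z 1 1 (by norm_num), hd z 0 2 (by norm_num)⟩)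
    (fun z hz => ⟨hst.dY_eq_zero hφ (by linarith), (hst.dX hφ).dY_eq_zero hφx (by linarith),
      (hst.dY hφ).dY_eq_zero hφy (by linarith)⟩) hG0 hL
  -- integration
  set f := fun v => φ v * w v with hfdef
  have hf : ContDiff ℝ ∞ f := hφ.mul hw
  have hf0 : ∀ z, z ∉ c.rect t s' → f z = 0 := fun z hz => by simp [hfdef, hφR z hz]
  have hfs : HasCompactSupport f := HasCompactSupport.intro hRc hf0
  have hWc := c.bxW_continuous t
  have hfc := hf.continuous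
  have hfX := (bxSmooth_dX hf).continuous
  have hfY := (bxSmooth_dY hf).continuous
  have := hM.smζ.continuous
  have := hM.sml.continuous
  have := hC.ct1
  have := hC.ct0
  have := hC.sm1.continuous
  have := hC.sm2.continuous
  have hMc : Continuous (multM 1 ζ lam f) := by unfold multM; fun_prop
  have hMs : HasCompactSupport (multM 1 ζ lam f) := HasCompactSupport.intro hRc fun z hz => by
    simp [multM, hf0 z hz, dX_eq_zero_off hcl hf0 hz, dY_eq_zero_off hcl hf0 hz]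
  have hMF : ∀ z, multM 1 ζ lam f z * (φ z * F z) = multM 1 ζ lam w z * F z := by
    intro z
    by_cases hz : z ∈ c.bumpSet t
    · have he := hcore z (hbump hz)
      have hfe : f =ᶠ[𝓝 z] w := by
        filter_upwards [he] with v hv
        simp [hfdef, hv]
      simp only [multM, dX_congr hfe, dY_congr hfe, hfe.eq_of_nhds, he.eq_of_nhds, one_mul]
    · simp [hF0 z hz]
  have iMF : Integrable fun z => multM 1 ζ lam f z * (φ z * F z) := by
    obtain ⟨C, hCb⟩ := (hMs.mul_right (f' := φ)).exists_bound_of_continuous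
      (hMc.mul hφ.continuous)
    simp only [← mul_assoc]
    exact hF.bdd_mul (hMc.mul hφ.continuous).aestronglyMeasurable (.of_forall hCb)
  have iML : Integrable fun z => multM 1 ζ lam f z * opL K1 K2 B1 B0 f z := by
    have := (bxSmooth_dX (bxSmooth_dX hf)).continuous
    have := (bxSmooth_dY (bxSmooth_dX hf)).continuous
    have := (bxSmooth_dY (bxSmooth_dY hf)).continuous
    exact (hMc.mul (by unfold opL; fun_prop)).integrable_of_hasCompactSupport hMs.mul_right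
  have iMH : Integrable fun z =>
      multM 1 ζ lam f z * (opL K1 K2 B1 B0 f z + φ z * F z) := by
    simp only [mul_add]; exact iML.add iMF
  have iquad : Integrable (quadQ 1 ζ lam K1 K2 B1 B0 f) := by
    have hl := hM.sml
    have hζ := hM.smζ
    have := (bxSmooth_dY hζ).continuous
    have := (bxSmooth_dX hC.sm2).continuous
    have := (bxSmooth_dY hC.sm1).continuous
    have := (bxSmooth_dY (bxSmooth_dY hl)).continuous
    have := (bxSmooth_dX (hC.sm1.mul hζ)).continuous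
    have := (bxSmooth_dY (hζ.mul hC.sm2)).continuous
    have := (bxSmooth_dX (hζ.mul hC.sm2)).continuous
    have := (bxSmooth_dX (hC.sm1.mul hl)).continuous
    have := (bxSmooth_dX (bxSmooth_dX (hl.mul hC.sm2))).continuous
    refine Continuous.integrable_of_hasCompactSupport
      (by unfold quadQ cYY cPP cYP c0Y c00; fun_prop)
      (HasCompactSupport.intro hRc fun z hz => ?_)
    simp [quadQ, hf0 z hz, dX_eq_zero_off hcl hf0 hz, dY_eq_zero_off hcl hf0 hz]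
  have hid := bxMult_integral 1 hM.smζ hM.sml hC.sm1 hC.sm2 hC.ct1 hC.ct0 hf hfs
  have cs : ∀ {g : ℝ × ℝ → ℝ}, Continuous g → (∀ z, z ∉ c.rect t s' → g z = 0) → Integrable g :=
    fun hg h => hg.integrable_of_hasCompactSupport (HasCompactSupport.intro hRc h)
  have ia : Integrable fun z => dY f z ^ 2 :=
    cs (hfY.pow 2) fun z hz => by simp [dY_eq_zero_off hcl hf0 hz]
  have ib : Integrable fun z => c.W t z.2 * dX f z ^ 2 :=
    cs (hWc.mul (hfX.pow 2)) fun z hz => by simp [dX_eq_zero_off hcl hf0 hz]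
  have iq : Integrable fun z => f z ^ 2 := cs (hfc.pow 2) fun z hz => by simp [hf0 z hz]
  have iI : Integrable ((c.rect t s').indicator fun v => c.W t v.2 * w v ^ 2) :=
    bxIntegrable_ind hRc (hWc.mul (hw.continuous.pow 2))
  have iJ : Integrable ((c.rect t s').indicator fun v => G v ^ 2 / c.W t v.2) :=
    bxIntegrable_ind hRc ((hG.pow 2).div hWc fun v => (c.bxW_pos ht0 _).ne')
  have hgc : Continuous fun z => dY w z ^ 2 + c.W t z.2 * dX w z ^ 2 + w z ^ 2 :=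
    (((bxSmooth_dY hw).continuous.pow 2).add
      (hWc.mul ((bxSmooth_dX hw).continuous.pow 2))).add (hw.continuous.pow 2)
  have i1 := bxIntegrable_sq hRc hφy.continuous hgc fun z hz => dY_eq_zero_off hcl hφR hz
  have i2 := bxIntegrable_sq hRc hφx.continuous hgc fun z hz => dX_eq_zero_off hcl hφR hz
  have i3 := bxIntegrable_sq hRc (bxSmooth_dX hφx).continuous hgc
    fun z hz => dX_eq_zero_off hcl (fun v hv => dX_eq_zero_off hcl hφR hv) hz
  have eD : (fun z => c.bxD t φ w z) = fun z =>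
      dY φ z ^ 2 * (dY w z ^ 2 + c.W t z.2 * dX w z ^ 2 + w z ^ 2)
      + dX φ z ^ 2 * (dY w z ^ 2 + c.W t z.2 * dX w z ^ 2 + w z ^ 2)
      + dX (dX φ) z ^ 2 * (dY w z ^ 2 + c.W t z.2 * dX w z ^ 2 + w z ^ 2) :=
    funext fun z => by rw [bxD]; ring
  have iD : Integrable fun z => c.bxD t φ w z := by rw [eD]; exact (i1.add i2).add i3
  have hD : ∫ z, c.bxD t φ w z ≤ 3 * ((t⁻¹) ^ N0 * ((∫ z in c.rect t s', c.W t z.2 * w z ^ 2) +
      ∫ z in c.rect t s', G z ^ 2 / c.W t z.2)) := by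
    rw [eD]
    have i12 : Integrable fun z =>
        dY φ z ^ 2 * (dY w z ^ 2 + c.W t z.2 * dX w z ^ 2 + w z ^ 2)
        + dX φ z ^ 2 * (dY w z ^ 2 + c.W t z.2 * dX w z ^ 2 + w z ^ 2) := i1.add i2
    rw [integral_add i12 i3, integral_add i1 i2]
    linarith
  set K := 81 * (4 * (16 * (t⁻¹) ^ 2 * (t⁻¹) ^ (2 * Pe)) ^ 2 * ((t⁻¹) ^ 5) ^ 2) with hK
  have j1 : Integrable fun z =>
      31 / 256 * dY f z ^ 2 + 255 / 256 * t * (c.W t z.2 * dX f z ^ 2) :=
    (ia.const_mul _).add (ib.const_mul _)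
  have j2 : Integrable fun z => 31 / 256 * dY f z ^ 2
      + 255 / 256 * t * (c.W t z.2 * dX f z ^ 2) - 6 / 256 * (t⁻¹) ^ 2 * f z ^ 2 :=
    j1.sub (iq.const_mul _)
  have j3 : Integrable fun z => 31 / 256 * dY f z ^ 2
      + 255 / 256 * t * (c.W t z.2 * dX f z ^ 2) - 6 / 256 * (t⁻¹) ^ 2 * f z ^ 2
      - 9 * (c.rect t s').indicator (fun v => G v ^ 2 / c.W t v.2) z :=
    j2.sub (iJ.const_mul _)
  have j4 : Integrable fun z => 9 * K *
      (c.bxD t φ w z + (c.rect t s').indicator (fun v => c.W t v.2 * w v ^ 2) z) :=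
    (iD.add iI).const_mul _
  have m := integral_mono (j3.sub j4) (iquad.sub iMH) hpt
  simp only [Pi.sub_apply] at m
  rw [integral_sub j3 j4, integral_sub j2 (iJ.const_mul _), integral_sub j1 (iq.const_mul _),
    integral_add (ia.const_mul _) (ib.const_mul _), integral_const_mul, integral_const_mul,
    integral_const_mul, integral_const_mul, integral_const_mul,
    integral_add iD iI, integral_indicator hRc.measurableSet,
    integral_indicator hRc.measurableSet, integral_sub iquad iMH, hid] at m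
  simp only [mul_add (multM 1 ζ lam f _)] at m
  rw [integral_add iML iMF, sub_add_cancel_left, integral_congr_ae (.of_forall hMF)] at m
  have hq : ∫ z, f z ^ 2 ≤ 4 * t ^ 2 * ∫ z, dY f z ^ 2 :=
    poincare_dY (hf.of_le (by simp)) hfs fun v hv => by
      have hv' : (1 + s') / 2 ≤ |(t⁻¹ • v).2| := by
        rw [Prod.smul_snd, smul_eq_mul, abs_mul, abs_inv, abs_of_pos ht0, le_inv_mul_iff₀ ht0]
        nlinarith
      simp [hfdef, hφdef, c.bxCut_eq, c.bxCutP_zero hs hss (Or.inr hv')]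
  have hT0 : 0 ≤ t⁻¹ := inv_nonneg.2 ht0.le
  have hT256 : 256 ≤ t⁻¹ := by rw [le_inv_comm₀ (by norm_num) ht0]; linarith
  have hT1 : 1 ≤ t⁻¹ := by linarith
  have hK1 : 1 ≤ K := by
    rw [hK]
    have : (1 : ℝ) ≤ 16 * (t⁻¹) ^ 2 * (t⁻¹) ^ (2 * Pe) :=
      one_le_mul_of_one_le_of_one_le
        (one_le_mul_of_one_le_of_one_le (by norm_num) (one_le_pow₀ hT1)) (one_le_pow₀ hT1)
    exact one_le_mul_of_one_le_of_one_le (by norm_num) (one_le_mul_of_one_le_of_one_le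
      (one_le_mul_of_one_le_of_one_le (by norm_num) (one_le_pow₀ this))
      (one_le_pow₀ (one_le_pow₀ hT1)))
  have hI0 : 0 ≤ ∫ z in c.rect t s', c.W t z.2 * w z ^ 2 :=
    setIntegral_nonneg hRc.measurableSet fun z _ =>
      mul_nonneg (c.bxW_pos ht0 _).le (sq_nonneg _)
  have hJ0 : 0 ≤ ∫ z in c.rect t s', G z ^ 2 / c.W t z.2 :=
    setIntegral_nonneg hRc.measurableSet fun z _ =>
      div_nonneg (sq_nonneg _) (c.bxW_pos ht0 _).le
  have hE : c.energy t f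
      = (∫ z, dY f z ^ 2) + (∫ z, c.W t z.2 * dX f z ^ 2) + (t⁻¹) ^ 2 * ∫ z, f z ^ 2 := by
    rw [energy, integral_add (f := fun z => dY f z ^ 2 + c.W t z.2 * dX f z ^ 2)
      (ia.add ib) (iq.const_mul _), integral_add ia ib, integral_const_mul]
  have hfin := bxEn_final (T := t⁻¹) (b := ∫ z, c.W t z.2 * dX f z ^ 2) (K := K) (P := (t⁻¹) ^ N0)
    (X := |∫ z, multM 1 ζ lam w z * F z|) ht0 (inv_mul_cancel₀ ht0.ne') ht256 hq
    (integral_nonneg fun z => sq_nonneg _)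
    (integral_nonneg fun z => mul_nonneg (c.bxW_pos ht0 _).le (sq_nonneg _))
    hI0 hJ0 hK1 (one_le_pow₀ hT1) ?_
  · rw [hE]
    refine hfin.trans (add_le_add ?_ le_rfl)
    refine mul_le_mul_of_nonneg_right ?_ (add_nonneg hI0 hJ0)
    have eK : 74 * t⁻¹ * K * (t⁻¹) ^ N0 = 6137856 * (t⁻¹) ^ (4 * Pe + N0 + 15) := by
      rw [hK]; ring
    rw [eK, show 4 * Pe + N0 + 19 = 4 + (4 * Pe + N0 + 15) by ring, pow_add (t⁻¹) 4]
    gcongr
    calc (6137856 : ℝ) ≤ 256 ^ 4 := by norm_num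
      _ ≤ _ := by gcongr
  · have := mul_le_mul_of_nonneg_left hD (show (0 : ℝ) ≤ 9 * K by linarith)
    linarith [neg_le_abs (∫ z, multM 1 ζ lam w z * F z)]

end Par

end Vale.Agent.P229
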