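import Vale.Agent.P229.BoxSol
import Vale.Agent.P229.Calc
import Mathlib.Algebra.Order.Chebyshev

/-!
# P229: cut-offs and pointwise inequalities for the energy estimates
-/

open scoped ContDiff Topology
open MeasureTheory Set Filter

namespace Vale.Agent.P229

theorem bxInv_eventually (C : ℝ) : ∀ᶠ t in 𝓝[>] (0 : ℝ), C ≤ t⁻¹ :=
  tendsto_inv_nhdsGT_zero.eventually_ge_atTop C

theorem bxSmall_eventually {C : ℝ} (hC : 0 < C) : ∀ᶠ t in 𝓝[>] (0 : ℝ), 0 < t ∧ t ≤ C := by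
  filter_upwards [self_mem_nhdsWithin, nhdsWithin_le_nhds (Iic_mem_nhds hC)] with t h1 h2
  exact ⟨h1, h2⟩

/-- Derivatives of a scaled compactly supported profile. -/
theorem bxScaled_derivs {Φ : ℝ × ℝ → ℝ} (hΦ : ContDiff ℝ ∞ Φ) (hs : HasCompactSupport Φ) :
    ∃ C : ℝ, ∀ t : ℝ, 0 < t → t ≤ 1 → ∀ z, ∀ a b : ℕ, a + b ≤ 4 →
      |dX^[a] (dY^[b] (fun w => Φ (t⁻¹ • w))) z| ≤ C * (t⁻¹) ^ 4 := by
  obtain ⟨C, hC0, hC⟩ := bxScaled_bound hΦ hs 4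
  refine ⟨C, fun t ht ht1 z a b hab => ?_⟩
  have hsm : ContDiff ℝ ∞ (fun w => Φ (t⁻¹ • w)) := hΦ.comp (contDiff_id.const_smul t⁻¹)
  refine (abs_dX_iterate_dY_iterate_le hsm a b z).trans ((hC t ht _ hab z).trans ?_)
  exact mul_le_mul_of_nonneg_left (pow_le_pow_right₀ ((one_le_inv₀ ht).2 ht1) hab) hC0

namespace Par

theorem bxProf_smooth (lo hi : ℝ) : ContDiff ℝ ∞ (prof lo hi) :=
  Real.smoothTransition.contDiff.comp ((contDiff_const.sub (contDiff_id.pow 2)).div_const _)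

theorem bxProf_nonneg (lo hi s : ℝ) : 0 ≤ prof lo hi s := Real.smoothTransition.nonneg _

theorem bxProf_le_one (lo hi s : ℝ) : prof lo hi s ≤ 1 := Real.smoothTransition.le_one _

theorem bxProf_one {lo hi s : ℝ} (h0 : 0 ≤ lo) (h : lo < hi) (hs : |s| ≤ lo) :
    prof lo hi s = 1 := by
  refine Real.smoothTransition.one_of_one_le ?_
  rw [le_div_iff₀ (by nlinarith)]
  nlinarith [sq_abs s, mul_self_le_mul_self (abs_nonneg s) hs]

theorem bxProf_zero {lo hi s : ℝ} (h0 : 0 ≤ lo) (h : lo < hi) (hs : hi ≤ |s|) :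
    prof lo hi s = 0 := by
  refine Real.smoothTransition.zero_of_nonpos (div_nonpos_of_nonpos_of_nonneg ?_ (by nlinarith))
  nlinarith [sq_abs s, mul_self_le_mul_self (h0.trans h.le) hs]

variable (c : Par)

/-- The profile of `cut`. -/
noncomputable def cutP (s s' : ℝ) (w : ℝ × ℝ) : ℝ :=
  prof (c.pOut * (2 + s)) (c.pOut * (2 + s')) w.1 * prof ((1 + s) / 2) ((1 + s') / 2) w.2

/-- The profile of `hole`. -/
noncomputable def holeP (w : ℝ × ℝ) : ℝ :=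
  prof c.pOut (3 / 2 * c.pOut) w.1 * prof (1 / 4) (3 / 8) w.2

theorem bxCut_eq (t s s' : ℝ) : c.cut t s s' = fun z => c.cutP s s' (t⁻¹ • z) := by
  funext z; simp [cut, cutP, div_eq_inv_mul]

theorem bxHole_eq (t : ℝ) : c.hole t = fun z => c.holeP (t⁻¹ • z) := by
  funext z; simp [hole, holeP, div_eq_inv_mul]

theorem bxCutP_smooth (s s' : ℝ) : ContDiff ℝ ∞ (c.cutP s s') :=
  ((bxProf_smooth _ _).comp contDiff_fst).mul ((bxProf_smooth _ _).comp contDiff_snd)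

theorem bxHoleP_smooth : ContDiff ℝ ∞ c.holeP :=
  ((bxProf_smooth _ _).comp contDiff_fst).mul ((bxProf_smooth _ _).comp contDiff_snd)

theorem bxCutP_zero {s s' : ℝ} (hs : 0 ≤ s) (h : s < s') {w : ℝ × ℝ}
    (hw : c.pOut * (2 + s') ≤ |w.1| ∨ (1 + s') / 2 ≤ |w.2|) : c.cutP s s' w = 0 := by
  have hp := c.bxpOut_pos
  rcases hw with hw | hw
  · rw [cutP, bxProf_zero (mul_nonneg hp.le (by linarith)) (by nlinarith) hw, zero_mul]
  · rw [cutP, bxProf_zero (lo := (1 + s) / 2) (by linarith) (by linarith) hw, mul_zero]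

theorem bxCutP_one {s s' : ℝ} (hs : 0 ≤ s) (h : s < s') {w : ℝ × ℝ}
    (h1 : |w.1| ≤ c.pOut * (2 + s)) (h2 : |w.2| ≤ (1 + s) / 2) : c.cutP s s' w = 1 := by
  have hp := c.bxpOut_pos
  rw [cutP, bxProf_one (mul_nonneg hp.le (by linarith)) (by nlinarith) h1,
    bxProf_one (lo := (1 + s) / 2) (by linarith) (by linarith) h2, one_mul]

theorem bxCutP_support {s s' : ℝ} (hs : 0 ≤ s) (h : s < s') :
    HasCompactSupport (c.cutP s s') := by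
  refine HasCompactSupport.intro
    ((isCompact_Icc (a := -(c.pOut * (2 + s'))) (b := c.pOut * (2 + s'))).prod
      (isCompact_Icc (a := -((1 + s') / 2)) (b := (1 + s') / 2))) fun w hw => ?_
  refine c.bxCutP_zero hs h ?_
  by_contra hh
  simp only [not_or, not_le] at hh
  exact hw ⟨abs_le.1 hh.1.le, abs_le.1 hh.2.le⟩

theorem bxRect_isClosed (t s : ℝ) : IsClosed (c.rect t s) := by
  unfold rect
  exact (isClosed_le continuous_fst.abs continuous_const).inter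
    (isClosed_le continuous_snd.abs continuous_const)

theorem bxRect_isCompact (t s : ℝ) : IsCompact (c.rect t s) := by
  refine IsCompact.of_isClosed_subset ((isCompact_Icc (a := -(c.pOut * (2 + s) * t))
    (b := c.pOut * (2 + s) * t)).prod (isCompact_Icc (a := -((1 + s) / 2 * t))
      (b := (1 + s) / 2 * t))) (c.bxRect_isClosed t s) ?_
  rintro z ⟨h1, h2⟩
  exact ⟨abs_le.1 h1, abs_le.1 h2⟩

theorem bxRect_mono {t s s' : ℝ} (ht : 0 ≤ t) (h : s ≤ s') : c.rect t s ⊆ c.rect t s' := by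
  have hp := c.bxpOut_pos
  rintro z ⟨h1, h2⟩
  exact ⟨h1.trans (by gcongr), h2.trans (by gcongr)⟩

theorem bxCut_zero_off {t s s' : ℝ} (ht : 0 < t) (hs : 0 ≤ s) (h : s < s') {z : ℝ × ℝ}
    (hz : z ∉ c.rect t s') : c.cut t s s' z = 0 := by
  rw [c.bxCut_eq]
  refine c.bxCutP_zero hs h ?_
  simp only [Prod.smul_fst, Prod.smul_snd, smul_eq_mul, abs_mul, abs_inv, abs_of_pos ht,
    le_inv_mul_iff₀ ht]
  by_contra hh
  simp only [not_or, not_le] at hh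
  exact hz ⟨by linarith [hh.1], by linarith [hh.2]⟩

theorem bxCut_one {t s s' : ℝ} (ht : 0 < t) (hs : 0 ≤ s) (h : s < s') {z : ℝ × ℝ}
    (hz : z ∈ c.rect t s) : c.cut t s s' z = 1 := by
  rw [c.bxCut_eq]
  refine c.bxCutP_one hs h ?_ ?_ <;>
    simp only [Prod.smul_fst, Prod.smul_snd, smul_eq_mul, abs_mul, abs_inv, abs_of_pos ht,
      inv_mul_le_iff₀ ht]
  · linarith [hz.1]
  · linarith [hz.2]

theorem bxW_pos {t : ℝ} (ht : 0 < t) (y : ℝ) : 0 < c.W t y := by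
  have : 0 < c.sa t := pow_pos ht _
  unfold W; positivity

theorem bxOm_sq {t : ℝ} (ht : 0 < t) (y : ℝ) : c.om t y ^ 2 = c.W t y :=
  Real.sq_sqrt (c.bxW_pos ht y).le

theorem bxW_continuous (t : ℝ) : Continuous fun z : ℝ × ℝ => c.W t z.2 := by
  unfold W; fun_prop

theorem bxOm_continuous (t : ℝ) : Continuous fun z : ℝ × ℝ => c.om t z.2 :=
  Real.continuous_sqrt.comp (c.bxW_continuous t)

theorem bxW_le_one {t : ℝ} (ht : 0 < t) (ht1 : t ≤ 1 / 2) {y : ℝ} (hy : |y| ≤ t) :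
    c.W t y ≤ 1 := by
  have h1 : c.sa t ≤ t := by
    simpa [sa] using pow_le_pow_of_le_one ht.le (by linarith)
      (show 1 ≤ c.Qe by have := c.Pe_le; omega)
  have h2 : c.sA t ≤ 1 := pow_le_one₀ ht.le (by linarith)
  have h3 : 0 ≤ c.sa t := (pow_pos ht _).le
  have h4 : 0 ≤ c.sA t := (pow_pos ht _).le
  have h5 : y ^ 2 ≤ t ^ 2 := by rw [← sq_abs y]; gcongr
  have : c.sA t ^ 2 * y ^ 2 ≤ 1 * t ^ 2 :=
    mul_le_mul (pow_le_one₀ h4 h2) h5 (sq_nonneg _) zero_le_one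
  have : c.sa t ^ 2 ≤ t ^ 2 := by gcongr
  unfold W; nlinarith

/-- Away from the lens the weight is large. -/
theorem bxW_far {t : ℝ} (ht : 0 < t) {Pe : ℕ} (hPe : c.Pe = Pe) {y : ℝ} (hy : t / 4 ≤ |y|) :
    1 ≤ 16 * (t⁻¹) ^ 2 * (t⁻¹) ^ (2 * Pe) * c.W t y := by
  have h1 : c.sA t ^ 2 * (t / 4) ^ 2 ≤ c.W t y := by
    have : (t / 4) ^ 2 ≤ y ^ 2 := by rw [← sq_abs y]; gcongr
    unfold W; nlinarith [sq_nonneg (c.sa t), sq_nonneg (c.sA t)]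
  have h2 : 16 * (t⁻¹) ^ 2 * (t⁻¹) ^ (2 * Pe) * (c.sA t ^ 2 * (t / 4) ^ 2) = 1 := by
    rw [sA, hPe, ← pow_mul, Nat.mul_comm Pe 2, inv_pow, inv_pow]
    have := pow_pos ht (2 * Pe)
    field_simp
    ring
  rw [← h2]
  gcongr

/-- The smallness of the coefficients. -/
theorem bxSA_small {t : ℝ} (ht : 0 < t) (ht1 : t ≤ 1) (hPe : 40 ≤ c.Pe) {k : ℕ} (hk : k ≤ 30) :
    c.sA t * (t⁻¹) ^ k ≤ t := by
  rw [sA, inv_pow, ← div_eq_mul_inv, div_le_iff₀ (pow_pos ht _), ← pow_succ']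
  exact pow_le_pow_of_le_one ht.le ht1 (by omega)

theorem bxBump_rect (s : ℝ) (hs : 0 ≤ s) :
    ∀ᶠ t in 𝓝[>] (0 : ℝ), ∀ z ∈ c.bumpSet t,
      |z.1| < c.pOut * (2 + s) * t ∧ |z.2| < (1 + s) / 2 * t := by
  have hK := c.one_le_K
  have hp := c.bxpOut_pos
  set m := min (c.pOut / (2 * c.K * (c.K + 1))) (1 / 8) with hm
  filter_upwards [bxSmall_eventually (show (0 : ℝ) < min 1 m by positivity)] with t ht
  obtain ⟨ht0, htm⟩ := ht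
  simp only [le_min_iff] at htm
  have hδ : c.δ t ≤ t * t := by
    have h2 : t ^ (2 * c.Qe - c.Pe) ≤ t ^ 2 :=
      pow_le_pow_of_le_one ht0.le htm.1 (by have := c.Pe_le; omega)
    calc c.δ t ≤ 1 * t ^ 2 := mul_le_mul c.bxc1_le h2 (pow_pos ht0 _).le zero_le_one
      _ = t * t := by ring
  rintro z ⟨h1, h2⟩
  have hmt : c.δ t ≤ m * t := hδ.trans (mul_le_mul_of_nonneg_right htm.2 ht0.le)
  have e1 : m * (2 * c.K * (c.K + 1)) ≤ c.pOut := by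
    rw [← le_div_iff₀ (by positivity)]; exact min_le_left _ _
  have e2 : m ≤ 1 / 8 := min_le_right _ _
  constructor
  · have := mul_le_mul_of_nonneg_left hmt (by positivity : 0 ≤ 2 * c.K * (c.K + 1))
    have := mul_le_mul_of_nonneg_right e1 ht0.le
    nlinarith [mul_pos hp ht0, mul_nonneg (mul_nonneg hp.le hs) ht0.le]
  · have := mul_le_mul_of_nonneg_right e2 ht0.le
    nlinarith [mul_nonneg hs ht0.le]

end Par

theorem bxOpL_mul {K1 K2 B1 B0 φ w : ℝ × ℝ → ℝ} (hφ : ContDiff ℝ ∞ φ) (hw : ContDiff ℝ ∞ w)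
    (z : ℝ × ℝ) :
    opL K1 K2 B1 B0 (fun v => φ v * w v) z = φ z * opL K1 K2 B1 B0 w z
      + (2 * dY φ z * dY w z + dY (dY φ) z * w z
        + 2 * K1 z * dX φ z * dY w z + 2 * K1 z * dY φ z * dX w z
        + 2 * K1 z * dY (dX φ) z * w z + 2 * K2 z * dX φ z * dX w z
        + K2 z * dX (dX φ) z * w z + B1 z * dX φ z * w z + B0 z * dY φ z * w z) := by
  have d : ∀ {f : ℝ × ℝ → ℝ}, ContDiff ℝ ∞ f → ∀ y, DifferentiableAt ℝ f y :=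
    fun hf y => hf.differentiable (by simp) y
  have hφx := bxSmooth_dX hφ
  have hφy := bxSmooth_dY hφ
  have hwx := bxSmooth_dX hw
  have hwy := bxSmooth_dY hw
  have ex : dX (fun v => φ v * w v) = fun v => dX φ v * w v + φ v * dX w v :=
    funext fun v => dX_mul (d hφ v) (d hw v)
  have ey : dY (fun v => φ v * w v) = fun v => dY φ v * w v + φ v * dY w v :=
    funext fun v => dY_mul (d hφ v) (d hw v)
  unfold opL
  rw [ex, ey]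
  simp only
  rw [dY_add (d (hφy.mul hw) z) (d (hφ.mul hwy) z), dY_mul (d hφy z) (d hw z),
    dY_mul (d hφ z) (d hwy z), dY_add (d (hφx.mul hw) z) (d (hφ.mul hwx) z),
    dY_mul (d hφx z) (d hw z), dY_mul (d hφ z) (d hwx z),
    dX_add (d (hφx.mul hw) z) (d (hφ.mul hwx) z), dX_mul (d hφx z) (d hw z),
    dX_mul (d hφ z) (d hwx z)]
  ring

theorem bxYoung {a b ν : ℝ} (hν : 0 < ν) : a * b ≤ ν * a ^ 2 + b ^ 2 / (4 * ν) := by
  have h : 0 ≤ (2 * ν * a - b) ^ 2 / (4 * ν) := by positivity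
  have e : (2 * ν * a - b) ^ 2 / (4 * ν) = ν * a ^ 2 + b ^ 2 / (4 * ν) - a * b := by
    field_simp; ring
  linarith

/-- The quadratic form of Caccioppoli's inequality, bounded from below. -/
theorem bxCacc_algebra {r rx ry rxx ryy k1 k2 k1x k2x k2xx b1 b0 w wy wp om Wt e B T S M : ℝ}
    (hom : 0 ≤ om) (hW : om ^ 2 = Wt) (he : 0 ≤ e) (he' : e ≤ 1 / 256) (hT : 1 ≤ T)
    (hk1 : |k1| ≤ e * om) (hk1x : |k1x| ≤ e * om) (hb1 : |b1| ≤ e * om) (hb0 : |b0| ≤ e * om)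
    (hk2 : |k2| ≤ Wt * T) (hout : r ≠ 0 → Wt / 16 ≤ k2 ∧ |k2x| ≤ Wt * T ^ 3 ∧ |k2xx| ≤ Wt * T ^ 3)
    (hB : 0 ≤ B) (hr : |r| ≤ B) (hrx : |rx| ≤ B) (hry : |ry| ≤ B) (hrxx : |rxx| ≤ B)
    (hryy : |ryy| ≤ B) (hfar : (ry = 0 ∧ ryy = 0) ∨ 1 ≤ 16 * T ^ 2 * S * Wt) (hS : 0 ≤ S)
    (hM : B ^ 2 * (64 + 32 * T ^ 2 * S + 8 * T ^ 3) ≤ M) :
    r ^ 2 * (wy ^ 2 / 2 + Wt * wp ^ 2 / 64) - r ^ 2 * w ^ 2 - M * (Wt * w ^ 2) ≤
      r ^ 2 * wy ^ 2 + r ^ 2 * k2 * wp ^ 2 + 2 * r ^ 2 * k1 * (wy * wp)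
        + (b0 * (-r ^ 2) - 2 * (k1x * (-r ^ 2) + k1 * (-(2 * r * rx)))) * (w * wy)
        + b1 * (-r ^ 2) * (w * wp)
        + (-(ry ^ 2 + r * ryy) - ((2 * rx ^ 2 + 2 * r * rxx) * k2 + 4 * r * rx * k2x
            + r ^ 2 * k2xx) / 2) * w ^ 2 := by
  have hWt : 0 ≤ Wt := by rw [← hW]; positivity
  have hr2 : (0 : ℝ) ≤ r ^ 2 := sq_nonneg r
  have hB2 : r ^ 2 ≤ B ^ 2 := sq_le_sq' (abs_le.1 hr).1 (abs_le.1 hr).2
  have hww : 0 ≤ Wt * w ^ 2 := by positivity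
  have t1 : r ^ 2 * Wt * wp ^ 2 / 16 ≤ r ^ 2 * k2 * wp ^ 2 := by
    rcases eq_or_ne r 0 with h | h
    · simp [h]
    · have := mul_le_mul_of_nonneg_left (hout h).1 (mul_nonneg hr2 (sq_nonneg wp)); nlinarith
  have am : ∀ p q : ℝ, 2 * (|p| * |q|) ≤ p ^ 2 + q ^ 2 := fun p q => by
    rw [← sq_abs p, ← sq_abs q]; nlinarith [sq_nonneg (|p| - |q|)]
  have t2 : |2 * r ^ 2 * k1 * (wy * wp)| ≤ e * (r ^ 2 * (wy ^ 2 + Wt * wp ^ 2)) := by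
    rw [abs_mul, abs_mul, abs_mul, abs_mul, abs_two, abs_of_nonneg hr2]
    have h := am wy (om * wp)
    rw [mul_pow, hW, abs_mul, abs_of_nonneg hom] at h
    calc 2 * r ^ 2 * |k1| * (|wy| * |wp|) ≤ 2 * r ^ 2 * (e * om) * (|wy| * |wp|) := by gcongr
      _ = e * (r ^ 2 * (2 * (|wy| * (om * |wp|)))) := by ring
      _ ≤ e * (r ^ 2 * (wy ^ 2 + Wt * wp ^ 2)) := by gcongr
  have t3 : |(b0 * (-r ^ 2) - 2 * (k1x * (-r ^ 2) + k1 * (-(2 * r * rx)))) * (w * wy)| ≤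
      r ^ 2 * wy ^ 2 / 4 + B ^ 2 * (Wt * w ^ 2) := by
    have h1 : |b0 * (-r ^ 2) - 2 * (k1x * (-r ^ 2) + k1 * (-(2 * r * rx)))| ≤
        7 * B * (e * om) * |r| := by
      have e1 : |b0 * (-r ^ 2)| ≤ e * om * (B * |r|) := by
        rw [abs_mul, abs_neg, abs_of_nonneg hr2, ← sq_abs r, pow_two]; gcongr
      have e2 : |k1x * (-r ^ 2)| ≤ e * om * (B * |r|) := by
        rw [abs_mul, abs_neg, abs_of_nonneg hr2, ← sq_abs r, pow_two]; gcongr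
      have e3 : |k1 * (-(2 * r * rx))| ≤ e * om * (2 * |r| * B) := by
        rw [abs_mul, abs_neg, abs_mul, abs_mul, abs_two]; gcongr
      have e4 := abs_sub (b0 * (-r ^ 2)) (2 * (k1x * (-r ^ 2) + k1 * (-(2 * r * rx))))
      rw [abs_mul (2 : ℝ), abs_two] at e4
      linarith [abs_add_le (k1x * (-r ^ 2)) (k1 * (-(2 * r * rx)))]
    rw [abs_mul, abs_mul w wy]
    calc |b0 * (-r ^ 2) - 2 * (k1x * (-r ^ 2) + k1 * (-(2 * r * rx)))| * (|w| * |wy|)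
        ≤ 7 * B * (e * om) * |r| * (|w| * |wy|) := by gcongr
      _ = (|r| * |wy|) * (7 * B * e * (om * |w|)) := by ring
      _ ≤ 1 / 4 * (|r| * |wy|) ^ 2 + (7 * B * e * (om * |w|)) ^ 2 / (4 * (1 / 4)) :=
          bxYoung (by norm_num)
      _ = r ^ 2 * wy ^ 2 / 4 + 49 * e ^ 2 * (B ^ 2 * (Wt * w ^ 2)) := by
          rw [mul_pow, sq_abs, sq_abs, mul_pow, mul_pow om, hW, sq_abs]; ring
      _ ≤ _ := by
          have h49 : 49 * e ^ 2 ≤ 1 := by nlinarith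
          have : 0 ≤ B ^ 2 * (Wt * w ^ 2) := by positivity
          nlinarith
  have t4 : |b1 * (-r ^ 2) * (w * wp)| ≤ e * (r ^ 2 * (w ^ 2 + Wt * wp ^ 2)) := by
    rw [abs_mul, abs_mul, abs_neg, abs_of_nonneg hr2, abs_mul w wp]
    have h := am w (om * wp)
    rw [mul_pow, hW, abs_mul, abs_of_nonneg hom] at h
    calc |b1| * r ^ 2 * (|w| * |wp|) ≤ e * om * r ^ 2 * (|w| * |wp|) := by gcongr
      _ = e * (r ^ 2 * (|w| * (om * |wp|))) := by ring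
      _ ≤ e * (r ^ 2 * (w ^ 2 + Wt * wp ^ 2)) := by
          gcongr
          have : 0 ≤ |w| * (om * |wp|) := by positivity
          linarith
  have t5 : |(-(ry ^ 2 + r * ryy) - ((2 * rx ^ 2 + 2 * r * rxx) * k2 + 4 * r * rx * k2x
      + r ^ 2 * k2xx) / 2) * w ^ 2| ≤
      B ^ 2 * (32 * T ^ 2 * S + 2 * T + 3 * T ^ 3) * (Wt * w ^ 2) := by
    have hrr : ry ^ 2 ≤ B ^ 2 := sq_le_sq' (abs_le.1 hry).1 (abs_le.1 hry).2
    have hxx : rx ^ 2 ≤ B ^ 2 := sq_le_sq' (abs_le.1 hrx).1 (abs_le.1 hrx).2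
    have m1 : |r * ryy| ≤ B ^ 2 := by rw [abs_mul, pow_two]; gcongr
    have m2 : |r * rxx| ≤ B ^ 2 := by rw [abs_mul, pow_two]; gcongr
    have f1 : |-(ry ^ 2 + r * ryy)| ≤ 32 * B ^ 2 * T ^ 2 * S * Wt := by
      rcases hfar with ⟨a, b⟩ | h
      · simp [a, b]; positivity
      · rw [abs_neg]
        refine (abs_add_le _ _).trans ?_
        rw [abs_of_nonneg (sq_nonneg ry)]
        have := mul_le_mul_of_nonneg_left h (by positivity : 0 ≤ 2 * B ^ 2)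
        linarith
    have f2 : |(2 * rx ^ 2 + 2 * r * rxx) * k2| ≤ 4 * B ^ 2 * (Wt * T) := by
      rw [abs_mul]
      gcongr
      refine (abs_add_le _ _).trans ?_
      rw [abs_of_nonneg (by positivity : (0 : ℝ) ≤ 2 * rx ^ 2), mul_assoc, abs_mul, abs_two]
      linarith
    have f3 : |4 * r * rx * k2x| ≤ 4 * B ^ 2 * (Wt * T ^ 3) := by
      rcases eq_or_ne r 0 with h | h
      · simp [h]; positivity
      · rw [mul_assoc 4 r rx, abs_mul, abs_mul, abs_of_nonneg (by norm_num : (0 : ℝ) ≤ 4),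
          abs_mul r rx, pow_two B]
        gcongr
        exact (hout h).2.1
    have f4 : |r ^ 2 * k2xx| ≤ B ^ 2 * (Wt * T ^ 3) := by
      rcases eq_or_ne r 0 with h | h
      · simp [h]; positivity
      · rw [abs_mul, abs_of_nonneg hr2]; gcongr; exact (hout h).2.2
    rw [abs_mul, abs_of_nonneg (sq_nonneg w), ← mul_assoc]
    refine mul_le_mul_of_nonneg_right ?_ (sq_nonneg w)
    refine (abs_sub _ _).trans ?_
    rw [abs_div, abs_two]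
    have := abs_add_three ((2 * rx ^ 2 + 2 * r * rxx) * k2) (4 * r * rx * k2x) (r ^ 2 * k2xx)
    have hpos : 0 ≤ B ^ 2 * (Wt * T ^ 3) := by positivity
    linarith
  have hT3 : T ≤ T ^ 3 := le_self_pow₀ hT (by norm_num)
  have hMM := mul_le_mul_of_nonneg_right hM hww
  have hTW := mul_le_mul_of_nonneg_left hT3 (by positivity : 0 ≤ B ^ 2 * (Wt * w ^ 2))
  have g1 : 0 ≤ r ^ 2 * wy ^ 2 := by positivity
  have g2 : 0 ≤ r ^ 2 * (Wt * wp ^ 2) := by positivity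
  have g3 : 0 ≤ r ^ 2 * w ^ 2 := by positivity
  have g4 : 0 ≤ B ^ 2 * (Wt * w ^ 2) := by positivity
  have g5 : 0 ≤ B ^ 2 * (Wt * w ^ 2) * T ^ 3 := by positivity
  have e1 := mul_le_mul_of_nonneg_right he' g1
  have e2 := mul_le_mul_of_nonneg_right he' g2
  have e3 := mul_le_mul_of_nonneg_right he' g3
  linarith [t1, (abs_le.1 t2).1, (abs_le.1 t3).1, (abs_le.1 t4).1, (abs_le.1 t5).1]

theorem bxSqTerm {x p Y Wt R Q : ℝ} (hWt : 0 < Wt) (hR : 0 ≤ R) (hx : x ^ 2 = p * Y)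
    (hp : p ≤ R * Wt) (hY0 : 0 ≤ Y) (hY : Y ≤ Q) : x ^ 2 / Wt ≤ R * Q := by
  rw [div_le_iff₀ hWt, hx]
  calc p * Y ≤ R * Wt * Y := mul_le_mul_of_nonneg_right hp hY0
    _ ≤ R * Wt * Q := mul_le_mul_of_nonneg_left hY (mul_nonneg hR hWt.le)
    _ = R * Q * Wt := by ring

theorem bxComm_q {φy φx φxx wy wp w Wt : ℝ} (hWt : 0 ≤ Wt) :
    φy ^ 2 * wy ^ 2 ≤ (φy ^ 2 + φx ^ 2 + φxx ^ 2) * (wy ^ 2 + Wt * wp ^ 2 + w ^ 2) + Wt * w ^ 2 ∧
    φx ^ 2 * wy ^ 2 ≤ (φy ^ 2 + φx ^ 2 + φxx ^ 2) * (wy ^ 2 + Wt * wp ^ 2 + w ^ 2) + Wt * w ^ 2 ∧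
    φy ^ 2 * (Wt * wp ^ 2) ≤
      (φy ^ 2 + φx ^ 2 + φxx ^ 2) * (wy ^ 2 + Wt * wp ^ 2 + w ^ 2) + Wt * w ^ 2 ∧
    φx ^ 2 * (Wt * wp ^ 2) ≤
      (φy ^ 2 + φx ^ 2 + φxx ^ 2) * (wy ^ 2 + Wt * wp ^ 2 + w ^ 2) + Wt * w ^ 2 ∧
    φxx ^ 2 * w ^ 2 ≤ (φy ^ 2 + φx ^ 2 + φxx ^ 2) * (wy ^ 2 + Wt * wp ^ 2 + w ^ 2) + Wt * w ^ 2 ∧
    φx ^ 2 * w ^ 2 ≤ (φy ^ 2 + φx ^ 2 + φxx ^ 2) * (wy ^ 2 + Wt * wp ^ 2 + w ^ 2) + Wt * w ^ 2 ∧
    φy ^ 2 * w ^ 2 ≤ (φy ^ 2 + φx ^ 2 + φxx ^ 2) * (wy ^ 2 + Wt * wp ^ 2 + w ^ 2) + Wt * w ^ 2 ∧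
    Wt * w ^ 2 ≤ (φy ^ 2 + φx ^ 2 + φxx ^ 2) * (wy ^ 2 + Wt * wp ^ 2 + w ^ 2) + Wt * w ^ 2 := by
  have a := sq_nonneg φy
  have b := sq_nonneg φx
  have c := sq_nonneg φxx
  have x := sq_nonneg wy
  have y : 0 ≤ Wt * wp ^ 2 := by positivity
  have z := sq_nonneg w
  have u : 0 ≤ Wt * w ^ 2 := by positivity
  have := mul_nonneg a x
  have := mul_nonneg a y
  have := mul_nonneg a z
  have := mul_nonneg b x
  have := mul_nonneg b y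
  have := mul_nonneg b z
  have := mul_nonneg c x
  have := mul_nonneg c y
  have := mul_nonneg c z
  refine ⟨?_, ?_, ?_, ?_, ?_, ?_, ?_, ?_⟩ <;> linarith

theorem bxNine {a1 a2 a3 a4 a5 a6 a7 a8 a9 W Z : ℝ} (hW : 0 < W) (h1 : a1 ^ 2 / W ≤ Z)
    (h2 : a2 ^ 2 / W ≤ Z) (h3 : a3 ^ 2 / W ≤ Z) (h4 : a4 ^ 2 / W ≤ Z) (h5 : a5 ^ 2 / W ≤ Z)
    (h6 : a6 ^ 2 / W ≤ Z) (h7 : a7 ^ 2 / W ≤ Z) (h8 : a8 ^ 2 / W ≤ Z) (h9 : a9 ^ 2 / W ≤ Z) :
    (a1 + a2 + a3 + a4 + a5 + a6 + a7 + a8 + a9) ^ 2 / W ≤ 81 * Z := by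
  have h := sq_sum_le_card_mul_sum_sq (s := (Finset.univ : Finset (Fin 9)))
    (f := ![a1, a2, a3, a4, a5, a6, a7, a8, a9])
  simp [Fin.sum_univ_succ] at h
  rw [div_le_iff₀ hW] at *
  rw [show a1 + a2 + a3 + a4 + a5 + a6 + a7 + a8 + a9
    = a1 + (a2 + (a3 + (a4 + (a5 + (a6 + (a7 + (a8 + a9))))))) by ring]
  linarith

/-- The terms produced by a cut-off `φ` are controlled outside the core. -/
theorem bxComm_algebra {φx φy φxx φyx φyy k1 k2 b1 b0 w wy wp om Wt e B T S : ℝ}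
    (hom : 0 < om) (hW : om ^ 2 = Wt) (he' : e ≤ 1) (hT : 1 ≤ T)
    (hk1 : |k1| ≤ e * om) (hb1 : |b1| ≤ e * om) (hb0 : |b0| ≤ e * om) (hk2 : |k2| ≤ Wt * T)
    (hW1 : Wt ≤ 1) (hB : 1 ≤ B) (hφyx : |φyx| ≤ B) (hφyy : |φyy| ≤ B) (hS : 1 ≤ S)
    (hfar : (φy = 0 ∧ φyx = 0 ∧ φyy = 0) ∨ 1 ≤ 16 * T ^ 2 * S * Wt) :
    (2 * φy * wy + φyy * w + 2 * k1 * φx * wy + 2 * k1 * φy * wp + 2 * k1 * φyx * w
        + 2 * k2 * φx * wp + k2 * φxx * w + b1 * φx * w + b0 * φy * w) ^ 2 / Wt ≤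
      81 * (4 * (16 * T ^ 2 * S) ^ 2 * B ^ 2) * ((φy ^ 2 + φx ^ 2 + φxx ^ 2) *
        (wy ^ 2 + Wt * wp ^ 2 + w ^ 2) + Wt * w ^ 2) := by
  have hWt : 0 < Wt := by rw [← hW]; positivity
  obtain ⟨q1, q2, q3, q4, q5, q6, q7, q8⟩ := bxComm_q (φy := φy) (φx := φx) (φxx := φxx)
    (wy := wy) (wp := wp) (w := w) hWt.le
  generalize (φy ^ 2 + φx ^ 2 + φxx ^ 2) * (wy ^ 2 + Wt * wp ^ 2 + w ^ 2) + Wt * w ^ 2 = Q at *
  have hT2 : (1 : ℝ) ≤ T ^ 2 := one_le_pow₀ hT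
  have hG1 : 1 ≤ 16 * T ^ 2 * S := by
    calc (1 : ℝ) = 1 * 1 * 1 := by norm_num
      _ ≤ 16 * T ^ 2 * S := by gcongr; norm_num
  generalize hG : 16 * T ^ 2 * S = G at *
  generalize hR : 4 * G ^ 2 * B ^ 2 = R
  have hB2 : (1 : ℝ) ≤ B ^ 2 := one_le_pow₀ hB
  have hG2 : G ≤ G ^ 2 := le_self_pow₀ hG1 (by norm_num)
  have hR1 : 4 * G * B ^ 2 ≤ R := by rw [← hR]; gcongr
  have hR2 : 4 * T ^ 2 ≤ R := by
    have hTG : T ^ 2 ≤ G := by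
      rw [← hG]; exact le_mul_of_le_mul_of_nonneg_left (by linarith) hS (by positivity)
    calc 4 * T ^ 2 = 4 * T ^ 2 * 1 := (mul_one _).symm
      _ ≤ 4 * G * B ^ 2 := by gcongr
      _ ≤ R := hR1
  have hR0 : 0 ≤ R := by rw [← hR]; positivity
  have hR4 : 4 ≤ R := by linarith
  have abs_sq : ∀ k, |k| ≤ e * om → k ^ 2 ≤ Wt := fun k hk => by
    rw [← hW, ← sq_abs k]; gcongr; exact hk.trans (mul_le_of_le_one_left hom.le he')
  have hk2' : k2 ^ 2 ≤ Wt ^ 2 * T ^ 2 := by rw [← mul_pow, ← sq_abs k2]; gcongr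
  have hyx2 : φyx ^ 2 ≤ B ^ 2 := sq_le_sq' (abs_le.1 hφyx).1 (abs_le.1 hφyx).2
  have hyy2 : φyy ^ 2 ≤ B ^ 2 := sq_le_sq' (abs_le.1 hφyy).1 (abs_le.1 hφyy).2
  have hww : 0 ≤ Wt * w ^ 2 := by positivity
  have hwpp : 0 ≤ Wt * wp ^ 2 := by positivity
  have sq : ∀ k, k ≤ 4 * Wt → k ≤ R * Wt := fun k hk =>
    hk.trans (mul_le_mul_of_nonneg_right hR4 hWt.le)
  have far : ∀ a, 1 ≤ G * Wt → a ≤ 4 * B ^ 2 → a ≤ R * Wt := fun a h ha =>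
    calc a ≤ 4 * B ^ 2 := ha
      _ ≤ 4 * B ^ 2 * (G * Wt) := le_mul_of_one_le_right (by positivity) h
      _ = 4 * G * B ^ 2 * Wt := by ring
      _ ≤ R * Wt := mul_le_mul_of_nonneg_right hR1 hWt.le
  have k1b : (2 * φy * wy) ^ 2 / Wt ≤ R * Q := by
    rcases hfar with ⟨a, -, -⟩ | h
    · exact bxSqTerm hWt hR0 (p := 0) (Y := φy ^ 2 * wy ^ 2) (by simp [a]) (by positivity)
        (by positivity) q1
    · exact bxSqTerm hWt hR0 (p := 4) (Y := φy ^ 2 * wy ^ 2) (by ring) (far _ h (by linarith))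
        (by positivity) q1
  have k2b : (φyy * w) ^ 2 / Wt ≤ R * Q := by
    rcases hfar with ⟨-, -, a⟩ | h
    · exact bxSqTerm hWt hR0 (p := 0) (Y := Wt * w ^ 2) (by simp [a]) (by positivity) hww q8
    · refine bxSqTerm hWt hR0 (p := φyy ^ 2 / Wt) (Y := Wt * w ^ 2) (by field_simp) ?_ hww q8
      rw [div_le_iff₀ hWt, ← hR]
      calc φyy ^ 2 ≤ B ^ 2 * (G * Wt) ^ 2 := hyy2.trans
            (le_mul_of_one_le_right (by positivity) (one_le_pow₀ h))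
        _ ≤ 4 * (B ^ 2 * (G * Wt) ^ 2) := le_mul_of_one_le_left (by positivity) (by norm_num)
        _ = 4 * G ^ 2 * B ^ 2 * Wt * Wt := by ring
  have k3b : (2 * k1 * φx * wy) ^ 2 / Wt ≤ R * Q :=
    bxSqTerm hWt hR0 (p := 4 * k1 ^ 2) (Y := φx ^ 2 * wy ^ 2) (by ring)
      (sq _ (by linarith [abs_sq _ hk1])) (by positivity) q2
  have hk1W : k1 ^ 2 / Wt ≤ 1 := (div_le_one hWt).2 (abs_sq _ hk1)
  have k4b : (2 * k1 * φy * wp) ^ 2 / Wt ≤ R * Q := by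
    rcases hfar with ⟨a, -, -⟩ | h
    · exact bxSqTerm hWt hR0 (p := 0) (Y := φy ^ 2 * (Wt * wp ^ 2)) (by simp [a]) (by positivity)
        (by positivity) q3
    · exact bxSqTerm hWt hR0 (p := 4 * (k1 ^ 2 / Wt)) (Y := φy ^ 2 * (Wt * wp ^ 2))
        (by field_simp; ring) (far _ h (by linarith)) (by positivity) q3
  have k5b : (2 * k1 * φyx * w) ^ 2 / Wt ≤ R * Q := by
    rcases hfar with ⟨-, a, -⟩ | h
    · exact bxSqTerm hWt hR0 (p := 0) (Y := Wt * w ^ 2) (by simp [a]) (by positivity) hww q8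
    · refine bxSqTerm hWt hR0 (p := 4 * (k1 ^ 2 / Wt * φyx ^ 2)) (Y := Wt * w ^ 2)
        (by field_simp; ring) (far _ h ?_) hww q8
      have := mul_le_mul hk1W hyx2 (sq_nonneg φyx) zero_le_one
      linarith
  have k6b : (2 * k2 * φx * wp) ^ 2 / Wt ≤ R * Q := by
    refine bxSqTerm hWt hR0 (p := 4 * (k2 ^ 2 / Wt)) (Y := φx ^ 2 * (Wt * wp ^ 2))
      (by field_simp; ring) ?_ (by positivity) q4
    have : k2 ^ 2 / Wt ≤ Wt * T ^ 2 := by rw [div_le_iff₀ hWt]; linarith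
    have := mul_le_mul_of_nonneg_right hR2 hWt.le
    linarith
  have k7b : (k2 * φxx * w) ^ 2 / Wt ≤ R * Q := by
    refine bxSqTerm hWt hR0 (p := k2 ^ 2) (Y := φxx ^ 2 * w ^ 2) (by ring) ?_ (by positivity) q5
    have h1 : Wt ^ 2 * T ^ 2 ≤ Wt * T ^ 2 := by
      gcongr; exact pow_le_of_le_one hWt.le hW1 (by norm_num)
    have h2 := mul_le_mul_of_nonneg_right hR2 hWt.le
    have h3 : 0 ≤ Wt * T ^ 2 := by positivity
    linarith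
  have k8b : (b1 * φx * w) ^ 2 / Wt ≤ R * Q :=
    bxSqTerm hWt hR0 (p := b1 ^ 2) (Y := φx ^ 2 * w ^ 2) (by ring)
      (sq _ (by linarith [abs_sq _ hb1])) (by positivity) q6
  have k9b : (b0 * φy * w) ^ 2 / Wt ≤ R * Q :=
    bxSqTerm hWt hR0 (p := b0 ^ 2) (Y := φy ^ 2 * w ^ 2) (by ring)
      (sq _ (by linarith [abs_sq _ hb0])) (by positivity) q7
  rw [mul_assoc (81 : ℝ)]
  exact bxNine hWt k1b k2b k3b k4b k5b k6b k7b k8b k9b

end Vale.Agent.P229
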