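import Vale.Agent.P229.BoxBasic
import Mathlib.Analysis.SpecialFunctions.Sqrt
import Mathlib.Analysis.Calculus.Deriv.Inv
import Mathlib.Tactic.LinearCombination
import Mathlib.Tactic.FieldSimp
import Mathlib.Tactic.FunProp

/-!
# P229: the second order hodograph equation

The variables are `J = (P, b, u_y, u_p, C, k, C_x, C_y)`. The equation reads
`u_yy + 2 k a1 u_py + k a2 u_pp + (k g0 + k_x g1 + k_y g2 + C_x g3 + C_y g4) = 0`,
where `g3`, `g4` do not depend on `u_p` and on `k`.
-/

open scoped ContDiff Topology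

namespace Vale.Agent.P229

/-- The space of the arguments of the coefficients. -/
abbrev J8 := Fin 8 → ℝ

namespace BoxEq

variable (J : J8)

/-- `A`. -/
noncomputable def av : ℝ := Afun (J 0) (J 1)

/-- `q = 1 - 2p`. -/
noncomputable def qv : ℝ := 1 / 2 - 2 * J 0

/-- `Z`. -/
noncomputable def zv : ℝ := Zfun (J 0) (J 1) (J 2) (J 4)

/-- `N`. -/
noncomputable def nv : ℝ := Nfun (J 0) (J 1) (J 2) (J 3) (J 5)

/-- `D = 1 + bN/Z`. -/
noncomputable def dv : ℝ := 1 + J 1 * nv J / zv J

/-- `D` at zero curvature. -/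
noncomputable def d0v : ℝ := 1 + J 1 * J 2 / zv J

/-- Coefficient of `2 k u_py`. -/
noncomputable def a1v : ℝ := av J * J 1 * qv J * J 3 / dv J

/-- Coefficient of `k u_pp`. -/
noncomputable def a2v : ℝ := zv J * av J * qv J / dv J

/-- The flat part of the numerator. -/
noncomputable def flatv : ℝ :=
  -(J 2 / zv J) * (J 6 * (J 1 * J 4 + 2 * av J * J 2) + av J * J 7) - J 6 * J 4

/-- Numerator of the coefficient of `k`. -/
noncomputable def g0num : ℝ :=
  (av J ^ 2 - J 1 ^ 2) * (qv J * J 5 * J 3 - J 6) * qv J * J 3 ^ 2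
  + J 2 / zv J * qv J * J 3 * (J 1 * J 4 + av J * J 2)
  - av J * J 1 * qv J * J 3 ^ 2 / zv J *
      (-(qv J * J 5 * J 3 - J 6) * (J 1 * J 4 + av J * J 2) + av J * J 7 + av J * J 6 * J 2)
  + zv J * J 3 * (dv J / av J * qv J - av J)
  - J 6 * J 1 ^ 2 * qv J * J 3 ^ 2

/-- Coefficient of `k`. -/
noncomputable def g0v : ℝ :=
  g0num J / dv J - flatv J * (av J * J 1 ^ 2 * qv J * J 3 ^ 2 / zv J) / (dv J * d0v J)

/-- Coefficient of `k_x`. -/
noncomputable def g1v : ℝ := av J ^ 2 * J 4 * qv J * J 3 ^ 2 / dv J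

/-- Coefficient of `k_y`. -/
noncomputable def g2v : ℝ := av J * J 1 * qv J * J 3 ^ 2 / dv J

/-- Coefficient of `C_x`. -/
noncomputable def g3v : ℝ :=
  -(J 2 * (J 1 * J 4 + 2 * av J * J 2) / zv J + J 4) / d0v J

/-- Coefficient of `C_y`. -/
noncomputable def g4v : ℝ := -(av J * J 2 / zv J) / d0v J

end BoxEq

/-- The values of the coefficient arguments along a solution. -/
noncomputable def jetJ (β u b : ℝ × ℝ → ℝ) (z : ℝ × ℝ) : J8 :=
  ![z.1, b z, dY u z, dX u z, 1 + β (pt u z), kbar β (pt u z), dX β (pt u z), dY β (pt u z)]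

theorem bxSmooth_kbar {β : ℝ × ℝ → ℝ} (hβ : ContDiff ℝ ∞ β) : ContDiff ℝ ∞ (kbar β) :=
  (bxSmooth_dX (bxSmooth_dX hβ)).neg

open BoxEq in
/-- The hodograph equation. -/
theorem bxEquation {β u b : ℝ × ℝ → ℝ} (hβ : ContDiff ℝ ∞ β) (hu : ContDiff ℝ ∞ u)
    (hb : ContDiff ℝ ∞ b) (z : ℝ × ℝ)
    (h1 : ∀ᶠ w in 𝓝 z, dY b w =
      Afun w.1 (b w) * (kPrime w.1 (kbar β (pt u w)) * dX u w - dX β (pt u w)))
    (h2 : ∀ᶠ w in 𝓝 z, dX b w =
      -(Nfun w.1 (b w) (dY u w) (dX u w) (kbar β (pt u w))) /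
        Zfun w.1 (b w) (dY u w) (1 + β (pt u w)))
    (hA : 0 < 2 * (1 / 4 + z.1) - b z ^ 2) (hZ : zv (jetJ β u b z) ≠ 0)
    (hD : dv (jetJ β u b z) ≠ 0) (hD0 : d0v (jetJ β u b z) ≠ 0) :
    dY (dY u) z + 2 * (kbar β (pt u z) * a1v (jetJ β u b z)) * dY (dX u) z
      + kbar β (pt u z) * a2v (jetJ β u b z) * dX (dX u) z
      + (kbar β (pt u z) * g0v (jetJ β u b z) + dX (kbar β) (pt u z) * g1v (jetJ β u b z)
        + dY (kbar β) (pt u z) * g2v (jetJ β u b z) + dX β (pt u z) * g3v (jetJ β u b z)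
        + dY β (pt u z) * g4v (jetJ β u b z)) = 0 := by
  have hk := bxSmooth_kbar hβ
  have huX := bxSmooth_dX hu
  have huY := bxSmooth_dY hu
  set A : ℝ := Afun z.1 (b z) with hAdef
  have hApos : 0 < A := Real.sqrt_pos.2 hA
  set X : ℝ := kPrime z.1 (kbar β (pt u z)) * dX u z - dX β (pt u z) with hXdef
  set Z : ℝ := Zfun z.1 (b z) (dY u z) (1 + β (pt u z)) with hZdef
  set N : ℝ := Nfun z.1 (b z) (dY u z) (dX u z) (kbar β (pt u z)) with hNdef
  have hZ' : Z ≠ 0 := hZ
  have hby : dY b z = A * X := h1.self_of_nhds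
  have hbp : dX b z = -N / Z := h2.self_of_nhds
  have hAp : HasDerivAt (fun s => Afun s (b (s, z.2))) ((1 - b z * dX b z) / A) z.1 := by
    have := ((((hasDerivAt_id z.1).const_add (1 / 4 : ℝ)).const_mul 2).sub
      ((bxHasDerivAt_X hb z).pow 2)).sqrt (ne_of_gt hA)
    refine this.congr_deriv ?_
    simp only [hAdef, Afun, id_eq, Pi.sub_apply, Pi.pow_apply]
    field_simp
    ring
  have hAy : HasDerivAt (fun s => Afun z.1 (b (z.1, s))) (-(b z) * dY b z / A) z.2 := by
    have := ((hasDerivAt_const z.2 (2 * (1 / 4 + z.1))).sub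
      ((bxHasDerivAt_Y hb z).pow 2)).sqrt (ne_of_gt hA)
    refine this.congr_deriv ?_
    simp only [hAdef, Afun, Pi.sub_apply, Pi.pow_apply]
    field_simp
    ring
  have hkp : HasDerivAt (fun s => kPrime s (kbar β (pt u (s, z.2))))
      (-2 * kbar β (pt u z) + (1 / 2 - 2 * z.1) * (dX (kbar β) (pt u z) * dX u z)) z.1 := by
    have := (((hasDerivAt_id z.1).const_mul (2 : ℝ)).const_sub (1 / 2 : ℝ)).mul
      (bxHasDerivAt_ptX hk hu z)
    refine this.congr_deriv ?_
    simp [id_eq]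
  have hky : HasDerivAt (fun s => kPrime z.1 (kbar β (pt u (z.1, s))))
      ((1 / 2 - 2 * z.1) * (dX (kbar β) (pt u z) * dY u z + dY (kbar β) (pt u z))) z.2 :=
    (bxHasDerivAt_ptY hk hu z).const_mul (1 / 2 - 2 * z.1)
  -- differentiate the first equation in `P`
  have e1 : HasDerivAt (fun s => dY b (s, z.2))
      ((1 - b z * dX b z) / A * X + A * ((-2 * kbar β (pt u z)
        + (1 / 2 - 2 * z.1) * (dX (kbar β) (pt u z) * dX u z)) * dX u z
        + kPrime z.1 (kbar β (pt u z)) * dX (dX u) z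
        - dX (dX β) (pt u z) * dX u z)) z.1 := by
    refine HasDerivAt.congr_of_eventuallyEq ?_
      ((((continuous_id.prodMk continuous_const).tendsto' z.1 z rfl)).eventually h1)
    exact hAp.mul ((hkp.mul (bxHasDerivAt_X huX z)).sub
      (bxHasDerivAt_ptX (bxSmooth_dX hβ) hu z))
  have hkkk : dX (dX β) (pt u z) = -kbar β (pt u z) := by simp [kbar]
  have ep := (bxHasDerivAt_X (bxSmooth_dY hb) z).unique e1
  -- differentiate the second equation in `y`
  have hNy : HasDerivAt
      (fun s => Nfun z.1 (b (z.1, s)) (dY u (z.1, s)) (dX u (z.1, s)) (kbar β (pt u (z.1, s))))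
      (dY (dY u) z + ((-(b z) * dY b z / A) * b z + A * dY b z)
          * kPrime z.1 (kbar β (pt u z)) * dX u z ^ 2
        + A * b z * ((1 / 2 - 2 * z.1) * (dX (kbar β) (pt u z) * dY u z + dY (kbar β) (pt u z)))
          * dX u z ^ 2
        + A * b z * kPrime z.1 (kbar β (pt u z)) * (2 * dX u z * dY (dX u) z)) z.2 := by
    have := (bxHasDerivAt_Y huY z).add
      (((hAy.mul (bxHasDerivAt_Y hb z)).mul hky).mul ((bxHasDerivAt_Y huX z).pow 2))
    refine this.congr_deriv ?_
    simp [hAdef]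
    ring
  have hZy : HasDerivAt
      (fun s => Zfun z.1 (b (z.1, s)) (dY u (z.1, s)) (1 + β (pt u (z.1, s))))
      ((-(b z) * dY b z / A) * (1 + β (pt u z)) + A * (dX β (pt u z) * dY u z + dY β (pt u z))
        - (dY b z * dY u z + b z * dY (dY u) z)) z.2 :=
    (hAy.mul ((bxHasDerivAt_ptY hβ hu z).const_add 1)).sub
      ((bxHasDerivAt_Y hb z).mul (bxHasDerivAt_Y huY z))
  have e2 : HasDerivAt (fun s => dX b (z.1, s)) _ z.2 :=
    HasDerivAt.congr_of_eventuallyEq (HasDerivAt.div (HasDerivAt.neg hNy) hZy hZ')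
      ((((continuous_const.prodMk continuous_id).tendsto' z.2 z rfl)).eventually h2)
  have ey := (bxHasDerivAt_Y (bxSmooth_dX hb) z).unique e2
  rw [bxMixed hb z] at ey
  rw [ep] at ey
  have key : (1 + b z * N / Z) * dY (dY u) z
      + 2 * A * b z * kPrime z.1 (kbar β (pt u z)) * dX u z * dY (dX u) z
      + Z * A * kPrime z.1 (kbar β (pt u z)) * dX (dX u) z
      + ((-(b z) * X * b z + A * (A * X)) * kPrime z.1 (kbar β (pt u z)) * dX u z ^ 2
        + A * b z * (1 / 2 - 2 * z.1) *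
          (dY (kbar β) (pt u z) + dX (kbar β) (pt u z) * dY u z) * dX u z ^ 2
        - N / Z * (-(b z) * X * (1 + β (pt u z))
            + A * dY β (pt u z) + A * dX β (pt u z) * dY u z - A * X * dY u z)
        + Z * ((1 + b z * N / Z) / A * (X + dX β (pt u z))
            + A * (-kbar β (pt u z)) * dX u z
            + A * (1 / 2 - 2 * z.1) * dX (kbar β) (pt u z) * dX u z ^ 2)
        - dX β (pt u z) * (1 + β (pt u z) + b z ^ 2 * kPrime z.1 (kbar β (pt u z))
            * dX u z ^ 2)) = 0 := by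
    have ey' := ey
    rw [hby, hbp, hkkk] at ey'
    simp only [Pi.neg_apply, Prod.mk.eta, ← hZdef, ← hNdef] at ey'
    have hAyX : -(b z) * (A * X) / A = -(b z) * X := by field_simp
    rw [hAyX] at ey'
    have hcore : dY (dY u) z + (-(b z) * X * b z + A * (A * X))
          * kPrime z.1 (kbar β (pt u z)) * dX u z ^ 2
        + A * b z * ((1 / 2 - 2 * z.1) * (dX (kbar β) (pt u z) * dY u z + dY (kbar β) (pt u z)))
          * dX u z ^ 2
        + A * b z * kPrime z.1 (kbar β (pt u z)) * (2 * dX u z * dY (dX u) z)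
        - N / Z * ((-(b z) * X) * (1 + β (pt u z))
          + A * (dX β (pt u z) * dY u z + dY β (pt u z))
          - (A * X * dY u z + b z * dY (dY u) z))
        + Z * ((1 - b z * (-N / Z)) / A * X + A * ((-2 * kbar β (pt u z)
          + (1 / 2 - 2 * z.1) * (dX (kbar β) (pt u z) * dX u z)) * dX u z
          + kPrime z.1 (kbar β (pt u z)) * dX (dX u) z
          - -kbar β (pt u z) * dX u z)) = 0 := by
      rw [ey']
      field_simp
      ring
    have hzero : (Z + b z * N) / A - (1 + β (pt u z))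
        - b z ^ 2 * kPrime z.1 (kbar β (pt u z)) * dX u z ^ 2 = 0 := by
      simp only [hZdef, hNdef, Zfun, Nfun, ← hAdef]
      field_simp
      ring
    linear_combination (norm := skip) hcore + dX β (pt u z) * hzero
    field_simp
    ring
  set J := jetJ β u b z with hJ
  have eA : av J = A := rfl
  have eZ : zv J = Z := rfl
  have eN : nv J = N := rfl
  have eq' : qv J = 1 / 2 - 2 * z.1 := rfl
  have hd : dv J = 1 + b z * N / Z := rfl
  have hN0 : N = dY u z + A * b z * ((1 / 2 - 2 * z.1) * kbar β (pt u z)) * dX u z ^ 2 := rfl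
  have hd0 : d0v J = 1 + b z * dY u z / Z := rfl
  have hDD : dv J = d0v J + kbar β (pt u z) * (A * b z ^ 2 * qv J * dX u z ^ 2 / Z) := by
    rw [hd, hd0, eq', hN0]; field_simp; ring
  have hZC : Z + b z * dY u z = A * (1 + β (pt u z)) := by
    simp only [hZdef, Zfun, ← hAdef]; ring
  have c0 : J 0 = z.1 := rfl
  have c1 : J 1 = b z := rfl
  have c2 : J 2 = dY u z := rfl
  have c3 : J 3 = dX u z := rfl
  have c4 : J 4 = 1 + β (pt u z) := rfl
  have c5 : J 5 = kbar β (pt u z) := rfl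
  have c6 : J 6 = dX β (pt u z) := rfl
  have c7 : J 7 = dY β (pt u z) := rfl
  have hflat : kbar β (pt u z) * g0v J + dX β (pt u z) * g3v J + dY β (pt u z) * g4v J
      = (kbar β (pt u z) * g0num J + flatv J) / dv J := by
    have h34 : dX β (pt u z) * g3v J + dY β (pt u z) * g4v J = flatv J / d0v J := by
      simp only [g3v, g4v, flatv, c6, c7]
      field_simp
      ring
    rw [add_assoc, h34]
    simp only [g0v, eA, eq', c1, c3, eZ]
    rw [eq'] at hDD
    field_simp
    field_simp at hDD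
    linear_combination flatv J * hDD
  have : kbar β (pt u z) * g0v J + dX (kbar β) (pt u z) * g1v J + dY (kbar β) (pt u z) * g2v J
      + dX β (pt u z) * g3v J + dY β (pt u z) * g4v J
      = (kbar β (pt u z) * g0num J + flatv J) / dv J
        + dX (kbar β) (pt u z) * g1v J + dY (kbar β) (pt u z) * g2v J := by
    linear_combination hflat
  rw [this]
  simp only [a1v, a2v, g1v, g2v, g0num, flatv, eA, eZ, hd, eq', c1, c2, c3, c4, c5, c6, c7]
  set q : ℝ := 1 / 2 - 2 * z.1 with hqd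
  set k : ℝ := kbar β (pt u z) with hkd
  set C : ℝ := 1 + β (pt u z) with hCd
  set Cx : ℝ := dX β (pt u z) with hCx
  set Cy : ℝ := dY β (pt u z) with hCy
  have hXe : X = q * k * dX u z - Cx := hXdef
  have hke : kPrime z.1 k = q * k := rfl
  rw [hke, hXe] at key
  have hD' : 1 + b z * N / Z ≠ 0 := hD
  set Dd : ℝ := 1 + b z * N / Z with hDd
  have hnum : (-(b z) * (q * k * dX u z - Cx) * b z + A * (A * (q * k * dX u z - Cx)))
          * (q * k) * dX u z ^ 2
        + A * b z * q * (dY (kbar β) (pt u z) + dX (kbar β) (pt u z) * dY u z) * dX u z ^ 2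
        - N / Z * (-(b z) * (q * k * dX u z - Cx) * C + A * Cy + A * Cx * dY u z
            - A * (q * k * dX u z - Cx) * dY u z)
        + Z * (Dd / A * (q * k * dX u z - Cx + Cx) + A * (-k) * dX u z
            + A * q * dX (kbar β) (pt u z) * dX u z ^ 2)
        - Cx * (C + b z ^ 2 * (q * k) * dX u z ^ 2)
      = k * ((A ^ 2 - b z ^ 2) * (q * k * dX u z - Cx) * q * dX u z ^ 2
          + dY u z / Z * q * dX u z * (b z * C + A * dY u z)
          - A * b z * q * dX u z ^ 2 / Z * (-(q * k * dX u z - Cx) * (b z * C + A * dY u z)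
              + A * Cy + A * Cx * dY u z)
          + Z * dX u z * (Dd / A * q - A) - Cx * b z ^ 2 * q * dX u z ^ 2)
        + (-(dY u z / Z) * (Cx * (b z * C + 2 * A * dY u z) + A * Cy) - Cx * C)
        + dX (kbar β) (pt u z) * (A ^ 2 * C * q * dX u z ^ 2)
        + dY (kbar β) (pt u z) * (A * b z * q * dX u z ^ 2) := by
    have hNe : N = dY u z + A * b z * (q * k) * dX u z ^ 2 := hN0
    rw [hNe]
    have hg1 : Z * (A * q) + A * b z * q * dY u z = A ^ 2 * C * q := by
      linear_combination (A * q) * hZC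
    linear_combination (norm := skip) (dX (kbar β) (pt u z) * dX u z ^ 2) * hg1
    field_simp
    ring
  linear_combination (norm := skip) (1 / Dd) * key - (1 / Dd) * hnum
  field_simp
  ring

end Vale.Agent.P229
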