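import Vale.Agent.P229.BoxExpand0

/-!
# P229: expansion of the terms of the differentiated equation

Everything is pointwise: all bounds are in terms of `K0` (low order derivatives), `Λ` (sup bounds
on the derivatives of intermediate order), `E1`, `g0`, `g1` (bounds on the coefficient) and the
size `topJ` of the top derivatives.
-/

open scoped ContDiff Topology
open Finset

namespace Vale.Agent.P229

/-- The size of the top derivatives at level `i`. -/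
noncomputable def topJ (u b : ℝ × ℝ → ℝ) (i : ℕ) (z : ℝ × ℝ) : ℝ :=
  (∑ m ∈ range 5, |dX^[i - m] u z|) +
    ∑ m ∈ range 4, (|dX^[i - 1 - m] (dY u) z| + |dX^[i - 1 - m] b z|)

theorem topJ_nonneg (u b : ℝ × ℝ → ℝ) (i : ℕ) (z : ℝ × ℝ) : 0 ≤ topJ u b i z := by
  unfold topJ; positivity

theorem bxTopJ_u {u b : ℝ × ℝ → ℝ} {i q : ℕ} {z : ℝ × ℝ} (h1 : q ≤ i) (h2 : i ≤ q + 4) :
    |dX^[q] u z| ≤ topJ u b i z := by
  have : |dX^[i - (i - q)] u z| ≤ ∑ m ∈ range 5, |dX^[i - m] u z| :=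
    single_le_sum (f := fun m => |dX^[i - m] u z|) (fun _ _ => abs_nonneg _)
      (mem_range.2 (by omega))
  rw [show i - (i - q) = q by omega] at this
  exact this.trans (le_add_of_nonneg_right (by positivity))

theorem bxTopJ_uy {u b : ℝ × ℝ → ℝ} {i q : ℕ} {z : ℝ × ℝ} (h1 : q < i) (h2 : i ≤ q + 4) :
    |dX^[q] (dY u) z| ≤ topJ u b i z ∧ |dX^[q] b z| ≤ topJ u b i z := by
  have : |dX^[i - 1 - (i - 1 - q)] (dY u) z| + |dX^[i - 1 - (i - 1 - q)] b z| ≤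
      ∑ m ∈ range 4, (|dX^[i - 1 - m] (dY u) z| + |dX^[i - 1 - m] b z|) :=
    single_le_sum (f := fun m => |dX^[i - 1 - m] (dY u) z| + |dX^[i - 1 - m] b z|)
      (fun _ _ => by positivity) (mem_range.2 (by omega))
  rw [show i - 1 - (i - 1 - q) = q by omega] at this
  have h5 : (0 : ℝ) ≤ ∑ m ∈ range 5, |dX^[i - m] u z| := sum_nonneg fun _ _ => abs_nonneg _
  constructor <;> unfold topJ <;>
    linarith [abs_nonneg (dX^[q] (dY u) z), abs_nonneg (dX^[q] b z)]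

/-- The hypotheses on the jets of the solution at a point. -/
structure JetHyp (β u b : ℝ × ℝ → ℝ) (i : ℕ) (z : ℝ × ℝ) (K0 Λ E1 : ℝ) : Prop where
  smβ : ContDiff ℝ ∞ β
  smu : ContDiff ℝ ∞ u
  smb : ContDiff ℝ ∞ b
  one_le : 1 ≤ K0
  le_Λ : K0 ≤ Λ
  le_E : 1 ≤ E1
  lowu : ∀ l ≤ 12, |dX^[l] (dX u) z| ≤ K0 ∧ |dX^[l] (dY u) z| ≤ K0 ∧ |dX^[l] b z| ≤ K0
  supu : ∀ q, 1 ≤ q → q + 4 ≤ i → |dX^[q] u z| ≤ Λ
  supy : ∀ q, q + 5 ≤ i → |dX^[q] (dY u) z| ≤ Λ ∧ |dX^[q] b z| ≤ Λ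
  coefLow : ∀ q ≤ 8, |dX^[q] β (pt u z)| ≤ K0 ∧ |dX^[q] (kbar β) (pt u z)| ≤ K0 ∧
    |dX^[q] (dX β) (pt u z)| ≤ K0 ∧ |dX^[q] (dY β) (pt u z)| ≤ K0
  coefSup : ∀ q, q + 5 ≤ i → |dX^[q] β (pt u z)| ≤ Λ ∧ |dX^[q] (kbar β) (pt u z)| ≤ Λ ∧
    |dX^[q] (dX β) (pt u z)| ≤ Λ ∧ |dX^[q] (dY β) (pt u z)| ≤ Λ
  coefAll : ∀ q ≤ i, |dX^[q] β (pt u z)| ≤ E1 ∧ |dX^[q] (kbar β) (pt u z)| ≤ E1 ∧
    |dX^[q] (dX β) (pt u z)| ≤ E1 ∧ |dX^[q] (dY β) (pt u z)| ≤ E1
  eqb : ∀ᶠ w in 𝓝 z, dX b w = -(BoxEq.nv (jetJ β u b w)) / BoxEq.zv (jetJ β u b w)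
  hsm : ContDiffAt ℝ ∞ (fun J => -(BoxEq.nv J) / BoxEq.zv J) (jetJ β u b z)
  hbd : ∀ q ≤ i, ‖iteratedFDeriv ℝ q (fun J => -(BoxEq.nv J) / BoxEq.zv J) (jetJ β u b z)‖ ≤ K0

/-- Composition of a function of the chart point with the first hodograph slice. -/
theorem bxChart_comp (hT : TameSpec) (i : ℕ) (hi : 14 ≤ i) (K0 : ℝ) : ∃ (C : ℝ) (N : ℕ), 1 ≤ C ∧
    ∀ (β u b : ℝ × ℝ → ℝ) (z : ℝ × ℝ) (Λ E1 : ℝ), JetHyp β u b i z K0 Λ E1 →
    ∀ (F : ℝ × ℝ → ℝ) (g0 gs g1 : ℝ), ContDiff ℝ ∞ F →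
      (∀ q ≤ 8, |dX^[q] F (pt u z)| ≤ g0) → (∀ q, q + 5 ≤ i → |dX^[q] F (pt u z)| ≤ gs) →
      (∀ q ≤ i, |dX^[q] F (pt u z)| ≤ g1) →
      Low i z.1 (fun s => F (pt u (s, z.2))) (C * g0) (C * Λ ^ N * gs) (C * Λ ^ N * g1)
        (topJ u b i z) ∧
      |iteratedDeriv i (fun s => F (pt u (s, z.2))) z.1| ≤
        C * Λ ^ N * g1 + C * g0 * topJ u b i z := by
  obtain ⟨C0, hC0, hcl⟩ := bxComp_low hT i (by omega)
  refine ⟨C0 * |K0| ^ (i * i + 1) * 20 * (i + 2) + C0 * 20 * (i + 2) + 1, i * i + 1, ?_, ?_⟩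
  · have : 0 ≤ C0 * |K0| ^ (i * i + 1) * 20 * (i + 2) + C0 * 20 * (i + 2) := by
      have : 0 ≤ C0 := by linarith
      positivity
    linarith
  intro β u b z Λ E1 h F g0 gs g1 hF hlow hsup hall
  set C : ℝ := C0 * |K0| ^ (i * i + 1) * 20 * (i + 2) + C0 * 20 * (i + 2) + 1 with hC
  have hK := h.one_le
  have hKa : |K0| = K0 := abs_of_pos (by linarith)
  have hΛ : 1 ≤ Λ := hK.trans h.le_Λ
  set J := topJ u b i z with hJ
  have hJ0 : 0 ≤ J := topJ_nonneg _ _ _ _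
  set S : ℝ → ℝ := fun s => u (s, z.2) with hS
  set G : ℝ → ℝ := fun x => F (x, z.2) with hG
  have eS : ∀ l, iteratedDeriv l S z.1 = dX^[l] u z := fun l =>
    congr_fun (bxIter_slice h.smu z.2 l) z.1
  have eG : ∀ q, ‖iteratedFDeriv ℝ q G (S z.1)‖ = |dX^[q] F (pt u z)| := fun q => by
    rw [norm_iteratedFDeriv_eq_norm_iteratedDeriv, bxIter_slice hF z.2 q, Real.norm_eq_abs]
    rfl
  set Γ : ℕ → ℝ := fun q => |dX^[q] F (pt u z)| with hΓ
  have hsucc : ∀ l, dX^[l + 1] u z = dX^[l] (dX u) z := fun l => rfl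
  obtain ⟨hL, hT'⟩ := hcl ℝ S G z.1 K0 Λ Λ J Γ hK h.le_Λ (by linarith) hJ0
    (bxSlice_smooth h.smu z.2).contDiffAt (bxSlice_smooth hF z.2).contDiffAt
    (fun q _ => (eG q).le)
    (fun l h1 hl => by
      rw [eS, Real.norm_eq_abs]; obtain ⟨k, rfl⟩ : ∃ k, l = k + 1 := ⟨l - 1, by omega⟩
      rw [hsucc]; exact (h.lowu k (by omega)).1)
    (fun l h1 hl => by rw [eS, Real.norm_eq_abs]; exact h.supu l h1 (by omega))
    (fun l h1 hl => by
      rw [eS, Real.norm_eq_abs]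
      rcases le_or_gt (l + 4) i with h4 | h4
      · exact (h.supu l h1 h4).trans (le_add_of_nonneg_right (by positivity))
      · exact ((bxTopJ_u hl.le (by omega)).trans (le_mul_of_one_le_left hJ0 hK)).trans
          (le_add_of_nonneg_left (by linarith)))
  have s9 : ∑ q ∈ range 9, Γ q ≤ 9 * g0 := by
    refine (sum_le_sum (g := fun _ => g0) fun q hq => hlow q (by simp at hq; omega)).trans ?_
    simp
  have si : ∑ q ∈ range (i + 1), Γ q ≤ (i + 2) * g1 := by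
    refine (sum_le_sum (g := fun _ => g1) fun q hq => hall q (by simp at hq; omega)).trans ?_
    simp only [sum_const, card_range, nsmul_eq_mul]
    push_cast
    nlinarith [(abs_nonneg _).trans (hall 0 (Nat.zero_le _))]
  have ss : ∑ q ∈ range (i - 4), Γ q ≤ (i + 2) * gs := by
    refine (sum_le_sum (g := fun _ => gs) fun q hq => hsup q (by simp at hq; omega)).trans ?_
    simp only [sum_const, card_range, nsmul_eq_mul]
    have : ((i - 4 : ℕ) : ℝ) ≤ (i : ℝ) + 2 := by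
      have : (i - 4 : ℕ) ≤ i := Nat.sub_le _ _
      have : ((i - 4 : ℕ) : ℝ) ≤ (i : ℝ) := by exact_mod_cast this
      linarith
    exact mul_le_mul_of_nonneg_right this ((abs_nonneg _).trans (hsup 0 (by omega)))
  have g0n : 0 ≤ g0 := (abs_nonneg _).trans (hlow 0 (by omega))
  have gsn : 0 ≤ gs := (abs_nonneg _).trans (hsup 0 (by omega))
  have g1n : 0 ≤ g1 := (abs_nonneg _).trans (hall 0 (by omega))
  have g01 : ∑ q ∈ range 9, Γ q ≤ ∑ q ∈ range (i + 1), Γ q :=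
    sum_le_sum_of_subset_of_nonneg (range_mono (by omega)) fun q _ _ => abs_nonneg _
  have pΛ : Λ ^ (i * i) ≤ Λ ^ (i * i + 1) := pow_le_pow_right₀ hΛ (by omega)
  have hC00 : 0 ≤ C0 := by linarith
  have hc1 : C0 * K0 ^ (i * i + 1) * 20 * (i + 2) ≤ C := by
    rw [hC, hKa]
    have : 0 ≤ C0 * 20 * (i + 2 : ℝ) := by positivity
    linarith
  have hc2 : C0 * 20 * (i + 2) ≤ C := by
    rw [hC, hKa]
    have : 0 ≤ C0 * K0 ^ (i * i + 1) * 20 * (i + 2 : ℝ) := by positivity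
    linarith
  have hi2 : (1 : ℝ) ≤ (i : ℝ) + 2 := by linarith [Nat.cast_nonneg (α := ℝ) i]
  have bK : K0 ^ (i * i + 1) * (∑ q ∈ range 9, Γ q) * C0 ≤ C * g0 := by
    calc K0 ^ (i * i + 1) * (∑ q ∈ range 9, Γ q) * C0 ≤ K0 ^ (i * i + 1) * (9 * g0) * C0 := by
          gcongr
      _ = C0 * K0 ^ (i * i + 1) * 9 * 1 * g0 := by ring
      _ ≤ C0 * K0 ^ (i * i + 1) * 20 * (i + 2) * g0 := by gcongr; norm_num
      _ ≤ C * g0 := mul_le_mul_of_nonneg_right hc1 g0n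
  have bI : C0 * (Λ ^ (i * i) * (∑ q ∈ range (i + 1), Γ q) +
      K0 ^ (i * i) * (∑ q ∈ range 9, Γ q) * Λ) ≤ C * Λ ^ (i * i + 1) * g1 := by
    have : K0 ^ (i * i) * (∑ q ∈ range 9, Γ q) * Λ ≤
        Λ ^ (i * i + 1) * (∑ q ∈ range (i + 1), Γ q) := by
      rw [pow_succ, mul_right_comm (Λ ^ (i * i))]
      gcongr
      exact h.le_Λ
    calc _ ≤ C0 * (Λ ^ (i * i + 1) * ((i + 2) * g1) + Λ ^ (i * i + 1) * ((i + 2) * g1)) := by
          refine mul_le_mul_of_nonneg_left (add_le_add ?_ (this.trans ?_)) hC00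
          · exact mul_le_mul pΛ si (sum_nonneg fun _ _ => abs_nonneg _) (by positivity)
          · exact mul_le_mul_of_nonneg_left si (by positivity)
      _ = C0 * 2 * (i + 2) * (Λ ^ (i * i + 1) * g1) := by ring
      _ ≤ C0 * 20 * (i + 2) * (Λ ^ (i * i + 1) * g1) := by gcongr; norm_num
      _ ≤ C * (Λ ^ (i * i + 1) * g1) := mul_le_mul_of_nonneg_right hc2 (by positivity)
      _ = _ := by ring
  refine ⟨hL.mono (le_trans (le_of_eq (by ring)) bK) ?_ bI, ?_⟩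
  · calc C0 * Λ ^ (i * i) * (∑ q ∈ range (i - 4), Γ q) ≤ C0 * Λ ^ (i * i + 1) * ((i + 2) * gs) :=
          mul_le_mul (mul_le_mul_of_nonneg_left pΛ hC00) ss (sum_nonneg fun _ _ => abs_nonneg _)
            (by positivity)
      _ = C0 * 1 * (i + 2) * (Λ ^ (i * i + 1) * gs) := by ring
      _ ≤ C0 * 20 * (i + 2) * (Λ ^ (i * i + 1) * gs) := by gcongr; norm_num
      _ ≤ C * (Λ ^ (i * i + 1) * gs) := mul_le_mul_of_nonneg_right hc2 (by positivity)
      _ = _ := by ring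
  · have hD : |fderiv ℝ G (S z.1) (iteratedDeriv i S z.1)| ≤ g0 * J := by
      rw [← Real.norm_eq_abs]
      refine ((fderiv ℝ G (S z.1)).le_opNorm _).trans ?_
      rw [← norm_iteratedFDeriv_one, eG, eS, Real.norm_eq_abs]
      exact mul_le_mul (hlow 1 (by omega)) (bxTopJ_u le_rfl (by omega)) (abs_nonneg _) g0n
    have e : (fun s => F (pt u (s, z.2))) = G ∘ S := rfl
    rw [e]
    have h1 : |iteratedDeriv i (G ∘ S) z.1| ≤ |fderiv ℝ G (S z.1) (iteratedDeriv i S z.1)| +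
        |iteratedDeriv i (G ∘ S) z.1 - fderiv ℝ G (S z.1) (iteratedDeriv i S z.1)| := by
      simpa using abs_add_le (fderiv ℝ G (S z.1) (iteratedDeriv i S z.1))
        (iteratedDeriv i (G ∘ S) z.1 - fderiv ℝ G (S z.1) (iteratedDeriv i S z.1))
    have x0 : 0 ≤ ∑ q ∈ range 9, Γ q := sum_nonneg fun _ _ => abs_nonneg _
    have x1 : C0 * (K0 ^ (i * i + 1) * (∑ q ∈ range 9, Γ q) * J) ≤ C0 * K0 ^ (i * i + 1) * 9 * g0 * J := by
      calc _ = C0 * K0 ^ (i * i + 1) * (∑ q ∈ range 9, Γ q) * J := by ring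
        _ ≤ C0 * K0 ^ (i * i + 1) * (9 * g0) * J := by gcongr
        _ = _ := by ring
    have x2 : C0 * K0 ^ (i * i + 1) * 9 + 1 ≤ C := by
      have : C0 * K0 ^ (i * i + 1) * 9 ≤ C0 * K0 ^ (i * i + 1) * 20 * (i + 2) := by
        calc _ = C0 * K0 ^ (i * i + 1) * 9 * 1 := by ring
          _ ≤ _ := by gcongr; norm_num
      have : 0 ≤ C0 * 20 * (i + 2 : ℝ) := by positivity
      rw [hC, hKa]; linarith
    have x3 := mul_le_mul_of_nonneg_right x2 (mul_nonneg g0n hJ0)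
    have bI' : C0 * (Λ ^ (i * i) * (∑ q ∈ range (i + 1), Γ q) +
        K0 ^ (i * i + 1) * (∑ q ∈ range 9, Γ q) * Λ) ≤ C * Λ ^ (i * i + 1) * g1 := by
      have : K0 ^ (i * i + 1) * (∑ q ∈ range 9, Γ q) * Λ ≤
          Λ ^ (i * i + 1) * K0 * (∑ q ∈ range (i + 1), Γ q) := by
        calc K0 ^ (i * i + 1) * (∑ q ∈ range 9, Γ q) * Λ
            = K0 ^ (i * i) * Λ * K0 * (∑ q ∈ range 9, Γ q) := by ring
          _ ≤ Λ ^ (i * i) * Λ * K0 * (∑ q ∈ range (i + 1), Γ q) := by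
              gcongr; exact h.le_Λ
          _ = _ := by ring
      have hK2 : K0 ≤ K0 ^ (i * i + 1) := le_self_pow₀ hK (by omega)
      calc _ ≤ C0 * (Λ ^ (i * i + 1) * ((i + 2) * g1) + Λ ^ (i * i + 1) * K0 * ((i + 2) * g1)) := by
            refine mul_le_mul_of_nonneg_left (add_le_add ?_ (this.trans ?_)) hC00
            · exact mul_le_mul pΛ si (sum_nonneg fun _ _ => abs_nonneg _) (by positivity)
            · exact mul_le_mul_of_nonneg_left si (by positivity)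
        _ = C0 * (1 + K0) * (i + 2) * (Λ ^ (i * i + 1) * g1) := by ring
        _ ≤ (C0 * 20 * (i + 2) + C0 * K0 ^ (i * i + 1) * 20 * (i + 2))
              * (Λ ^ (i * i + 1) * g1) := by
            refine mul_le_mul_of_nonneg_right ?_ (by positivity)
            have a := mul_le_mul_of_nonneg_left hK2 (by positivity : (0 : ℝ) ≤ C0 * (i + 2))
            have b : 0 ≤ C0 * (i + 2 : ℝ) := by positivity
            have c : 0 ≤ C0 * (i + 2 : ℝ) * K0 ^ (i * i + 1) := by positivity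
            linarith
        _ ≤ C * (Λ ^ (i * i + 1) * g1) := by
            refine mul_le_mul_of_nonneg_right ?_ (by positivity)
            rw [hC, hKa]; linarith
        _ = _ := by ring
    nlinarith [h1, hD, hT', bI', x1, x3]

/-- The slice of the coefficient arguments through `z`. -/
noncomputable def jetSlice (β u b : ℝ × ℝ → ℝ) (z : ℝ × ℝ) : ℝ → J8 :=
  fun s => jetJ β u b (s, z.2)

theorem bxPt_smooth {g u : ℝ × ℝ → ℝ} (hg : ContDiff ℝ ∞ g) (hu : ContDiff ℝ ∞ u) :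
    ContDiff ℝ ∞ (fun w => g (pt u w)) :=
  hg.comp (hu.prodMk contDiff_snd)

theorem bxJetSlice_smooth {β u b : ℝ × ℝ → ℝ} (hβ : ContDiff ℝ ∞ β) (hu : ContDiff ℝ ∞ u)
    (hb : ContDiff ℝ ∞ b) (z : ℝ × ℝ) : ContDiff ℝ ∞ (jetSlice β u b z) := by
  refine contDiff_pi.2 fun k => ?_
  fin_cases k
  · exact contDiff_id
  · exact bxSlice_smooth hb z.2
  · exact bxSlice_smooth (bxSmooth_dY hu) z.2
  · exact bxSlice_smooth (bxSmooth_dX hu) z.2
  · exact contDiff_const.add (bxSlice_smooth (bxPt_smooth hβ hu) z.2)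
  · exact bxSlice_smooth (bxPt_smooth (bxSmooth_kbar hβ) hu) z.2
  · exact bxSlice_smooth (bxPt_smooth (bxSmooth_dX hβ) hu) z.2
  · exact bxSlice_smooth (bxPt_smooth (bxSmooth_dY hβ) hu) z.2

/-- The bounds on the jets of the coefficient arguments. -/
theorem bxComps (hT : TameSpec) (i : ℕ) (hi : 14 ≤ i) (K0 : ℝ) : ∃ (C : ℝ) (N : ℕ), 1 ≤ C ∧
    ∀ (β u b : ℝ × ℝ → ℝ) (z : ℝ × ℝ) (Λ E1 : ℝ), JetHyp β u b i z K0 Λ E1 →
      (∀ l, 1 ≤ l → l ≤ 8 → ‖iteratedDeriv l (jetSlice β u b z) z.1‖ ≤ C) ∧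
      (∀ l, 1 ≤ l → l + 5 ≤ i → ‖iteratedDeriv l (jetSlice β u b z) z.1‖ ≤ C * Λ ^ N) ∧
      (∀ l, 1 ≤ l → l < i →
        ‖iteratedDeriv l (jetSlice β u b z) z.1‖ ≤ C * Λ ^ N * E1 + C * topJ u b i z) ∧
      ∀ k : Fin 8, k ≠ 2 → k ≠ 3 →
        |iteratedDeriv i (fun s => jetSlice β u b z s k) z.1| ≤
          C * Λ ^ N * E1 + C * topJ u b i z := by
  obtain ⟨C1, N1, hC1, hch⟩ := bxChart_comp hT i hi K0
  obtain ⟨C2, hC2, hcl⟩ := bxComp_low hT i (by omega)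
  -- the constants for the components of order `< i`
  set Ka : ℝ := (1 + |K0|) * C1 + Nat.factorial 8 * |K0| ^ 9 with hKa
  refine ⟨Ka + C2 * ((Ka + 1) ^ (i * i + 1)) * (20 + i) * (1 + |K0|) * (1 + Ka),
    (N1 + 1) * (i * i + 1) + N1 + 1, ?_, ?_⟩
  · have h1 : 1 ≤ Ka := by
      rw [hKa]; nlinarith [abs_nonneg K0, (by positivity : (0 : ℝ) ≤ Nat.factorial 8 * |K0| ^ 9)]
    have : 0 ≤ C2 * ((Ka + 1) ^ (i * i + 1)) * (20 + i) * (1 + |K0|) * (1 + Ka) := by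
      have : 0 ≤ C2 := by linarith
      positivity
    linarith
  intro β u b z Λ E1 h
  set Cf : ℝ := Ka + C2 * ((Ka + 1) ^ (i * i + 1)) * (20 + i) * (1 + |K0|) * (1 + Ka) with hCf
  set N : ℕ := (N1 + 1) * (i * i + 1) + N1 + 1 with hN
  have hK := h.one_le
  have hKabs : |K0| = K0 := abs_of_pos (by linarith)
  have hΛ : 1 ≤ Λ := hK.trans h.le_Λ
  have hE : 1 ≤ E1 := h.le_E
  set J := topJ u b i z with hJdef
  have hJ : 0 ≤ J := topJ_nonneg _ _ _ _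
  have hf9 : (0 : ℝ) ≤ Nat.factorial 8 * K0 ^ 9 := by positivity
  have hKa1 : 1 + K0 ≤ Ka := by
    rw [hKa, hKabs]; linarith [le_mul_of_one_le_right (by linarith : (0 : ℝ) ≤ 1 + K0) hC1]
  have hKa0 : C1 * K0 ≤ Ka := by rw [hKa, hKabs]; nlinarith
  have hKaC1 : C1 * (1 + K0) ≤ Ka := by rw [hKa, hKabs]; linarith
  have hKl8 : ∀ {l : ℕ}, l ≤ 8 → (l.factorial : ℝ) * K0 * K0 ^ 8 ≤ Ka := by
    intro l hl
    have : (l.factorial : ℝ) ≤ Nat.factorial 8 := by exact_mod_cast Nat.factorial_le hl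
    have h2 := mul_le_mul_of_nonneg_right this (by positivity : (0 : ℝ) ≤ K0 * K0 ^ 8)
    rw [hKa, hKabs]
    nlinarith
  have hC2' : 0 ≤ C2 := by linarith
  have hKaC : Ka ≤ Cf := le_add_of_nonneg_right (by positivity)
  have hS := bxJetSlice_smooth h.smβ h.smu h.smb z
  have pN : Λ ^ (N1 + 1) ≤ Λ ^ N := pow_le_pow_right₀ hΛ (by
    have : N1 + 1 ≤ (N1 + 1) * (i * i + 1) := Nat.le_mul_of_pos_right _ (by omega)
    omega)
  have p1 : ∀ n : ℕ, (1 : ℝ) ≤ Λ ^ n := fun n => one_le_pow₀ hΛ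
  have eu : ∀ (f : ℝ × ℝ → ℝ), ContDiff ℝ ∞ f → ∀ l,
      iteratedDeriv l (fun s => f (s, z.2)) z.1 = dX^[l] f z := fun f hf l =>
    congr_fun (bxIter_slice hf z.2 l) z.1
  have coef : ∀ F : ℝ × ℝ → ℝ, ContDiff ℝ ∞ F → (∀ q ≤ 8, |dX^[q] F (pt u z)| ≤ K0) →
      (∀ q, q + 5 ≤ i → |dX^[q] F (pt u z)| ≤ Λ) → (∀ q ≤ i, |dX^[q] F (pt u z)| ≤ E1) →
      (∀ l ≤ 8, |iteratedDeriv l (fun s => F (pt u (s, z.2))) z.1| ≤ Ka) ∧
      (∀ l, l + 5 ≤ i → |iteratedDeriv l (fun s => F (pt u (s, z.2))) z.1| ≤ Ka * Λ ^ (N1 + 1)) ∧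
      ∀ l ≤ i, |iteratedDeriv l (fun s => F (pt u (s, z.2))) z.1| ≤
        Ka * Λ ^ (N1 + 1) * E1 + Ka * J := by
    intro F hF a b c
    obtain ⟨hL, ht⟩ := hch β u _ z Λ E1 h F K0 Λ E1 hF a b c
    refine ⟨fun l hl => ?_, fun l hl => ?_, fun l hl => ?_⟩
    · exact (bxComp_sup l (S := fun s => u (s, z.2)) (G := fun x => F (x, z.2)) (C := K0) (D := K0)
        (bxSlice_smooth h.smu z.2).contDiffAt (bxSlice_smooth hF z.2).contDiffAt
        (fun q hq => by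
          rw [norm_iteratedFDeriv_eq_norm_iteratedDeriv, bxIter_slice hF z.2 q,
            Real.norm_eq_abs]
          exact a q (by omega))
        (fun q h1 hq => by
          rw [eu u h.smu, Real.norm_eq_abs]
          obtain ⟨k, rfl⟩ : ∃ k, q = k + 1 := ⟨q - 1, by omega⟩
          exact ((h.lowu k (by omega)).1).trans (le_self_pow₀ hK (by omega)))).trans
        ((mul_le_mul_of_nonneg_left (pow_le_pow_right₀ hK hl) (by positivity)).trans (hKl8 hl))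
    · refine (hL.sup l hl).trans ?_
      calc C1 * Λ ^ N1 * Λ = C1 * 1 * Λ ^ (N1 + 1) := by ring
        _ ≤ C1 * (1 + K0) * Λ ^ (N1 + 1) := by gcongr; linarith
        _ ≤ Ka * Λ ^ (N1 + 1) := by gcongr
    · have h1 : |iteratedDeriv l (fun s => F (pt u (s, z.2))) z.1| ≤
          C1 * Λ ^ N1 * E1 + C1 * K0 * J := by
        rcases lt_or_eq_of_le hl with hlt | rfl
        · exact hL.all l hlt
        · exact ht
      refine h1.trans (add_le_add ?_ (mul_le_mul_of_nonneg_right hKa0 hJ))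
      refine mul_le_mul_of_nonneg_right (mul_le_mul ?_ (pow_le_pow_right₀ hΛ (by omega))
        (by positivity) (by positivity)) (by linarith)
      exact le_trans (le_mul_of_one_le_right (by linarith) (by linarith : (1:ℝ) ≤ 1 + K0)) hKaC1
  obtain ⟨c4l, c4s, c4a⟩ := coef β h.smβ (fun q hq => (h.coefLow q hq).1)
    (fun q hq => (h.coefSup q hq).1) (fun q hq => (h.coefAll q hq).1)
  obtain ⟨c5l, c5s, c5a⟩ := coef _ (bxSmooth_kbar h.smβ) (fun q hq => (h.coefLow q hq).2.1)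
    (fun q hq => (h.coefSup q hq).2.1) (fun q hq => (h.coefAll q hq).2.1)
  obtain ⟨c6l, c6s, c6a⟩ := coef _ (bxSmooth_dX h.smβ) (fun q hq => (h.coefLow q hq).2.2.1)
    (fun q hq => (h.coefSup q hq).2.2.1) (fun q hq => (h.coefAll q hq).2.2.1)
  obtain ⟨c7l, c7s, c7a⟩ := coef _ (bxSmooth_dY h.smβ) (fun q hq => (h.coefLow q hq).2.2.2)
    (fun q hq => (h.coefSup q hq).2.2.2) (fun q hq => (h.coefAll q hq).2.2.2)
  set S := jetSlice β u b z with hSdef
  have eP : ∀ l, 1 ≤ l → |iteratedDeriv l (fun s => S s 0) z.1| ≤ 1 := by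
    intro l hl
    show |iteratedDeriv l (fun s => s) z.1| ≤ 1
    rw [iteratedDeriv_fun_id]
    split_ifs <;> first | omega | simp
  have eC : ∀ l, 1 ≤ l → iteratedDeriv l (fun s => S s 4) z.1 =
      iteratedDeriv l (fun s => β (pt u (s, z.2))) z.1 := by
    intro l hl
    show iteratedDeriv l (fun s => 1 + β (pt u (s, z.2))) z.1 = _
    rw [iteratedDeriv_const_add (by omega)]
  have low8 : ∀ l, 1 ≤ l → l ≤ 8 → ∀ k, |iteratedDeriv l (fun s => S s k) z.1| ≤ Ka := by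
    intro l h1 hl k
    fin_cases k
    · exact (eP l h1).trans (by linarith)
    · exact ((eu b h.smb l).symm ▸ (h.lowu l (by omega)).2.2).trans (by linarith)
    · exact ((eu (dY u) (bxSmooth_dY h.smu) l).symm ▸ (h.lowu l (by omega)).2.1).trans (by linarith)
    · exact ((eu (dX u) (bxSmooth_dX h.smu) l).symm ▸ (h.lowu l (by omega)).1).trans (by linarith)
    · exact (eC l h1).symm ▸ c4l l hl
    · exact c5l l hl
    · exact c6l l hl
    · exact c7l l hl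
  have sup5 : ∀ l, 1 ≤ l → l + 5 ≤ i → ∀ k,
      |iteratedDeriv l (fun s => S s k) z.1| ≤ Ka * Λ ^ (N1 + 1) := by
    intro l h1 hl k
    have hb : Λ ≤ Ka * Λ ^ (N1 + 1) := by
      calc Λ = 1 * Λ ^ 1 := by ring
        _ ≤ Ka * Λ ^ (N1 + 1) := mul_le_mul (by linarith) (pow_le_pow_right₀ hΛ (by omega))
            (by positivity) (by linarith)
    fin_cases k
    · exact (eP l h1).trans (by linarith)
    · exact ((eu b h.smb l).symm ▸ (h.supy l hl).2).trans hb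
    · exact ((eu (dY u) (bxSmooth_dY h.smu) l).symm ▸ (h.supy l hl).1).trans hb
    · refine (le_of_eq (congrArg _ (eu (dX u) (bxSmooth_dX h.smu) l))).trans ?_
      exact (h.supu (l + 1) (by omega) (by omega)).trans hb
    · exact (eC l h1).symm ▸ c4s l hl
    · exact c5s l hl
    · exact c6s l hl
    · exact c7s l hl
  set Es : ℝ := Ka * Λ ^ (N1 + 1) * E1 with hEs
  have hEsΛ : Λ ≤ Es := by
    calc Λ = 1 * Λ ^ 1 * 1 := by ring
      _ ≤ Ka * Λ ^ (N1 + 1) * E1 := by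
        gcongr
        · linarith
        · omega
  have allk : ∀ l, 1 ≤ l → l < i → ∀ k,
      |iteratedDeriv l (fun s => S s k) z.1| ≤ Es + Ka * J := by
    intro l h1 hl k
    have hKaJ : J ≤ Ka * J := le_mul_of_one_le_left hJ (by linarith)
    have hKJ : 0 ≤ Ka * J := by positivity
    fin_cases k
    · exact (eP l h1).trans (by linarith)
    · refine (le_of_eq (congrArg _ (eu b h.smb l))).trans ?_
      rcases le_or_gt (l + 5) i with h5 | h5
      · linarith [(h.supy l h5).2]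
      · linarith [(bxTopJ_uy (u := u) (b := b) (z := z) hl (by omega : i ≤ l + 4)).2]
    · refine (le_of_eq (congrArg _ (eu (dY u) (bxSmooth_dY h.smu) l))).trans ?_
      rcases le_or_gt (l + 5) i with h5 | h5
      · linarith [(h.supy l h5).1]
      · linarith [(bxTopJ_uy (u := u) (b := b) (z := z) hl (by omega : i ≤ l + 4)).1]
    · refine (le_of_eq (congrArg _ (eu (dX u) (bxSmooth_dX h.smu) l))).trans ?_
      show |dX^[l + 1] u z| ≤ _
      rcases le_or_gt (l + 5) i with h5 | h5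
      · linarith [h.supu (l + 1) (by omega) (by omega)]
      · linarith [bxTopJ_u (u := u) (b := b) (z := z) (by omega : l + 1 ≤ i)
          (by omega : i ≤ l + 1 + 4)]
    · exact (eC l h1).symm ▸ c4a l hl.le
    · exact c5a l hl.le
    · exact c6a l hl.le
    · exact c7a l hl.le
  have hKa00 : 0 ≤ Ka := by linarith
  have n8 : ∀ l, 1 ≤ l → l ≤ 8 → ‖iteratedDeriv l S z.1‖ ≤ Ka := fun l a b =>
    bxNorm_iteratedDeriv_pi_le hS hKa00 (low8 l a b)
  have n5 : ∀ l, 1 ≤ l → l + 5 ≤ i → ‖iteratedDeriv l S z.1‖ ≤ Ka * Λ ^ (N1 + 1) := fun l a b =>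
    bxNorm_iteratedDeriv_pi_le hS (by positivity) (sup5 l a b)
  have na : ∀ l, 1 ≤ l → l < i → ‖iteratedDeriv l S z.1‖ ≤ Es + Ka * J := fun l a b =>
    bxNorm_iteratedDeriv_pi_le hS (by positivity) (allk l a b)
  have wk : ∀ x : ℝ, x ≤ Es + Ka * J → x ≤ Cf * Λ ^ N * E1 + Cf * J := by
    intro x hx
    refine hx.trans (add_le_add ?_ (mul_le_mul_of_nonneg_right hKaC hJ))
    exact mul_le_mul_of_nonneg_right (mul_le_mul hKaC pN (by positivity) (by linarith)) (by linarith)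
  refine ⟨fun l a b => (n8 l a b).trans hKaC,
    fun l a b => (n5 l a b).trans (mul_le_mul hKaC pN (by positivity) (by linarith)),
    fun l a b => wk _ (na l a b), fun k hk2 hk3 => ?_⟩
  fin_cases k
  · exact wk _ ((eP i (by omega)).trans (by nlinarith [mul_nonneg hKa00 hJ]))
  · -- the component `b`, by the first order system
    set hfun : J8 → ℝ := fun J => -(BoxEq.nv J) / BoxEq.zv J with hhf
    set Λ' : ℝ := Ka * Λ ^ (N1 + 1) with hΛ'
    have hΛ'1 : Ka ≤ Λ' := le_mul_of_one_le_right hKa00 (p1 _)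
    obtain ⟨hL, -⟩ := hcl J8 S hfun z.1 Ka Λ' Es J (fun _ => K0) (by linarith) hΛ'1
      (by positivity) hJ hS.contDiffAt h.hsm (fun q hq => h.hbd q hq) n8 n5 na
    have hev : deriv (fun s => b (s, z.2)) =ᶠ[𝓝 z.1] hfun ∘ S := by
      filter_upwards [(continuous_id.prodMk continuous_const).tendsto' z.1 z rfl |>.eventually h.eqb]
        with s hs
      rw [(bxHasDerivAt_X h.smb (s, z.2)).deriv]
      exact hs
    show |iteratedDeriv i (fun s => b (s, z.2)) z.1| ≤ _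
    obtain ⟨k, hk⟩ : ∃ k, i = k + 1 := ⟨i - 1, by omega⟩
    have e1 : iteratedDeriv i (fun s => b (s, z.2)) z.1 = iteratedDeriv k (hfun ∘ S) z.1 := by
      rw [hk, iteratedDeriv_succ']
      exact hev.iteratedDeriv_eq k
    rw [e1]
    refine (hL.all k (by omega)).trans (add_le_add ?_ (mul_le_mul_of_nonneg_right ?_ hJ))
    · simp only [sum_const, card_range, nsmul_eq_mul]
      push_cast
      have e9 : ((9 : ℕ) : ℝ) = 9 := by norm_num
      have hKaE : Ka ^ (i * i) ≤ Λ' ^ (i * i) := pow_le_pow_left₀ hKa00 hΛ'1 _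
      have hpw : Λ' ^ (i * i) * Λ ^ (N1 + 1) ≤ (Ka + 1) ^ (i * i + 1) * Λ ^ N := by
        rw [hΛ', mul_pow, ← pow_mul, mul_assoc, ← pow_add]
        refine mul_le_mul ?_ (pow_le_pow_right₀ hΛ ?_) (by positivity) (by positivity)
        · exact (pow_le_pow_left₀ hKa00 (by linarith) _).trans
            (pow_le_pow_right₀ (by linarith) (by omega))
        · have : (N1 + 1) * (i * i) + (N1 + 1) = (N1 + 1) * (i * i + 1) := by ring
          omega
      calc C2 * (Λ' ^ (i * i) * ((i + 1) * K0) + Ka ^ (i * i) * (9 * K0) * Es)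
          ≤ C2 * (Λ' ^ (i * i) * ((i + 1) * K0) * (Λ ^ (N1 + 1) * E1)
              + Λ' ^ (i * i) * (9 * K0) * Es) := by
            refine mul_le_mul_of_nonneg_left (add_le_add
              (le_mul_of_one_le_right (by positivity) (one_le_mul_of_one_le_of_one_le (p1 _) hE))
              ?_) hC2'
            gcongr
        _ = C2 * ((i + 1) + 9 * Ka) * K0 * (Λ' ^ (i * i) * Λ ^ (N1 + 1)) * E1 := by
            rw [hEs]; ring
        _ ≤ C2 * ((20 + i) * (1 + Ka)) * (1 + K0) * ((Ka + 1) ^ (i * i + 1) * Λ ^ N) * E1 := by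
            refine mul_le_mul_of_nonneg_right (mul_le_mul ?_ hpw (by positivity) (by positivity))
              (by linarith)
            refine mul_le_mul (mul_le_mul_of_nonneg_left ?_ hC2') (by linarith) (by linarith)
              (by positivity)
            nlinarith [Nat.cast_nonneg (α := ℝ) i]
        _ = (C2 * (Ka + 1) ^ (i * i + 1) * (20 + i) * (1 + K0) * (1 + Ka)) * Λ ^ N * E1 := by ring
        _ ≤ Cf * Λ ^ N * E1 := by
            gcongr
            rw [hCf, hKabs]; linarith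
    · simp only [sum_const, card_range, nsmul_eq_mul]
      push_cast
      calc C2 * Ka ^ (i * i + 1) * (9 * K0)
          = C2 * Ka ^ (i * i + 1) * 9 * K0 * 1 := by ring
        _ ≤ C2 * (Ka + 1) ^ (i * i + 1) * (20 + i) * (1 + K0) * (1 + Ka) := by
            gcongr
            · linarith
            · linarith [Nat.cast_nonneg (α := ℝ) i]
            · linarith
            · linarith
        _ ≤ Cf := by rw [hCf, hKabs]; linarith
  · exact absurd rfl hk2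
  · exact absurd rfl hk3
  · exact wk _ ((eC i (by omega)).symm ▸ c4a i le_rfl)
  · exact wk _ (c5a i le_rfl)
  · exact wk _ (c6a i le_rfl)
  · exact wk _ (c7a i le_rfl)

/-- `∂g/∂u_y` and `∂g/∂u_p`. -/
noncomputable def dUY (g : J8 → ℝ) (J : J8) : ℝ := fderiv ℝ g J (Pi.single 2 1)

/-- `∂g/∂u_p`. -/
noncomputable def dUP (g : J8 → ℝ) (J : J8) : ℝ := fderiv ℝ g J (Pi.single 3 1)

/-- The highest order part of the `i`-th derivative of `g` of the jets. -/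
noncomputable def gTop (g : J8 → ℝ) (β u b : ℝ × ℝ → ℝ) (i : ℕ) (z : ℝ × ℝ) : ℝ :=
  dUY g (jetJ β u b z) * dX^[i] (dY u) z + dUP g (jetJ β u b z) * dX^[i] (dX u) z

theorem bxJetJ_smooth {β u b : ℝ × ℝ → ℝ} (hβ : ContDiff ℝ ∞ β) (hu : ContDiff ℝ ∞ u)
    (hb : ContDiff ℝ ∞ b) : ContDiff ℝ ∞ (jetJ β u b) := by
  refine contDiff_pi.2 fun k => ?_
  fin_cases k
  · exact contDiff_fst
  · exact hb
  · exact bxSmooth_dY hu
  · exact bxSmooth_dX hu
  · exact contDiff_const.add (bxPt_smooth hβ hu)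
  · exact bxPt_smooth (bxSmooth_kbar hβ) hu
  · exact bxPt_smooth (bxSmooth_dX hβ) hu
  · exact bxPt_smooth (bxSmooth_dY hβ) hu

/-- The function `F (pt u ·) * g (jetJ ·)`. -/
noncomputable def termFun (F : ℝ × ℝ → ℝ) (g : J8 → ℝ) (β u b : ℝ × ℝ → ℝ) : ℝ × ℝ → ℝ :=
  fun w => F (pt u w) * g (jetJ β u b w)

/-- The hypotheses on a coefficient. -/
structure CoefHyp (F : ℝ × ℝ → ℝ) (g : J8 → ℝ) (β u b : ℝ × ℝ → ℝ) (i : ℕ) (z : ℝ × ℝ)
    (K0 g0 gs g1 : ℝ) : Prop where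
  smF : ContDiff ℝ ∞ F
  smg : ContDiffAt ℝ ∞ g (jetJ β u b z)
  bdg : ∀ q ≤ i, ‖iteratedFDeriv ℝ q g (jetJ β u b z)‖ ≤ K0
  lowF : ∀ q ≤ 8, |dX^[q] F (pt u z)| ≤ g0
  supF : ∀ q, q + 5 ≤ i → |dX^[q] F (pt u z)| ≤ gs
  allF : ∀ q ≤ i, |dX^[q] F (pt u z)| ≤ g1

theorem bxGArith {C2 C3 K0 T p2 E1 Es J i : ℝ} (hC2 : 1 ≤ C2) (hC3 : 1 ≤ C3) (hK : 1 ≤ K0)
    (hi : 0 ≤ i) (hT : 1 ≤ T) (hp : p2 ≤ T) (hp0 : 0 ≤ p2) (hE : 1 ≤ E1)
    (hEs : Es ≤ C2 * T * E1) (hJ : 0 ≤ J) {P Q : ℝ}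
    (hP : 0 ≤ P) (hPQ : P * C2 ≤ Q) :
    C3 * (P * p2 * ((i + 1) * K0)) ≤ C3 * Q * (i + 20) * (C2 + 1) * K0 * T ∧
    C3 * (P * p2 * ((i + 1) * K0) + P * (9 * K0) * Es) ≤
      C3 * Q * (i + 20) * (C2 + 1) * K0 * T * E1 ∧
    C3 * (P * p2 * ((i + 1) * K0) + Q * (9 * K0) * (Es + J)) + K0 * (Es + C2 * J) ≤
      (C3 * Q * (i + 20) * (C2 + 1) + C2) * K0 * T * E1
        + (C3 * Q * (i + 20) * (C2 + 1) + C2) * K0 * J := by
  have hQ : P ≤ Q := le_trans (le_mul_of_one_le_right hP hC2) hPQ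
  have hQ0 : 0 ≤ Q := hP.trans hQ
  have hC30 : 0 ≤ C3 := by linarith
  have hK0 : 0 ≤ K0 := by linarith
  have hC20 : 0 ≤ C2 := by linarith
  have hT0 : 0 ≤ T := by linarith
  set X : ℝ := C3 * Q * K0 * T with hX
  have hX0 : 0 ≤ X := by positivity
  have hXE : X ≤ X * E1 := le_mul_of_one_le_right hX0 hE
  have a : C3 * (P * p2 * ((i + 1) * K0)) ≤ (i + 1) * X := by
    calc C3 * (P * p2 * ((i + 1) * K0)) ≤ C3 * (Q * T * ((i + 1) * K0)) := by gcongr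
      _ = (i + 1) * X := by rw [hX]; ring
  have b : C3 * (P * (9 * K0) * Es) ≤ 9 * (X * E1) := by
    calc C3 * (P * (9 * K0) * Es) ≤ C3 * (P * (9 * K0) * (C2 * T * E1)) := by gcongr
      _ = C3 * (P * C2) * (9 * K0) * T * E1 := by ring
      _ ≤ C3 * Q * (9 * K0) * T * E1 := by gcongr
      _ = 9 * (X * E1) := by rw [hX]; ring
  have c : C3 * (Q * (9 * K0) * Es) ≤ 9 * C2 * (X * E1) := by
    calc C3 * (Q * (9 * K0) * Es) ≤ C3 * (Q * (9 * K0) * (C2 * T * E1)) := by gcongr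
      _ = 9 * C2 * (X * E1) := by rw [hX]; ring
  have d : K0 * Es ≤ C2 * K0 * T * E1 := by
    calc K0 * Es ≤ K0 * (C2 * T * E1) := by gcongr
      _ = C2 * K0 * T * E1 := by ring
  have hiX : 0 ≤ i * X := mul_nonneg hi hX0
  have hiXE : 0 ≤ i * (X * E1) := mul_nonneg hi (mul_nonneg hX0 (by linarith))
  have hcX : 0 ≤ (i + 20) * C2 * X := by positivity
  have hcXE : 0 ≤ (i + 20) * C2 * (X * E1) := by positivity
  have hXE' : (i + 1) * X ≤ (i + 1) * (X * E1) := mul_le_mul_of_nonneg_left hXE (by linarith)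
  refine ⟨?_, ?_, ?_⟩
  · rw [show C3 * Q * (i + 20) * (C2 + 1) * K0 * T = (i + 20) * X + (i + 20) * C2 * X by
      rw [hX]; ring]
    linarith
  · rw [show C3 * Q * (i + 20) * (C2 + 1) * K0 * T * E1
      = (i + 20) * (X * E1) + (i + 20) * C2 * (X * E1) by rw [hX]; ring]
    rw [mul_add]
    linarith
  · rw [show (C3 * Q * (i + 20) * (C2 + 1) + C2) * K0 * T * E1
      = (i + 20) * (X * E1) + (i + 20) * C2 * (X * E1) + C2 * K0 * T * E1 by rw [hX]; ring]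
    have e : C3 * (Q * (9 * K0) * J) ≤ C3 * Q * (i + 20) * (C2 + 1) * K0 * J := by
      calc C3 * (Q * (9 * K0) * J) = C3 * Q * 9 * 1 * K0 * J := by ring
        _ ≤ _ := by gcongr <;> linarith
    rw [mul_add, mul_add (Q * (9 * K0)), mul_add C3, mul_add K0,
      add_mul (C3 * Q * (i + 20) * (C2 + 1)), add_mul (C3 * Q * (i + 20) * (C2 + 1) * K0)]
    have hiC : 0 ≤ i * C2 * (X * E1) := by positivity
    linarith

/-- The composition of a coefficient with the jets. -/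
theorem bxTermG (hT : TameSpec) (i : ℕ) (hi : 14 ≤ i) (K0 : ℝ) : ∃ (C : ℝ) (N : ℕ), 1 ≤ C ∧
    ∀ (β u b : ℝ × ℝ → ℝ) (z : ℝ × ℝ) (Λ E1 : ℝ), JetHyp β u b i z K0 Λ E1 →
    ∀ g : J8 → ℝ, ContDiffAt ℝ ∞ g (jetJ β u b z) →
      (∀ q ≤ i, ‖iteratedFDeriv ℝ q g (jetJ β u b z)‖ ≤ K0) →
      Low i z.1 (g ∘ jetSlice β u b z) C (C * Λ ^ N) (C * Λ ^ N * E1) (topJ u b i z) ∧
      |iteratedDeriv i (g ∘ jetSlice β u b z) z.1 - gTop g β u b i z| ≤
        C * Λ ^ N * E1 + C * topJ u b i z := by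
  obtain ⟨C2, N2, hC2, hcm⟩ := bxComps hT i hi K0
  obtain ⟨C3, hC3, hcl⟩ := bxComp_low hT i (by omega)
  set Cb : ℝ := C3 * C2 ^ (i * i + 1) * (i + 20) * (C2 + 1) with hCb
  refine ⟨(Cb + C2) * (|K0| + 1), N2 * (i * i) + N2, ?_, ?_⟩
  · have : 0 ≤ Cb := by
      have : 0 ≤ C3 := by linarith
      have : 0 ≤ C2 := by linarith
      positivity
    exact one_le_mul_of_one_le_of_one_le (by linarith) (by linarith [abs_nonneg K0])
  intro β u b z Λ E1 h g hg hbd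
  have hK := h.one_le
  have hKabs : |K0| = K0 := abs_of_pos (by linarith)
  have hΛ : 1 ≤ Λ := hK.trans h.le_Λ
  have hE := h.le_E
  have hC20 : 0 ≤ C2 := by linarith
  have hC30 : 0 ≤ C3 := by linarith
  obtain ⟨n8, n5, na, ntop⟩ := hcm β u b z Λ E1 h
  set J := topJ u b i z with hJdef
  have hJ : 0 ≤ J := topJ_nonneg _ _ _ _
  set S := jetSlice β u b z with hSdef
  have hS : ContDiff ℝ ∞ S := bxJetSlice_smooth h.smβ h.smu h.smb z
  have hEs0 : 0 ≤ C2 * Λ ^ N2 * E1 := by positivity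
  obtain ⟨hL, ht⟩ := hcl J8 S g z.1 C2 (C2 * Λ ^ N2) (C2 * Λ ^ N2 * E1) J (fun _ => K0) hC2
    (le_mul_of_one_le_right hC20 (one_le_pow₀ hΛ)) hEs0 hJ hS.contDiffAt hg hbd n8 n5 na
  simp only [sum_const, card_range, nsmul_eq_mul, mul_pow, ← pow_mul] at hL ht
  push_cast at hL ht
  have hEs : C2 * Λ ^ N2 * E1 ≤ C2 * Λ ^ (N2 * (i * i) + N2) * E1 := by
    gcongr; first | exact hΛ | omega
  obtain ⟨a1, a2, a3⟩ := bxGArith (i := (i : ℝ)) hC2 hC3 hK (Nat.cast_nonneg i)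
    (one_le_pow₀ hΛ : 1 ≤ Λ ^ (N2 * (i * i) + N2))
    (pow_le_pow_right₀ hΛ (by omega) : Λ ^ (N2 * (i * i)) ≤ _) (by positivity) hE hEs hJ
    (P := C2 ^ (i * i)) (Q := C2 ^ (i * i + 1)) (by positivity) (le_of_eq (pow_succ _ _).symm)
  rw [← hCb] at a1 a2 a3
  have hCb0 : 0 ≤ Cb := by rw [hCb]; positivity
  have hle : Cb * K0 ≤ (Cb + C2) * (|K0| + 1) := by
    rw [hKabs]; exact mul_le_mul (by linarith) (by linarith) (by linarith) (by linarith)
  have hle' : (Cb + C2) * K0 ≤ (Cb + C2) * (|K0| + 1) := by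
    rw [hKabs]; exact mul_le_mul_of_nonneg_left (by linarith) (by linarith)
  set T : ℝ := Λ ^ (N2 * (i * i) + N2) with hTdef
  have hT0 : 0 ≤ T := by positivity
  constructor
  · refine hL.mono ?_ ?_ ?_
    · refine le_trans ?_ hle
      calc C3 * C2 ^ (i * i + 1) * (9 * K0) = C3 * C2 ^ (i * i + 1) * 9 * 1 * K0 := by ring
        _ ≤ Cb * K0 := by rw [hCb]; gcongr <;> linarith [Nat.cast_nonneg (α := ℝ) i]
    · refine le_trans ?_ (mul_le_mul_of_nonneg_right hle hT0)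
      have hi4 : ((i - 4 : ℕ) : ℝ) ≤ (i : ℝ) + 1 := by
        have : ((i - 4 : ℕ) : ℝ) ≤ i := by exact_mod_cast Nat.sub_le i 4
        linarith
      refine le_trans ?_ a1
      rw [mul_assoc C3]
      gcongr
    · exact le_trans a2 (mul_le_mul_of_nonneg_right (mul_le_mul_of_nonneg_right hle hT0) (by linarith))
  · set V := iteratedDeriv i S z.1 with hV
    have hVc : ∀ k, V k = iteratedDeriv i (fun s => S s k) z.1 := fun k =>
      congr_fun (bxIteratedDeriv_pi hS i k) z.1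
    have v2 : V 2 = dX^[i] (dY u) z :=
      (hVc 2).trans (congr_fun (bxIter_slice (bxSmooth_dY h.smu) z.2 i) z.1)
    have v3 : V 3 = dX^[i] (dX u) z :=
      (hVc 3).trans (congr_fun (bxIter_slice (bxSmooth_dX h.smu) z.2 i) z.1)
    set M : ℝ := C2 * Λ ^ N2 * E1 + C2 * J with hM
    have hM0 : 0 ≤ M := by positivity
    have hrest : ‖V - (V 2 • Pi.single 2 1 + V 3 • Pi.single 3 1)‖ ≤ M := by
      refine (pi_norm_le_iff_of_nonneg hM0).2 fun k => ?_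
      simp only [Pi.sub_apply, Pi.add_apply, Pi.smul_apply, smul_eq_mul, Real.norm_eq_abs]
      by_cases h2 : k = 2
      · subst h2; simp [hM0]
      by_cases h3 : k = 3
      · subst h3; simp [hM0]
      rw [Pi.single_eq_of_ne h2, Pi.single_eq_of_ne h3, hVc]
      simpa using ntop k h2 h3
    have hD : ‖fderiv ℝ g (jetJ β u b z)‖ ≤ K0 := by
      have := hbd 1 (by omega); rwa [norm_iteratedFDeriv_one] at this
    have hgt : |fderiv ℝ g (jetJ β u b z) V - gTop g β u b i z| ≤ K0 * M := by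
      have : fderiv ℝ g (jetJ β u b z) V - gTop g β u b i z
          = fderiv ℝ g (jetJ β u b z) (V - (V 2 • Pi.single 2 1 + V 3 • Pi.single 3 1)) := by
        simp only [map_sub, map_add, map_smul, smul_eq_mul, gTop, dUY, dUP, v2, v3]
        ring
      rw [this, ← Real.norm_eq_abs]
      exact ((fderiv ℝ g (jetJ β u b z)).le_opNorm _).trans
        (mul_le_mul hD hrest (norm_nonneg _) (by linarith))
    refine le_trans (abs_sub_le _ (fderiv ℝ g (jetJ β u b z) V) _) ?_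
    refine le_trans (add_le_add ht hgt) (le_trans a3 ?_)
    exact add_le_add (mul_le_mul_of_nonneg_right (mul_le_mul_of_nonneg_right hle' hT0) (by linarith))
      (mul_le_mul_of_nonneg_right hle' hJ)

theorem bxTermArith {C1 Cg g0 gs g1 E1 T P1 P J w : ℝ} (hC1 : 1 ≤ C1) (hCg : 0 ≤ Cg)
    (hg0 : 0 ≤ g0) (hgs : 0 ≤ gs) (hg1 : 0 ≤ g1) (hE : 0 ≤ E1) (hT : 0 ≤ T)
    (hP1 : 0 ≤ P1) (hTP : T ≤ P) (hP1P : P1 ≤ P) (hPP : P1 * T ≤ P) (hJ : 0 ≤ J) (hw : 1 ≤ w) :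
    w * (C1 * g0 * (Cg * T * E1) + Cg * (C1 * P1 * g1) + C1 * P1 * gs * (Cg * T)) ≤
      w * 5 * C1 * (1 + Cg) * P * (g1 + gs + g0 * E1) ∧
    w * (C1 * g0 * (Cg * T * E1) + Cg * (C1 * P1 * g1) + C1 * P1 * gs * (Cg * T)
        + 2 * (C1 * g0 * Cg) * J)
      + g0 * (Cg * T * E1 + Cg * J) + (C1 * P1 * g1 + C1 * g0 * J) * Cg ≤
      w * 5 * C1 * (1 + Cg) * P * (g1 + gs + g0 * E1) + w * 5 * C1 * (1 + Cg) * g0 * J := by
  have hP : 0 ≤ P := hT.trans hTP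
  set D : ℝ := C1 * Cg with hD
  have hD0 : 0 ≤ D := mul_nonneg (by linarith) hCg
  have hge : 0 ≤ g0 * E1 := mul_nonneg hg0 hE
  set G : ℝ := g1 + gs + g0 * E1 with hG
  have hG0 : 0 ≤ G := by positivity
  have hDC : D ≤ C1 * (1 + Cg) := by rw [hD]; exact mul_le_mul_of_nonneg_left (by linarith) (by linarith)
  have hgD : Cg ≤ D := le_mul_of_one_le_left hCg hC1
  have u1 : T * (g0 * E1) + P1 * g1 + P1 * T * gs ≤ P * G := by
    rw [hG]
    have := mul_le_mul_of_nonneg_right hTP hge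
    have := mul_le_mul_of_nonneg_right hP1P hg1
    have := mul_le_mul_of_nonneg_right hPP hgs
    linarith
  have u2 : T * (g0 * E1) ≤ P * G :=
    mul_le_mul hTP (by rw [hG]; linarith) hge hP
  have u3 : P1 * g1 ≤ P * G := mul_le_mul hP1P (by rw [hG]; linarith) hg1 hP
  have e1 : C1 * g0 * (Cg * T * E1) + Cg * (C1 * P1 * g1) + C1 * P1 * gs * (Cg * T)
      = D * (T * (g0 * E1) + P1 * g1 + P1 * T * gs) := by rw [hD]; ring
  have v1 : C1 * g0 * (Cg * T * E1) + Cg * (C1 * P1 * g1) + C1 * P1 * gs * (Cg * T)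
      ≤ C1 * (1 + Cg) * (P * G) := by
    rw [e1]; exact mul_le_mul hDC u1 (by positivity) (by positivity)
  have v2 : g0 * (Cg * T * E1) ≤ C1 * (1 + Cg) * (P * G) := by
    calc g0 * (Cg * T * E1) = Cg * (T * (g0 * E1)) := by ring
      _ ≤ C1 * (1 + Cg) * (P * G) := mul_le_mul (hgD.trans hDC) u2 (by positivity) (by positivity)
  have v3 : C1 * P1 * g1 * Cg ≤ C1 * (1 + Cg) * (P * G) := by
    calc C1 * P1 * g1 * Cg = D * (P1 * g1) := by rw [hD]; ring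
      _ ≤ C1 * (1 + Cg) * (P * G) := mul_le_mul hDC u3 (by positivity) (by positivity)
  have hw0 : 0 ≤ w := by linarith
  have hCC : 0 ≤ C1 * (1 + Cg) := by positivity
  have w1 := mul_le_mul_of_nonneg_right hw (mul_nonneg hCC (mul_nonneg hP hG0))
  have w2 := mul_le_mul_of_nonneg_right hw (mul_nonneg hCC (mul_nonneg hg0 hJ))
  have w3 : 0 ≤ w * (C1 * (1 + Cg) * (P * G)) := by positivity
  have w4 := mul_le_mul_of_nonneg_left v1 hw0
  have w5 := mul_le_mul_of_nonneg_right hDC (mul_nonneg hg0 hJ)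
  have w6 := mul_le_mul_of_nonneg_left w5 hw0
  have w7 := mul_le_mul_of_nonneg_right hgD (mul_nonneg hg0 hJ)
  constructor
  · linarith
  · have w8 : 0 ≤ w * (D * (g0 * J)) := by positivity
    linarith

/-- One term of the equation. -/
theorem bxTerm (hT : TameSpec) (i : ℕ) (hi : 14 ≤ i) (K0 : ℝ) : ∃ (C : ℝ) (N : ℕ), 1 ≤ C ∧
    ∀ (β u b : ℝ × ℝ → ℝ) (z : ℝ × ℝ) (Λ E1 : ℝ), JetHyp β u b i z K0 Λ E1 →
    ∀ (F : ℝ × ℝ → ℝ) (g : J8 → ℝ) (g0 gs g1 : ℝ), CoefHyp F g β u b i z K0 g0 gs g1 →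
      Low i z.1 (fun s => termFun F g β u b (s, z.2)) (C * g0) (C * Λ ^ N * gs)
        (C * Λ ^ N * (g1 + gs + g0 * E1)) (topJ u b i z) ∧
      |iteratedDeriv i (fun s => termFun F g β u b (s, z.2)) z.1
          - F (pt u z) * gTop g β u b i z| ≤
        C * Λ ^ N * (g1 + gs + g0 * E1) + C * g0 * topJ u b i z := by
  obtain ⟨C1, N1, hC1, hch⟩ := bxChart_comp hT i hi K0
  obtain ⟨Cg, Ng, hCg, hgc⟩ := bxTermG hT i hi K0
  refine ⟨2 ^ i * 5 * C1 * (1 + Cg), N1 + Ng, ?_, ?_⟩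
  · exact one_le_mul_of_one_le_of_one_le (one_le_mul_of_one_le_of_one_le
      (one_le_mul_of_one_le_of_one_le (one_le_pow₀ (by norm_num)) (by norm_num)) hC1) (by linarith)
  intro β u b z Λ E1 h F g g0 gs g1 hc
  obtain ⟨hLg, htg⟩ := hgc β u b z Λ E1 h g hc.smg hc.bdg
  obtain ⟨hLF, htF⟩ := hch β u b z Λ E1 h F g0 gs g1 hc.smF hc.lowF hc.supF hc.allF
  have hΛ : 1 ≤ Λ := h.one_le.trans h.le_Λ
  have g0n : 0 ≤ g0 := (abs_nonneg _).trans (hc.lowF 0 (by omega))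
  have gsn : 0 ≤ gs := (abs_nonneg _).trans (hc.supF 0 (by omega))
  have g1n : 0 ≤ g1 := (abs_nonneg _).trans (hc.allF 0 (by omega))
  have hE := h.le_E
  have hJ : 0 ≤ topJ u b i z := topJ_nonneg _ _ _ _
  obtain ⟨A1, A2⟩ := bxTermArith hC1 (by linarith : 0 ≤ Cg) g0n gsn g1n (by linarith : 0 ≤ E1)
    (T := Λ ^ Ng) (P1 := Λ ^ N1) (P := Λ ^ (N1 + Ng)) (by positivity) (by positivity)
    (pow_le_pow_right₀ hΛ (by omega)) (pow_le_pow_right₀ hΛ (by omega))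
    (by rw [← pow_add]) hJ (one_le_pow₀ (by norm_num) : (1 : ℝ) ≤ 2 ^ i)
  have hf : (fun s => termFun F g β u b (s, z.2))
      = (fun s => F (pt u (s, z.2))) * (g ∘ jetSlice β u b z) := rfl
  refine ⟨hf ▸ (hLF.mul (by omega) hLg).mono ?_ ?_ ?_, ?_⟩
  · calc 2 ^ i * (3 * (C1 * g0 * Cg)) = 2 ^ i * 3 * C1 * Cg * g0 := by ring
      _ ≤ 2 ^ i * 5 * C1 * (1 + Cg) * g0 := by gcongr <;> linarith
  · calc 2 ^ i * (C1 * Λ ^ N1 * gs * (Cg * Λ ^ Ng))
        = 2 ^ i * 1 * C1 * Cg * Λ ^ (N1 + Ng) * gs := by rw [pow_add]; ring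
      _ ≤ 2 ^ i * 5 * C1 * (1 + Cg) * Λ ^ (N1 + Ng) * gs := by gcongr <;> linarith
  · exact A1
  · rw [hf]
    have hmt := hLF.mul_top (by omega) hLg
    refine le_trans ?_ A2
    have split : ∀ D a DF DG gv T' : ℝ, D - a * T' = (D - a * DG - DF * gv) + a * (DG - T') + DF * gv :=
      fun D a DF DG gv T' => by ring
    rw [split _ _ (iteratedDeriv i (fun s => F (pt u (s, z.2))) z.1)
      (iteratedDeriv i (g ∘ jetSlice β u b z) z.1) ((g ∘ jetSlice β u b z) z.1)]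
    refine (abs_add_le _ _).trans (add_le_add ((abs_add_le _ _).trans (add_le_add hmt ?_)) ?_)
    · rw [abs_mul]; exact mul_le_mul (hc.lowF 0 (by omega)) htg (abs_nonneg _) g0n
    · rw [abs_mul]
      exact mul_le_mul htF (hLg.low 0 (by omega)) (abs_nonneg _) (by positivity)

/-- A second derivative of the unknown as a factor. -/
theorem bxTermSecond (hT : TameSpec) (i : ℕ) (hi : 14 ≤ i) (K0 : ℝ) : ∃ (C : ℝ) (N : ℕ), 1 ≤ C ∧
    ∀ (β u b : ℝ × ℝ → ℝ) (z : ℝ × ℝ) (Λ E1 : ℝ), JetHyp β u b i z K0 Λ E1 →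
    ∀ (F : ℝ × ℝ → ℝ) (g : J8 → ℝ) (g0 gs g1 : ℝ), CoefHyp F g β u b i z K0 g0 gs g1 →
    ∀ ψ : ℝ × ℝ → ℝ, (ψ = dX (dX u) ∨ ψ = dX (dY u)) →
      |iteratedDeriv i (fun s => termFun F g β u b (s, z.2) * ψ (s, z.2)) z.1
          - termFun F g β u b z * dX^[i] ψ z
          - i * dX (termFun F g β u b) z * dX^[i - 1] ψ z
          - F (pt u z) * gTop g β u b i z * ψ z| ≤
        C * Λ ^ N * (g1 + gs + g0 * E1) + C * g0 * topJ u b i z := by
  obtain ⟨C1, N1, hC1, htm⟩ := bxTerm hT i hi K0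
  refine ⟨2 ^ i * 8 * C1 * (1 + |K0|), N1 + 1, ?_, ?_⟩
  · have a : (1 : ℝ) ≤ 2 ^ i * 8 := by nlinarith [one_le_pow₀ (by norm_num : (1 : ℝ) ≤ 2) (n := i)]
    exact one_le_mul_of_one_le_of_one_le (one_le_mul_of_one_le_of_one_le a hC1)
      (by linarith [abs_nonneg K0])
  intro β u b z Λ E1 h F g g0 gs g1 hc ψ hψ
  obtain ⟨hL, htop⟩ := htm β u b z Λ E1 h F g g0 gs g1 hc
  have hK := h.one_le
  have hKabs : |K0| = K0 := abs_of_pos (by linarith)
  have hΛ : 1 ≤ Λ := hK.trans h.le_Λ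
  set J := topJ u b i z with hJdef
  have hJ : 0 ≤ J := topJ_nonneg _ _ _ _
  have g0n : 0 ≤ g0 := (abs_nonneg _).trans (hc.lowF 0 (by omega))
  have gsn : 0 ≤ gs := (abs_nonneg _).trans (hc.supF 0 (by omega))
  have g1n : 0 ≤ g1 := (abs_nonneg _).trans (hc.allF 0 (by omega))
  have hE := h.le_E
  have hψs : ContDiff ℝ ∞ ψ := by
    rcases hψ with rfl | rfl
    · exact bxSmooth_dX (bxSmooth_dX h.smu)
    · exact bxSmooth_dX (bxSmooth_dY h.smu)
  have eψ : ∀ l, iteratedDeriv l (fun s => ψ (s, z.2)) z.1 = dX^[l] ψ z := fun l =>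
    congr_fun (bxIter_slice hψs z.2 l) z.1
  have lowψ : ∀ l ≤ 6, |dX^[l] ψ z| ≤ K0 := by
    intro l hl
    rcases hψ with rfl | rfl
    · exact (h.lowu (l + 1) (by omega)).1
    · exact (h.lowu (l + 1) (by omega)).2.1
  have supψ : ∀ l, l + 7 ≤ i → |dX^[l] ψ z| ≤ Λ := by
    intro l hl
    rcases hψ with rfl | rfl
    · exact h.supu (l + 2) (by omega) (by omega)
    · exact (h.supy (l + 1) (by omega)).1
  have allψ : ∀ l, l + 2 ≤ i → |dX^[l] ψ z| ≤ Λ + J := by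
    intro l hl
    rcases hψ with rfl | rfl
    · show |dX^[l + 2] u z| ≤ _
      rcases le_or_gt (l + 2 + 4) i with h4 | h4
      · linarith [h.supu (l + 2) (by omega) h4]
      · linarith [bxTopJ_u (u := u) (b := b) (z := z) (by omega : l + 2 ≤ i) (by omega : i ≤ l + 2 + 4)]
    · show |dX^[l + 1] (dY u) z| ≤ _
      rcases le_or_gt (l + 1 + 5) i with h4 | h4
      · linarith [(h.supy (l + 1) h4).1]
      · linarith [(bxTopJ_uy (u := u) (b := b) (z := z) (by omega : l + 1 < i)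
          (by omega : i ≤ l + 1 + 4)).1]
  have h2 := bxMulTop2 hi hL (bxSlice_smooth hψs z.2).contDiffAt hK h.le_Λ
    (fun l hl => (eψ l).symm ▸ lowψ l hl) (fun l hl => (eψ l).symm ▸ supψ l hl)
    (fun l hl => (eψ l).symm ▸ allψ l hl)
  simp only [eψ] at h2
  have hgJ : ContDiff ℝ ∞ (jetJ β u b) := bxJetJ_smooth h.smβ h.smu h.smb
  have hds : deriv (fun s => termFun F g β u b (s, z.2)) z.1 = dX (termFun F g β u b) z := by
    have hd : DifferentiableAt ℝ (termFun F g β u b) z :=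
      ((bxPt_smooth hc.smF h.smu).differentiable (by simp) z).mul
        ((hc.smg.differentiableAt (by simp)).comp z (hgJ.differentiable (by simp) z))
    exact (hd.hasFDerivAt.comp_hasDerivAt z.1
      ((hasDerivAt_id z.1).prodMk (hasDerivAt_const z.1 z.2))).deriv
  rw [hds] at h2
  have hkey : (fun s => termFun F g β u b (s, z.2)) * (fun s => ψ (s, z.2))
      = fun s => termFun F g β u b (s, z.2) * ψ (s, z.2) := rfl
  rw [hkey] at h2
  set D1 := iteratedDeriv i (fun s => termFun F g β u b (s, z.2) * ψ (s, z.2)) z.1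
  set D2 := iteratedDeriv i (fun s => termFun F g β u b (s, z.2)) z.1 with hD2
  have split : D1 - termFun F g β u b z * dX^[i] ψ z
      - i * dX (termFun F g β u b) z * dX^[i - 1] ψ z - F (pt u z) * gTop g β u b i z * ψ z
      = (D1 - termFun F g β u b z * dX^[i] ψ z
        - i * dX (termFun F g β u b) z * dX^[i - 1] ψ z - D2 * ψ z)
        + (D2 - F (pt u z) * gTop g β u b i z) * ψ z := by ring
  rw [split]
  have h3 : |(D2 - F (pt u z) * gTop g β u b i z) * ψ z| ≤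
      (C1 * Λ ^ N1 * (g1 + gs + g0 * E1) + C1 * g0 * J) * K0 := by
    rw [abs_mul]; exact mul_le_mul htop (lowψ 0 (by omega)) (abs_nonneg _) (by positivity)
  refine ((abs_add_le _ _).trans (add_le_add h2 h3)).trans ?_
  set G := g1 + gs + g0 * E1 with hG
  have hG0 : 0 ≤ G := by positivity
  have hP : Λ ^ N1 ≤ Λ ^ (N1 + 1) := pow_le_pow_right₀ hΛ (by omega)
  have two : (1 : ℝ) ≤ 2 ^ i := one_le_pow₀ (by norm_num)
  have hC1' : 0 ≤ C1 := by linarith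
  have t1 : C1 * g0 * Λ ≤ C1 * (Λ ^ (N1 + 1) * G) := by
    have : g0 * Λ ≤ G * Λ ^ (N1 + 1) := by
      refine mul_le_mul ?_ (le_self_pow₀ hΛ (by omega)) (by linarith) hG0
      rw [hG]; nlinarith [le_mul_of_one_le_right g0n hE]
    nlinarith
  have t2 : K0 * (C1 * Λ ^ N1 * G) ≤ C1 * K0 * (Λ ^ (N1 + 1) * G) := by
    calc _ = C1 * K0 * (Λ ^ N1 * G) := by ring
      _ ≤ _ := by gcongr
  have t3 : C1 * Λ ^ N1 * gs * Λ ≤ C1 * (Λ ^ (N1 + 1) * G) := by
    calc _ = C1 * (Λ ^ (N1 + 1) * gs) := by ring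
      _ ≤ _ := by gcongr; rw [hG]; nlinarith [mul_nonneg g0n (by linarith : (0 : ℝ) ≤ E1)]
  have hA : 2 ^ i * (2 * C1 + C1 * K0) + C1 * K0 ≤ 2 ^ i * 8 * C1 * (1 + K0) := by
    nlinarith [mul_le_mul_of_nonneg_right two (by positivity : (0 : ℝ) ≤ C1 * K0)]
  have hB : 2 ^ i * (2 * K0 * C1) + C1 * K0 ≤ 2 ^ i * 8 * C1 * (1 + K0) := by
    nlinarith [mul_le_mul_of_nonneg_right two (by positivity : (0 : ℝ) ≤ C1 * K0)]
  rw [hKabs]
  calc 2 ^ i * (C1 * g0 * Λ + K0 * (C1 * Λ ^ N1 * G) + C1 * Λ ^ N1 * gs * Λ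
        + 2 * K0 * (C1 * g0) * J) + (C1 * Λ ^ N1 * G + C1 * g0 * J) * K0
      ≤ 2 ^ i * ((2 * C1 + C1 * K0) * (Λ ^ (N1 + 1) * G) + 2 * K0 * C1 * (g0 * J))
        + (C1 * K0 * (Λ ^ (N1 + 1) * G) + C1 * K0 * (g0 * J)) := by
        refine add_le_add (mul_le_mul_of_nonneg_left (by linarith) (by positivity)) (by linarith)
    _ = (2 ^ i * (2 * C1 + C1 * K0) + C1 * K0) * (Λ ^ (N1 + 1) * G)
        + (2 ^ i * (2 * K0 * C1) + C1 * K0) * (g0 * J) := by ring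
    _ ≤ (2 ^ i * 8 * C1 * (1 + K0)) * (Λ ^ (N1 + 1) * G)
        + (2 ^ i * 8 * C1 * (1 + K0)) * (g0 * J) := by gcongr
    _ = _ := by ring

end Vale.Agent.P229
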