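import Vale.Agent.P229.BoxJets
import Vale.Agent.P229.BoxEq

/-!
# P229: tools for the expansion of the differentiated equation

Slices in the first variable, the jets of the coefficient arguments, and the product rule with a
second derivative as a factor.
-/

open scoped ContDiff Topology
open Finset

namespace Vale.Agent.P229

theorem bxSmooth_iter {f : ℝ × ℝ → ℝ} (hf : ContDiff ℝ ∞ f) (l : ℕ) :
    ContDiff ℝ ∞ (dX^[l] f) := by
  induction l with
  | zero => exact hf
  | succ l ih => rw [Function.iterate_succ_apply']; exact bxSmooth_dX ih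

theorem bxSlice_smooth {F : Type*} [NormedAddCommGroup F] [NormedSpace ℝ F] {f : ℝ × ℝ → F}
    (hf : ContDiff ℝ ∞ f) (y : ℝ) : ContDiff ℝ ∞ (fun s => f (s, y)) :=
  hf.comp (contDiff_id.prodMk contDiff_const)

theorem bxIter_slice {f : ℝ × ℝ → ℝ} (hf : ContDiff ℝ ∞ f) (y : ℝ) (l : ℕ) :
    iteratedDeriv l (fun s => f (s, y)) = fun s => dX^[l] f (s, y) := by
  induction l with
  | zero => simp
  | succ l ih =>
    rw [iteratedDeriv_succ, ih]
    funext s
    rw [Function.iterate_succ_apply']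
    exact (bxHasDerivAt_X (bxSmooth_iter hf l) (s, y)).deriv

theorem bxMixed_iter {f : ℝ × ℝ → ℝ} (hf : ContDiff ℝ ∞ f) (l : ℕ) :
    dY (dX^[l] f) = dX^[l] (dY f) := by
  induction l with
  | zero => rfl
  | succ l ih =>
    rw [Function.iterate_succ_apply', Function.iterate_succ_apply', ← ih]
    funext z
    exact bxMixed (bxSmooth_iter hf l) z

theorem bxIteratedDeriv_pi {ι : Type*} [Fintype ι] {S : ℝ → ι → ℝ} (hS : ContDiff ℝ ∞ S)
    (l : ℕ) : ∀ k, (fun s => iteratedDeriv l S s k) = iteratedDeriv l (fun s => S s k) := by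
  induction l with
  | zero => intro k; simp
  | succ l ih =>
    intro k
    rw [iteratedDeriv_succ, iteratedDeriv_succ, ← ih k]
    funext s
    have hd : DifferentiableAt ℝ (iteratedDeriv l S) s :=
      (hS.differentiable_iteratedDeriv l (by exact_mod_cast ENat.coe_lt_top l)) s
    exact ((hasDerivAt_pi.1 hd.hasDerivAt) k).deriv.symm

theorem bxNorm_iteratedDeriv_pi_le {ι : Type*} [Fintype ι] {S : ℝ → ι → ℝ}
    (hS : ContDiff ℝ ∞ S) {l : ℕ} {s M : ℝ} (hM : 0 ≤ M)
    (h : ∀ k, |iteratedDeriv l (fun s => S s k) s| ≤ M) : ‖iteratedDeriv l S s‖ ≤ M := by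
  refine (pi_norm_le_iff_of_nonneg hM).2 fun k => ?_
  rw [Real.norm_eq_abs, congr_fun (bxIteratedDeriv_pi hS l k) s]
  exact h k

/-- Leibniz' formula for a coefficient times a second derivative of the unknown: the two extreme
terms and the first one are separated. -/
theorem bxMulTop2 {i : ℕ} (hi : 14 ≤ i) {t0 B0 B E J K0 Λ : ℝ} {φ ψ : ℝ → ℝ}
    (h : Low i t0 φ B0 B E J) (hψ : ContDiffAt ℝ ∞ ψ t0) (hK : 1 ≤ K0) (hKΛ : K0 ≤ Λ)
    (hlow : ∀ l ≤ 6, |iteratedDeriv l ψ t0| ≤ K0)
    (hsup : ∀ l, l + 7 ≤ i → |iteratedDeriv l ψ t0| ≤ Λ)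
    (hall : ∀ l, l + 2 ≤ i → |iteratedDeriv l ψ t0| ≤ Λ + J) :
    |iteratedDeriv i (φ * ψ) t0 - φ t0 * iteratedDeriv i ψ t0
      - i * deriv φ t0 * iteratedDeriv (i - 1) ψ t0 - iteratedDeriv i φ t0 * ψ t0|
      ≤ 2 ^ i * (B0 * Λ + K0 * E + B * Λ + 2 * K0 * B0 * J) := by
  have a := h.nonneg0
  have b := h.nonneg1
  have c := h.nonneg2
  have d := h.nonneg3
  have hΛ : 0 ≤ Λ := by linarith
  obtain ⟨k, rfl⟩ : ∃ k, i = k + 2 := ⟨i - 2, by omega⟩
  rw [iteratedDeriv_mul (h.smooth.of_le (WithTop.coe_le_coe.2 le_top))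
    (hψ.of_le (WithTop.coe_le_coe.2 le_top)), sum_range_succ, sum_range_succ', sum_range_succ']
  simp only [Nat.choose_self, Nat.choose_zero_right, Nat.cast_one, one_mul, Nat.sub_self,
    iteratedDeriv_zero, tsub_zero, zero_add, Nat.choose_one_right, iteratedDeriv_one]
  rw [show ∀ x y w v : ℝ, x + y + w + v - w - y - v = x from fun x y w v => by ring]
  refine (abs_sum_le_sum_abs _ _).trans ?_
  set M : ℝ := B0 * Λ + K0 * E + B * Λ + 2 * K0 * B0 * J with hM
  have hM0 : 0 ≤ M := by positivity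
  refine (sum_le_sum (g := fun q => ((k + 2).choose (q + 2) : ℝ) * M) fun q hq => ?_).trans ?_
  · rw [mem_range] at hq
    rw [abs_mul, abs_mul, Nat.abs_cast, mul_assoc]
    refine mul_le_mul_of_nonneg_left ?_ (by positivity)
    have n1 : 0 ≤ B0 * J := by positivity
    have n2 : B0 * J ≤ K0 * B0 * J := by
      rw [mul_assoc]; exact le_mul_of_one_le_left n1 hK
    have n3 : 0 ≤ K0 * E := by positivity
    have n4 : 0 ≤ B * Λ := by positivity
    have n5 : 0 ≤ B0 * Λ := by positivity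
    show |iteratedDeriv (q + 1 + 1) φ t0| * |iteratedDeriv (k + 2 - (q + 1 + 1)) ψ t0| ≤ M
    rcases le_or_gt (q + 2) 6 with h6 | h6
    · have := mul_le_mul (h.low (q + 1 + 1) h6) (hall (k + 2 - (q + 1 + 1)) (by omega))
        (abs_nonneg _) a
      nlinarith [this]
    · rcases le_or_gt (k + 2 - (q + 1 + 1)) 6 with h7 | h7
      · have := mul_le_mul (h.all (q + 1 + 1) (by omega)) (hlow (k + 2 - (q + 1 + 1)) h7)
          (abs_nonneg _) (by positivity)
        nlinarith [this]
      · have := mul_le_mul (h.sup (q + 1 + 1) (by omega)) (hsup (k + 2 - (q + 1 + 1)) (by omega))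
          (abs_nonneg _) b
        nlinarith [this]
  · rw [← sum_mul]
    refine mul_le_mul_of_nonneg_right ?_ hM0
    have e := Nat.sum_range_choose (k + 2)
    rw [sum_range_succ, sum_range_succ', sum_range_succ'] at e
    have e' : ∑ q ∈ range k, (k + 2).choose (q + 2) ≤ 2 ^ (k + 2) := by
      rw [← e]
      show ∑ q ∈ range k, (k + 2).choose (q + 1 + 1) ≤ _
      omega
    exact_mod_cast e'

end Vale.Agent.P229
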