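import Vale.Agent.P229.BoxSol
import Vale.Agent.P229.Calc
import Mathlib.Analysis.SpecialFunctions.Gaussian.GaussianIntegral

/-!
# P229: the quasimode of the lens
-/

open scoped ContDiff Topology
open MeasureTheory Set Filter

namespace Vale.Agent.P229

namespace Par

variable (c : Par) (t : ℝ)

/-- The frequency `2√𝔸/a`. -/
noncomputable def freq : ℝ := 2 * c.sA t / c.sa t ^ 2

/-- The width `Δ = y_m t^(2μ)` of the wave packet. -/
noncomputable def width (μ : ℕ) : ℝ := c.ym t * t ^ (2 * μ)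

/-- The quasimode; its `n`-th derivative is `freq^n sin (freq P)` on the bump. -/
noncomputable def wave (n μ : ℕ) (z : ℝ × ℝ) : ℝ :=
  phiB (z.1 / c.width t μ) * Real.sin (c.freq t * z.1 - n * (Real.pi / 2)) *
    (prof (1 / 4) (3 / 8) (z.2 / t) * Real.exp (-(c.sA t ^ 2 * z.2 ^ 2) / (2 * c.sa t ^ 2)))

/-- The Gaussian which dominates the terms of the pairing. -/
noncomputable def bpEnv (z : ℝ × ℝ) : ℝ := Real.exp (-((z.2 / c.ym t) ^ 2 / 4))

/-- The Gaussian factor of the quasimode. -/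
noncomputable def bpGauss (y : ℝ) : ℝ :=
  Real.exp (-(c.sA t ^ 2 * y ^ 2) / (2 * c.sa t ^ 2))

end Par

/-- The relations between the scales in the pairing. -/
structure BpScale (c : Par) (t : ℝ) (μ : ℕ) : Prop where
  t_pos : 0 < t
  t_le : t ≤ 1
  Qe_ge : 8 + 4 * μ + 4 * c.Pe ≤ c.Qe

namespace BpScale

variable {c : Par} {t : ℝ} {μ : ℕ}

theorem sA_pos (h : BpScale c t μ) : 0 < c.sA t := pow_pos h.t_pos _

theorem sa_pos (h : BpScale c t μ) : 0 < c.sa t := pow_pos h.t_pos _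

theorem ym_pos (h : BpScale c t μ) : 0 < c.ym t := pow_pos h.t_pos _

theorem width_pos (h : BpScale c t μ) : 0 < c.width t μ := mul_pos h.ym_pos (pow_pos h.t_pos _)

theorem pow_le (h : BpScale c t μ) {k l : ℕ} (hkl : k ≤ l) : t ^ l ≤ t ^ k :=
  pow_le_pow_of_le_one h.t_pos.le h.t_le hkl

theorem sA_le_one (h : BpScale c t μ) : c.sA t ≤ 1 := pow_le_one₀ h.t_pos.le h.t_le

theorem sa_le_one (h : BpScale c t μ) : c.sa t ≤ 1 := pow_le_one₀ h.t_pos.le h.t_le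

theorem sa_le_sA (h : BpScale c t μ) : c.sa t ≤ c.sA t :=
  h.pow_le (by have := h.Qe_ge; omega)

theorem ym_le_sA (h : BpScale c t μ) : c.ym t ≤ c.sA t :=
  h.pow_le (by have := h.Qe_ge; omega)

theorem sa_le_ym (h : BpScale c t μ) : c.sa t ≤ c.ym t := h.pow_le (Nat.sub_le _ _)

theorem ym_le_t (h : BpScale c t μ) : c.ym t ≤ t := by
  simpa [Par.ym] using h.pow_le (k := 1) (l := c.Qe - c.Pe) (by have := h.Qe_ge; omega)

theorem width_le_ym (h : BpScale c t μ) : c.width t μ ≤ c.ym t :=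
  mul_le_of_le_one_right h.ym_pos.le (pow_le_one₀ h.t_pos.le h.t_le)

theorem sA_mul_ym (h : BpScale c t μ) : c.sA t * c.ym t = c.sa t := by
  rw [Par.sA, Par.ym, Par.sa, ← pow_add]
  congr 1
  have := h.Qe_ge
  omega

theorem freq_mul (h : BpScale c t μ) : c.freq t * c.sa t ^ 2 = 2 * c.sA t :=
  div_mul_cancel₀ _ (pow_ne_zero 2 h.sa_pos.ne')

theorem freq_pos (h : BpScale c t μ) : 0 < c.freq t :=
  div_pos (mul_pos two_pos h.sA_pos) (pow_pos h.sa_pos _)

theorem one_le_freq (h : BpScale c t μ) : 1 ≤ c.freq t := by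
  rw [Par.freq, le_div_iff₀ (pow_pos h.sa_pos _)]
  nlinarith [h.sa_le_sA, h.sa_le_one, h.sa_pos]

theorem inv_width_le (h : BpScale c t μ) : 1 / c.width t μ ≤ c.freq t := by
  rw [Par.freq, div_le_div_iff₀ h.width_pos (pow_pos h.sa_pos _), one_mul,
    show 2 * c.sA t * c.width t μ = 2 * (c.sa t * t ^ (2 * μ)) by
      rw [← h.sA_mul_ym, Par.width]; ring, pow_two]
  have h1 : c.sa t ≤ t ^ (2 * μ) := h.pow_le (by have := h.Qe_ge; omega)
  nlinarith [mul_le_mul_of_nonneg_left h1 h.sa_pos.le,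
    mul_pos h.sa_pos (pow_pos h.t_pos (2 * μ))]

theorem W_eq (h : BpScale c t μ) (y : ℝ) :
    c.W t y = c.sa t ^ 2 * (1 + (y / c.ym t) ^ 2) := by
  rw [Par.W, ← h.sA_mul_ym]
  field_simp [h.ym_pos.ne']

theorem W_pos (h : BpScale c t μ) (y : ℝ) : 0 < c.W t y := by
  rw [h.W_eq]; exact mul_pos (pow_pos h.sa_pos _) (by positivity)

theorem om_sq (h : BpScale c t μ) (y : ℝ) : c.om t y ^ 2 = c.W t y :=
  Real.sq_sqrt (h.W_pos y).le

theorem om_pos (h : BpScale c t μ) (y : ℝ) : 0 < c.om t y := Real.sqrt_pos.2 (h.W_pos y)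

theorem sa_le_om (_h : BpScale c t μ) (y : ℝ) : c.sa t ≤ c.om t y := by
  refine Real.le_sqrt_of_sq_le ?_
  unfold Par.W
  nlinarith [sq_nonneg (c.sA t * y)]

theorem sA_mul_le_om (_h : BpScale c t μ) (y : ℝ) : c.sA t * |y| ≤ c.om t y := by
  refine Real.le_sqrt_of_sq_le ?_
  rw [mul_pow, sq_abs, Par.W]
  nlinarith [sq_nonneg (c.sa t)]

theorem abs_q_le (_h : BpScale c t μ) (y : ℝ) :
    |(c.sA t ^ 2 * y ^ 2 - c.sa t ^ 2) / 4| ≤ c.W t y / 4 := by
  rw [abs_div, abs_of_pos (by norm_num : (0 : ℝ) < 4)]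
  gcongr
  unfold Par.W
  rw [abs_le]
  constructor <;> nlinarith [sq_nonneg (c.sA t * y), sq_nonneg (c.sa t)]

theorem gauss_eq (h : BpScale c t μ) (y : ℝ) :
    c.bpGauss t y = Real.exp (-((y / c.ym t) ^ 2 / 2)) := by
  rw [Par.bpGauss, ← h.sA_mul_ym]
  congr 1
  field_simp [h.ym_pos.ne', h.sA_pos.ne']

/-- The Gaussian absorbs polynomial factors. -/
theorem gauss_bounds (h : BpScale c t μ) (z : ℝ × ℝ) :
    c.bpGauss t z.2 ≤ c.bpEnv t z ∧
    c.W t z.2 * c.bpGauss t z.2 ≤ 32 * c.sa t ^ 2 * c.bpEnv t z ∧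
    c.W t z.2 * c.bpGauss t z.2 ≤ c.om t z.2 * (32 * c.sa t * c.bpEnv t z) ∧
    c.W t z.2 * |z.2| * c.bpGauss t z.2 ≤
      c.om t z.2 * (32 * c.sa t * c.ym t * c.bpEnv t z) ∧
    c.om t z.2 * c.bpGauss t z.2 ≤ 32 * c.sa t * c.bpEnv t z := by
  set u := z.2 / c.ym t with hu
  set e := c.bpEnv t z with he
  have he0 : 0 < e := Real.exp_pos _
  have hg : c.bpGauss t z.2 = e * e := by
    rw [h.gauss_eq, he, Par.bpEnv, ← Real.exp_add]
    congr 1
    ring
  have hle : e ≤ 1 := Real.exp_le_one_iff.2 (by rw [neg_nonpos]; positivity)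
  have h32 : (1 + u ^ 2) ^ 2 * e ≤ 32 := by
    have h1 := Real.quadratic_le_exp_of_nonneg (x := u ^ 2 / 4) (by positivity)
    have h2 : e * Real.exp (u ^ 2 / 4) = 1 := by
      rw [he, Par.bpEnv, ← Real.exp_add, ← hu]; simp
    have h3 : (1 + u ^ 2) ^ 2 ≤ 32 * Real.exp (u ^ 2 / 4) := by nlinarith [h1, sq_nonneg u]
    calc (1 + u ^ 2) ^ 2 * e ≤ 32 * Real.exp (u ^ 2 / 4) * e :=
          mul_le_mul_of_nonneg_right h3 he0.le
      _ = 32 := by rw [mul_assoc, mul_comm (Real.exp _) e, h2, mul_one]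
  have ha : 1 + u ^ 2 ≤ (1 + u ^ 2) ^ 2 := by nlinarith [sq_nonneg u]
  have hA : c.W t z.2 * c.bpGauss t z.2 ≤ 32 * c.sa t ^ 2 * e := by
    rw [hg, h.W_eq, ← hu,
      show c.sa t ^ 2 * (1 + u ^ 2) * (e * e) = c.sa t ^ 2 * e * ((1 + u ^ 2) * e) by ring,
      show 32 * c.sa t ^ 2 * e = c.sa t ^ 2 * e * 32 by ring]
    exact mul_le_mul_of_nonneg_left ((mul_le_mul_of_nonneg_right ha he0.le).trans h32)
      (mul_nonneg (sq_nonneg _) he0.le)
  have hom := h.sa_le_om z.2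
  have hsa := h.sa_pos
  refine ⟨by rw [hg]; exact mul_le_of_le_one_right he0.le hle, hA, hA.trans ?_, ?_, ?_⟩
  · rw [show 32 * c.sa t ^ 2 * e = c.sa t * (32 * c.sa t * e) by ring]
    exact mul_le_mul_of_nonneg_right hom (by positivity)
  · refine le_trans ?_ (mul_le_mul_of_nonneg_right hom
      (by have := h.ym_pos; positivity))
    have hy : |z.2| ≤ c.ym t * (1 + u ^ 2) := by
      have : z.2 = c.ym t * u := by rw [hu, mul_div_cancel₀ _ h.ym_pos.ne']
      rw [this, abs_mul, abs_of_pos h.ym_pos]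
      exact mul_le_mul_of_nonneg_left (by nlinarith [sq_nonneg (|u| - 1), sq_abs u, abs_nonneg u])
        h.ym_pos.le
    calc c.W t z.2 * |z.2| * c.bpGauss t z.2
        ≤ c.W t z.2 * (c.ym t * (1 + u ^ 2)) * c.bpGauss t z.2 := by
          refine mul_le_mul_of_nonneg_right (mul_le_mul_of_nonneg_left hy (h.W_pos _).le) ?_
          exact (Real.exp_pos _).le
      _ = c.sa t ^ 2 * c.ym t * e * ((1 + u ^ 2) ^ 2 * e) := by rw [hg, h.W_eq, ← hu]; ring
      _ ≤ c.sa t ^ 2 * c.ym t * e * 32 :=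
          mul_le_mul_of_nonneg_left h32 (by have := h.ym_pos; positivity)
      _ = c.sa t * (32 * c.sa t * c.ym t * e) := by ring
  · refine le_of_mul_le_mul_left ?_ hsa
    calc c.sa t * (c.om t z.2 * c.bpGauss t z.2)
        ≤ c.om t z.2 * (c.om t z.2 * c.bpGauss t z.2) :=
          mul_le_mul_of_nonneg_right hom (mul_nonneg (h.om_pos _).le (Real.exp_pos _).le)
      _ = c.W t z.2 * c.bpGauss t z.2 := by rw [← mul_assoc, ← pow_two, h.om_sq]
      _ ≤ 32 * c.sa t ^ 2 * e := hA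
      _ = c.sa t * (32 * c.sa t * e) := by ring

end BpScale

theorem bpProf_smooth (lo hi : ℝ) : ContDiff ℝ ∞ (Par.prof lo hi) :=
  Real.smoothTransition.contDiff.comp ((contDiff_const.sub (contDiff_id.pow 2)).div_const _)

theorem bpProf_abs (lo hi s : ℝ) : |Par.prof lo hi s| ≤ 1 :=
  abs_le.2 ⟨by linarith [Real.smoothTransition.nonneg ((hi ^ 2 - s ^ 2) / (hi ^ 2 - lo ^ 2)),
    show Par.prof lo hi s = Real.smoothTransition ((hi ^ 2 - s ^ 2) / (hi ^ 2 - lo ^ 2)) from rfl],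
    Real.smoothTransition.le_one _⟩

theorem bpProf_zero {s : ℝ} (hs : 3 / 8 ≤ |s|) : Par.prof (1 / 4) (3 / 8) s = 0 :=
  Real.smoothTransition.zero_of_nonpos
    (div_nonpos_of_nonpos_of_nonneg (by nlinarith [sq_abs s]) (by norm_num))

theorem bpProf_one {s : ℝ} (hs : |s| < 1 / 4) :
    Par.prof (1 / 4) (3 / 8) =ᶠ[𝓝 s] fun _ => 1 := by
  filter_upwards [(isOpen_lt continuous_abs continuous_const).mem_nhds hs] with x hx
  refine Real.smoothTransition.one_of_one_le ?_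
  rw [one_le_div (by norm_num)]
  nlinarith [sq_abs x, abs_nonneg x, (show |x| < 1 / 4 from hx)]

theorem bpPhiB_abs (s : ℝ) : |phiB s| ≤ 1 :=
  abs_le.2 ⟨by linarith [phiB.nonneg' s], phiB.le_one⟩

/-- Bounds on the first two derivatives of the profiles. -/
theorem bpProfile_bound : ∃ C : ℝ, 1 ≤ C ∧ ∀ s,
    |deriv phiB s| ≤ C ∧ |deriv (deriv phiB) s| ≤ C ∧
    |deriv (Par.prof (1 / 4) (3 / 8)) s| ≤ C ∧
    |deriv (deriv (Par.prof (1 / 4) (3 / 8))) s| ≤ C := by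
  have key : ∀ {f : ℝ → ℝ}, ContDiff ℝ ∞ f → HasCompactSupport f →
      ∃ C, ∀ s, |deriv f s| ≤ C ∧ |deriv (deriv f) s| ≤ C := by
    intro f hf hc
    have h1 : ContDiff ℝ ∞ (deriv f) := bxSmooth_deriv hf
    obtain ⟨a, ha⟩ := h1.continuous.bounded_above_of_compact_support hc.deriv
    obtain ⟨b, hb⟩ := (bxSmooth_deriv h1).continuous.bounded_above_of_compact_support hc.deriv.deriv
    exact ⟨max a b, fun s => ⟨(ha s).trans (le_max_left _ _), (hb s).trans (le_max_right _ _)⟩⟩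
  obtain ⟨a, ha⟩ := key phiB.contDiff phiB.hasCompactSupport
  obtain ⟨b, hb⟩ := key (bpProf_smooth (1 / 4) (3 / 8))
    (HasCompactSupport.intro (isCompact_Icc (a := (-1 : ℝ)) (b := 1)) fun s hs => bpProf_zero (by
      rw [mem_Icc, ← abs_le, not_le] at hs; linarith))
  exact ⟨max 1 (max a b), le_max_left _ _, fun s =>
    ⟨(ha s).1.trans (by simp), (ha s).2.trans (by simp), (hb s).1.trans (by simp),
      (hb s).2.trans (by simp)⟩⟩

theorem bpDX_sep {a a' b : ℝ → ℝ} (ha : ∀ x, HasDerivAt a (a' x) x) (hb : Differentiable ℝ b) :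
    dX (fun z : ℝ × ℝ => a z.1 * b z.2) = fun z => a' z.1 * b z.2 := by
  funext z
  have hd : DifferentiableAt ℝ (fun z : ℝ × ℝ => a z.1 * b z.2) z :=
    ((ha z.1).differentiableAt.comp z differentiableAt_fst).mul
      ((hb z.2).comp z differentiableAt_snd)
  exact (hasDerivAt_sliceX (x := z.1) (y := z.2) hd).unique ((ha z.1).mul_const (b z.2))

theorem bpDY_sep {a b b' : ℝ → ℝ} (ha : Differentiable ℝ a) (hb : ∀ x, HasDerivAt b (b' x) x) :
    dY (fun z : ℝ × ℝ => a z.1 * b z.2) = fun z => a z.1 * b' z.2 := by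
  funext z
  have hd : DifferentiableAt ℝ (fun z : ℝ × ℝ => a z.1 * b z.2) z :=
    ((ha z.1).comp z differentiableAt_fst).mul
      ((hb z.2).differentiableAt.comp z differentiableAt_snd)
  exact (hasDerivAt_sliceY (x := z.1) (y := z.2) hd).unique ((hb z.2).const_mul (a z.1))

theorem bpWave_smooth (c : Par) (t : ℝ) (n μ : ℕ) : ContDiff ℝ ∞ (c.wave t n μ) :=
  ((phiB.contDiff.comp (contDiff_fst.div_const _)).mul
    (Real.contDiff_sin.comp ((contDiff_const.mul contDiff_fst).sub contDiff_const))).mul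
    (((bpProf_smooth _ _).comp (contDiff_snd.div_const _)).mul
      (Real.contDiff_exp.comp (((contDiff_const.mul (contDiff_snd.pow 2)).neg).div_const _)))

theorem bpWave_eq_zero {c : Par} {t : ℝ} {μ : ℕ} (h : BpScale c t μ) (n : ℕ) {z : ℝ × ℝ}
    (hz : z ∉ Icc (-(2 * c.width t μ)) (2 * c.width t μ) ×ˢ Icc (-(t / 2)) (t / 2)) :
    c.wave t n μ z = 0 := by
  rw [mem_prod, mem_Icc, mem_Icc, ← abs_le, ← abs_le, not_and_or, not_le, not_le] at hz
  rcases hz with hz | hz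
  · have : phiB (z.1 / c.width t μ) = 0 := bxPhiB_zero (by
      rw [abs_div, abs_of_pos h.width_pos, le_div_iff₀ h.width_pos]; linarith)
    simp [Par.wave, this]
  · have : Par.prof (1 / 4) (3 / 8) (z.2 / t) = 0 := bpProf_zero (by
      rw [abs_div, abs_of_pos h.t_pos, le_div_iff₀ h.t_pos]; linarith [h.t_pos])
    unfold Par.wave
    rw [this]; ring

/-- The derivatives of the cut-off only see the tail of the Gaussian. -/
theorem bpCut_bound {c : Par} {t : ℝ} {μ : ℕ} (h : BpScale c t μ) {C y u1 u2 : ℝ} {z : ℝ × ℝ}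
    (hC : 0 ≤ C) (hcase : (u1 = 0 ∧ u2 = 0) ∨ (t / 4 ≤ |z.2| ∧ |z.2| ≤ t))
    (hu1 : |u1| ≤ C) (hu2 : |u2| ≤ C) (hy : y = z.2) :
    |u2 / t / t * c.bpGauss t y +
      2 * (u1 / t * (-(c.sA t ^ 2 / c.sa t ^ 2 * y) * c.bpGauss t y))| ≤
      768 * C * ((t⁻¹) ^ 5 / c.sA t * (c.om t y * c.bpEnv t z)) := by
  subst hy
  set y := z.2 with hy
  set e := c.bpEnv t z with he
  set g := c.bpGauss t y with hg
  have he0 : 0 < e := Real.exp_pos _
  have hg0 : 0 < g := Real.exp_pos _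
  have ht := h.t_pos
  have hom := h.om_pos y
  have hsA := h.sA_pos
  rcases hcase with ⟨e1, e2⟩ | ⟨hs, hs'⟩
  · rw [e1, e2]
    simp only [zero_div, zero_mul, mul_zero, add_zero, abs_zero]
    positivity
  have hym := h.ym_pos
  have hl : c.sA t ^ 2 / c.sa t ^ 2 = 1 / c.ym t ^ 2 := by
    rw [← h.sA_mul_ym]; field_simp
  have hge : g ≤ e * (64 * c.ym t ^ 2 / t ^ 2) := by
    have e2 : g = e * e := by
      rw [hg, h.gauss_eq, he, Par.bpEnv, ← Real.exp_add]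
      congr 1
      ring
    rw [e2]
    refine mul_le_mul_of_nonneg_left ?_ he0.le
    rw [he, Par.bpEnv, Real.exp_neg]
    refine (inv_anti₀ (by positivity : (0 : ℝ) < t ^ 2 / (64 * c.ym t ^ 2)) ?_).trans_eq
      (inv_div _ _)
    have h4 := Real.add_one_le_exp ((y / c.ym t) ^ 2 / 4)
    have h5 : t ^ 2 / (64 * c.ym t ^ 2) ≤ (y / c.ym t) ^ 2 / 4 := by
      rw [show (y / c.ym t) ^ 2 / 4 = 16 * y ^ 2 / (64 * c.ym t ^ 2) by field_simp; ring]
      gcongr
      nlinarith [sq_abs y, hs]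
    linarith
  have hb : |u2 / t / t + 2 * (u1 / t * -(c.sA t ^ 2 / c.sa t ^ 2 * y))| ≤
      C / t ^ 2 + 2 * C / c.ym t ^ 2 := by
    refine (abs_add_le _ _).trans (add_le_add ?_ ?_)
    · rw [abs_div, abs_div, abs_of_pos ht, div_div, ← pow_two]; gcongr
    · rw [hl, abs_mul, abs_mul, abs_div, abs_neg, abs_mul, abs_two, abs_of_pos ht,
        abs_of_pos (by positivity : 0 < 1 / c.ym t ^ 2)]
      calc 2 * (|u1| / t * (1 / c.ym t ^ 2 * |y|))
          ≤ 2 * (C / t * (1 / c.ym t ^ 2 * t)) := by gcongr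
        _ = 2 * C / c.ym t ^ 2 := by field_simp
  have e0 : u2 / t / t * g + 2 * (u1 / t * (-(c.sA t ^ 2 / c.sa t ^ 2 * y) * g)) =
      (u2 / t / t + 2 * (u1 / t * -(c.sA t ^ 2 / c.sa t ^ 2 * y))) * g := by ring
  rw [e0, abs_mul, abs_of_pos hg0]
  have h1 : t ≤ 4 * c.om t y / c.sA t := by
    rw [le_div_iff₀ hsA]
    nlinarith [h.sA_mul_le_om y, mul_le_mul_of_nonneg_left hs hsA.le]
  have h2 : c.ym t ^ 2 / t ^ 2 ≤ 1 := by
    rw [div_le_one (by positivity)]; exact pow_le_pow_left₀ hym.le h.ym_le_t 2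
  calc _ ≤ (C / t ^ 2 + 2 * C / c.ym t ^ 2) * (e * (64 * c.ym t ^ 2 / t ^ 2)) :=
        mul_le_mul hb hge hg0.le (by positivity)
    _ = 64 * C * e / t ^ 2 * (c.ym t ^ 2 / t ^ 2 + 2) := by field_simp
    _ ≤ 64 * C * e / t ^ 2 * 3 := mul_le_mul_of_nonneg_left (by linarith) (by positivity)
    _ = 192 * C * e * ((t⁻¹) ^ 2 * (t⁻¹)) * t := by field_simp; ring
    _ ≤ 192 * C * e * ((t⁻¹) ^ 4 * (t⁻¹)) * (4 * c.om t y / c.sA t) := by
        gcongr
        · exact one_le_inv₀ ht |>.2 h.t_le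
        · norm_num
    _ = 768 * C * ((t⁻¹) ^ 5 / c.sA t * (c.om t y * e)) := by ring

/-- Bounds for the oscillating factor of the quasimode. -/
theorem bpTrig_bound {C f Δ P0 P1 P2 S Co : ℝ} (hC : 1 ≤ C) (hΔ : 0 < Δ) (hfΔ : 1 / Δ ≤ f)
    (bP0 : |P0| ≤ 1) (bP1 : |P1| ≤ C) (bP2 : |P2| ≤ C) (bS : |S| ≤ 1) (bCo : |Co| ≤ 1) :
    |P0 * S| ≤ 1 ∧ |P1 / Δ * S + P0 * (Co * f)| ≤ 2 * C * f ∧
    |P2 / Δ / Δ * S + 2 * (P1 / Δ * (Co * f)) - P0 * (f ^ 2 * S)| ≤ 4 * C * f ^ 2 ∧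
    |P2 / Δ / Δ * S + 2 * (P1 / Δ * (Co * f))| ≤ 3 * C * (f * (1 / Δ)) := by
  have hf0 : 0 < f := lt_of_lt_of_le (by positivity) hfΔ
  have hi : |P1 / Δ| ≤ C * (1 / Δ) := by
    rw [abs_div, abs_of_pos hΔ, mul_one_div]; gcongr
  have hi2 : |P2 / Δ / Δ| ≤ C * (f * (1 / Δ)) := by
    rw [abs_div, abs_div, abs_of_pos hΔ, show |P2| / Δ / Δ = |P2| * ((1 / Δ) * (1 / Δ)) by ring]
    gcongr
  have bA : |P0 * S| ≤ 1 := by rw [abs_mul]; exact mul_le_one₀ bP0 (abs_nonneg _) bS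
  have h3 : |P2 / Δ / Δ * S + 2 * (P1 / Δ * (Co * f))| ≤ 3 * C * (f * (1 / Δ)) := by
    refine (abs_add_le _ _).trans ?_
    rw [abs_mul, abs_mul, abs_mul, abs_mul Co, abs_of_pos hf0, abs_two]
    have h1 : |P2 / Δ / Δ| * |S| ≤ C * (f * (1 / Δ)) * 1 :=
      mul_le_mul hi2 bS (abs_nonneg _) (by positivity)
    have h2 : |P1 / Δ| * (|Co| * f) ≤ C * (1 / Δ) * (1 * f) :=
      mul_le_mul hi (by gcongr) (by positivity) (by positivity)
    linarith
  refine ⟨bA, ?_, ?_, h3⟩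
  · refine (abs_add_le _ _).trans ?_
    rw [abs_mul, abs_mul, abs_mul Co, abs_of_pos hf0]
    have h1 : |P1 / Δ| * |S| ≤ C * (1 / Δ) * 1 := mul_le_mul hi bS (abs_nonneg _) (by positivity)
    have h2 : |P0| * (|Co| * f) ≤ 1 * (1 * f) := by gcongr
    nlinarith [mul_le_mul_of_nonneg_left hfΔ (by linarith : (0 : ℝ) ≤ C)]
  · refine (abs_sub _ _).trans ?_
    have h1 : |P0 * (f ^ 2 * S)| ≤ f ^ 2 := by
      rw [show P0 * (f ^ 2 * S) = f ^ 2 * (P0 * S) by ring, abs_mul, abs_of_nonneg (sq_nonneg f)]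
      exact mul_le_of_le_one_right (sq_nonneg f) bA
    nlinarith [mul_le_mul_of_nonneg_left (mul_le_mul_of_nonneg_left hfΔ hf0.le)
      (by linarith : (0 : ℝ) ≤ C), mul_le_mul_of_nonneg_right hC (sq_nonneg f)]

/-- Pointwise bounds on the derivatives of the quasimode; the last one is the cancellation. -/
theorem bpWave_bounds : ∃ C : ℝ, 1 ≤ C ∧ ∀ (c : Par) (t : ℝ) (μ : ℕ), BpScale c t μ →
    ∀ (n : ℕ) (z : ℝ × ℝ),
      |c.wave t n μ z| ≤ c.bpGauss t z.2 ∧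
      |dX (c.wave t n μ) z| ≤ C * c.freq t * c.bpGauss t z.2 ∧
      |dX (dX (c.wave t n μ)) z| ≤ C * c.freq t ^ 2 * c.bpGauss t z.2 ∧
      |dY (dY (c.wave t n μ)) z +
          (c.sA t ^ 2 * z.2 ^ 2 - c.sa t ^ 2) / 4 * dX (dX (c.wave t n μ)) z| ≤
        C * (c.freq t / c.width t μ * (c.W t z.2 * c.bpGauss t z.2) +
          (t⁻¹) ^ 5 / c.sA t * (c.om t z.2 * c.bpEnv t z)) := by
  obtain ⟨C, hC, hb⟩ := bpProfile_bound
  refine ⟨768 * C, by linarith, fun c t μ h n z => ?_⟩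
  set Δ := c.width t μ with hΔ
  set f := c.freq t with hf
  set χ := Par.prof (1 / 4) (3 / 8) with hχ
  set θ : ℝ := n * (Real.pi / 2) with hθ
  set lam : ℝ := c.sA t ^ 2 / c.sa t ^ 2 with hlam
  have hΔ0 : 0 < Δ := h.width_pos
  have hf0 : 0 < f := h.freq_pos
  have hfΔ : 1 / Δ ≤ f := h.inv_width_le
  let φ : ℝ → ℝ := fun s => phiB s
  have hφ1 : ∀ s, HasDerivAt φ (deriv φ s) s := fun s =>
    ((phiB.contDiff (n := ⊤)).differentiable (by simp) s).hasDerivAt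
  have hφ2 : ∀ s, HasDerivAt (deriv φ) (deriv (deriv φ) s) s := fun s =>
    ((bxSmooth_deriv phiB.contDiff).differentiable (by simp) s).hasDerivAt
  have hχ1 : ∀ s, HasDerivAt χ (deriv χ s) s := fun s =>
    ((bpProf_smooth _ _).differentiable (by simp) s).hasDerivAt
  have hχ2 : ∀ s, HasDerivAt (deriv χ) (deriv (deriv χ) s) s := fun s =>
    ((bxSmooth_deriv (bpProf_smooth _ _)).differentiable (by simp) s).hasDerivAt
  let a : ℝ → ℝ := fun x => φ (x / Δ) * Real.sin (f * x - θ)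
  let a1 : ℝ → ℝ := fun x => deriv φ (x / Δ) / Δ * Real.sin (f * x - θ) +
    φ (x / Δ) * (Real.cos (f * x - θ) * f)
  let a2 : ℝ → ℝ := fun x => deriv (deriv φ) (x / Δ) / Δ / Δ * Real.sin (f * x - θ) +
    2 * (deriv φ (x / Δ) / Δ * (Real.cos (f * x - θ) * f)) -
    φ (x / Δ) * (f ^ 2 * Real.sin (f * x - θ))
  let g : ℝ → ℝ := c.bpGauss t
  let b : ℝ → ℝ := fun y => χ (y / t) * g y
  let b1 : ℝ → ℝ := fun y => deriv χ (y / t) / t * g y + χ (y / t) * (-(lam * y) * g y)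
  let b2 : ℝ → ℝ := fun y => deriv (deriv χ) (y / t) / t / t * g y +
    2 * (deriv χ (y / t) / t * (-(lam * y) * g y)) + χ (y / t) * ((lam ^ 2 * y ^ 2 - lam) * g y)
  have hsin : ∀ x, HasDerivAt (fun x => Real.sin (f * x - θ)) (Real.cos (f * x - θ) * f) x :=
    fun x => by simpa using (((hasDerivAt_id x).const_mul f).sub_const θ).sin
  have hcos : ∀ x, HasDerivAt (fun x => Real.cos (f * x - θ)) (-Real.sin (f * x - θ) * f) x :=
    fun x => by simpa using (((hasDerivAt_id x).const_mul f).sub_const θ).cos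
  have hdiv : ∀ (p : ℝ → ℝ) (p' r x : ℝ), HasDerivAt p p' (x / r) →
      HasDerivAt (fun x => p (x / r)) (p' / r) x := fun p p' r x hp => by
    simpa [Function.comp_def, div_eq_mul_inv] using hp.comp x ((hasDerivAt_id x).div_const r)
  have hg : ∀ y, HasDerivAt g (-(lam * y) * g y) y := fun y => by
    refine (((((hasDerivAt_pow 2 y).const_mul (c.sA t ^ 2)).neg).div_const
      (2 * c.sa t ^ 2)).exp).congr_deriv ?_
    simp only [g, Par.bpGauss, lam, Nat.cast_ofNat, Nat.add_one_sub_one, pow_one, Pi.neg_apply]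
    ring
  have ha : ∀ x, HasDerivAt a (a1 x) x := fun x => (hdiv φ _ Δ x (hφ1 _)).mul (hsin x)
  have ha' : ∀ x, HasDerivAt a1 (a2 x) x := fun x => by
    refine ((((hdiv _ _ Δ x (hφ2 _)).div_const Δ).mul (hsin x)).add
      ((hdiv φ _ Δ x (hφ1 _)).mul ((hcos x).mul_const f))).congr_deriv ?_
    simp only [a2]
    ring
  have hb1 : ∀ y, HasDerivAt b (b1 y) y := fun y => (hdiv χ _ t y (hχ1 _)).mul (hg y)
  have hb2 : ∀ y, HasDerivAt b1 (b2 y) y := fun y => by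
    refine ((((hdiv _ _ t y (hχ2 _)).div_const t).mul (hg y)).add
      ((hdiv χ _ t y (hχ1 _)).mul
        (((hasDerivAt_id y).const_mul lam).neg.mul (hg y)))).congr_deriv ?_
    simp only [b2, id_eq, Pi.neg_apply, Pi.mul_apply]
    ring
  have e0 : c.wave t n μ = fun w => a w.1 * b w.2 := rfl
  have eX : dX (c.wave t n μ) = fun w => a1 w.1 * b w.2 :=
    e0 ▸ bpDX_sep ha fun y => (hb1 y).differentiableAt
  have eXX : dX (dX (c.wave t n μ)) = fun w => a2 w.1 * b w.2 :=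
    eX ▸ bpDX_sep ha' fun y => (hb1 y).differentiableAt
  have eYY : dY (dY (c.wave t n μ)) = fun w => a w.1 * b2 w.2 := by
    rw [e0, bpDY_sep (fun x => (ha x).differentiableAt) hb1,
      bpDY_sep (fun x => (ha x).differentiableAt) hb2]
  rw [eXX, eX, eYY, e0]
  set x := z.1
  set y := z.2
  set P0 := φ (x / Δ) with hP0
  set P1 := deriv φ (x / Δ) with hP1
  set P2 := deriv (deriv φ) (x / Δ) with hP2
  set S := Real.sin (f * x - θ) with hS
  set Co := Real.cos (f * x - θ) with hCo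
  have bP0 : |P0| ≤ 1 := bpPhiB_abs _
  have bP1 : |P1| ≤ C := (hb _).1
  have bP2 : |P2| ≤ C := (hb _).2.1
  have bS : |S| ≤ 1 := Real.abs_sin_le_one _
  have bCo : |Co| ≤ 1 := Real.abs_cos_le_one _
  have hg0 : 0 ≤ g y := (Real.exp_pos _).le
  have bb : |b y| ≤ g y := by
    rw [show b y = χ (y / t) * g y from rfl, abs_mul, abs_of_nonneg hg0]
    exact mul_le_of_le_one_left hg0 (bpProf_abs _ _ _)
  obtain ⟨bA, bA1, bA2, bA3⟩ :=
    bpTrig_bound hC hΔ0 hfΔ bP0 bP1 bP2 bS bCo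
  replace bA : |a x| ≤ 1 := bA
  replace bA1 : |a1 x| ≤ 768 * C * f := le_trans bA1
    (mul_le_mul_of_nonneg_right (by linarith) hf0.le)
  replace bA2 : |a2 x| ≤ 768 * C * f ^ 2 := le_trans bA2
    (mul_le_mul_of_nonneg_right (by linarith) (sq_nonneg f))
  have bA2' : |a2 x + f ^ 2 * a x| ≤ 3 * C * (f * (1 / Δ)) := by
    refine le_of_eq_of_le ?_ bA3
    congr 1
    simp only [a2, a, ← hP0, ← hP1, ← hP2, ← hS, ← hCo]
    ring
  have hlamq : lam ^ 2 * y ^ 2 - lam = f ^ 2 / 4 * (c.sA t ^ 2 * y ^ 2 - c.sa t ^ 2) := by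
    simp only [lam, hf, Par.freq]
    field_simp [h.sa_pos.ne']
    ring
  have key : a x * b2 y + (c.sA t ^ 2 * y ^ 2 - c.sa t ^ 2) / 4 * (a2 x * b y) =
      a x * (deriv (deriv χ) (y / t) / t / t * g y +
        2 * (deriv χ (y / t) / t * (-(lam * y) * g y))) +
      (c.sA t ^ 2 * y ^ 2 - c.sa t ^ 2) / 4 * ((a2 x + f ^ 2 * a x) * b y) := by
    simp only [b2, b, hlamq]
    ring
  have bcut : |deriv (deriv χ) (y / t) / t / t * g y +
      2 * (deriv χ (y / t) / t * (-(lam * y) * g y))| ≤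
      768 * C * ((t⁻¹) ^ 5 / c.sA t * (c.om t y * c.bpEnv t z)) := by
    refine bpCut_bound h (by linarith) ?_ (hb _).2.2.1 (hb _).2.2.2 rfl
    by_cases hs : |y / t| < 1 / 4
    · have h1 := bpProf_one hs
      exact Or.inl ⟨by rw [h1.deriv_eq]; simp, by rw [h1.deriv.deriv_eq]; simp⟩
    by_cases hs' : 1 < |y / t|
    · have h1 : χ =ᶠ[𝓝 (y / t)] fun _ => 0 := by
        filter_upwards [(isOpen_lt continuous_const continuous_abs).mem_nhds hs'] with s hss
        exact bpProf_zero (by linarith [show (1 : ℝ) < |s| from hss])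
      exact Or.inl ⟨by rw [h1.deriv_eq]; simp, by rw [h1.deriv.deriv_eq]; simp⟩
    rw [not_lt, abs_div, abs_of_pos h.t_pos] at hs hs'
    exact Or.inr ⟨by linarith [(le_div_iff₀ h.t_pos).1 hs], (div_le_one h.t_pos).1 hs'⟩
  have hgy : c.bpGauss t y = g y := rfl
  rw [hgy]
  show |a x * b y| ≤ g y ∧ |a1 x * b y| ≤ _ ∧ |a2 x * b y| ≤ _ ∧
    |a x * b2 y + (c.sA t ^ 2 * y ^ 2 - c.sa t ^ 2) / 4 * (a2 x * b y)| ≤ _
  clear_value a a1 a2 b b1 b2 g
  refine ⟨?_, ?_, ?_, ?_⟩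
  · show |a x * b y| ≤ g y
    rw [abs_mul]
    exact (mul_le_mul bA bb (abs_nonneg _) zero_le_one).trans_eq (one_mul _)
  · show |a1 x * b y| ≤ _ * g y
    rw [abs_mul]
    exact mul_le_mul bA1 bb (abs_nonneg _) (by positivity)
  · show |a2 x * b y| ≤ _ * g y
    rw [abs_mul]
    exact mul_le_mul bA2 bb (abs_nonneg _) (by positivity)
  · show |a x * b2 y + (c.sA t ^ 2 * y ^ 2 - c.sa t ^ 2) / 4 * (a2 x * b y)| ≤ _
    rw [key, mul_add (768 * C)]
    refine (abs_add_le _ _).trans ?_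
    rw [add_comm]
    refine add_le_add (α := ℝ) ?_ ?_
    · rw [abs_mul, abs_mul]
      have hq := h.abs_q_le y
      calc |(c.sA t ^ 2 * y ^ 2 - c.sa t ^ 2) / 4| * (|a2 x + f ^ 2 * a x| * |b y|)
          ≤ c.W t y / 4 * (3 * C * (f * (1 / Δ)) * g y) :=
            mul_le_mul hq (mul_le_mul bA2' bb (abs_nonneg _) (by positivity)) (by positivity)
              (by have := h.W_pos y; positivity)
        _ = 3 / 4 * C * (f / Δ * (c.W t y * g y)) := by ring
        _ ≤ 768 * C * (f / Δ * (c.W t y * g y)) := by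
            refine mul_le_mul_of_nonneg_right (by linarith) ?_
            have := h.W_pos y; positivity
    · rw [abs_mul]
      exact (mul_le_mul_of_nonneg_right bA (abs_nonneg _)).trans (by rw [one_mul]; exact bcut)

end Vale.Agent.P229
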