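import Vale.Agent.P229.BoxLev
import Vale.Agent.P229.BoxPairWave

/-!
# P229: the size of the source of the pairing
-/

open scoped ContDiff Topology
open MeasureTheory Set Filter

namespace Vale.Agent.P229

/-- Positive powers of `t` lower the exponent of `t⁻¹`. -/
theorem bfPow {t : ℝ} (ht : 0 < t) (ht1 : t ≤ 1) {k a b : ℕ} (h : a ≤ b + k) :
    t ^ k * (t⁻¹) ^ a ≤ (t⁻¹) ^ b := by
  calc t ^ k * (t⁻¹) ^ a ≤ t ^ k * (t⁻¹) ^ (b + k) :=
        mul_le_mul_of_nonneg_left (pow_le_pow_right₀ ((one_le_inv₀ ht).2 ht1) h) (by positivity)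
    _ = (t⁻¹) ^ b := by
        rw [pow_add, mul_left_comm, ← mul_pow, mul_inv_cancel₀ ht.ne', one_pow, mul_one]

/-- The square of a sum of three. -/
theorem bfSq_three (a b c : ℝ) : (a + b + c) ^ 2 ≤ 3 * a ^ 2 + 3 * b ^ 2 + 3 * c ^ 2 := by
  nlinarith [sq_nonneg (a - b), sq_nonneg (b - c), sq_nonneg (c - a)]

namespace Par

variable (c : Par)

/-- A continuous majorant of the indicator of the bump. -/
noncomputable def bfCut (t : ℝ) (z : ℝ × ℝ) : ℝ :=
  phiB (z.1 / (2 * c.K * (c.K + 1) * c.δ t)) * phiB (z.2 / (2 * c.δ t))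

theorem bfCut_cont (t : ℝ) : Continuous (c.bfCut t) :=
  (phiB.continuous.comp (continuous_fst.div_const _)).mul
    (phiB.continuous.comp (continuous_snd.div_const _))

theorem bfCut_nonneg (t : ℝ) (z : ℝ × ℝ) : 0 ≤ c.bfCut t z :=
  mul_nonneg phiB.nonneg phiB.nonneg

theorem indB_le_bfCut {t : ℝ} (ht : 0 < t) (z : ℝ × ℝ) : c.indB t z ≤ c.bfCut t z := by
  by_cases h : z ∈ c.bumpSet t
  · have hd := c.bxδ_pos ht
    have hK := c.one_le_K
    have hp : 0 < 2 * c.K * (c.K + 1) * c.δ t := by positivity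
    rw [c.indB_mem h, bfCut, bxPhiB_one (by rw [abs_div, abs_of_pos hp, div_le_one hp]; exact h.1),
      bxPhiB_one (by
        rw [abs_div, abs_of_pos (by positivity : 0 < 2 * c.δ t),
          div_le_one (by positivity : 0 < 2 * c.δ t)]
        exact h.2), one_mul]
  · rw [indB, indicator_of_notMem h]; exact c.bfCut_nonneg t z

theorem bfCut_integral {t : ℝ} (ht : 0 < t) (s : ℝ) :
    ∫ z in c.rect t s, c.bfCut t z ^ 2 ≤ 64 * (c.K * (c.K + 1)) * c.δ t ^ 2 := by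
  have hd := c.bxδ_pos ht
  have hK := c.one_le_K
  set a := 4 * c.K * (c.K + 1) * c.δ t with ha
  set S : Set (ℝ × ℝ) := Icc (-a) a ×ˢ Icc (-(4 * c.δ t)) (4 * c.δ t) with hS
  have ha0 : 0 < a := by positivity
  have hSc : IsCompact S := isCompact_Icc.prod isCompact_Icc
  have cc := (c.bfCut_cont t).pow 2
  have h0 : ∀ z, z ∉ S → c.bfCut t z ^ 2 = 0 := fun z hz => by
    rw [hS, mem_prod, mem_Icc, mem_Icc, ← abs_le, ← abs_le, not_and_or, not_le, not_le] at hz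
    rcases hz with hz | hz
    · have hp : 0 < 2 * c.K * (c.K + 1) * c.δ t := by positivity
      simp [bfCut, bxPhiB_zero (s := z.1 / (2 * c.K * (c.K + 1) * c.δ t))
        (by rw [abs_div, abs_of_pos hp, le_div_iff₀ hp]; rw [ha] at hz; linarith)]
    · simp [bfCut, bxPhiB_zero (s := z.2 / (2 * c.δ t))
        (by rw [abs_div, abs_of_pos (by positivity : 0 < 2 * c.δ t),
              le_div_iff₀ (by positivity : 0 < 2 * c.δ t)]; linarith)]
  have hint : Integrable fun z => c.bfCut t z ^ 2 :=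
    cc.integrable_of_hasCompactSupport (HasCompactSupport.intro hSc h0)
  refine (setIntegral_le_integral hint (.of_forall fun _ => sq_nonneg _)).trans ?_
  rw [← setIntegral_eq_integral_of_forall_compl_eq_zero h0]
  refine (setIntegral_mono_on (g := fun _ => (1 : ℝ)) hint.integrableOn
    (continuousOn_const.integrableOn_compact hSc) hSc.measurableSet fun z _ => ?_).trans_eq ?_
  · exact pow_le_one₀ (c.bfCut_nonneg t z) (mul_le_one₀ phiB.le_one phiB.nonneg phiB.le_one)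
  · rw [setIntegral_const, smul_eq_mul, mul_one, hS, measureReal_def, Measure.volume_eq_prod,
      Measure.prod_prod, Real.volume_Icc, Real.volume_Icc, ENNReal.toReal_mul,
      ENNReal.toReal_ofReal (by linarith), ENNReal.toReal_ofReal (by linarith)]
    rw [ha]; ring

/-- The majorant of the remainder of the equation of level `n`. -/
noncomputable def bfG (t : ℝ) (u b : ℝ × ℝ → ℝ) (n N : ℕ) (z : ℝ × ℝ) : ℝ :=
  c.om t z.2 * c.sA t * (t⁻¹) ^ 10 * (|dX^[n] u z| + lowJ u b n z) +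
    (t⁻¹) ^ N * (c.om t z.2 * c.sA t + c.bfCut t z * (c.ε t / c.δ t ^ n))

theorem bfG_sq {t : ℝ} (ht : 0 < t) (ht1 : t ≤ 1) (u b : ℝ × ℝ → ℝ) (n N : ℕ) (z : ℝ × ℝ) :
    c.bfG t u b n N z ^ 2 / c.W t z.2 ≤
      6 * ((t⁻¹) ^ 10) ^ 2 *
          (c.lev t u b n z + 12 * ∑ m ∈ Finset.range 4, c.lev t u b (n - 1 - m) z) +
        3 * ((t⁻¹) ^ N) ^ 2 +
        3 * ((t⁻¹) ^ N * (c.ε t / c.δ t ^ n) / c.sa t) ^ 2 * c.bfCut t z ^ 2 := by
  have ho := c.om_pos ht z.2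
  have hsa := c.sa_pos ht
  have hsA : c.sA t ≤ 1 := pow_le_one₀ ht.le ht1
  have hsA0 := c.sA_pos ht
  rw [← c.om_sq ht, ← div_pow]
  set T := t⁻¹ with hT
  set e := c.ε t / c.δ t ^ n with he
  set L := |dX^[n] u z| + lowJ u b n z with hL
  have hL0 : 0 ≤ L := add_nonneg (abs_nonneg _) (lowJ_nonneg _ _ _ _)
  have e1 : c.bfG t u b n N z / c.om t z.2 =
      c.sA t * T ^ 10 * L + T ^ N * c.sA t + T ^ N * e * c.bfCut t z / c.om t z.2 := by
    simp only [bfG, ← hT, ← hL, ← he]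
    field_simp
    ring
  rw [e1]
  refine (bfSq_three _ _ _).trans ?_
  have a1 : (c.sA t * T ^ 10 * L) ^ 2 ≤
      2 * (T ^ 10) ^ 2 *
        (c.lev t u b n z + 12 * ∑ m ∈ Finset.range 4, c.lev t u b (n - 1 - m) z) := by
    have hw : dX^[n] u z ^ 2 ≤ c.lev t u b n z := by
      have : 0 ≤ c.W t z.2 * dX^[n + 1] u z ^ 2 := mul_nonneg (c.W_pos ht _).le (sq_nonneg _)
      have := sq_nonneg (dX^[n] (dY u) z)
      have := sq_nonneg (dX^[n] b z)
      have := sq_nonneg (dX^[n - 1] (dY (dY u)) z)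
      unfold lev; linarith
    have hJ := bxLowJ_sq c t u b n z
    calc (c.sA t * T ^ 10 * L) ^ 2 = c.sA t ^ 2 * (T ^ 10) ^ 2 * L ^ 2 := by ring
      _ ≤ 1 * (T ^ 10) ^ 2 * (2 * (|dX^[n] u z| ^ 2 + lowJ u b n z ^ 2)) := by
          gcongr
          · exact pow_le_one₀ hsA0.le hsA
          · exact add_sq_le
      _ ≤ 1 * (T ^ 10) ^ 2 * (2 * (c.lev t u b n z +
          12 * ∑ m ∈ Finset.range 4, c.lev t u b (n - 1 - m) z)) := by
          rw [sq_abs]; gcongr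
      _ = _ := by ring
  have a2 : (T ^ N * c.sA t) ^ 2 ≤ (T ^ N) ^ 2 := by
    rw [mul_pow]; exact mul_le_of_le_one_right (sq_nonneg _) (pow_le_one₀ hsA0.le hsA)
  have a3 : (T ^ N * e * c.bfCut t z / c.om t z.2) ^ 2 ≤
      (T ^ N * e / c.sa t) ^ 2 * c.bfCut t z ^ 2 := by
    rw [show T ^ N * e * c.bfCut t z / c.om t z.2 = T ^ N * e / c.om t z.2 * c.bfCut t z by ring,
      mul_pow, div_pow, div_pow]
    refine mul_le_mul_of_nonneg_right ?_ (sq_nonneg _)
    gcongr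
    exact (c.bxom_lower t z.2).1
  linarith

theorem bfG_cont {t : ℝ} {u b : ℝ × ℝ → ℝ} (hu : ContDiff ℝ ∞ u) (hb : ContDiff ℝ ∞ b)
    (n N : ℕ) : Continuous (c.bfG t u b n N) := by
  have := c.om_cont t
  have := c.bfCut_cont t
  have := bxLowJ_cont hu hb n
  have := (bxSmooth_iter hu n).continuous
  unfold bfG
  fun_prop

theorem bfG_nonneg {t : ℝ} (ht : 0 < t) (u b : ℝ × ℝ → ℝ) (n N : ℕ) (z : ℝ × ℝ) :
    0 ≤ c.bfG t u b n N z := by
  have := c.om_pos ht z.2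
  have := c.sA_pos ht
  have := c.ε_pos ht
  have := c.bxδ_pos ht
  have := lowJ_nonneg u b n z
  have := c.bfCut_nonneg t z
  unfold bfG
  positivity

/-- The integrals which enter the pairing at the top level. -/
theorem bf_integrals (hP : 2 ≤ c.Pe) (hQ : c.Pe + 4 ≤ c.Qe) (n N M : ℕ) (hn : n = c.j + 4) :
    ∀ᶠ t in 𝓝[>] (0 : ℝ), ∀ u b : ℝ × ℝ → ℝ, ContDiff ℝ ∞ u → ContDiff ℝ ∞ b →
      (∀ q ≤ n, ∫ z in c.rect t 0, c.lev t u b q z ≤ ((t⁻¹) ^ M * c.rBd t q) ^ 2) →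
      ∫ z in c.rect t 0, (dY (dX^[n] u) z ^ 2 + c.W t z.2 * dX (dX^[n] u) z ^ 2) ≤
          ((t⁻¹) ^ (M + 4 + 5 * c.Qe)) ^ 2 ∧
      ∫ z in c.rect t 0, c.bfG t u b n N z ^ 2 / c.W t z.2 ≤
          ((t⁻¹) ^ (M + N + 17 + 5 * c.Qe)) ^ 2 := by
  filter_upwards [bxEv_pos, c.rBd_top hP hQ, c.rect_area, c.δ_inv_le,
    bxEv_T (300 + 192 * (c.K * (c.K + 1)))] with t ⟨ht, ht1⟩ hr har hδi hT u b hu hb hlev
  set T := t⁻¹ with hTdef
  have hT1 : 1 ≤ T := (one_le_inv₀ ht).2 ht1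
  have hK := c.one_le_K
  have hKK : 0 ≤ c.K * (c.K + 1) := by positivity
  set H := T ^ (M + 4 + 5 * c.Qe) with hH
  have hL : ∀ q ≤ n, ∫ z in c.rect t 0, c.lev t u b q z ≤ H ^ 2 := fun q hq => by
    refine (hlev q hq).trans ?_
    have := c.rBd_ge_one ht q
    gcongr
    rw [hH, show M + 4 + 5 * c.Qe = M + (4 + (2 * 3 - 1) * c.Qe) by omega, pow_add T M]
    exact mul_le_mul_of_nonneg_left (hr 3 le_rfl q (by omega)) (pow_nonneg (by linarith) _)
  have hlc : ∀ q, IntegrableOn (c.lev t u b q) (c.rect t 0) := fun q =>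
    c.intOn (c.lev_cont hu hb t q) t 0
  constructor
  · refine (bxSetInt_le c ?_ (hlc n) fun z _ => ?_).trans (hL n le_rfl)
    · exact ((bxSmooth_dY (bxSmooth_iter hu n)).continuous.pow 2).add
        ((c.W_cont t).mul ((bxSmooth_dX (bxSmooth_iter hu n)).continuous.pow 2))
    · rw [dY_dX_iterate_comm hu, ← Function.iterate_succ_apply' dX n u]
      have := sq_nonneg (dX^[n] u z)
      have := sq_nonneg (dX^[n] b z)
      have := sq_nonneg (dX^[n - 1] (dY (dY u)) z)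
      unfold lev; linarith
  · set X := M + N + 16 + 5 * c.Qe with hX
    set e := c.ε t / c.δ t ^ n with he
    set F1 : ℝ × ℝ → ℝ := fun z =>
      c.lev t u b n z + 12 * ∑ m ∈ Finset.range 4, c.lev t u b (n - 1 - m) z with hF1
    have hsum : IntegrableOn (fun z => ∑ m ∈ Finset.range 4, c.lev t u b (n - 1 - m) z)
        (c.rect t 0) := c.intOn (continuous_finsetSum _ fun m _ => c.lev_cont hu hb t _) t 0
    have i1 : IntegrableOn F1 (c.rect t 0) := (hlc n).add (hsum.const_mul 12)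
    have i1' : IntegrableOn (fun z => 6 * (T ^ 10) ^ 2 * F1 z) (c.rect t 0) := i1.const_mul _
    have i2 : IntegrableOn (fun _ => 3 * (T ^ N) ^ 2) (c.rect t 0) :=
      c.intOn continuous_const t 0
    have i3 : IntegrableOn (fun z => 3 * (T ^ N * e / c.sa t) ^ 2 * c.bfCut t z ^ 2)
        (c.rect t 0) := c.intOn (continuous_const.mul ((c.bfCut_cont t).pow 2)) t 0
    have i12 : IntegrableOn (fun z => 6 * (T ^ 10) ^ 2 * F1 z + 3 * (T ^ N) ^ 2) (c.rect t 0) :=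
      i1'.add i2
    refine (bxSetInt_le c (((c.bfG_cont hu hb n N).pow 2).div (c.W_cont t)
      fun z => (c.W_pos ht _).ne') (i12.add i3) fun z _ => c.bfG_sq ht ht1 u b n N z).trans ?_
    have hF : ∫ z in c.rect t 0, F1 z ≤ 49 * H ^ 2 := by
      simp only [hF1]
      rw [integral_add (hlc n) (hsum.const_mul 12), integral_const_mul,
        integral_finsetSum _ fun m _ => hlc _]
      have : ∑ m ∈ Finset.range 4, ∫ z in c.rect t 0, c.lev t u b (n - 1 - m) z ≤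
          ∑ _m ∈ Finset.range 4, H ^ 2 := Finset.sum_le_sum fun m _ => hL _ (by omega)
      rw [Finset.sum_const, Finset.card_range, nsmul_eq_mul] at this
      push_cast at this
      linarith [hL n le_rfl]
    have h1 : ∫ _ in c.rect t 0, (1 : ℝ) ≤ T := (har 0 le_rfl zero_le_one).1
    have hd := c.bxδ_pos ht
    have hsa := c.sa_pos ht
    have he' : e * c.δ t / c.sa t ≤ T ^ (5 * c.Qe + 2) := by
      have e3 : e * c.δ t / c.sa t = ((c.δ t)⁻¹) ^ 2 * T ^ c.Qe := by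
        rw [he, hn, hTdef, ε, sa, inv_pow, inv_pow, pow_add (c.δ t) c.j 4, pow_add (c.δ t) c.j 1]
        field_simp
      rw [e3]
      calc ((c.δ t)⁻¹) ^ 2 * T ^ c.Qe ≤ (T ^ (2 * c.Qe - c.Pe + 1)) ^ 2 * T ^ c.Qe := by gcongr
        _ ≤ _ := by rw [← pow_mul, ← pow_add]; exact pow_le_pow_right₀ hT1 (by omega)
    have hpow : ∀ k ≤ X, (T ^ k) ^ 2 ≤ (T ^ X) ^ 2 := fun k hk =>
      pow_le_pow_left₀ (by positivity) (pow_le_pow_right₀ hT1 hk) 2
    have b1 : ∫ z in c.rect t 0, 6 * (T ^ 10) ^ 2 * F1 z ≤ 294 * (T ^ X) ^ 2 := by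
      rw [integral_const_mul]
      calc _ ≤ 6 * (T ^ 10) ^ 2 * (49 * H ^ 2) := by gcongr
        _ = 294 * (T ^ (10 + (M + 4 + 5 * c.Qe))) ^ 2 := by rw [hH, pow_add]; ring
        _ ≤ _ := mul_le_mul_of_nonneg_left (hpow _ (by omega)) (by norm_num)
    have b2 : ∫ _ in c.rect t 0, 3 * (T ^ N) ^ 2 ≤ 3 * (T ^ X) ^ 2 := by
      rw [show (fun _ : ℝ × ℝ => 3 * (T ^ N) ^ 2) = fun _ => 3 * (T ^ N) ^ 2 * (1 : ℝ) from
        funext fun _ => (mul_one _).symm, integral_const_mul]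
      calc _ ≤ 3 * (T ^ N) ^ 2 * T ^ 2 := by
            gcongr; exact h1.trans (le_self_pow₀ hT1 two_ne_zero)
        _ = 3 * (T ^ (N + 1)) ^ 2 := by ring
        _ ≤ _ := mul_le_mul_of_nonneg_left (hpow _ (by omega)) (by norm_num)
    have b3 : ∫ z in c.rect t 0, 3 * (T ^ N * e / c.sa t) ^ 2 * c.bfCut t z ^ 2 ≤
        192 * (c.K * (c.K + 1)) * (T ^ X) ^ 2 := by
      rw [integral_const_mul]
      calc _ ≤ 3 * (T ^ N * e / c.sa t) ^ 2 * (64 * (c.K * (c.K + 1)) * c.δ t ^ 2) :=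
            mul_le_mul_of_nonneg_left (c.bfCut_integral ht 0) (by positivity)
        _ = 192 * (c.K * (c.K + 1)) * (T ^ N * (e * c.δ t / c.sa t)) ^ 2 := by ring
        _ ≤ 192 * (c.K * (c.K + 1)) * (T ^ (N + (5 * c.Qe + 2))) ^ 2 := by
            have : 0 ≤ e * c.δ t / c.sa t := by have := c.ε_pos ht; positivity
            rw [pow_add T N]; gcongr
        _ ≤ _ := mul_le_mul_of_nonneg_left (hpow _ (by omega)) (by positivity)
    calc _ = (∫ z in c.rect t 0, 6 * (T ^ 10) ^ 2 * F1 z) +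
          (∫ _ in c.rect t 0, 3 * (T ^ N) ^ 2) +
          ∫ z in c.rect t 0, 3 * (T ^ N * e / c.sa t) ^ 2 * c.bfCut t z ^ 2 := by
          rw [← integral_add i1' i2, ← integral_add i12 i3]
          rfl
      _ ≤ (300 + 192 * (c.K * (c.K + 1))) * (T ^ X) ^ 2 := by nlinarith [sq_nonneg (T ^ X)]
      _ ≤ T * (T ^ X) ^ 2 := by gcongr
      _ ≤ T ^ 2 * (T ^ X) ^ 2 := by gcongr; exact le_self_pow₀ hT1 two_ne_zero
      _ = _ := by rw [hX]; ring

end Par

end Vale.Agent.P229
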