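import Vale.Agent.P229.BoxPairEst

/-!
# P229: pairing of the linear equation with the quasimode of the lens
-/

open scoped ContDiff Topology
open MeasureTheory Set Filter

namespace Vale.Agent.P229

namespace Par

variable (c : Par) (t : ℝ)

/-- The precise form of the coefficients near the centre. -/
structure CentBd (μ : ℕ) (K1 K2 : ℝ × ℝ → ℝ) : Prop where
  bd : ∀ z : ℝ × ℝ, |z.1| ≤ 2 * c.width t μ → |z.2| ≤ t / 2 →
    |K2 z - (c.sA t ^ 2 * z.2 ^ 2 - c.sa t ^ 2) / 4| ≤ t⁻¹ *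
        (c.W t z.2 * (|z.1| + |z.2|) + Set.indicator (c.bumpSet t) (fun _ => c.ε t) z) ∧
    |dX K2 z| ≤ t⁻¹ *
        (c.W t z.2 + Set.indicator (c.bumpSet t) (fun _ => c.ε t / c.δ t) z) ∧
    |dX (dX K2) z| ≤ t⁻¹ *
        (c.W t z.2 + Set.indicator (c.bumpSet t) (fun _ => c.ε t / c.δ t ^ 2) z) ∧
    |dX K1 z| ≤ t⁻¹ *
        (c.W t z.2 + Set.indicator (c.bumpSet t) (fun _ => c.ε t / c.δ t) z)

end Par

/-- The operator moved onto the test function. -/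
theorem bpPair_identity {K1 K2 B1 B0 w ψ : ℝ × ℝ → ℝ} (h1 : ContDiff ℝ ∞ K1)
    (h2 : ContDiff ℝ ∞ K2) (hB1 : Continuous B1) (hB0 : Continuous B0) (hw : ContDiff ℝ ∞ w)
    (hψ : ContDiff ℝ ∞ ψ) (hc : HasCompactSupport ψ) :
    ∫ z, ψ z * opL K1 K2 B1 B0 w z =
      (∫ z, (dY (dY ψ) z + dX (dX (fun v => ψ v * K2 v)) z) * w z) +
      (-2 * ∫ z, dX (fun v => ψ v * K1 v) z * dY w z) +
      (∫ z, ψ z * B1 z * dX w z) + ∫ z, ψ z * B0 z * dY w z := by
  have hK2ψ : ContDiff ℝ ∞ (fun v => ψ v * K2 v) := hψ.mul h2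
  have hK1ψ : ContDiff ℝ ∞ (fun v => ψ v * K1 v) := hψ.mul h1
  have hc2 : HasCompactSupport (fun v => ψ v * K2 v) := hc.mul_right
  have hc1 : HasCompactSupport (fun v => ψ v * K1 v) := hc.mul_right
  have s1 : ∀ {f : ℝ × ℝ → ℝ}, ContDiff ℝ ∞ f → ContDiff ℝ 1 f := fun hf => hf.of_le (by simp)
  have e1 : ∫ z, ψ z * dY (dY w) z = ∫ z, dY (dY ψ) z * w z := by
    rw [integral_mul_dY (s1 hψ) (s1 (contDiff_dY_top hw)) (.inl hc),
      integral_mul_dY (s1 (contDiff_dY_top hψ)) (s1 hw) (.inl (hasCompactSupport_dY hc)), neg_neg]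
  have e2 : ∫ z, ψ z * K2 z * dX (dX w) z = ∫ z, dX (dX fun v => ψ v * K2 v) z * w z := by
    rw [integral_mul_dX (f := fun v => ψ v * K2 v) (s1 hK2ψ) (s1 (contDiff_dX_top hw)) (.inl hc2),
      integral_mul_dX (s1 (contDiff_dX_top hK2ψ)) (s1 hw) (.inl (hasCompactSupport_dX hc2)),
      neg_neg]
  have e3 : ∫ z, ψ z * K1 z * dY (dX w) z = -∫ z, dX (fun v => ψ v * K1 v) z * dY w z := by
    rw [← dX_dY_comm hw]
    exact integral_mul_dX (f := fun v => ψ v * K1 v) (s1 hK1ψ) (s1 (contDiff_dY_top hw)) (.inl hc1)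
  have i : ∀ {f : ℝ × ℝ → ℝ}, Continuous f → (∀ z, ψ z = 0 → f z = 0) → Integrable f := by
    intro f hf h0
    exact integrable_of_compact hf (HasCompactSupport.intro hc fun z hz =>
      h0 z (image_eq_zero_of_notMem_tsupport hz))
  have c1 := (contDiff_dY_top (contDiff_dY_top hw)).continuous
  have c2 := (contDiff_dY_top (contDiff_dX_top hw)).continuous
  have c3 := (contDiff_dX_top (contDiff_dX_top hw)).continuous
  have c4 := (contDiff_dX_top hw).continuous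
  have c5 := (contDiff_dY_top hw).continuous
  have i1 : Integrable fun z => ψ z * dY (dY w) z :=
    i (hψ.continuous.mul c1) fun z h => by simp [h]
  have i2 : Integrable fun z => 2 * (ψ z * K1 z * dY (dX w) z) :=
    i (continuous_const.mul ((hψ.continuous.mul h1.continuous).mul c2)) fun z h => by simp [h]
  have i3 : Integrable fun z => ψ z * K2 z * dX (dX w) z :=
    i ((hψ.continuous.mul h2.continuous).mul c3) fun z h => by simp [h]
  have i4 : Integrable fun z => ψ z * B1 z * dX w z :=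
    i ((hψ.continuous.mul hB1).mul c4) fun z h => by simp [h]
  have i5 : Integrable fun z => ψ z * B0 z * dY w z :=
    i ((hψ.continuous.mul hB0).mul c5) fun z h => by simp [h]
  have i6 : Integrable fun z => dY (dY ψ) z * w z :=
    integrable_of_compact ((contDiff_dY_top (contDiff_dY_top hψ)).continuous.mul hw.continuous)
      (hasCompactSupport_dY (hasCompactSupport_dY hc)).mul_right
  have i7 : Integrable fun z => dX (dX fun v => ψ v * K2 v) z * w z :=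
    integrable_of_compact ((contDiff_dX_top (contDiff_dX_top hK2ψ)).continuous.mul hw.continuous)
      (hasCompactSupport_dX (hasCompactSupport_dX hc2)).mul_right
  have i12 : Integrable fun z => ψ z * dY (dY w) z + 2 * (ψ z * K1 z * dY (dX w) z) := i1.add i2
  have i123 : Integrable fun z => ψ z * dY (dY w) z + 2 * (ψ z * K1 z * dY (dX w) z) +
      ψ z * K2 z * dX (dX w) z := i12.add i3
  have i1234 : Integrable fun z => ψ z * dY (dY w) z + 2 * (ψ z * K1 z * dY (dX w) z) +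
      ψ z * K2 z * dX (dX w) z + ψ z * B1 z * dX w z := i123.add i4
  calc ∫ z, ψ z * opL K1 K2 B1 B0 w z
      = ∫ z, (ψ z * dY (dY w) z + 2 * (ψ z * K1 z * dY (dX w) z) + ψ z * K2 z * dX (dX w) z +
          ψ z * B1 z * dX w z + ψ z * B0 z * dY w z) := by
        congr 1; funext z; simp only [opL]; ring
    _ = _ := by
        rw [integral_add i1234 i5, integral_add i123 i4, integral_add i12 i3, integral_add i1 i2,
          integral_const_mul, e1, e2, e3]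
        simp_rw [add_mul]
        rw [integral_add i6 i7]
        ring

namespace BpScale

variable {c : Par} {t : ℝ} {μ : ℕ}

theorem indicator_eq (z : ℝ × ℝ) (v : ℝ) :
    (c.bumpSet t).indicator (fun _ => v) z =
      v * (c.bumpSet t).indicator (fun _ => (1 : ℝ)) z := by
  by_cases h : z ∈ c.bumpSet t <;> simp [h]

/-- The bound on the function paired with `w`. -/
theorem main_bound (h : BpScale c t μ) {C g ψ ψp ψpp e ind m D1 D2 D3 : ℝ} {z : ℝ × ℝ}
    (hC : 1 ≤ C) (hg : g = c.bpGauss t z.2) (he : e = c.bpEnv t z)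
    (hind : ind = (c.bumpSet t).indicator (fun _ => (1 : ℝ)) z) (hz : |z.1| ≤ 2 * c.width t μ)
    (hψ : |ψ| ≤ g) (hψp : |ψp| ≤ C * c.freq t * g) (hψpp : |ψpp| ≤ C * c.freq t ^ 2 * g)
    (hm : |m| ≤ C * (c.freq t / c.width t μ * (c.W t z.2 * g) +
      (t⁻¹) ^ 5 / c.sA t * (c.om t z.2 * e)))
    (hε : 0 ≤ c.ε t)
    (h1 : |D1| ≤ t⁻¹ * (c.W t z.2 * (|z.1| + |z.2|) + c.ε t * ind))
    (h2 : |D2| ≤ t⁻¹ * (c.W t z.2 + c.ε t / c.δ t * ind))
    (h3 : |D3| ≤ t⁻¹ * (c.W t z.2 + c.ε t / c.δ t ^ 2 * ind)) :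
    |m + D1 * ψpp + 2 * D2 * ψp + D3 * ψ| ≤
      (C * (32 * c.freq t * c.sa t / c.width t μ + (t⁻¹) ^ 5 / c.sA t +
          96 * c.freq t ^ 2 * t⁻¹ * c.sa t * c.ym t + 64 * c.freq t * t⁻¹ * c.sa t +
          32 * t⁻¹ * c.sa t) * e +
        C * t⁻¹ / c.sa t * (c.freq t ^ 2 * c.ε t + 2 * c.freq t * (c.ε t / c.δ t) +
          c.ε t / c.δ t ^ 2) * ind) * c.om t z.2 := by
  obtain ⟨-, -, gW, gWy, -⟩ := h.gauss_bounds z
  rw [← hg, ← he] at gW gWy
  have hf := h.freq_pos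
  have hsa := h.sa_pos
  have hom := h.om_pos z.2
  have hW := h.W_pos z.2
  have ht := h.t_pos
  have hδ : 0 < c.δ t := c.bxδ_pos ht
  have hΔ := h.width_pos
  have he0 : 0 < e := he ▸ Real.exp_pos _
  have hg0 : 0 ≤ g := hg ▸ (Real.exp_pos _).le
  have hg1 : g ≤ 1 := by
    rw [hg, h.gauss_eq]; exact Real.exp_le_one_iff.2 (by rw [neg_nonpos]; positivity)
  have hind0 : 0 ≤ ind := hind ▸ indicator_nonneg (fun _ _ => zero_le_one) z
  have hbump : ∀ v, 0 ≤ v → v * ind * g ≤ c.om t z.2 * (v / c.sa t * ind) := by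
    intro v hv
    calc v * ind * g ≤ v * ind := mul_le_of_le_one_right (by positivity) hg1
      _ = c.sa t * (v / c.sa t * ind) := by field_simp
      _ ≤ _ := mul_le_mul_of_nonneg_right (h.sa_le_om _) (by positivity)
  have hWz : c.W t z.2 * (|z.1| + |z.2|) * g ≤
      c.om t z.2 * (96 * c.sa t * c.ym t * e) := by
    have : c.W t z.2 * |z.1| * g ≤ 2 * c.ym t * (c.om t z.2 * (32 * c.sa t * e)) := by
      rw [show c.W t z.2 * |z.1| * g = |z.1| * (c.W t z.2 * g) by ring]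
      exact mul_le_mul (hz.trans (by linarith [h.width_le_ym])) gW (by positivity)
        (by linarith [h.ym_pos])
    nlinarith
  refine (abs_add_le _ _).trans ?_
  refine (add_le_add (abs_add_le _ _) le_rfl).trans ?_
  refine (add_le_add (add_le_add (abs_add_le _ _) le_rfl) le_rfl).trans ?_
  rw [abs_mul, abs_mul (2 * D2), abs_mul 2, abs_two, abs_mul]
  have b0 : |m| ≤ C * ((32 * c.freq t * c.sa t / c.width t μ + (t⁻¹) ^ 5 / c.sA t) * e) *
      c.om t z.2 := by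
    refine hm.trans ?_
    calc C * (c.freq t / c.width t μ * (c.W t z.2 * g) + (t⁻¹) ^ 5 / c.sA t * (c.om t z.2 * e))
        ≤ C * (c.freq t / c.width t μ * (c.om t z.2 * (32 * c.sa t * e)) +
            (t⁻¹) ^ 5 / c.sA t * (c.om t z.2 * e)) := by gcongr
      _ = _ := by ring
  have b1 : |D1| * |ψpp| ≤ C * c.freq t ^ 2 * t⁻¹ *
      (96 * c.sa t * c.ym t * e + c.ε t / c.sa t * ind) * c.om t z.2 := by
    refine (mul_le_mul h1 hψpp (abs_nonneg _) (by positivity)).trans ?_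
    calc _ = C * c.freq t ^ 2 * t⁻¹ *
          (c.W t z.2 * (|z.1| + |z.2|) * g + c.ε t * ind * g) := by ring
      _ ≤ C * c.freq t ^ 2 * t⁻¹ * (c.om t z.2 * (96 * c.sa t * c.ym t * e) +
          c.om t z.2 * (c.ε t / c.sa t * ind)) :=
        mul_le_mul_of_nonneg_left (add_le_add hWz (hbump _ hε)) (by positivity)
      _ = _ := by ring
  have b2 : 2 * |D2| * |ψp| ≤ 2 * C * c.freq t * t⁻¹ *
      (32 * c.sa t * e + c.ε t / c.δ t / c.sa t * ind) * c.om t z.2 := by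
    refine (mul_le_mul (mul_le_mul_of_nonneg_left h2 zero_le_two) hψp (abs_nonneg _)
      (by positivity)).trans ?_
    calc _ = 2 * C * c.freq t * t⁻¹ * (c.W t z.2 * g + c.ε t / c.δ t * ind * g) := by ring
      _ ≤ 2 * C * c.freq t * t⁻¹ * (c.om t z.2 * (32 * c.sa t * e) +
          c.om t z.2 * (c.ε t / c.δ t / c.sa t * ind)) :=
        mul_le_mul_of_nonneg_left (add_le_add gW (hbump _ (by positivity))) (by positivity)
      _ = _ := by ring
  have b3 : |D3| * |ψ| ≤ C * t⁻¹ *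
      (32 * c.sa t * e + c.ε t / c.δ t ^ 2 / c.sa t * ind) * c.om t z.2 := by
    refine (mul_le_mul h3 hψ (abs_nonneg _) (by positivity)).trans ?_
    calc _ = 1 * t⁻¹ * (c.W t z.2 * g + c.ε t / c.δ t ^ 2 * ind * g) := by ring
      _ ≤ C * t⁻¹ * (c.om t z.2 * (32 * c.sa t * e) +
          c.om t z.2 * (c.ε t / c.δ t ^ 2 / c.sa t * ind)) :=
        mul_le_mul (mul_le_mul_of_nonneg_right hC (by positivity))
          (add_le_add gW (hbump _ (by positivity))) (by positivity) (by positivity)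
      _ = _ := by ring
  refine (add_le_add (add_le_add (add_le_add b0 b1) b2) b3).trans_eq ?_
  ring

/-- The size of the bound of `main_bound`. -/
theorem main_scalar (h : BpScale c t μ) (hj : 12 ≤ c.j) {C : ℝ} (hC : 1 ≤ C) :
    6 * (C * (32 * c.freq t * c.sa t / c.width t μ + (t⁻¹) ^ 5 / c.sA t +
          96 * c.freq t ^ 2 * t⁻¹ * c.sa t * c.ym t + 64 * c.freq t * t⁻¹ * c.sa t +
          32 * t⁻¹ * c.sa t)) * (c.ym t * t ^ μ) +
      8 * (c.K * (c.K + 1)) * (C * t⁻¹ / c.sa t * (c.freq t ^ 2 * c.ε t +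
        2 * c.freq t * (c.ε t / c.δ t) + c.ε t / c.δ t ^ 2)) * c.δ t ≤
      C * (4000 + 100 * (c.K * (c.K + 1))) * (t⁻¹) ^ (c.Qe + μ + 5) := by
  have ht := h.t_pos
  have hsa := h.sa_pos
  have hsA := h.sA_pos
  have hym := h.ym_pos
  have hf := h.freq_pos
  have hδ : 0 < c.δ t := c.bxδ_pos ht
  have hK := c.one_le_K
  set T := t⁻¹ with hT
  have hT1 : 1 ≤ T := (one_le_inv₀ ht).2 h.t_le
  set X := T ^ (c.Qe + μ + 5) with hX
  have hp : ∀ k ≤ c.Qe + μ + 5, T ^ k ≤ X := fun k hk => pow_le_pow_right₀ hT1 hk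
  have htμ : t ^ μ ≤ 1 := pow_le_one₀ ht.le h.t_le
  have hsaμ : (c.sa t * t ^ μ)⁻¹ = T ^ (c.Qe + μ) := by
    rw [Par.sa, ← pow_add, hT, inv_pow]
  have a1 : c.freq t * c.sa t / c.width t μ * (c.ym t * t ^ μ) ≤ 2 * X := by
    calc c.freq t * c.sa t / c.width t μ * (c.ym t * t ^ μ)
        = 2 * c.sA t * (c.sa t * t ^ μ)⁻¹ := by
          rw [Par.width, Par.freq]; field_simp; ring
      _ ≤ 2 * 1 * X := by
          rw [hsaμ]; gcongr
          · exact h.sA_le_one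
          · exact hp _ (by omega)
      _ = _ := by ring
  have a2 : T ^ 5 / c.sA t * (c.ym t * t ^ μ) ≤ X := by
    calc T ^ 5 / c.sA t * (c.ym t * t ^ μ) = T ^ 5 * (c.ym t / c.sA t) * t ^ μ := by ring
      _ ≤ X * 1 * 1 := by
          gcongr
          · exact hp _ (by omega)
          · exact (div_le_one hsA).2 h.ym_le_sA
      _ = X := by ring
  have a3 : c.freq t ^ 2 * T * c.sa t * c.ym t * (c.ym t * t ^ μ) ≤ 4 * X := by
    calc c.freq t ^ 2 * T * c.sa t * c.ym t * (c.ym t * t ^ μ)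
        = 4 * (T * (c.sa t)⁻¹) * t ^ μ := by
          rw [Par.freq, ← h.sA_mul_ym]; field_simp; ring
      _ ≤ 4 * X * 1 := by
          gcongr
          rw [Par.sa, ← inv_pow, ← hT, ← pow_succ']
          exact hp _ (by omega)
      _ = _ := by ring
  have a4 : c.freq t * T * c.sa t * (c.ym t * t ^ μ) ≤ 2 * X := by
    calc c.freq t * T * c.sa t * (c.ym t * t ^ μ) = 2 * T * t ^ μ := by
          rw [Par.freq, ← h.sA_mul_ym]; field_simp
      _ ≤ 2 * X * 1 := by gcongr; simpa using hp 1 (by omega)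
      _ = _ := by ring
  have a5 : T * c.sa t * (c.ym t * t ^ μ) ≤ X := by
    calc T * c.sa t * (c.ym t * t ^ μ) ≤ X * 1 * (1 * 1) := by
          gcongr
          · simpa using hp 1 (by omega)
          · exact h.sa_le_one
          · exact h.ym_le_t.trans h.t_le
      _ = X := by ring
  have hδsa : c.δ t ≤ c.sa t :=
    h.δ_le.trans (mul_le_of_le_one_right hsa.le (h.ym_le_t.trans h.t_le))
  have hfδ : c.freq t * c.δ t ≤ 2 := by
    calc c.freq t * c.δ t ≤ c.freq t * (c.sa t * c.ym t) :=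
          mul_le_mul_of_nonneg_left h.δ_le hf.le
      _ = 2 := by rw [Par.freq, ← h.sA_mul_ym]; field_simp
  have hδ1 : c.δ t ≤ 1 := hδsa.trans h.sa_le_one
  have hε : c.ε t ≤ c.δ t ^ 3 := pow_le_pow_of_le_one hδ.le hδ1 (by omega)
  have hε0 : 0 ≤ c.ε t := pow_nonneg hδ.le _
  have a6 : T / c.sa t * (c.freq t ^ 2 * c.ε t + 2 * c.freq t * (c.ε t / c.δ t) +
      c.ε t / c.δ t ^ 2) * c.δ t ≤ 9 * X := by
    calc _ ≤ T / c.sa t * (c.freq t ^ 2 * c.δ t ^ 3 + 2 * c.freq t * (c.δ t ^ 3 / c.δ t) +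
          c.δ t ^ 3 / c.δ t ^ 2) * c.δ t := by gcongr
      _ = T * (c.δ t / c.sa t) * c.δ t *
            ((c.freq t * c.δ t) ^ 2 + 2 * (c.freq t * c.δ t) + 1) := by field_simp
      _ ≤ X * 1 * 1 * (2 ^ 2 + 2 * 2 + 1) := by
          gcongr
          · simpa using hp 1 (by omega)
          · exact (div_le_one hsa).2 hδsa
      _ = _ := by ring
  calc _ = C * (6 * (32 * (c.freq t * c.sa t / c.width t μ * (c.ym t * t ^ μ)) +
        T ^ 5 / c.sA t * (c.ym t * t ^ μ) +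
        96 * (c.freq t ^ 2 * T * c.sa t * c.ym t * (c.ym t * t ^ μ)) +
        64 * (c.freq t * T * c.sa t * (c.ym t * t ^ μ)) +
        32 * (T * c.sa t * (c.ym t * t ^ μ))) +
      8 * (c.K * (c.K + 1)) * (T / c.sa t * (c.freq t ^ 2 * c.ε t +
        2 * c.freq t * (c.ε t / c.δ t) + c.ε t / c.δ t ^ 2) * c.δ t)) := by ring
    _ ≤ C * (6 * (32 * (2 * X) + X + 96 * (4 * X) + 64 * (2 * X) + 32 * X) +
          8 * (c.K * (c.K + 1)) * (9 * X)) := by gcongr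
    _ ≤ _ := by
        nlinarith [mul_pos (lt_of_lt_of_le one_pos hC) (by positivity : 0 < X),
          mul_pos (mul_pos (lt_of_lt_of_le one_pos hC) (by positivity : 0 < X))
            (by positivity : 0 < c.K * (c.K + 1))]

/-- The bounds on the quasimode used in the pairing. -/
def WaveBd (c : Par) (t : ℝ) (μ : ℕ) (C : ℝ) (ψ : ℝ × ℝ → ℝ) : Prop :=
  ContDiff ℝ ∞ ψ ∧ (∀ z, z ∉ bpBox c t μ → ψ z = 0) ∧ ∀ z : ℝ × ℝ,
    |ψ z| ≤ c.bpGauss t z.2 ∧
    |dX ψ z| ≤ C * c.freq t * c.bpGauss t z.2 ∧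
    |dX (dX ψ) z| ≤ C * c.freq t ^ 2 * c.bpGauss t z.2 ∧
    |dY (dY ψ) z + (c.sA t ^ 2 * z.2 ^ 2 - c.sa t ^ 2) / 4 * dX (dX ψ) z| ≤
      C * (c.freq t / c.width t μ * (c.W t z.2 * c.bpGauss t z.2) +
        (t⁻¹) ^ 5 / c.sA t * (c.om t z.2 * c.bpEnv t z))

theorem mem_box {z : ℝ × ℝ} (hz : z ∈ bpBox c t μ) :
    |z.1| ≤ 2 * c.width t μ ∧ |z.2| ≤ t / 2 := by
  rw [bpBox, mem_prod, mem_Icc, mem_Icc, ← abs_le, ← abs_le] at hz; exact hz

theorem continuous_om (c : Par) (t : ℝ) : Continuous fun z : ℝ × ℝ => c.om t z.2 := by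
  unfold Par.om Par.W; fun_prop

/-- The pairing with `w`. -/
theorem main_pair (h : BpScale c t μ) {C : ℝ} (hC : 1 ≤ C) {ψ : ℝ × ℝ → ℝ} (hψ : WaveBd c t μ C ψ)
    {K1 K2 B1 B0 w : ℝ × ℝ → ℝ} (hK : c.CoefBd t K1 K2 B1 B0) (hw : ContDiff ℝ ∞ w)
    (hj : 12 ≤ c.j) (hcent : c.CentBd t μ K1 K2) {Hw : ℝ} (hHw : 0 ≤ Hw)
    (qw : ∫ z in c.rect t 0, (c.om t z.2 * w z) ^ 2 ≤ Hw ^ 2) :
    |∫ z, (dY (dY ψ) z + dX (dX fun v => ψ v * K2 v) z) * w z| ≤
      C * (4000 + 100 * (c.K * (c.K + 1))) * (t⁻¹) ^ (c.Qe + μ + 5) * Hw := by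
  obtain ⟨sψ, hψ0, hwave⟩ := hψ
  have hbox : IsClosed (bpBox c t μ) := (isCompact_bpBox c t μ).isClosed
  have hsub := h.box_subset_rect
  have hmem : ∀ z ∈ bpBox c t μ, |z.1| ≤ 2 * c.width t μ ∧ |z.2| ≤ t / 2 := fun z hz => mem_box hz
  have hδ : 0 < c.δ t := c.bxδ_pos h.t_pos
  have hε : 0 ≤ c.ε t := pow_nonneg hδ.le _
  have hom : ∀ y, 0 < c.om t y := h.om_pos
  have com := continuous_om c t
  have henv : ∀ z, 0 ≤ c.bpEnv t z := fun z => (Real.exp_pos _).le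
  have hsA := h.sA_pos
  have hsa := h.sa_pos
  have hym := h.ym_pos
  have hf := h.freq_pos
  set T := t⁻¹ with hT
  have hT0 : 0 < T := inv_pos.2 h.t_pos
  refine (h.pair_bound (q := fun z => c.om t z.2 * w z)
    (A := C * (32 * c.freq t * c.sa t / c.width t μ + T ^ 5 / c.sA t +
        96 * c.freq t ^ 2 * T * c.sa t * c.ym t + 64 * c.freq t * T * c.sa t + 32 * T * c.sa t))
    (B := C * T / c.sa t * (c.freq t ^ 2 * c.ε t + 2 * c.freq t * (c.ε t / c.δ t) +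
        c.ε t / c.δ t ^ 2)) (by have := h.width_pos; positivity) (by positivity) hHw
    (com.mul hw.continuous) (fun z hz => ?_) (fun z hz => ?_) qw).trans
    (mul_le_mul_of_nonneg_right (h.main_scalar hj hC) hHw)
  · rw [dY_eq_zero_off hbox (fun v hv => dY_eq_zero_off hbox hψ0 hv) hz,
      dX_eq_zero_off hbox (fun v hv => dX_eq_zero_off hbox
        (fun u hu => by simp [hψ0 u hu]) hv) hz, add_zero, zero_mul]
  · obtain ⟨b0, b1, b2, b3⟩ := hwave z
    obtain ⟨d1, d2, d3, -⟩ := hcent.bd z (hmem z hz).1 (hmem z hz).2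
    rw [BpScale.indicator_eq] at d1 d2 d3
    have dψ := (sψ.differentiable (by simp))
    have dK := (hK.sm2.differentiable (by simp))
    have dψ' := ((contDiff_dX_top sψ).differentiable (by simp))
    have dK' := ((contDiff_dX_top hK.sm2).differentiable (by simp))
    have eXX : dX (dX fun v => ψ v * K2 v) z =
        dX (dX ψ) z * K2 z + 2 * dX ψ z * dX K2 z + ψ z * dX (dX K2) z := by
      rw [show (dX fun v => ψ v * K2 v) = fun v => dX ψ v * K2 v + ψ v * dX K2 v from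
        funext fun v => dX_mul (dψ v) (dK v),
        dX_add (f := fun v => dX ψ v * K2 v) (g := fun v => ψ v * dX K2 v)
          ((dψ' z).mul (dK z)) ((dψ z).mul (dK' z)),
        dX_mul (dψ' z) (dK z), dX_mul (dψ z) (dK' z)]
      ring
    have key := h.main_bound (m := dY (dY ψ) z +
        (c.sA t ^ 2 * z.2 ^ 2 - c.sa t ^ 2) / 4 * dX (dX ψ) z)
      hC rfl rfl rfl (hmem z hz).1 b0 b1 b2 b3 hε d1 d2 d3
    rw [abs_mul, abs_mul, abs_of_pos (hom _), ← mul_assoc]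
    refine mul_le_mul_of_nonneg_right (le_of_eq_of_le ?_ key) (abs_nonneg _)
    rw [eXX]
    congr 1
    ring

/-- The pairing of the mixed term. -/
theorem mixed_pair (h : BpScale c t μ) {C : ℝ} (hC : 1 ≤ C) {ψ : ℝ × ℝ → ℝ} (hψ : WaveBd c t μ C ψ)
    {K1 K2 B1 B0 w : ℝ × ℝ → ℝ} (hK : c.CoefBd t K1 K2 B1 B0) (hw : ContDiff ℝ ∞ w)
    (hcent : c.CentBd t μ K1 K2) {Hc : ℝ} (hHc : 0 ≤ Hc)
    (qy : ∫ z in c.rect t 0, dY w z ^ 2 ≤ Hc ^ 2) :
    |∫ z, dX (fun v => ψ v * K1 v) z * dY w z| ≤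
      (6 * (C * c.freq t * t⁻¹ * (32 * c.sa t ^ 2) + t⁻¹ * (32 * c.sa t ^ 2)) * (c.ym t * t ^ μ) +
        8 * (c.K * (c.K + 1)) * (t⁻¹ * (c.ε t / c.δ t)) * c.δ t) * Hc := by
  obtain ⟨sψ, hψ0, hwave⟩ := hψ
  have hbox : IsClosed (bpBox c t μ) := (isCompact_bpBox c t μ).isClosed
  have hsub := h.box_subset_rect
  have hmem : ∀ z ∈ bpBox c t μ, |z.1| ≤ 2 * c.width t μ ∧ |z.2| ≤ t / 2 := fun z hz => mem_box hz
  have hδ : 0 < c.δ t := c.bxδ_pos h.t_pos
  have hε : 0 ≤ c.ε t := pow_nonneg hδ.le _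
  have hom : ∀ y, 0 < c.om t y := h.om_pos
  have com := continuous_om c t
  have henv : ∀ z, 0 ≤ c.bpEnv t z := fun z => (Real.exp_pos _).le
  have hsA := h.sA_pos
  have hsa := h.sa_pos
  have hym := h.ym_pos
  have hf := h.freq_pos
  set T := t⁻¹ with hT
  have hT0 : 0 < T := inv_pos.2 h.t_pos
  have cy := (contDiff_dY_top hw).continuous
  refine h.pair_bound (by positivity) (by positivity) hHc cy (fun z hz => ?_) (fun z hz => ?_) qy
  · rw [dX_eq_zero_off hbox (fun u hu => by simp [hψ0 u hu]) hz, zero_mul]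
  · obtain ⟨b0, b1, -, -⟩ := hwave z
    obtain ⟨-, -, -, d4⟩ := hcent.bd z (hmem z hz).1 (hmem z hz).2
    rw [BpScale.indicator_eq] at d4
    obtain ⟨-, k1, -⟩ := h.gauss_bounds z
    have hW := h.W_pos z.2
    have kK : |K1 z| ≤ c.W t z.2 * T := (hK.byW z (h.rect_zero_subset_one (hsub hz))).1
    have hg0 : 0 < c.bpGauss t z.2 := Real.exp_pos _
    have hg1 : c.bpGauss t z.2 ≤ 1 := by
      rw [h.gauss_eq]; exact Real.exp_le_one_iff.2 (by rw [neg_nonpos]; positivity)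
    have hi0 : 0 ≤ (c.bumpSet t).indicator (fun _ => (1 : ℝ)) z :=
      indicator_nonneg (fun _ _ => zero_le_one) z
    rw [dX_mul (sψ.differentiable (by simp) z) (hK.sm1.differentiable (by simp) z), abs_mul]
    refine mul_le_mul_of_nonneg_right ?_ (abs_nonneg _)
    refine (abs_add_le _ _).trans ?_
    rw [abs_mul, abs_mul]
    calc |dX ψ z| * |K1 z| + |ψ z| * |dX K1 z|
        ≤ C * c.freq t * c.bpGauss t z.2 * (c.W t z.2 * T) + c.bpGauss t z.2 * (T * (c.W t z.2 +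
            c.ε t / c.δ t * (c.bumpSet t).indicator (fun _ => (1 : ℝ)) z)) :=
          add_le_add (mul_le_mul b1 kK (abs_nonneg _) (by positivity))
            (mul_le_mul b0 d4 (abs_nonneg _) hg0.le)
      _ = (C * c.freq t * T + T) * (c.W t z.2 * c.bpGauss t z.2) + c.bpGauss t z.2 *
            (T * (c.ε t / c.δ t) * (c.bumpSet t).indicator (fun _ => (1 : ℝ)) z) := by ring
      _ ≤ (C * c.freq t * T + T) * (32 * c.sa t ^ 2 * c.bpEnv t z) + 1 *
            (T * (c.ε t / c.δ t) * (c.bumpSet t).indicator (fun _ => (1 : ℝ)) z) := by gcongr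
      _ = _ := by ring

/-- The pairings of the lower order terms. -/
theorem lower_pair (h : BpScale c t μ) {C : ℝ} (_hC : 1 ≤ C) {ψ : ℝ × ℝ → ℝ} (hψ : WaveBd c t μ C ψ)
    {K1 K2 B1 B0 w : ℝ × ℝ → ℝ} (hK : c.CoefBd t K1 K2 B1 B0) (hw : ContDiff ℝ ∞ w)
    {G F : ℝ × ℝ → ℝ} (hG : Continuous G) (hG0 : ∀ z, 0 ≤ G z)
    (hop : ∀ z ∈ c.rect t 0, |opL K1 K2 B1 B0 w z + F z| ≤ G z) {Hc HG : ℝ} (hHc : 0 ≤ Hc)
    (hHG : 0 ≤ HG) (qx : ∫ z in c.rect t 0, (c.om t z.2 * dX w z) ^ 2 ≤ Hc ^ 2)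
    (qy : ∫ z in c.rect t 0, dY w z ^ 2 ≤ Hc ^ 2)
    (qG : ∫ z in c.rect t 0, (G z / c.om t z.2) ^ 2 ≤ HG ^ 2) :
    |∫ z, ψ z * B1 z * dX w z| ≤ 6 * (c.sA t * (t⁻¹) ^ 6) * (c.ym t * t ^ μ) * Hc ∧
    |∫ z, ψ z * B0 z * dY w z| ≤
      6 * (c.sA t * (t⁻¹) ^ 6 * (32 * c.sa t)) * (c.ym t * t ^ μ) * Hc ∧
    |∫ z, ψ z * (opL K1 K2 B1 B0 w z + F z)| ≤
      6 * (32 * c.sa t) * (c.ym t * t ^ μ) * HG := by
  obtain ⟨sψ, hψ0, hwave⟩ := hψ
  have hbox : IsClosed (bpBox c t μ) := (isCompact_bpBox c t μ).isClosed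
  have hsub := h.box_subset_rect
  have hmem : ∀ z ∈ bpBox c t μ, |z.1| ≤ 2 * c.width t μ ∧ |z.2| ≤ t / 2 := fun z hz => mem_box hz
  have hδ : 0 < c.δ t := c.bxδ_pos h.t_pos
  have hε : 0 ≤ c.ε t := pow_nonneg hδ.le _
  have hom : ∀ y, 0 < c.om t y := h.om_pos
  have com := continuous_om c t
  have henv : ∀ z, 0 ≤ c.bpEnv t z := fun z => (Real.exp_pos _).le
  have hsA := h.sA_pos
  have hsa := h.sa_pos
  have hym := h.ym_pos
  have hf := h.freq_pos
  set T := t⁻¹ with hT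
  have hT0 : 0 < T := inv_pos.2 h.t_pos
  have cy := (contDiff_dY_top hw).continuous
  have cx := (contDiff_dX_top hw).continuous
  have hsmall : ∀ z ∈ bpBox c t μ,
      |B1 z| ≤ c.om t z.2 * c.sA t * T ^ 6 ∧ |B0 z| ≤ c.om t z.2 * c.sA t * T ^ 6 := fun z hz =>
    ⟨hK.small z (h.rect_zero_subset_one (hsub hz)) B1 (by simp),
      hK.small z (h.rect_zero_subset_one (hsub hz)) B0 (by simp)⟩
  have e0 : ∀ X : ℝ, X + 8 * (c.K * (c.K + 1)) * 0 * c.δ t = X := fun X => by ring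
  refine ⟨?_, ?_, ?_⟩
  · rw [← e0 (6 * _ * _)]
    refine h.pair_bound (q := fun z => c.om t z.2 * dX w z) (by positivity) le_rfl hHc (com.mul cx) (fun z hz => by simp [hψ0 z hz])
      (fun z hz => ?_) qx
    obtain ⟨b0, -⟩ := hwave z
    obtain ⟨k0, -⟩ := h.gauss_bounds z
    rw [abs_mul, abs_mul, abs_mul (c.om t z.2), abs_of_pos (hom _), zero_mul, add_zero]
    calc |ψ z| * |B1 z| * |dX w z| ≤ c.bpEnv t z * (c.om t z.2 * c.sA t * T ^ 6) * |dX w z| :=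
          mul_le_mul_of_nonneg_right (mul_le_mul (b0.trans k0) (hsmall z hz).1 (abs_nonneg _)
            (henv z)) (abs_nonneg _)
      _ = _ := by ring
  · rw [← e0 (6 * _ * _)]
    refine h.pair_bound (by positivity) le_rfl hHc cy (fun z hz => by simp [hψ0 z hz])
      (fun z hz => ?_) qy
    obtain ⟨b0, -⟩ := hwave z
    obtain ⟨-, -, -, -, k4⟩ := h.gauss_bounds z
    rw [abs_mul, abs_mul, zero_mul, add_zero]
    refine mul_le_mul_of_nonneg_right ?_ (abs_nonneg _)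
    calc |ψ z| * |B0 z| ≤ c.bpGauss t z.2 * (c.om t z.2 * c.sA t * T ^ 6) :=
          mul_le_mul b0 (hsmall z hz).2 (abs_nonneg _) (Real.exp_pos _).le
      _ = c.sA t * T ^ 6 * (c.om t z.2 * c.bpGauss t z.2) := by ring
      _ ≤ c.sA t * T ^ 6 * (32 * c.sa t * c.bpEnv t z) :=
          mul_le_mul_of_nonneg_left k4 (by positivity)
      _ = _ := by ring
  · rw [← e0 (6 * _ * _)]
    refine h.pair_bound (q := fun z => G z / c.om t z.2) (by positivity) le_rfl hHG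
      (hG.div com fun z => (hom _).ne') (fun z hz => by simp [hψ0 z hz]) (fun z hz => ?_) qG
    obtain ⟨b0, -⟩ := hwave z
    obtain ⟨-, -, -, -, k4⟩ := h.gauss_bounds z
    rw [abs_mul, zero_mul, add_zero, abs_div, abs_of_pos (hom _), abs_of_nonneg (hG0 z)]
    calc |ψ z| * |opL K1 K2 B1 B0 w z + F z| ≤ c.bpGauss t z.2 * G z :=
          mul_le_mul b0 (hop z (hsub hz)) (abs_nonneg _) (Real.exp_pos _).le
      _ = c.om t z.2 * c.bpGauss t z.2 * (G z / c.om t z.2) := by field_simp [(hom z.2).ne']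
      _ ≤ _ := mul_le_mul_of_nonneg_right k4 (div_nonneg (hG0 z) (hom _).le)

/-- The sizes of the bounds of `mixed_pair` and `lower_pair`. -/
theorem pair_sizes (h : BpScale c t μ) (hj : 12 ≤ c.j) {C : ℝ} (hC : 1 ≤ C) :
    2 * ((6 * (C * c.freq t * t⁻¹ * (32 * c.sa t ^ 2) + t⁻¹ * (32 * c.sa t ^ 2)) *
            (c.ym t * t ^ μ) +
          8 * (c.K * (c.K + 1)) * (t⁻¹ * (c.ε t / c.δ t)) * c.δ t)) +
      6 * (c.sA t * (t⁻¹) ^ 6) * (c.ym t * t ^ μ) +
      6 * (c.sA t * (t⁻¹) ^ 6 * (32 * c.sa t)) * (c.ym t * t ^ μ) ≤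
    (2 * (768 * C + 8 * (c.K * (c.K + 1))) + 198) * (t⁻¹) ^ 6 * t ^ (c.Qe + μ) := by
  have hQ := h.Qe_ge
  have hδ : 0 < c.δ t := c.bxδ_pos h.t_pos
  have hK := c.one_le_K
  have hsa := h.sa_pos
  have hym := h.ym_pos
  have hf := h.freq_pos
  have ht := h.t_pos
  set KK := c.K * (c.K + 1) with hKK
  have hKK0 : 0 < KK := by positivity
  set T := t⁻¹ with hT
  have hT0 : 0 < T := inv_pos.2 ht
  have hT1 : 1 ≤ T := (one_le_inv₀ ht).2 h.t_le
  set S := c.sa t * t ^ μ with hS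
  have hS0 : 0 < S := by positivity
  have eS : t ^ (c.Qe + μ) = S := pow_add t c.Qe μ
  have hymμ : c.ym t ≤ t ^ μ := h.pow_le (by omega)
  have e2 : c.freq t * c.sa t ^ 2 * (c.ym t * t ^ μ) = 2 * S := by
    rw [h.freq_mul, hS, ← h.sA_mul_ym]; ring
  have hεδ : c.ε t / c.δ t * c.δ t ≤ S := by
    rw [div_mul_cancel₀ _ hδ.ne']
    refine (pow_le_of_le_one hδ.le (h.δ_le.trans ?_) (by omega)).trans (h.δ_le.trans ?_)
    · exact mul_le_one₀ h.sa_le_one hym.le (h.ym_le_t.trans h.t_le)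
    · exact mul_le_mul_of_nonneg_left hymμ hsa.le
  have s2 : 6 * (C * c.freq t * T * (32 * c.sa t ^ 2) + T * (32 * c.sa t ^ 2)) * (c.ym t * t ^ μ) +
      8 * KK * (T * (c.ε t / c.δ t)) * c.δ t ≤ (768 * C + 8 * KK) * (T ^ 6 * S) := by
    have h6 : T ≤ T ^ 6 := le_self_pow₀ hT1 (by norm_num)
    have h7 : T * (32 * c.sa t ^ 2) ≤ C * c.freq t * T * (32 * c.sa t ^ 2) :=
      mul_le_mul_of_nonneg_right (le_mul_of_one_le_left hT0.le
        (one_le_mul_of_one_le_of_one_le hC h.one_le_freq)) (by positivity)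
    calc _ ≤ 6 * (C * c.freq t * T * (32 * c.sa t ^ 2) + C * c.freq t * T * (32 * c.sa t ^ 2)) *
            (c.ym t * t ^ μ) + 8 * KK * (T * (c.ε t / c.δ t)) * c.δ t := by gcongr
      _ = 384 * C * T * (c.freq t * c.sa t ^ 2 * (c.ym t * t ^ μ)) +
            8 * KK * T * (c.ε t / c.δ t * c.δ t) := by ring
      _ ≤ 384 * C * T * (2 * S) + 8 * KK * T * S := by
          rw [e2]; gcongr
      _ = (768 * C + 8 * KK) * (T * S) := by ring
      _ ≤ _ := by gcongr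
  have s3 : 6 * (c.sA t * T ^ 6) * (c.ym t * t ^ μ) = 6 * (T ^ 6 * S) := by
    rw [hS, ← h.sA_mul_ym]; ring
  have s4 : 6 * (c.sA t * T ^ 6 * (32 * c.sa t)) * (c.ym t * t ^ μ) ≤ 192 * (T ^ 6 * S) := by
    calc _ = 192 * (T ^ 6 * S) * c.sa t := by rw [hS, ← h.sA_mul_ym]; ring
      _ ≤ _ := mul_le_of_le_one_right (by positivity) h.sa_le_one
  rw [eS]
  linarith

end BpScale

/-- Triangle inequality and monotonicity for the five pairings. -/
theorem bpAssemble {X0 X1 X2 X3 X4 a1 a2 a3 a4 a5 R1 R2 R3 Hw Hc HG : ℝ}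
    (t1 : |X1| ≤ a1 * Hw) (t2 : |X2| ≤ a2 * Hc) (t3 : |X3| ≤ a3 * Hc) (t4 : |X4| ≤ a4 * Hc)
    (t5 : |X0| ≤ a5 * HG) (hw : 0 ≤ Hw) (hc : 0 ≤ Hc) (hg : 0 ≤ HG)
    (h1 : a1 ≤ R1) (h2 : 2 * a2 + a3 + a4 ≤ R2) (h3 : a5 ≤ R3) :
    |X0 - (X1 + -2 * X2 + X3 + X4)| ≤ R1 * Hw + R2 * Hc + R3 * HG := by
  have q1 := mul_le_mul_of_nonneg_right h1 hw
  have q2 := mul_le_mul_of_nonneg_right h2 hc
  have q3 := mul_le_mul_of_nonneg_right h3 hg
  rw [abs_le] at *
  constructor <;> linarith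

namespace Par

/-- The pairing estimate. -/
theorem pairing (Pe : ℕ) : ∃ N : ℕ, ∀ μ : ℕ, 1 ≤ μ → ∀ c : Par, c.Pe = Pe → 40 ≤ c.Pe →
    12 ≤ c.j → N + 4 * μ + 4 * Pe ≤ c.Qe → ∀ n : ℕ, ∀ᶠ t in 𝓝[>] (0 : ℝ),
    ∀ K1 K2 B1 B0 w G F : ℝ × ℝ → ℝ, ∀ Hw Hc HG : ℝ,
      c.CoefBd t K1 K2 B1 B0 → c.CentBd t μ K1 K2 → ContDiff ℝ ∞ w → Continuous G →
      (∀ z, 0 ≤ G z) → Integrable F → (∀ z, z ∉ c.bumpSet t → F z = 0) →
      (∀ z ∈ c.rect t 0, |opL K1 K2 B1 B0 w z + F z| ≤ G z) →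
      0 ≤ Hw → 0 ≤ Hc → 0 ≤ HG →
      ∫ z in c.rect t 0, c.W t z.2 * w z ^ 2 ≤ Hw ^ 2 →
      ∫ z in c.rect t 0, (dY w z ^ 2 + c.W t z.2 * dX w z ^ 2) ≤ Hc ^ 2 →
      ∫ z in c.rect t 0, G z ^ 2 / c.W t z.2 ≤ HG ^ 2 →
      |∫ z, c.wave t n μ z * F z| ≤ (t⁻¹) ^ (c.Qe + μ + N) * Hw +
        (t⁻¹) ^ N * (t ^ (c.Qe + μ) * Hc + t ^ (2 * c.Qe - c.Pe + μ) * HG) := by
  obtain ⟨C, hC, hwave⟩ := bpWave_bounds
  refine ⟨8, fun μ _ c hPe _ hj hQ n => ?_⟩
  subst hPe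
  set KK := c.K * (c.K + 1) with hKK
  have hKK0 : 0 < KK := by have := c.one_le_K; positivity
  set Cc := C * (4000 + 100 * KK) with hCc
  have hCc1 : 4000 ≤ Cc := by nlinarith
  filter_upwards [self_mem_nhdsWithin,
    eventually_nhdsWithin_of_eventually_nhds
      (eventually_lt_nhds (by positivity : (0 : ℝ) < 1 / Cc))] with t ht0 htC
  intro K1 K2 B1 B0 w G F Hw Hc HG hK hcent hw hG hG0 hF _ hop hHw hHc hHG iw ic iG
  replace ht0 : 0 < t := ht0
  have hTC : Cc ≤ t⁻¹ := by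
    rw [le_inv_comm₀ (by positivity) ht0, ← one_div]; exact htC.le
  set T := t⁻¹ with hT
  have hT1 : 1 ≤ T := le_trans (by linarith) hTC
  have h : BpScale c t μ := ⟨ht0, (one_le_inv₀ ht0).1 hT1, by omega⟩
  set ψ := c.wave t n μ with hψ
  have sψ : ContDiff ℝ ∞ ψ := bpWave_smooth c t n μ
  have hψ0 : ∀ z, z ∉ bpBox c t μ → ψ z = 0 := fun z hz => bpWave_eq_zero h n hz
  have cψ : HasCompactSupport ψ := HasCompactSupport.intro (isCompact_bpBox c t μ) hψ0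
  have hψb : BpScale.WaveBd c t μ C ψ := ⟨sψ, hψ0, hwave c t μ h n⟩
  have com := BpScale.continuous_om c t
  have hrect : ∀ f : ℝ × ℝ → ℝ, Continuous f → IntegrableOn f (c.rect t 0) := by
    intro f hf
    refine hf.continuousOn.integrableOn_compact ?_
    have : c.rect t 0 = Icc (-(c.pOut * (2 + 0) * t)) (c.pOut * (2 + 0) * t) ×ˢ
        Icc (-((1 + 0) / 2 * t)) ((1 + 0) / 2 * t) := by
      ext z; simp only [Par.rect, mem_ofPred_eq, mem_prod, mem_Icc, abs_le]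
    rw [this]; exact isCompact_Icc.prod isCompact_Icc
  have hrm : MeasurableSet (c.rect t 0) := by
    unfold Par.rect; exact (by fun_prop : Measurable fun z : ℝ × ℝ => |z.1|) measurableSet_Iic
      |>.inter ((by fun_prop : Measurable fun z : ℝ × ℝ => |z.2|) measurableSet_Iic)
  have cy := (contDiff_dY_top hw).continuous
  have cx := (contDiff_dX_top hw).continuous
  have qw : ∫ z in c.rect t 0, (c.om t z.2 * w z) ^ 2 ≤ Hw ^ 2 := by
    simpa only [mul_pow, h.om_sq] using iw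
  have qy : ∫ z in c.rect t 0, dY w z ^ 2 ≤ Hc ^ 2 := by
    refine le_trans (setIntegral_mono_on (hrect _ (cy.pow 2)) ?_ hrm fun z _ =>
      le_add_of_nonneg_right (mul_nonneg (h.W_pos _).le (sq_nonneg _))) ic
    exact hrect _ ((cy.pow 2).add ((by unfold Par.W; fun_prop :
      Continuous fun z : ℝ × ℝ => c.W t z.2).mul (cx.pow 2)))
  have qx : ∫ z in c.rect t 0, (c.om t z.2 * dX w z) ^ 2 ≤ Hc ^ 2 := by
    refine le_trans (setIntegral_mono_on (hrect _ ((com.mul cx).pow 2)) ?_ hrm fun z _ => ?_) ic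
    · exact hrect _ ((cy.pow 2).add ((by unfold Par.W; fun_prop :
        Continuous fun z : ℝ × ℝ => c.W t z.2).mul (cx.pow 2)))
    · rw [mul_pow, h.om_sq]; exact le_add_of_nonneg_left (sq_nonneg _)
  have qG : ∫ z in c.rect t 0, (G z / c.om t z.2) ^ 2 ≤ HG ^ 2 := by
    simpa only [div_pow, h.om_sq] using iG
  obtain ⟨t3, t4, t5⟩ := h.lower_pair hC hψb hK hw (F := F) hG hG0 hop hHc hHG qx qy qG
  have t1 := h.main_pair hC hψb hK hw hj hcent hHw qw
  have t2 := h.mixed_pair hC hψb hK hw hcent hHc qy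
  have iL : Integrable fun z => ψ z * opL K1 K2 B1 B0 w z := by
    refine integrable_of_compact (sψ.continuous.mul ?_) cψ.mul_right
    have := (contDiff_dY_top (contDiff_dY_top hw)).continuous
    have := (contDiff_dY_top (contDiff_dX_top hw)).continuous
    have := (contDiff_dX_top (contDiff_dX_top hw)).continuous
    have := hK.sm1.continuous
    have := hK.sm2.continuous
    have := hK.ct1
    have := hK.ct0
    unfold opL; fun_prop
  have iF : Integrable fun z => ψ z * F z := by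
    obtain ⟨M, hM⟩ := sψ.continuous.bounded_above_of_compact_support cψ
    exact hF.bdd_mul sψ.continuous.aestronglyMeasurable (.of_forall hM)
  have esplit : ∫ z, ψ z * F z =
      (∫ z, ψ z * (opL K1 K2 B1 B0 w z + F z)) - ∫ z, ψ z * opL K1 K2 B1 B0 w z := by
    simp_rw [mul_add]; rw [integral_add iL iF]; ring
  rw [esplit, bpPair_identity hK.sm1 hK.sm2 hK.ct1 hK.ct0 hw sψ cψ]
  refine le_of_le_of_eq (bpAssemble t1 t2 t3 t4 t5 hHw hHc hHG (R1 := T ^ (c.Qe + μ + 8))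
    (R2 := T ^ 8 * t ^ (c.Qe + μ)) (R3 := T ^ 8 * t ^ (2 * c.Qe - c.Pe + μ)) ?_ ?_ ?_) (by ring)
  · calc Cc * T ^ (c.Qe + μ + 5) ≤ T * T ^ (c.Qe + μ + 5) := by gcongr
      _ ≤ _ := by rw [← pow_succ']; exact pow_le_pow_right₀ hT1 (by omega)
  · refine (h.pair_sizes hj hC).trans (mul_le_mul_of_nonneg_right ?_ (pow_nonneg ht0.le _))
    calc (2 * (768 * C + 8 * KK) + 198) * T ^ 6 ≤ T * T ^ 6 := by
          refine mul_le_mul_of_nonneg_right (le_trans ?_ hTC) (by positivity)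
          nlinarith
      _ ≤ _ := by rw [← pow_succ']; exact pow_le_pow_right₀ hT1 (by norm_num)
  · rw [show t ^ (2 * c.Qe - c.Pe + μ) = c.sa t * c.ym t * t ^ μ by
        rw [Par.sa, Par.ym, ← pow_add, ← pow_add]; congr 1; omega,
      show 6 * (32 * c.sa t) * (c.ym t * t ^ μ) = 192 * (c.sa t * c.ym t * t ^ μ) by ring]
    refine mul_le_mul_of_nonneg_right (le_trans (by linarith) (le_self_pow₀ hT1 (by norm_num)))
      ?_
    have := h.sa_pos; have := h.ym_pos; positivity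

end Par

end Vale.Agent.P229
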