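import Vale.Agent.P229.BoxPair
import Vale.Agent.P229.BoxCoefBd2

/-!
# P229: tools for the response of the quasimode
-/

open scoped ContDiff Topology
open MeasureTheory Set Filter

namespace Vale.Agent.P229

theorem bsIBP {f g : ℝ × ℝ → ℝ} (hf : ContDiff ℝ ∞ f) (hg : ContDiff ℝ ∞ g)
    (hc : HasCompactSupport f) :
    ∀ n : ℕ, ∫ w, f w * dX^[n] g w = (-1) ^ n * ∫ w, dX^[n] f w * g w := by
  intro n
  induction n generalizing g with
  | zero => simp
  | succ n ih =>
    simp only [Function.iterate_succ_apply]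
    rw [ih (bxSmooth_dX hg)]
    rw [integral_mul_dX ((contDiff_dX_iterate hf n).of_le (by simp)) (hg.of_le (by simp))
      (.inl (hasCompactSupport_dX_iterate hc n))]
    simp only [← Function.iterate_succ_apply, Function.iterate_succ_apply']
    ring

theorem bsSin_iter (η θ : ℝ) {g : ℝ → ℝ} (hg : Differentiable ℝ g) :
    ∀ k : ℕ, dX^[k] (fun z : ℝ × ℝ => Real.sin (η * z.1 - θ) * g z.2) =
      fun z => η ^ k * Real.sin (η * z.1 - θ + k * (Real.pi / 2)) * g z.2 := by
  intro k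
  induction k with
  | zero => simp
  | succ k ih =>
    rw [Function.iterate_succ_apply', ih]
    refine bpDX_sep (a := fun x => η ^ k * Real.sin (η * x - θ + k * (Real.pi / 2)))
      (a' := fun x => η ^ (k + 1) * Real.sin (η * x - θ + (k + 1 : ℕ) * (Real.pi / 2)))
      (fun x => ?_) hg
    refine (((((hasDerivAt_id x).const_mul η).sub_const θ).add_const _).sin.const_mul
      (η ^ k)).congr_deriv ?_
    rw [Nat.cast_succ, show η * x - θ + ((k : ℝ) + 1) * (Real.pi / 2) =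
      η * x - θ + k * (Real.pi / 2) + Real.pi / 2 by ring, Real.sin_add_pi_div_two]
    simp only [id_eq]
    ring

theorem bsSetBound {s : Set (ℝ × ℝ)} (hs : IsCompact s) {f : ℝ × ℝ → ℝ} {M A : ℝ} (hM : 0 ≤ M)
    (hA : volume.real s ≤ A) (h : ∀ z ∈ s, |f z| ≤ M) : |∫ z in s, f z| ≤ M * A := by
  refine le_trans ?_ (mul_le_mul_of_nonneg_left hA hM)
  simpa [Real.norm_eq_abs] using
    norm_setIntegral_le_of_norm_le_const (hs.measure_lt_top (μ := volume))
      (fun z hz => (Real.norm_eq_abs (f z)).le.trans (h z hz))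

namespace Par

variable (c : Par)

/-- A derivative of the bump at the chart point. -/
noncomputable def Phi (t : ℝ) (u : ℝ × ℝ → ℝ) (k : ℕ) (z : ℝ × ℝ) : ℝ :=
  dX^[k] (c.betaF t) (pt u z)

/-- The cut-off which is `1` near the bump. -/
noncomputable def bsCut (t : ℝ) (μ : ℕ) (z : ℝ × ℝ) : ℝ :=
  phiB (z.1 / c.width t μ) * phiB (z.2 / (t / 8))

/-- The neighbourhood of the bump on which the wave is a sine. -/
def bsNbhd (t : ℝ) (μ : ℕ) : Set (ℝ × ℝ) := {z | |z.1| < c.width t μ ∧ |z.2| < t / 8}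

theorem bsNbhd_open (t : ℝ) (μ : ℕ) : IsOpen (c.bsNbhd t μ) :=
  (isOpen_lt continuous_fst.abs continuous_const).inter
    (isOpen_lt continuous_snd.abs continuous_const)

theorem bumpSet_compact (t : ℝ) : IsCompact (c.bumpSet t) := by
  rw [bumpSet_eq_prod]; exact isCompact_Icc.prod isCompact_Icc

theorem bumpSet_area {t : ℝ} (ht : 0 < t) :
    volume.real (c.bumpSet t) = 16 * (c.K * (c.K + 1)) * c.δ t ^ 2 := by
  have hd := c.bxδ_pos ht
  have hK := c.one_le_K
  have hKd : 0 < 2 * c.K * (c.K + 1) * c.δ t := by positivity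
  rw [bumpSet_eq_prod, measureReal_def, Measure.volume_eq_prod, Measure.prod_prod,
    Real.volume_Icc, Real.volume_Icc, ENNReal.toReal_mul, ENNReal.toReal_ofReal (by linarith),
    ENNReal.toReal_ofReal (by linarith)]
  ring

theorem freq_delta {t : ℝ} (ht : 0 < t) : c.freq t * c.δ t = 2 * c.c1 := by
  have e : c.sA t * t ^ (2 * c.Qe - c.Pe) = c.sa t ^ 2 := by
    rw [sA, sa, ← pow_mul, ← pow_add]
    congr 1
    have := c.Pe_le
    omega
  rw [freq, δ, div_mul_eq_mul_div, show 2 * c.sA t * (c.c1 * t ^ (2 * c.Qe - c.Pe)) =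
    2 * c.c1 * (c.sA t * t ^ (2 * c.Qe - c.Pe)) by ring, e,
    mul_div_assoc, div_self (pow_ne_zero 2 (c.sa_pos ht).ne'), mul_one]

/-- The geometry of the bump, the cut-off and the rectangles for small `t`. -/
theorem bs_geom {μ : ℕ} (hQ : 2 * μ + 4 * c.Pe + 4 ≤ c.Qe) : ∀ᶠ t in 𝓝[>] (0 : ℝ),
    c.bumpSet t ⊆ c.bsNbhd t μ ∧ bpBox c t μ ⊆ c.rect t 1 ∧ c.bumpSet t ⊆ c.rect t 1 := by
  filter_upwards [bxEv_pos, bxEv_small (2 * c.K * (c.K + 1) * c.c1) one_half_pos,
    bxEv_small (2 * c.c1) (show (0 : ℝ) < 1 / 16 by norm_num)] with t ⟨ht, ht1⟩ h1 h2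
  have hK := c.one_le_K
  have hc1 := c.bxc1_pos
  have hδ : c.δ t ≤ c.c1 * t * c.width t μ := by
    rw [δ, width, ym, mul_assoc c.c1, ← pow_add, ← pow_succ']
    exact mul_le_mul_of_nonneg_left (pow_le_pow_of_le_one ht.le ht1 (by omega)) hc1.le
  have hym : c.ym t ≤ t := by
    simpa [ym] using pow_le_pow_of_le_one ht.le ht1 (show 1 ≤ c.Qe - c.Pe by omega)
  have hwd : c.width t μ ≤ t :=
    (mul_le_of_le_one_right (pow_nonneg ht.le _) (pow_le_one₀ ht.le ht1)).trans hym
  have hw0 : 0 < c.width t μ := mul_pos (pow_pos ht _) (pow_pos ht _)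
  have hp := c.bxpOut_ge
  have hb : c.bumpSet t ⊆ c.bsNbhd t μ := fun z hz => by
    refine ⟨lt_of_le_of_lt hz.1 ?_, lt_of_le_of_lt hz.2 ?_⟩
    · calc 2 * c.K * (c.K + 1) * c.δ t ≤ 2 * c.K * (c.K + 1) * (c.c1 * t * c.width t μ) := by
            gcongr
        _ = 2 * c.K * (c.K + 1) * c.c1 * t * c.width t μ := by ring
        _ ≤ 1 / 2 * c.width t μ := mul_le_mul_of_nonneg_right h1 hw0.le
        _ < c.width t μ := by linarith
    · calc 2 * c.δ t ≤ 2 * (c.c1 * t * c.width t μ) := by gcongr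
        _ ≤ 1 / 16 * c.width t μ := by
            rw [← mul_assoc, ← mul_assoc]; exact mul_le_mul_of_nonneg_right h2 hw0.le
        _ < t / 8 := by linarith
  refine ⟨hb, fun z hz => ?_, fun z hz => ?_⟩
  · obtain ⟨h1, h2⟩ := BpScale.mem_box hz
    exact ⟨by nlinarith, by linarith⟩
  · obtain ⟨h1, h2⟩ := hb hz
    exact ⟨by nlinarith, by linarith⟩

variable {c} {t : ℝ} {μ : ℕ} {u b : ℝ × ℝ → ℝ}

theorem bs_wave (ht : 0 < t) (n : ℕ) {z : ℝ × ℝ} (hz : z ∈ c.bsNbhd t μ) :
    dX^[n] (c.wave t n μ) z = c.freq t ^ n * Real.sin (c.freq t * z.1) * c.bpGauss t z.2 := by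
  have hw : 0 < c.width t μ := mul_pos (pow_pos ht _) (pow_pos ht _)
  have hE : EqOn (c.wave t n μ)
      (fun w => Real.sin (c.freq t * w.1 - n * (Real.pi / 2)) * c.bpGauss t w.2)
      (c.bsNbhd t μ) := fun w hw' => by
    show c.wave t n μ w = _
    unfold wave
    rw [bxPhiB_one (by rw [abs_div, abs_of_pos hw, div_le_one hw]; exact hw'.1.le),
      (bpProf_one (s := w.2 / t) (by
        rw [abs_div, abs_of_pos ht, div_lt_iff₀ ht]; linarith [hw'.2])).eq_of_nhds]
    simp [bpGauss]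
  have hg : Differentiable ℝ (c.bpGauss t) := by unfold bpGauss; fun_prop
  rw [bxDX_iterate_congr (c.bsNbhd_open t μ) n hE hz, bsSin_iter _ _ hg n]
  simp

theorem Phi_smooth (h : c.Sol t u b) (k : ℕ) : ContDiff ℝ ∞ (c.Phi t u k) :=
  show ContDiff ℝ ∞ fun z => dX^[k] (c.betaF t) (pt u z) from
    bxPt_smooth (bxSmooth_iter (c.contDiff_betaF t) k) h.smu

theorem Phi_dX (h : c.Sol t u b) (k : ℕ) :
    dX (c.Phi t u k) = fun z => c.Phi t u (k + 1) z * dX u z := by
  unfold Phi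
  rw [bxDX_pt (bxSmooth_iter (c.contDiff_betaF t) k) h.smu]
  simp only [Function.iterate_succ_apply']

theorem Phi_zero (h : c.Sol t u b) (ht : 0 < t) (k : ℕ) {z : ℝ × ℝ} (hz : z ∈ c.rect t 1)
    (hb : z ∉ c.bumpSet t) : c.Phi t u k z = 0 :=
  c.betaF_eq_zero ht k 0 (h.off_bump ht hz hb)

theorem bsCut_smooth (t : ℝ) (μ : ℕ) : ContDiff ℝ ∞ (c.bsCut t μ) :=
  (phiB.contDiff.comp (contDiff_fst.div_const _)).mul
    (phiB.contDiff.comp (contDiff_snd.div_const _))

theorem bsCut_zero (ht : 0 < t) {z : ℝ × ℝ} (hz : z ∉ bpBox c t μ) : c.bsCut t μ z = 0 := by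
  have hw : 0 < c.width t μ := mul_pos (pow_pos ht _) (pow_pos ht _)
  rw [bpBox, mem_prod, mem_Icc, mem_Icc, ← abs_le, ← abs_le, not_and_or, not_le, not_le] at hz
  rcases hz with hz | hz
  · simp [bsCut, bxPhiB_zero (s := z.1 / c.width t μ)
      (by rw [abs_div, abs_of_pos hw, le_div_iff₀ hw]; linarith)]
  · simp [bsCut, bxPhiB_zero (s := z.2 / (t / 8))
      (by rw [abs_div, abs_of_pos (by linarith : (0 : ℝ) < t / 8),
            le_div_iff₀ (by linarith : (0 : ℝ) < t / 8)]; linarith)]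

theorem bsCut_one (ht : 0 < t) {z : ℝ × ℝ} (hz : z ∈ c.bsNbhd t μ) :
    c.bsCut t μ z = 1 ∧ dX (c.bsCut t μ) z = 0 := by
  have hw : 0 < c.width t μ := mul_pos (pow_pos ht _) (pow_pos ht _)
  have hE : ∀ w ∈ c.bsNbhd t μ, c.bsCut t μ w = 1 := fun w hw' => by
    rw [bsCut, bxPhiB_one (by rw [abs_div, abs_of_pos hw, div_le_one hw]; exact hw'.1.le),
      bxPhiB_one (by
        rw [abs_div, abs_of_pos (by linarith : (0 : ℝ) < t / 8),
          div_le_one (by linarith : (0 : ℝ) < t / 8)]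
        exact hw'.2.le), one_mul]
  refine ⟨hE z hz, ?_⟩
  have : c.bsCut t μ =ᶠ[𝓝 z] fun _ => (1 : ℝ) :=
    eventually_of_mem ((c.bsNbhd_open t μ).mem_nhds hz) hE
  rw [dX_congr this, dX_const]

/-- Integration by parts in the hodograph variable `P` on the bump. -/
theorem bs_parts (h : c.Sol t u b) (ht : 0 < t) (hB : c.bumpSet t ⊆ c.bsNbhd t μ)
    (hR : bpBox c t μ ⊆ c.rect t 1) {s s' : ℝ → ℝ} (hs : ContDiff ℝ ∞ s)
    (hd : ∀ x, HasDerivAt s (s' x) x) (k : ℕ) :
    ∫ z in c.bumpSet t, s z.1 * (c.Phi t u (k + 1) z * dX u z) =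
      -∫ z in c.bumpSet t, s' z.1 * c.Phi t u k z := by
  set f : ℝ × ℝ → ℝ := fun z => c.bsCut t μ z * s z.1 with hf
  have sf : ContDiff ℝ ∞ f := (bsCut_smooth t μ).mul (hs.comp contDiff_fst)
  have f0 : ∀ z, z ∉ bpBox c t μ → f z = 0 := fun z hz => by simp [hf, bsCut_zero ht hz]
  have cf : HasCompactSupport f := HasCompactSupport.intro (isCompact_bpBox c t μ) f0
  have key := integral_mul_dX (f := f) (g := c.Phi t u k) (sf.of_le (by simp))
    ((Phi_smooth h k).of_le (by simp)) (.inl cf)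
  rw [Phi_dX h k] at key
  have off : ∀ z, z ∉ c.bumpSet t →
      f z * (c.Phi t u (k + 1) z * dX u z) = 0 ∧ dX f z * c.Phi t u k z = 0 := fun z hz => by
    by_cases hb : z ∈ bpBox c t μ
    · simp [Phi_zero h ht _ (hR hb) hz]
    · simp [f0 z hb, dX_eq_zero_off (isCompact_bpBox c t μ).isClosed f0 hb]
  rw [← setIntegral_eq_integral_of_forall_compl_eq_zero fun z hz => (off z hz).1,
    ← setIntegral_eq_integral_of_forall_compl_eq_zero fun z hz => (off z hz).2] at key
  refine le_antisymm ?_ ?_ <;>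
  · refine le_of_eq ?_
    have e1 : ∫ z in c.bumpSet t, s z.1 * (c.Phi t u (k + 1) z * dX u z) =
        ∫ z in c.bumpSet t, f z * (c.Phi t u (k + 1) z * dX u z) :=
      setIntegral_congr_fun (c.bumpSet_compact t).measurableSet fun z hz => by
        simp [hf, (bsCut_one ht (hB hz)).1]
    have e2 : ∫ z in c.bumpSet t, s' z.1 * c.Phi t u k z =
        ∫ z in c.bumpSet t, dX f z * c.Phi t u k z :=
      setIntegral_congr_fun (c.bumpSet_compact t).measurableSet fun z hz => by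
        show s' z.1 * c.Phi t u k z = dX f z * c.Phi t u k z
        rw [hf, dX_mul (f := c.bsCut t μ) (g := fun w => s w.1)
          ((bsCut_smooth t μ).differentiable (by simp) z)
          ((hs.comp contDiff_fst).differentiable (by simp) z), (bsCut_one ht (hB hz)).1,
          (bsCut_one ht (hB hz)).2, dX_of_fst (hd z.1).differentiableAt, (hd z.1).deriv]
        ring
    linarith

/-- One step of moving a derivative from the bump onto the wave. -/
theorem bs_step (h : c.Sol t u b) (ht : 0 < t) (hB : c.bumpSet t ⊆ c.bsNbhd t μ)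
    (hR : bpBox c t μ ⊆ c.rect t 1) (hBR : c.bumpSet t ⊆ c.rect t 1) {s s' : ℝ → ℝ}
    (hs : ContDiff ℝ ∞ s) (hd : ∀ x, HasDerivAt s (s' x) x) (hs1 : ∀ x, |s x| ≤ 1) (k : ℕ) {M : ℝ}
    (hM : 0 ≤ M) (hΦ : ∀ z, |c.Phi t u (k + 1) z| ≤ M) :
    |dX u 0 * (∫ z in c.bumpSet t, s z.1 * c.Phi t u (k + 1) z) +
      ∫ z in c.bumpSet t, s' z.1 * c.Phi t u k z| ≤
      64 * c.K ^ 3 * (c.K + 1) ^ 2 * c.δ t ^ 3 * M := by
  have key := bs_parts h ht hB hR hs hd k
  have hcp := c.bumpSet_compact t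
  have hK := c.one_le_K
  have hδ := c.bxδ_pos ht
  have hup := (bxSmooth_dX h.smu).continuous
  have hphi := (Phi_smooth h (k + 1)).continuous
  have hsc := hs.continuous
  have i1 : IntegrableOn (fun z : ℝ × ℝ => dX u 0 * (s z.1 * c.Phi t u (k + 1) z)) (c.bumpSet t) :=
    (by fun_prop : Continuous _).continuousOn.integrableOn_compact hcp
  have i2 : IntegrableOn (fun z : ℝ × ℝ => s z.1 * (c.Phi t u (k + 1) z * dX u z)) (c.bumpSet t) :=
    (by fun_prop : Continuous _).continuousOn.integrableOn_compact hcp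
  rw [← neg_eq_iff_eq_neg] at key
  rw [← key, ← integral_const_mul, ← sub_eq_add_neg, ← integral_sub i1 i2]
  refine (bsSetBound hcp (M := 4 * c.K ^ 2 * (c.K + 1) * c.δ t * M) (by positivity)
    (c.bumpSet_area ht).le fun z hz => ?_).trans_eq (by ring)
  rw [show dX u 0 * (s z.1 * c.Phi t u (k + 1) z) - s z.1 * (c.Phi t u (k + 1) z * dX u z) =
    s z.1 * ((dX u 0 - dX u z) * c.Phi t u (k + 1) z) by ring, abs_mul, abs_mul]
  have h1 : |dX u 0 - dX u z| ≤ 4 * c.K ^ 2 * (c.K + 1) * c.δ t := by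
    rw [abs_sub_comm]
    refine (h.dX_near ht (hBR hz)).1.trans ?_
    calc c.K * (|z.1| + |z.2|) ≤ c.K * (2 * c.K * (c.K + 1) * c.δ t + 2 * c.δ t) := by
          gcongr
          · exact hz.1
          · exact hz.2
      _ = c.K * (2 * (c.K * (c.K + 1) + 1)) * c.δ t := by ring
      _ ≤ c.K * (2 * (2 * (c.K * (c.K + 1)))) * c.δ t := by gcongr; nlinarith
      _ = _ := by ring
  calc |s z.1| * (|dX u 0 - dX u z| * |c.Phi t u (k + 1) z|)
      ≤ 1 * (4 * c.K ^ 2 * (c.K + 1) * c.δ t * M) := by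
        gcongr
        · exact hs1 _
        · exact hΦ z
    _ = _ := one_mul _

/-- The cosine pairing of the bump is of the size of the bump. -/
theorem bs_lower (h : c.Sol t u b) (ht : 0 < t) (hBR : c.bumpSet t ⊆ c.rect t 1) :
    7 / 8 * (c.ε t * c.δ t ^ 2) * (c.δ t ^ 2 / c.K ^ 2) ≤
      ∫ z in c.bumpSet t, Real.cos (c.freq t * z.1) * c.Phi t u 0 z := by
  have hK := c.one_le_K
  have hδ := c.bxδ_pos ht
  have he := c.ε_pos ht
  have hη : 0 ≤ c.freq t := div_nonneg (by have := c.sA_pos ht; linarith) (sq_nonneg _)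
  have hcos : ∀ z ∈ c.bumpSet t, 7 / 8 ≤ Real.cos (c.freq t * z.1) := fun z hz => by
    have : |c.freq t * z.1| ≤ 1 / 2 := by
      rw [abs_mul, abs_of_nonneg hη]
      calc c.freq t * |z.1| ≤ c.freq t * (2 * c.K * (c.K + 1) * c.δ t) :=
            mul_le_mul_of_nonneg_left hz.1 hη
        _ = 4 * c.K * (c.K + 1) * c.c1 := by
            linear_combination 2 * c.K * (c.K + 1) * c.freq_delta ht
        _ ≤ 1 / 2 := by
            rw [c1, mul_one_div, div_le_iff₀ (by positivity)]; nlinarith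
    have := Real.one_sub_sq_div_two_le_cos (x := c.freq t * z.1)
    nlinarith [sq_abs (c.freq t * z.1), abs_nonneg (c.freq t * z.1)]
  have hpos : ∀ z, 0 ≤ c.Phi t u 0 z := fun z => by
    show 0 ≤ c.betaF t (pt u z)
    unfold betaF
    exact mul_nonneg (by positivity) (mul_nonneg phiB.nonneg phiB.nonneg)
  set r := c.δ t / (2 * c.K) with hr
  have hr0 : 0 < r := by positivity
  set S : Set (ℝ × ℝ) := Icc (-r) r ×ˢ Icc (-r) r with hS
  have hSc : IsCompact S := isCompact_Icc.prod isCompact_Icc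
  have hrδ : r ≤ c.δ t := div_le_self hδ.le (by linarith)
  have hmem : ∀ z ∈ S, |z.1| ≤ r ∧ |z.2| ≤ r := fun z hz => by
    rw [hS, mem_prod, mem_Icc, mem_Icc, ← abs_le, ← abs_le] at hz; exact hz
  have hSB : S ⊆ c.bumpSet t := fun z hz => by
    refine ⟨(hmem z hz).1.trans ?_, (hmem z hz).2.trans (by linarith)⟩
    refine hrδ.trans (le_mul_of_one_le_left hδ.le ?_)
    nlinarith
  have cc : Continuous fun z : ℝ × ℝ => Real.cos (c.freq t * z.1) * c.Phi t u 0 z :=
    (by fun_prop : Continuous fun z : ℝ × ℝ => Real.cos (c.freq t * z.1)).mul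
      (Phi_smooth h 0).continuous
  have iB := cc.continuousOn.integrableOn_compact (c.bumpSet_compact t) (μ := volume)
  refine le_trans ?_ (setIntegral_mono_set iB ((ae_restrict_iff'
    (c.bumpSet_compact t).measurableSet).2 (.of_forall fun z hz =>
      mul_nonneg (le_trans (by norm_num) (hcos z hz)) (hpos z))) hSB.eventuallyLE)
  refine le_trans (le_of_eq ?_) (setIntegral_mono_on
    (f := fun _ => 7 / 8 * (c.ε t * c.δ t ^ 2))
    (continuousOn_const.integrableOn_compact hSc) (iB.mono_set hSB) hSc.measurableSet fun z hz => ?_)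
  · rw [setIntegral_const, smul_eq_mul, hS, measureReal_def, Measure.volume_eq_prod,
      Measure.prod_prod, Real.volume_Icc, ENNReal.toReal_mul, ENNReal.toReal_ofReal (by linarith),
      hr]
    field_simp
    ring
  · obtain ⟨h1, h2⟩ := hmem z hz
    have hu : |u z| ≤ c.δ t := by
      refine (h.lipschitz ht (hBR (hSB hz))).1.trans ?_
      calc c.K * (|z.1| + |z.2|) ≤ c.K * (r + r) := by gcongr
        _ = c.δ t := by rw [hr]; field_simp; ring
    have e : c.Phi t u 0 z = c.ε t * c.δ t ^ 2 := by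
      show c.betaF t (pt u z) = _
      simp only [betaF, pt]
      rw [bxPhiB_one (by rw [abs_div, abs_of_pos hδ, div_le_one hδ]; exact hu),
        bxPhiB_one (by rw [abs_div, abs_of_pos hδ, div_le_one hδ]; linarith)]
      ring
    rw [e]
    exact mul_le_mul_of_nonneg_right (hcos z (hSB hz)) (by positivity)

end Par

end Vale.Agent.P229
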