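import Vale.Agent.P229.BoxCentBd
import Vale.Agent.P229.BoxSignalAux

/-!
# P229: the response of the quasimode to the bump
-/

open scoped ContDiff Topology
open MeasureTheory Set Filter

namespace Vale.Agent.P229

open BoxEq

/-- Three steps give the third power of the derivative. -/
theorem bsThree {p η I0 I1 I2 I3 E K δ f : ℝ} (hK : 1 ≤ K) (hp : |p| ≤ K) (hη : 0 ≤ η)
    (hE : 0 ≤ E) (hδ : 0 < δ) (hf : η * δ = f) (hf2 : f ≤ 2)
    (h1 : |p * I3 + η * I2| ≤ E) (h2 : |p * I2 - η * I1| ≤ E * δ)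
    (h3 : |p * I1 + η * I0| ≤ E * δ ^ 2) :
    η ^ 3 * I0 - 7 * K ^ 2 * E ≤ K ^ 3 * |I3| := by
  have hK0 : 0 ≤ K := by linarith
  have e : η ^ 3 * I0 =
      p ^ 3 * I3 - p ^ 2 * (p * I3 + η * I2) + η * p * (p * I2 - η * I1) + η ^ 2 * (p * I1 + η * I0) := by
    ring
  have a0 : p ^ 3 * I3 ≤ K ^ 3 * |I3| := by
    refine (le_abs_self _).trans ?_
    rw [abs_mul, abs_pow]; gcongr
  have a1 : |p ^ 2 * (p * I3 + η * I2)| ≤ K ^ 2 * E := by
    rw [abs_mul, abs_pow]; gcongr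
  have a2 : |η * p * (p * I2 - η * I1)| ≤ 2 * K ^ 2 * E := by
    rw [abs_mul, abs_mul, abs_of_nonneg hη]
    calc η * |p| * |p * I2 - η * I1| ≤ η * K * (E * δ) := by gcongr
      _ = f * (K * E) := by rw [← hf]; ring
      _ ≤ 2 * (K ^ 2 * E) := by
          refine mul_le_mul hf2 ?_ (by positivity) zero_le_two
          gcongr; exact le_self_pow₀ hK two_ne_zero
      _ = _ := by ring
  have a3 : |η ^ 2 * (p * I1 + η * I0)| ≤ 4 * K ^ 2 * E := by
    rw [abs_mul, abs_of_nonneg (sq_nonneg η)]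
    calc η ^ 2 * |p * I1 + η * I0| ≤ η ^ 2 * (E * δ ^ 2) := by gcongr
      _ = f ^ 2 * (1 * E) := by rw [← hf]; ring
      _ ≤ 2 ^ 2 * (K ^ 2 * E) := by
          have hf0 : 0 ≤ f := hf ▸ mul_nonneg hη hδ.le
          gcongr
          exact one_le_pow₀ hK
      _ = _ := by ring
  obtain ⟨a1, -⟩ := abs_le.1 a1
  obtain ⟨-, a2⟩ := abs_le.1 a2
  obtain ⟨-, a3⟩ := abs_le.1 a3
  linarith

namespace Par

variable {c : Par} {t : ℝ} {μ : ℕ} {u b : ℝ × ℝ → ℝ}

theorem c1_le_one (c : Par) : 2 * c.c1 ≤ 2 := by linarith [c.bxc1_le]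

/-- The third derivative of the bump paired with the sine. -/
theorem bs_chain (h : c.Sol t u b) (ht : 0 < t) (hB : c.bumpSet t ⊆ c.bsNbhd t μ)
    (hR : bpBox c t μ ⊆ c.rect t 1) (hBR : c.bumpSet t ⊆ c.rect t 1) {CF : ℝ} (hCF : 0 ≤ CF)
    (hΦ : ∀ k ≤ 3, ∀ z, |c.Phi t u k z| ≤ CF * (c.ε t * c.δ t ^ 2) / c.δ t ^ k) :
    7 * c.c1 ^ 3 / c.K ^ 2 * (c.ε t * c.δ t) -
        448 * c.K ^ 5 * (c.K + 1) ^ 2 * CF * c.δ t * (c.ε t * c.δ t) ≤
      c.K ^ 3 * |∫ z in c.bumpSet t, Real.sin (c.freq t * z.1) * c.Phi t u 3 z| := by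
  set η := c.freq t with hη
  have hd := c.bxδ_pos ht
  have he := c.ε_pos ht
  have hK := c.one_le_K
  have hη0 : 0 ≤ η := div_nonneg (by have := c.sA_pos ht; linarith) (sq_nonneg _)
  have h0 : (0 : ℝ × ℝ) ∈ c.rect t 1 := by
    refine hBR ⟨?_, ?_⟩ <;> simp only [Prod.fst_zero, Prod.snd_zero, abs_zero] <;> positivity
  have hp : |dX u 0| ≤ c.K :=
    (h.iter_bound (c.rect_sub_sq ht h0) 1 0 (by norm_num)).1 le_rfl
  have hsin : ∀ x, HasDerivAt (fun x => Real.sin (η * x)) (η * Real.cos (η * x)) x := fun x => by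
    simpa [mul_comm] using ((hasDerivAt_id x).const_mul η).sin
  have hcos : ∀ x, HasDerivAt (fun x => Real.cos (η * x)) (-(η * Real.sin (η * x))) x := fun x => by
    simpa [mul_comm] using ((hasDerivAt_id x).const_mul η).cos
  have cs : ContDiff ℝ ∞ fun x => Real.sin (η * x) :=
    Real.contDiff_sin.comp (contDiff_const.mul contDiff_id)
  have cc : ContDiff ℝ ∞ fun x => Real.cos (η * x) :=
    Real.contDiff_cos.comp (contDiff_const.mul contDiff_id)
  set E := 64 * c.K ^ 3 * (c.K + 1) ^ 2 * CF * (c.ε t * c.δ t ^ 2) with hE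
  have s1 := bs_step h ht hB hR hBR cs hsin (fun _ => Real.abs_sin_le_one _) 2
    (by positivity) (hΦ 3 le_rfl)
  have s2 := bs_step h ht hB hR hBR cc hcos (fun _ => Real.abs_cos_le_one _) 1
    (by positivity) (hΦ 2 (by norm_num))
  have s3 := bs_step h ht hB hR hBR cs hsin (fun _ => Real.abs_sin_le_one _) 0
    (by positivity) (hΦ 1 (by norm_num))
  simp only [mul_assoc η, neg_mul, integral_neg, integral_const_mul] at s1 s2 s3
  have key := bsThree (E := E) hK hp hη0 (by positivity) hd (c.freq_delta ht) (c.c1_le_one)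
    (s1.trans_eq (by rw [hE]; field_simp))
    (s2.trans_eq (by rw [hE]; field_simp))
    (s3.trans_eq (by rw [hE]; field_simp))
  refine le_trans ?_ key
  have hlow := mul_le_mul_of_nonneg_left (bs_lower h ht hBR) (pow_nonneg hη0 3)
  refine le_trans (le_of_eq ?_) (sub_le_sub_right hlow _)
  have e : η * c.δ t = 2 * c.c1 := c.freq_delta ht
  calc _ = 7 / 8 * (2 * c.c1) ^ 3 / c.K ^ 2 * (c.ε t * c.δ t) - 7 * c.K ^ 2 * E := by
        rw [hE]; ring
    _ = _ := by rw [← e]; field_simp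

theorem bs_gauss (ht : 0 < t) (ht1 : t ≤ 1) {z : ℝ × ℝ} (hz : z ∈ c.bumpSet t) :
    |c.bpGauss t z.2 - 1| ≤ 2 * t := by
  have hPQ := c.Pe_le
  have hsa := c.sa_pos ht
  have e : c.sA t * c.δ t = c.c1 * c.sa t ^ 2 := by
    rw [sA, δ, sa, mul_left_comm, ← pow_add, ← pow_mul]
    congr 2
    omega
  set x := c.sA t ^ 2 * z.2 ^ 2 / (2 * c.sa t ^ 2) with hx
  have hx0 : 0 ≤ x := by positivity
  have hg : c.bpGauss t z.2 = Real.exp (-x) := by rw [bpGauss, hx, neg_div]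
  have h1 : x ≤ 2 * t := by
    rw [hx, div_le_iff₀ (by positivity)]
    have hc2 : c.c1 ^ 2 ≤ 1 := pow_le_one₀ c.bxc1_pos.le c.bxc1_le
    have hsat : c.sa t ^ 2 ≤ t := by
      rw [sa, ← pow_mul]
      exact pow_le_of_le_one ht.le ht1 (by omega)
    calc c.sA t ^ 2 * z.2 ^ 2 ≤ c.sA t ^ 2 * (2 * c.δ t) ^ 2 := by
          refine mul_le_mul_of_nonneg_left ?_ (sq_nonneg _)
          rw [← sq_abs]; exact pow_le_pow_left₀ (abs_nonneg _) hz.2 2
      _ = 4 * c.c1 ^ 2 * c.sa t ^ 2 * c.sa t ^ 2 := by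
          linear_combination 4 * (c.sA t * c.δ t + c.c1 * c.sa t ^ 2) * e
      _ ≤ 4 * 1 * t * c.sa t ^ 2 := by gcongr
      _ = _ := by ring
  rw [hg, abs_le]
  constructor
  · linarith [Real.add_one_le_exp (-x)]
  · linarith [Real.exp_le_one_iff.2 (neg_nonpos.2 hx0)]

theorem cGf_smooth (h : c.Sol t u b) : ContDiff ℝ ∞ (c.cGf t u b) :=
  ((bxPt_smooth (bxSmooth_dX (bxSmooth_kbar (c.contDiff_betaF t))) h.smu).mul
    (gAt_smooth h fun _J hJ => (bxSm_coef hJ).2.2.2.2.2.2.2.1)).add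
  ((bxPt_smooth (bxSmooth_dY (bxSmooth_kbar (c.contDiff_betaF t))) h.smu).mul
    (gAt_smooth h fun _J hJ => (bxSm_coef hJ).2.2.2.2.2.2.2.2.1))

theorem bs_kx (z : ℝ × ℝ) :
    dX (kbar (c.betaF t)) (pt u z) = -c.Phi t u 3 z := by
  rw [c.bxKbar_F, dX_neg, Phi, Function.iterate_succ_apply' _ 2]

/-- The pairing is an integral over the bump. -/
theorem bs_reduce (h : c.Sol t u b) (ht : 0 < t) (hB : c.bumpSet t ⊆ c.bsNbhd t μ)
    (hR : bpBox c t μ ⊆ c.rect t 1) (n : ℕ) :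
    |∫ z, c.wave t n μ z * dX^[n] (c.cGf t u b) z| =
      |c.freq t| ^ n *
        |∫ z in c.bumpSet t, Real.sin (c.freq t * z.1) * c.bpGauss t z.2 * c.cGf t u b z| := by
  have hw : 0 < c.width t μ := mul_pos (pow_pos ht _) (pow_pos ht _)
  have hψ0 : ∀ z, z ∉ bpBox c t μ → c.wave t n μ z = 0 := fun z hz => by
    rw [bpBox, mem_prod, mem_Icc, mem_Icc, ← abs_le, ← abs_le, not_and_or, not_le, not_le] at hz
    unfold wave
    rcases hz with hz | hz
    · rw [bxPhiB_zero (by rw [abs_div, abs_of_pos hw, le_div_iff₀ hw]; linarith)]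
      simp
    · rw [bpProf_zero (by rw [abs_div, abs_of_pos ht, le_div_iff₀ ht]; linarith)]
      simp
  have sψ := bpWave_smooth c t n μ
  have cψ : HasCompactSupport (c.wave t n μ) :=
    HasCompactSupport.intro (isCompact_bpBox c t μ) hψ0
  rw [bsIBP sψ (cGf_smooth h) cψ n, abs_mul, abs_pow, abs_neg, abs_one, one_pow, one_mul,
    ← setIntegral_eq_integral_of_forall_compl_eq_zero (s := c.bumpSet t) fun z hz => ?_,
    ← abs_pow, ← abs_mul, ← integral_const_mul]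
  · congr 1
    refine setIntegral_congr_fun (c.bumpSet_compact t).measurableSet fun z hz => ?_
    rw [bs_wave ht n (hB hz)]
    ring
  · by_cases hb : z ∈ bpBox c t μ
    · obtain ⟨-, -, -, e1, e2⟩ := c.f_vanish ht (h.off_bump ht (hR hb) hz) 0
      simp only [Function.iterate_zero_apply] at e1 e2
      show _ * c.cGf t u b z = 0
      simp [cGf, termFun, e1, e2]
    · rw [dX_iterate_eq_zero_off (isCompact_bpBox c t μ).isClosed hψ0 n z hb, zero_mul]

theorem bs_fderiv {f : ℝ × ℝ → ℝ} {z : ℝ × ℝ} {G : ℝ} (hx : |dX f z| ≤ G) (hy : |dY f z| ≤ G) :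
    ‖fderiv ℝ f z‖ ≤ 2 * G := by
  have hG : 0 ≤ G := (abs_nonneg _).trans hx
  refine ContinuousLinearMap.opNorm_le_bound _ (by positivity) fun v => ?_
  have e : v = v.1 • ((1 : ℝ), (0 : ℝ)) + v.2 • ((0 : ℝ), (1 : ℝ)) := by ext <;> simp
  rw [e, map_add, map_smul, map_smul, ← e, smul_eq_mul, smul_eq_mul, Real.norm_eq_abs]
  have h1 : |v.1| ≤ ‖v‖ := norm_fst_le v
  have h2 : |v.2| ≤ ‖v‖ := norm_snd_le v
  refine (abs_add_le _ _).trans ?_
  rw [abs_mul, abs_mul]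
  calc |v.1| * |dX f z| + |v.2| * |dY f z| ≤ ‖v‖ * G + ‖v‖ * G := by gcongr
    _ = _ := by ring

/-- The weights are constant up to `O(t)` on the bump. -/
theorem bs_weights (c : Par) (hP : 4 ≤ c.Pe) (hj : 12 ≤ c.j) : ∃ C : ℝ, 0 ≤ C ∧
    ∀ᶠ t in 𝓝[>] (0 : ℝ), ∀ u b : ℝ × ℝ → ℝ, c.Sol t u b → c.bumpSet t ⊆ c.rect t 1 →
      1 / (20 * c.K ^ 2) ≤ c.gAt t u b g1v 0 ∧
      ∀ z ∈ c.bumpSet t, |c.bpGauss t z.2 * c.gAt t u b g1v z - c.gAt t u b g1v 0| ≤ C * t ∧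
        |c.bpGauss t z.2 * c.gAt t u b g2v z| ≤ C * t := by
  have hK := c.one_le_K
  have sg : ∀ J ∈ jetDom, ContDiffAt ℝ ∞ g1v J := fun J hJ => (bxSm_coef hJ).2.2.2.2.2.2.2.1
  obtain ⟨G, hG, hd⟩ := c.coef_deriv hP (by omega) sg
  set a := 2 * c.K * (c.K + 1) + 2 with ha
  refine ⟨2 * G + 2 * G * a + 2 * (c.K + 1) ^ 2 * (c.K * a), by positivity, ?_⟩
  filter_upwards [bxEv_pos, hd, c.jet_mem (by omega) (by omega)] with t ⟨ht, ht1⟩ hd hjet u b h hBR
  have hdd := c.bxδ_pos ht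
  have hz0 : (0 : ℝ × ℝ) ∈ c.bumpSet t := by
    refine ⟨?_, ?_⟩ <;> simp only [Prod.fst_zero, Prod.snd_zero, abs_zero] <;> positivity
  have hval : ∀ (g : J8 → ℝ), ∀ z ∈ c.rect t 1, c.gAt t u b g z = g (jetJ (c.beta t) u b z) :=
    fun g z hz => (bxCutJ_eventually hK g (hjet u b h z hz)).eq_of_nhds
  refine ⟨?_, fun z hz => ?_⟩
  · rw [hval _ _ (hBR hz0)]
    refine le_trans ?_ (bxVals hK (hjet u b h _ (hBR hz0))).2.2.1
    have hup := h.up 0 (c.rect_sub_sq ht (hBR hz0))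
    show 1 / (20 * c.K ^ 2) ≤ dX u 0 ^ 2 / 20
    rw [show 1 / (20 * c.K ^ 2) = (1 / c.K) ^ 2 / 20 by field_simp]
    rw [← sq_abs (dX u 0)]
    gcongr
  have hzn : |z.1| + |z.2| ≤ a * t := by
    calc |z.1| + |z.2| ≤ 2 * c.K * (c.K + 1) * c.δ t + 2 * c.δ t := add_le_add hz.1 hz.2
      _ = a * c.δ t := by rw [ha]; ring
      _ ≤ a * t := mul_le_mul_of_nonneg_left (c.bxδ_le ht ht1) (by positivity)
  have hg := bs_gauss ht ht1 hz
  have hg1 : c.bpGauss t z.2 ≤ 1 := by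
    rw [bpGauss]
    exact Real.exp_le_one_iff.2 (div_nonpos_of_nonpos_of_nonneg
      (neg_nonpos.2 (by positivity)) (by positivity))
  have hg0 : 0 ≤ c.bpGauss t z.2 := (Real.exp_pos _).le
  have hn : ‖z - 0‖ ≤ a * t := by
    refine le_trans ?_ hzn
    rw [sub_zero, Prod.norm_def, Real.norm_eq_abs, Real.norm_eq_abs]
    exact max_le (le_add_of_nonneg_right (abs_nonneg _)) (le_add_of_nonneg_left (abs_nonneg _))
  have hconv : Convex ℝ (c.rect t 1) := by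
    rw [c.rect_eq]; exact (convex_Icc _ _).prod (convex_Icc _ _)
  have hlip : |c.gAt t u b g1v z - c.gAt t u b g1v 0| ≤ 2 * G * (a * t) := by
    have := Convex.norm_image_sub_le_of_norm_fderiv_le (𝕜 := ℝ) (f := c.gAt t u b g1v) (C := 2 * G)
      (fun x _ => (gAt_smooth h sg).differentiable (by simp) x)
      (fun x hx => bs_fderiv (hd u b h x hx).2.1 (hd u b h x hx).2.2.1)
      hconv (hBR hz0) (hBR hz)
    exact this.trans (mul_le_mul_of_nonneg_left hn (by positivity))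
  have hGb : |c.gAt t u b g1v z| ≤ G := (hd u b h z (hBR hz)).1
  constructor
  · rw [show c.bpGauss t z.2 * c.gAt t u b g1v z - c.gAt t u b g1v 0 =
      (c.bpGauss t z.2 - 1) * c.gAt t u b g1v z +
        (c.gAt t u b g1v z - c.gAt t u b g1v 0) by ring]
    refine (abs_add_le _ _).trans ?_
    rw [abs_mul]
    calc _ ≤ 2 * t * G + 2 * G * (a * t) := add_le_add
          (mul_le_mul hg hGb (abs_nonneg _) (by positivity)) hlip
      _ = (2 * G + 2 * G * a) * t := by ring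
      _ ≤ _ := by
          refine mul_le_mul_of_nonneg_right (le_add_of_nonneg_right ?_) ht.le
          positivity
  · rw [abs_mul, abs_of_nonneg hg0, hval _ _ (hBR hz)]
    refine (mul_le_of_le_one_left (abs_nonneg _) hg1).trans ?_
    refine (bxVals hK (hjet u b h _ (hBR hz))).2.2.2.2.trans ?_
    calc 2 * (c.K + 1) ^ 2 * |jetJ (c.beta t) u b z 1| ≤ 2 * (c.K + 1) ^ 2 * (c.K * (a * t)) := by
          refine mul_le_mul_of_nonneg_left ?_ (by positivity)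
          exact ((h.lipschitz ht (hBR hz)).2).trans
            (mul_le_mul_of_nonneg_left hzn (by linarith))
      _ = 2 * (c.K + 1) ^ 2 * (c.K * a) * t := by ring
      _ ≤ _ := by
          refine mul_le_mul_of_nonneg_right (le_add_of_nonneg_left ?_) ht.le
          positivity

/-- The integral over the bump is as large as the bump. -/
theorem bs_main (c : Par) (hP : 4 ≤ c.Pe) (hj : 12 ≤ c.j) (hQ : 2 * μ + 4 * c.Pe + 4 ≤ c.Qe) :
    ∃ c0 : ℝ, 0 < c0 ∧ ∀ᶠ t in 𝓝[>] (0 : ℝ), ∀ u b : ℝ × ℝ → ℝ, c.Sol t u b →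
      c0 * (c.ε t * c.δ t) ≤
        |∫ z in c.bumpSet t, Real.sin (c.freq t * z.1) * c.bpGauss t z.2 * c.cGf t u b z| := by
  have hK := c.one_le_K
  have hc1 := c.bxc1_pos
  obtain ⟨CF, hCF0, hCF⟩ := c.betaF_bounds 3
  obtain ⟨R, hR, hpt⟩ := c.pt_bounds hP hj (by omega)
  obtain ⟨CW, hCW, hwt⟩ := bs_weights c hP hj
  set a := 7 * c.c1 ^ 3 / c.K ^ 2 / c.K ^ 3 / (20 * c.K ^ 2) with ha
  have ha0 : 0 < a := by positivity
  set C2 := (CF + R) * CW * (16 * (c.K * (c.K + 1))) +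
    448 * c.K ^ 5 * (c.K + 1) ^ 2 * CF / c.K ^ 3 / (20 * c.K ^ 2) with hC2
  refine ⟨a / 2, half_pos ha0, ?_⟩
  filter_upwards [bxEv_pos, c.bs_geom hQ, hpt, hwt, bxEv_small C2 (half_pos ha0)]
    with t ⟨ht, ht1⟩ ⟨hB, hbox, hBR⟩ hpt hwt hsm u b h
  have hd := c.bxδ_pos ht
  have hd1 : c.δ t ≤ t := c.bxδ_le ht ht1
  have he := c.ε_pos ht
  obtain ⟨hg0, hw⟩ := hwt u b h hBR
  set g0 := c.gAt t u b g1v 0 with hg0'
  have hΦ : ∀ k ≤ 3, ∀ z, |c.Phi t u k z| ≤ CF * (c.ε t * c.δ t ^ 2) / c.δ t ^ k := fun k hk z =>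
    hCF t ht ht1 k 0 (by omega) (pt u z)
  have hchain := bs_chain h ht hB hbox hBR hCF0 hΦ
  set I3 := ∫ z in c.bumpSet t, Real.sin (c.freq t * z.1) * c.Phi t u 3 z with hI3
  have c1 : Continuous fun z : ℝ × ℝ =>
      Real.sin (c.freq t * z.1) * c.bpGauss t z.2 * c.cGf t u b z := by
    have := (cGf_smooth h).continuous
    unfold bpGauss
    fun_prop
  have c2 : Continuous fun z : ℝ × ℝ => g0 * (Real.sin (c.freq t * z.1) * c.Phi t u 3 z) := by
    have := (Phi_smooth h 3).continuous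
    fun_prop
  have hcp := c.bumpSet_compact t
  have hdiff : |(∫ z in c.bumpSet t, Real.sin (c.freq t * z.1) * c.bpGauss t z.2 * c.cGf t u b z) +
      g0 * I3| ≤ (CF + R) * CW * (16 * (c.K * (c.K + 1))) * t * (c.ε t * c.δ t) := by
    rw [hI3, ← integral_const_mul,
      ← integral_add (c1.continuousOn.integrableOn_compact hcp)
        (c2.continuousOn.integrableOn_compact hcp)]
    refine (bsSetBound hcp (M := (CF + R) * CW * t * (c.ε t / c.δ t)) (by positivity)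
      (c.bumpSet_area ht).le fun z hz => ?_).trans_eq (by field_simp)
    obtain ⟨w1, w2⟩ := hw z hz
    have P := hpt u b h z (hBR hz)
    have hky : |dY (kbar (c.betaF t)) (pt u z)| ≤ R * (c.ε t / c.δ t) := by
      refine P.kyF.trans ?_
      rw [c.indB_mem hz, one_mul]
    have hkx : |c.Phi t u 3 z| ≤ CF * (c.ε t / c.δ t) :=
      (hΦ 3 le_rfl z).trans_eq (by field_simp)
    have e : Real.sin (c.freq t * z.1) * c.bpGauss t z.2 * c.cGf t u b z +
        g0 * (Real.sin (c.freq t * z.1) * c.Phi t u 3 z) =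
        Real.sin (c.freq t * z.1) *
          (-(c.Phi t u 3 z * (c.bpGauss t z.2 * c.gAt t u b g1v z - g0)) +
            dY (kbar (c.betaF t)) (pt u z) * (c.bpGauss t z.2 * c.gAt t u b g2v z)) := by
      simp only [cGf, termFun, gAt, bs_kx]
      ring
    rw [e, abs_mul]
    refine (mul_le_of_le_one_left (abs_nonneg _) (Real.abs_sin_le_one _)).trans ?_
    refine (abs_add_le _ _).trans ?_
    rw [abs_neg, abs_mul, abs_mul]
    calc _ ≤ CF * (c.ε t / c.δ t) * (CW * t) + R * (c.ε t / c.δ t) * (CW * t) :=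
          add_le_add (mul_le_mul hkx w1 (abs_nonneg _) (by positivity))
            (mul_le_mul hky w2 (abs_nonneg _) (by positivity))
      _ = _ := by ring
  have hI : (a - 448 * c.K ^ 5 * (c.K + 1) ^ 2 * CF / c.K ^ 3 / (20 * c.K ^ 2) * t) *
      (c.ε t * c.δ t) ≤ |g0 * I3| := by
    rw [abs_mul]
    refine le_trans ?_ (mul_le_mul_of_nonneg_right (hg0.trans (le_abs_self _)) (abs_nonneg _))
    have h2 : 448 * c.K ^ 5 * (c.K + 1) ^ 2 * CF * c.δ t * (c.ε t * c.δ t) ≤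
        448 * c.K ^ 5 * (c.K + 1) ^ 2 * CF * t * (c.ε t * c.δ t) := by gcongr
    have h3 := mul_le_mul_of_nonneg_left (le_trans (sub_le_sub_left h2 _) hchain)
      (by positivity : 0 ≤ 1 / (20 * c.K ^ 2) / c.K ^ 3)
    refine le_trans (le_of_eq ?_) (h3.trans_eq ?_)
    · rw [ha]; ring
    · field_simp
  have hed : 0 ≤ c.ε t * c.δ t := by positivity
  have hsm' := mul_le_mul_of_nonneg_right hsm hed
  set J := ∫ z in c.bumpSet t, Real.sin (c.freq t * z.1) * c.bpGauss t z.2 * c.cGf t u b z with hJ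
  have : |g0 * I3| ≤ |J + g0 * I3| + |J| := by
    simpa using abs_sub (J + g0 * I3) J
  rw [hC2] at hsm'
  linarith

/-- The bump is seen by the quasimode. -/
theorem signal : ∀ c : Par, 40 ≤ c.Pe → 12 ≤ c.j → ∀ μ : ℕ, 1 ≤ μ →
    2 * μ + 4 * c.Pe + 4 ≤ c.Qe → ∀ n : ℕ, ∀ᶠ t in 𝓝[>] (0 : ℝ),
    ∀ u b : ℝ × ℝ → ℝ, c.Sol t u b →
      t * (c.ε t * c.δ t / c.δ t ^ n) ≤
        |∫ z, c.wave t n μ z * dX^[n] (c.cGf t u b) z| := by
  intro c hP hj μ _ hQ n
  obtain ⟨c0, hc0, hmain⟩ := bs_main c (by omega) hj hQ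
  have hc1 := c.bxc1_pos
  filter_upwards [bxEv_pos, c.bs_geom hQ, hmain,
    bxEv_small 1 (show (0 : ℝ) < (2 * c.c1) ^ n * c0 by positivity)]
    with t ⟨ht, ht1⟩ ⟨hB, hbox, _⟩ hmain hsm u b h
  have hd := c.bxδ_pos ht
  have he := c.ε_pos ht
  have hη : 0 ≤ c.freq t := div_nonneg (by have := c.sA_pos ht; linarith) (sq_nonneg _)
  rw [bs_reduce h ht hB hbox n, abs_of_nonneg hη]
  refine le_trans ?_ (mul_le_mul_of_nonneg_left (hmain u b h) (pow_nonneg hη n))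
  calc t * (c.ε t * c.δ t / c.δ t ^ n) ≤ (2 * c.c1) ^ n * c0 * (c.ε t * c.δ t / c.δ t ^ n) :=
        mul_le_mul_of_nonneg_right (by linarith) (by positivity)
    _ = _ := by rw [← c.freq_delta ht, mul_pow]; field_simp

end Par

end Vale.Agent.P229
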