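import Mathlib.Analysis.Calculus.BumpFunction.FiniteDimension
import Mathlib.Analysis.Calculus.InverseFunctionTheorem.ContDiff
import Mathlib.Analysis.Calculus.MeanValue
import Mathlib.Analysis.Calculus.Deriv.MeanValue
import Vale.Agent.P229.GeoBD

/-!
# P229, geometry: inverting `x ↦ P(x,y)` and bounding the inverse
-/

open scoped ContDiff Topology
open Set Filter

namespace Vale.Agent.P229

theorem geo_mem_sq {r : ℝ} {z : ℝ × ℝ} : z ∈ sq r ↔ |z.1| ≤ r ∧ |z.2| ≤ r := by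
  simp only [sq, Set.mem_prod, Set.mem_Icc, abs_le]

theorem geo_sq_eq (r : ℝ) : sq r = Metric.closedBall (0 : ℝ × ℝ) r := by
  ext z
  simp [geo_mem_sq, Metric.mem_closedBall, Prod.norm_def]

/-- Extending a function smooth on a neighbourhood of a square to a globally smooth one. -/
theorem geo_extend {V : Set (ℝ × ℝ)} {s t : ℝ} (hV : IsOpen V) (hs : 0 < s) (hst : s < t)
    (hsub : Metric.closedBall (0 : ℝ × ℝ) t ⊆ V) {f : ℝ × ℝ → ℝ} (hf : ContDiffOn ℝ ∞ f V) :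
    ∃ g : ℝ × ℝ → ℝ, ContDiff ℝ ∞ g ∧ ∀ z ∈ Metric.ball (0 : ℝ × ℝ) s, g z = f z := by
  classical
  let φ : ContDiffBump (0 : ℝ × ℝ) := ⟨s, t, hs, hst⟩
  refine ⟨fun z => φ z * f z, ?_, fun z hz => ?_⟩
  · refine contDiff_iff_contDiffAt.2 fun z => ?_
    by_cases hz : z ∈ V
    · exact φ.contDiff.contDiffAt.mul (hf.contDiffAt (hV.mem_nhds hz))
    · have hz' : z ∈ (Metric.closedBall (0 : ℝ × ℝ) t)ᶜ := fun h => hz (hsub h)
      refine (contDiffAt_const (c := (0 : ℝ))).congr_of_eventuallyEq ?_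
      filter_upwards [Metric.isClosed_closedBall.isOpen_compl.mem_nhds hz'] with w hw
      have : φ w = 0 := φ.zero_of_le_dist (by simpa [φ, dist_zero_right] using
        (le_of_lt (not_le.1 (fun h => hw (Metric.mem_closedBall.2 (by simpa using h))))))
      simp [this]
  · have h1 : φ z = 1 := φ.one_of_mem_closedBall (Metric.ball_subset_closedBall hz)
    simp [h1]

/-- The triangular linear map `(h,k) ↦ (p h + q k, k)`. -/
noncomputable def geoTri (p q : ℝ) (hp : p ≠ 0) : (ℝ × ℝ) ≃L[ℝ] (ℝ × ℝ) :=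
  ContinuousLinearEquiv.equivOfInverse
    ((p • ContinuousLinearMap.fst ℝ ℝ ℝ + q • ContinuousLinearMap.snd ℝ ℝ ℝ).prod
      (ContinuousLinearMap.snd ℝ ℝ ℝ))
    ((p⁻¹ • ContinuousLinearMap.fst ℝ ℝ ℝ - (p⁻¹ * q) • ContinuousLinearMap.snd ℝ ℝ ℝ).prod
      (ContinuousLinearMap.snd ℝ ℝ ℝ))
    (fun x => by
      ext
      · simp; field_simp; ring
      · simp)
    (fun x => by
      ext
      · simp; field_simp; ring
      · simp)

theorem geo_hasFDerivAt_pair {P : ℝ × ℝ → ℝ} {z : ℝ × ℝ} (hP : DifferentiableAt ℝ P z)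
    (hp : dX P z ≠ 0) :
    HasFDerivAt (fun w : ℝ × ℝ => (P w, w.2))
      (geoTri (dX P z) (dY P z) hp : ℝ × ℝ →L[ℝ] ℝ × ℝ) z := by
  have h := hP.hasFDerivAt.prodMk (hasFDerivAt_snd (p := z) (𝕜 := ℝ) (E := ℝ) (F := ℝ))
  refine h.congr_fderiv (ContinuousLinearMap.ext fun v => ?_)
  ext
  · simp [geoTri, fderiv_prod_apply P z v]
    ring
  · simp [geoTri]

/-- The hodograph: `u(P,y)` solves `P(u,y) = P`. -/
theorem geo_inverse {P : ℝ × ℝ → ℝ} {U : Set (ℝ × ℝ)} {r m K₁ κ : ℝ} (hr : 0 < r)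
    (hU : IsOpen U) (hsub : sq r ⊆ U) (hP : ContDiffOn ℝ ∞ P U) (hP0 : P 0 = 0) (hm : 0 < m)
    (hK : 0 < K₁) (hκ : 0 < κ) (hκ' : 2 * κ * (1 + K₁ + m) ≤ m / 2) {s : ℝ} (hs : s = 1 ∨ s = -1)
    (hPx : ∀ z ∈ sq r, m ≤ s * dX P z) (hPy : ∀ z ∈ sq r, |dY P z| ≤ K₁) :
    ∃ u : ℝ × ℝ → ℝ, ContDiff ℝ ∞ u ∧ u 0 = 0 ∧ ∀ z ∈ Metric.ball (0 : ℝ × ℝ) (3 / 2 * κ * r),
      pt u z ∈ Metric.ball (0 : ℝ × ℝ) r ∧ P (pt u z) = z.1 ∧
        dX u z * dX P (pt u z) = 1 ∧ dX P (pt u z) * dY u z + dY P (pt u z) = 0 := by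
  set O : Set (ℝ × ℝ) := Metric.ball 0 r with hO
  have hOsq : O ⊆ sq r := by rw [geo_sq_eq]; exact Metric.ball_subset_closedBall
  have hOU : O ⊆ U := hOsq.trans hsub
  let Φ : ℝ × ℝ → ℝ × ℝ := fun w => (P w, w.2)
  have hPd : ∀ w ∈ sq r, DifferentiableAt ℝ P w := fun w hw =>
    (hP.contDiffAt (hU.mem_nhds (hsub hw))).differentiableAt (by simp)
  have hne : ∀ w ∈ sq r, dX P w ≠ 0 := fun w hw h => by
    have := hPx w hw; rw [h, mul_zero] at this; linarith
  have hderiv : ∀ y, |y| ≤ r → ∀ x, |x| ≤ r →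
      HasDerivAt (fun t => s * P (t, y)) (s * dX P (x, y)) x := by
    intro y hy x hx
    have h1 : HasDerivAt (fun t : ℝ => (t, y)) ((1 : ℝ), (0 : ℝ)) x :=
      (hasDerivAt_id x).prodMk (hasDerivAt_const x y)
    exact ((hPd (x, y) (geo_mem_sq.2 ⟨hx, hy⟩)).hasFDerivAt.comp_hasDerivAt x h1).const_mul s
  have grow : ∀ y, |y| ≤ r → ∀ a b, |a| ≤ r → |b| ≤ r → a ≤ b →
      m * (b - a) ≤ s * P (b, y) - s * P (a, y) := by
    intro y hy a b ha hb hab
    have hmem : ∀ x ∈ Icc (-r) r, |x| ≤ r := fun x hx => abs_le.2 hx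
    exact Convex.mul_sub_le_image_sub_of_le_deriv (convex_Icc (-r) r)
      (fun x hx => (hderiv y hy x (hmem x hx)).continuousAt.continuousWithinAt)
      (fun x hx => (hderiv y hy x (hmem x (interior_subset hx))).differentiableAt.differentiableWithinAt)
      (fun x hx => by
        rw [(hderiv y hy x (hmem x (interior_subset hx))).deriv]
        exact hPx _ (geo_mem_sq.2 ⟨hmem x (interior_subset hx), hy⟩))
      a (abs_le.1 ha) b (abs_le.1 hb) hab
  have hinj : InjOn Φ O := by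
    rintro ⟨a, y⟩ ha ⟨b, y'⟩ hb h
    simp only [Φ, Prod.mk.injEq] at h
    obtain ⟨h1, rfl⟩ := h
    have ha' := geo_mem_sq.1 (hOsq ha)
    have hb' := geo_mem_sq.1 (hOsq hb)
    rcases le_total a b with hab | hab
    · have := grow y ha'.2 a b ha'.1 hb'.1 hab
      rw [h1, sub_self] at this
      have : b = a := by nlinarith
      rw [this]
    · have := grow y ha'.2 b a hb'.1 ha'.1 hab
      rw [h1, sub_self] at this
      have : b = a := by nlinarith
      rw [this]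
  have hΦd : ∀ w (hw : w ∈ O), HasFDerivAt Φ
      (geoTri (dX P w) (dY P w) (hne w (hOsq hw)) : ℝ × ℝ →L[ℝ] ℝ × ℝ) w := fun w hw =>
    geo_hasFDerivAt_pair (hPd w (hOsq hw)) _
  have hΦs : ∀ w ∈ O, ContDiffAt ℝ ∞ Φ w := fun w hw =>
    (hP.contDiffAt (hU.mem_nhds (hOU hw))).prodMk contDiffAt_snd
  have hstrict : ∀ w (hw : w ∈ O), HasStrictFDerivAt Φ
      (geoTri (dX P w) (dY P w) (hne w (hOsq hw)) : ℝ × ℝ →L[ℝ] ℝ × ℝ) w := fun w hw =>
    (hΦs w hw).hasStrictFDerivAt' (hΦd w hw) (by simp)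
  have hVopen : IsOpen (Φ '' O) := by
    rw [isOpen_iff_mem_nhds]
    rintro _ ⟨w, hw, rfl⟩
    rw [← (hstrict w hw).map_nhds_eq_of_equiv]
    exact image_mem_map (Metric.isOpen_ball.mem_nhds hw)
  let J : ℝ × ℝ → ℝ × ℝ := Function.invFunOn Φ O
  have hJ : ∀ w ∈ O, J (Φ w) = w := fun w hw => hinj.leftInvOn_invFunOn hw
  have hsmooth : ContDiffOn ℝ ∞ (fun z => (J z).1) (Φ '' O) := by
    rintro _ ⟨w, hw, rfl⟩
    have e := (hstrict w hw).localInverse_unique (g := J)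
      (Filter.eventually_of_mem (Metric.isOpen_ball.mem_nhds hw) hJ)
    have hl := (hΦs w hw).to_localInverse (hΦd w hw) (by simp)
    exact ((contDiffAt_fst.comp _ (hl.congr_of_eventuallyEq e))).contDiffWithinAt
  have hcover : Metric.closedBall (0 : ℝ × ℝ) (2 * κ * r) ⊆ Φ '' O := by
    intro z hz
    rw [← geo_sq_eq, geo_mem_sq] at hz
    obtain ⟨hz1, hz2⟩ := hz
    have hκ1 : 2 * κ ≤ 1 / 2 := by
      nlinarith [mul_nonneg hκ.le hK.le, hκ']
    have hκr : 2 * κ * r ≤ r / 2 := by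
      have := mul_le_mul_of_nonneg_right hκ1 hr.le
      linarith
    have hy : |z.2| ≤ r := by linarith
    have hP0y : |P (0, z.2)| ≤ K₁ * (2 * κ * r) := by
      have h1 : ∀ y ∈ Icc (-r) r, HasDerivAt (fun t => P (0, t)) (dY P (0, y)) y := fun y hy' =>
        (hPd (0, y) (geo_mem_sq.2 ⟨by simpa using hr.le, abs_le.2 hy'⟩)).hasFDerivAt.comp_hasDerivAt
          y ((hasDerivAt_const y (0 : ℝ)).prodMk (hasDerivAt_id y))
      have h2 := Convex.norm_image_sub_le_of_norm_hasDerivWithin_le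
        (fun y hy' => (h1 y hy').hasDerivWithinAt)
        (fun y hy' => by
          rw [Real.norm_eq_abs]
          exact hPy _ (geo_mem_sq.2 ⟨by simpa using hr.le, abs_le.2 hy'⟩))
        (convex_Icc (-r) r) (x := 0) (y := z.2) ⟨by linarith, hr.le⟩ (abs_le.1 hy)
      simp only [Real.norm_eq_abs, sub_zero] at h2
      rw [show ((0 : ℝ), (0 : ℝ)) = (0 : ℝ × ℝ) from rfl, hP0, sub_zero] at h2
      exact h2.trans (mul_le_mul_of_nonneg_left hz2 hK.le)
    have hr2 : |r / 2| ≤ r := by rw [abs_of_pos (by linarith)]; linarith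
    have hr2' : |-(r / 2)| ≤ r := by rw [abs_neg]; exact hr2
    have h0r : |(0 : ℝ)| ≤ r := by simpa using hr.le
    have g1 := grow z.2 hy 0 (r / 2) h0r hr2 (by linarith)
    have g2 := grow z.2 hy (-(r / 2)) 0 hr2' h0r (by linarith)
    have hb : K₁ * (2 * κ * r) + 2 * κ * r ≤ m * (r / 2) := by
      have := mul_le_mul_of_nonneg_right hκ' hr.le
      nlinarith [mul_pos (mul_pos hκ hm) hr]
    have hsz : |s * z.1| ≤ 2 * κ * r := by
      rcases hs with h | h <;> subst h <;> simpa using hz1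
    have hsP : |s * P (0, z.2)| ≤ K₁ * (2 * κ * r) := by
      rcases hs with h | h <;> subst h <;> simpa using hP0y
    rw [abs_le] at hsz hsP
    have hcont : ContinuousOn (fun t => s * P (t, z.2)) (Icc (-(r / 2)) (r / 2)) := fun x hx =>
      (hderiv z.2 hy x (abs_le.2 ⟨by linarith [hx.1], by linarith [hx.2]⟩)).continuousAt.continuousWithinAt
    obtain ⟨x, hx, hPx'⟩ := intermediate_value_Icc (by linarith) hcont
      (show s * z.1 ∈ Icc (s * P (-(r / 2), z.2)) (s * P (r / 2, z.2)) by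
        constructor <;> linarith [hsz.1, hsz.2, hsP.1, hsP.2])
    refine ⟨(x, z.2), ?_, ?_⟩
    · rw [hO, Metric.mem_ball, dist_zero_right, Prod.norm_def]
      refine max_lt (lt_of_le_of_lt (abs_le.2 hx) (by linarith)) (lt_of_le_of_lt hz2 (by linarith))
    · have : s ≠ 0 := by rcases hs with h | h <;> simp [h]
      simp [Φ, mul_left_cancel₀ this hPx']
  obtain ⟨u, hu, huJ⟩ := geo_extend hVopen (s := 3 / 2 * κ * r) (t := 2 * κ * r)
    (by positivity) (by nlinarith [mul_pos hκ hr]) hcover hsmooth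
  have hb32 : Metric.ball (0 : ℝ × ℝ) (3 / 2 * κ * r) ⊆ Metric.closedBall 0 (2 * κ * r) :=
    (Metric.ball_subset_ball (by nlinarith [mul_pos hκ hr])).trans Metric.ball_subset_closedBall
  have hkey : ∀ z ∈ Metric.ball (0 : ℝ × ℝ) (3 / 2 * κ * r), pt u z ∈ O ∧ P (pt u z) = z.1 := by
    intro z hz
    obtain ⟨⟨a, y⟩, hw, rfl⟩ := hcover (hb32 hz)
    have : pt u (Φ (a, y)) = (a, y) := by
      simp only [pt, huJ _ hz, hJ _ hw]
      rfl
    rw [this]
    exact ⟨hw, rfl⟩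
  refine ⟨u, hu, ?_, fun z hz => ⟨(hkey z hz).1, (hkey z hz).2, ?_⟩⟩
  · have h0 : (0 : ℝ × ℝ) ∈ O := by simp [hO, hr]
    have hΦ0 : Φ 0 = 0 := by ext <;> simp [Φ, hP0]
    rw [huJ 0 (by simp; positivity), ← hΦ0, hJ 0 h0]
    rfl
  · have hev : (fun w => P (pt u w)) =ᶠ[𝓝 z] fun w => w.1 :=
      Filter.eventuallyEq_of_mem (Metric.isOpen_ball.mem_nhds hz) fun w hw => (hkey w hw).2
    have hpt : HasFDerivAt (pt u) ((fderiv ℝ u z).prod (ContinuousLinearMap.snd ℝ ℝ ℝ)) z :=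
      (hu.differentiable (by simp) z).hasFDerivAt.prodMk hasFDerivAt_snd
    have hd := (hPd _ (hOsq (hkey z hz).1)).hasFDerivAt.comp z hpt
    have heq : fderiv ℝ (fun w => P (pt u w)) z = ContinuousLinearMap.fst ℝ ℝ ℝ :=
      hev.fderiv_eq.trans hasFDerivAt_fst.fderiv
    have hd' : fderiv ℝ (fun w => P (pt u w)) z = _ := hd.fderiv
    rw [hd'] at heq
    have e1 := congrArg (fun L : ℝ × ℝ →L[ℝ] ℝ => L (1, 0)) heq
    have e2 := congrArg (fun L : ℝ × ℝ →L[ℝ] ℝ => L (0, 1)) heq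
    simp only [ContinuousLinearMap.comp_apply, ContinuousLinearMap.prod_apply,
      ContinuousLinearMap.coe_snd', ContinuousLinearMap.coe_fst'] at e1 e2
    rw [fderiv_prod_apply P] at e1 e2
    simp only [smul_eq_mul] at e1 e2
    constructor
    · simpa [dX] using e1
    · have : dY u z * dX P (pt u z) + 1 * dY P (pt u z) = 0 := e2
      linarith

/-- The inverse has bounded derivatives, uniformly in the data. -/
theorem geo_inverse_bound (m R : ℝ) (hm : 0 < m) (k : ℕ) :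
    ∃ R' : ℝ, ∀ (P u : ℝ × ℝ → ℝ) (W : Set (ℝ × ℝ)), IsOpen W → ContDiff ℝ ∞ u →
      (∀ z ∈ W, ‖z‖ ≤ 1 ∧ |u z| ≤ 1 ∧ GeoBD (k + 1) R P (pt u z) ∧ m ≤ |dX P (pt u z)| ∧
        dX u z * dX P (pt u z) = 1 ∧ dX P (pt u z) * dY u z + dY P (pt u z) = 0) →
      ∀ z ∈ W, GeoBD k R' u z := by
  let Lmap : ℝ × ℝ → (ℝ × ℝ →L[ℝ] ℝ) := fun p =>
    p.1⁻¹ • ContinuousLinearMap.fst ℝ ℝ ℝ + (-p.2 * p.1⁻¹) • ContinuousLinearMap.snd ℝ ℝ ℝ
  let D : Set (ℝ × ℝ) := {p | p.1 ≠ 0}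
  have hD : IsOpen D := isOpen_ne.preimage continuous_fst
  have hLs : ContDiffOn ℝ ∞ Lmap D := by
    have i1 : ContDiffOn ℝ ∞ (fun p : ℝ × ℝ => p.1⁻¹) D :=
      contDiff_fst.contDiffOn.inv fun p hp => hp
    exact (i1.smul contDiffOn_const).add ((contDiff_snd.neg.contDiffOn.mul i1).smul contDiffOn_const)
  let Kc : Set (ℝ × ℝ) := (Icc (-|R|) (-m) ∪ Icc m |R|) ×ˢ Icc (-|R|) |R|
  have hKc : IsCompact Kc := (isCompact_Icc.union isCompact_Icc).prod isCompact_Icc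
  have hKD : Kc ⊆ D := by
    rintro ⟨p, q⟩ ⟨hp, -⟩
    rcases hp with hp | hp <;> intro h0 <;> simp only at h0 <;> subst h0 <;>
      linarith [hp.1, hp.2]
  obtain ⟨Rsnd, hsnd⟩ := geoBD_fixed (g := fun p : ℝ × ℝ => p.2) isOpen_univ
    contDiffOn_snd (isCompact_closedBall (0 : ℝ × ℝ) 1) (subset_univ _) (k + 1)
  induction k with
  | zero =>
    refine ⟨1, fun P u W hW hu h z hz => ⟨hu.contDiffAt, fun i hi => ?_⟩⟩
    obtain rfl : i = 0 := by omega
    simpa [norm_iteratedFDeriv_zero] using (h z hz).2.1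
  | succ k ih =>
    obtain ⟨Rk, hRk⟩ := ih (hsnd := fun p hp => (hsnd p hp).mono (by omega) le_rfl)
    let S := max (max Rk Rsnd) R
    obtain ⟨RL, hL⟩ := geoBD_comp_fixed (E := ℝ × ℝ) hD hLs hKc hKD k (geoBDComp k S)
    refine ⟨max RL 1, fun P u W hW hu h z hz => ?_⟩
    have hk : GeoBD k Rk u z :=
      hRk P u W hW hu (fun w hw => ⟨(h w hw).1, (h w hw).2.1,
        (h w hw).2.2.1.mono (by omega) le_rfl, (h w hw).2.2.2⟩) z hz
    obtain ⟨hz1, hu1, hP, hpm, -, -⟩ := h z hz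
    have hpt : GeoBD k S (pt u) z :=
      (hk.mono le_rfl ((le_max_left _ _).trans (le_max_left _ _))).prodMk
        ((hsnd z (by simpa using hz1)).mono (by omega)
          ((le_max_right _ _).trans (le_max_left _ _)))
    have hjet : GeoBD k (geoBDComp k S) ((fun w => (dX P w, dY P w)) ∘ pt u) z :=
      ((hP.dX.prodMk hP.dY).mono (by omega) (le_max_right _ _)).comp hpt
    have hval : (dX P (pt u z), dY P (pt u z)) ∈ Kc := by
      have a1 : |dX P (pt u z)| ≤ |R| :=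
        ((abs_dX_le_norm_fderiv P _).trans hP.norm_fderiv_le).trans (le_abs_self R)
      have a2 : |dY P (pt u z)| ≤ |R| :=
        ((abs_dY_le_norm_fderiv P _).trans hP.norm_fderiv_le).trans (le_abs_self R)
      refine ⟨?_, abs_le.1 a2⟩
      rcases abs_cases (dX P (pt u z)) with ⟨e, -⟩ | ⟨e, -⟩
      · right; exact ⟨by linarith, by linarith⟩
      · left; exact ⟨by linarith, by linarith⟩
    have hev : fderiv ℝ u =ᶠ[𝓝 z] Lmap ∘ ((fun w => (dX P w, dY P w)) ∘ pt u) := by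
      filter_upwards [hW.mem_nhds hz] with w hw
      obtain ⟨-, -, -, hm', e1, e2⟩ := h w hw
      have hne : dX P (pt u w) ≠ 0 := fun h0 => by rw [h0, abs_zero] at hm'; linarith
      refine ContinuousLinearMap.ext fun v => ?_
      rw [fderiv_prod_apply]
      simp only [Function.comp_apply, Lmap, ContinuousLinearMap.add_apply,
        ContinuousLinearMap.smul_apply, ContinuousLinearMap.coe_fst', ContinuousLinearMap.coe_snd',
        smul_eq_mul]
      have ex : dX u w = (dX P (pt u w))⁻¹ := eq_inv_of_mul_eq_one_left e1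
      have ey : dY u w = -dY P (pt u w) * (dX P (pt u w))⁻¹ := by
        rw [← div_eq_mul_inv, eq_div_iff hne]; linarith
      rw [ex, ey]
      ring
    refine GeoBD.of_fderiv hu.contDiffAt ?_ (((hL _ z hval hjet).congr hev).mono le_rfl
      (le_max_left _ _))
    simpa [Real.norm_eq_abs] using Or.inr hu1

end Vale.Agent.P229
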