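import Vale.Agent.P229.GeoChart
import Vale.Agent.P229.GeoHodograph

/-!
# P229, geometry: the hodograph system in a small square
-/

open scoped ContDiff Topology RealInnerProductSpace
open Set Filter

namespace Vale.Agent.P229

/-- The jet space `((F_x, F_y), (e, β))`. -/
abbrev GeoJet := (E3 × E3) × (E3 × ℝ)

/-- `geoA` on jets. -/
noncomputable def geoJetA (p : GeoJet) : ℝ := ⟪p.1.1, p.2.1⟫

/-- `geoB` on jets. -/
noncomputable def geoJetB (p : GeoJet) : ℝ := ⟪p.1.2, p.2.1⟫ / (1 + p.2.2)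

/-- `geoP` on jets. -/
noncomputable def geoJetP (p : GeoJet) : ℝ := (geoJetA p ^ 2 + geoJetB p ^ 2) / 2 - 1 / 4

/-- The jets with non-degenerate conformal factor. -/
def geoJetDom : Set GeoJet := {p | (1 : ℝ) + p.2.2 ≠ 0}

theorem geoJetA_smooth : ContDiff ℝ ∞ geoJetA :=
  ContDiff.inner ℝ (f := fun p : GeoJet => p.1.1) (g := fun p : GeoJet => p.2.1)
    (contDiff_fst.comp contDiff_fst) (contDiff_fst.comp contDiff_snd)

theorem geoJetB_smooth : ContDiffOn ℝ ∞ geoJetB geoJetDom :=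
  (ContDiff.inner ℝ (f := fun p : GeoJet => p.1.2) (g := fun p : GeoJet => p.2.1)
    (contDiff_snd.comp contDiff_fst) (contDiff_fst.comp contDiff_snd)).contDiffOn.div
    (ContDiff.contDiffOn (f := fun p : GeoJet => (1 : ℝ) + p.2.2)
      (contDiff_const.add (contDiff_snd.comp contDiff_snd))) fun _ hp => hp

theorem geoJetP_smooth : ContDiffOn ℝ ∞ geoJetP geoJetDom :=
  (((geoJetA_smooth.contDiffOn.pow 2).add (geoJetB_smooth.pow 2)).div_const 2).sub contDiffOn_const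

theorem isOpen_geoJetDom : IsOpen geoJetDom :=
  isOpen_ne.preimage (f := fun p : GeoJet => (1 : ℝ) + p.2.2)
    (continuous_const.add (continuous_snd.comp continuous_snd))

theorem geoBD_jet_A (K : Set GeoJet) (hK : IsCompact K) (hKW : K ⊆ geoJetDom) (R₀ : ℝ) :
    ∃ R : ℝ, ∀ (f : ℝ × ℝ → GeoJet) (z : ℝ × ℝ), f z ∈ K → GeoBD 19 R₀ f z →
      GeoBD 19 R (geoJetA ∘ f) z :=
  geoBD_comp_fixed isOpen_geoJetDom geoJetA_smooth.contDiffOn hK hKW 19 R₀

theorem geoBD_jet_B (K : Set GeoJet) (hK : IsCompact K) (hKW : K ⊆ geoJetDom) (R₀ : ℝ) :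
    ∃ R : ℝ, ∀ (f : ℝ × ℝ → GeoJet) (z : ℝ × ℝ), f z ∈ K → GeoBD 19 R₀ f z →
      GeoBD 19 R (geoJetB ∘ f) z :=
  geoBD_comp_fixed isOpen_geoJetDom geoJetB_smooth hK hKW 19 R₀

theorem geoBD_jet_P (K : Set GeoJet) (hK : IsCompact K) (hKW : K ⊆ geoJetDom) (R₀ : ℝ) :
    ∃ R : ℝ, ∀ (f : ℝ × ℝ → GeoJet) (z : ℝ × ℝ), f z ∈ K → GeoBD 19 R₀ f z →
      GeoBD 19 R (geoJetP ∘ f) z :=
  geoBD_comp_fixed isOpen_geoJetDom geoJetP_smooth hK hKW 19 R₀

/-- The jet of `F`, `e`, `β`. -/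
noncomputable def geoJet (β : ℝ × ℝ → ℝ) (F : ℝ × ℝ → E3) (e : E3) : ℝ × ℝ → GeoJet :=
  fun w => ((dX F w, dY F w), (e, β w))

theorem geoJet_A (β : ℝ × ℝ → ℝ) (F : ℝ × ℝ → E3) (e : E3) :
    geoJetA ∘ geoJet β F e = geoA F e := by
  ext w; rfl

theorem geoJet_B (β : ℝ × ℝ → ℝ) (F : ℝ × ℝ → E3) (e : E3) :
    geoJetB ∘ geoJet β F e = geoB β F e := by
  ext w; rfl

theorem geoJet_P (β : ℝ × ℝ → ℝ) (F : ℝ × ℝ → E3) (e : E3) :
    geoJetP ∘ geoJet β F e = geoP β F e := by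
  ext w; rfl

theorem geoBD_geoJet {β : ℝ × ℝ → ℝ} {F : ℝ × ℝ → E3} {e : E3} {z : ℝ × ℝ} {R₀ : ℝ}
    (hF : GeoBD 20 R₀ F z) (hβ : GeoBD 20 R₀ β z) (he : ‖e‖ ≤ R₀) :
    GeoBD 19 R₀ (geoJet β F e) z :=
  (hF.dX.prodMk hF.dY).prodMk ((geoBD_const e z he).prodMk (hβ.mono (by norm_num) le_rfl))

theorem geo_chart_bounds_aux {R₀ : ℝ} {K : Set GeoJet} (hK : IsCompact K) (hKW : K ⊆ geoJetDom)
    (hmem : ∀ (e a c : E3) (t : ℝ), ‖a‖ ≤ R₀ → ‖c‖ ≤ R₀ → ‖e‖ ≤ 1 → |t| ≤ 1 / 2 →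
      ((a, c), (e, t)) ∈ K) :
    ∃ R : ℝ, 1 ≤ R ∧ ∀ (β : ℝ × ℝ → ℝ) (F : ℝ × ℝ → E3) (e : E3) (z : ℝ × ℝ),
      GeoBD 20 R₀ F z → GeoBD 20 R₀ β z → ‖e‖ ≤ 1 → 1 ≤ R₀ → |β z| ≤ 1 / 2 →
        GeoBD 19 R (geoA F e) z ∧ GeoBD 19 R (geoB β F e) z ∧ GeoBD 19 R (geoP β F e) z := by
  obtain ⟨RA, hRA⟩ := geoBD_jet_A K hK hKW R₀
  obtain ⟨RB, hRB⟩ := geoBD_jet_B K hK hKW R₀
  obtain ⟨RP, hRP⟩ := geoBD_jet_P K hK hKW R₀
  refine ⟨max (max RA RB) (max RP 1), (le_max_right _ _).trans (le_max_right _ _),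
    fun β F e z hF hβ he hR hb => ?_⟩
  have hj := geoBD_geoJet (e := e) hF hβ (he.trans hR)
  have hv : geoJet β F e z ∈ K :=
    hmem e (dX F z) (dY F z) (β z) hF.dX.norm_le hF.dY.norm_le he hb
  rw [← geoJet_A β F e, ← geoJet_B β F e, ← geoJet_P β F e]
  exact ⟨(hRA _ z hv hj).mono le_rfl ((le_max_left _ _).trans (le_max_left _ _)),
    (hRB _ z hv hj).mono le_rfl ((le_max_right _ _).trans (le_max_left _ _)),
    (hRP _ z hv hj).mono le_rfl ((le_max_left _ _).trans (le_max_right _ _))⟩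

/-- `geoA`, `geoB`, `geoP` have bounded derivatives. -/
theorem geo_chart_bounds (R₀ : ℝ) :
    ∃ R : ℝ, 1 ≤ R ∧ ∀ (β : ℝ × ℝ → ℝ) (F : ℝ × ℝ → E3) (e : E3) (z : ℝ × ℝ),
      GeoBD 20 R₀ F z → GeoBD 20 R₀ β z → ‖e‖ ≤ 1 → 1 ≤ R₀ → |β z| ≤ 1 / 2 →
        GeoBD 19 R (geoA F e) z ∧ GeoBD 19 R (geoB β F e) z ∧ GeoBD 19 R (geoP β F e) z := by
  let Kc : Set GeoJet := ((Metric.closedBall (0 : E3) R₀) ×ˢ (Metric.closedBall (0 : E3) R₀)) ×ˢ
    ((Metric.closedBall (0 : E3) 1) ×ˢ Icc (-(1 / 2) : ℝ) (1 / 2))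
  have hKc : IsCompact Kc :=
    ((isCompact_closedBall _ _).prod (isCompact_closedBall _ _)).prod
      ((isCompact_closedBall _ _).prod isCompact_Icc)
  have hKW : Kc ⊆ geoJetDom := by
    rintro ⟨⟨a, c⟩, ⟨e, t⟩⟩ ⟨-, -, ht⟩
    show (1 : ℝ) + t ≠ 0
    linarith [ht.1]
  refine geo_chart_bounds_aux hKc hKW fun e a c t ha hc he ht => ?_
  exact ⟨⟨by simpa using ha, by simpa using hc⟩, by simpa using he, abs_le.1 ht⟩

/-- The direction `e` and the values at the origin. -/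
theorem geo_origin {β : ℝ × ℝ → ℝ} {U : Set (ℝ × ℝ)} {F : ℝ × ℝ → E3} (hβ : ContDiff ℝ ∞ β)
    (hU : IsOpen U) (hF : IsBoxImm β U F) (h0 : (0 : ℝ × ℝ) ∈ U) (hC : 1 + β 0 ≠ 0) :
    ∃ e : E3, ‖e‖ = 1 ∧ geoA F e 0 = Real.sqrt (1 / 2) ∧ geoB β F e 0 = 0 ∧
      geoP β F e 0 = 0 ∧ |dX (geoP β F e) 0| = ‖dX (dX F) 0‖ / 2 := by
  obtain ⟨i1, i2, i3⟩ := hF.2 0 h0
  obtain ⟨ν, hν, hxν, hyν, expand⟩ := geo_frame i1 i2 i3 hC
  obtain ⟨hxx1, hxx2⟩ := geo_fxx_orth hU hF h0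
  set s := Real.sqrt (1 / 2) with hs
  have hss : s * s = 1 / 2 := Real.mul_self_sqrt (by norm_num)
  have hνν : ⟪ν, ν⟫ = 1 := by rw [real_inner_self_eq_norm_sq, hν]; norm_num
  let e : E3 := s • dX F 0 + s • ν
  have hA : geoA F e 0 = s := by
    simp only [geoA, e, inner_add_right, real_inner_smul_right, i1, hxν]; ring
  have hB : geoB β F e 0 = 0 := by
    have i2' : ⟪dY F 0, dX F 0⟫ = 0 := by rw [real_inner_comm]; exact i2
    simp [geoB, e, inner_add_right, real_inner_smul_right, i2', hyν]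
  have hee : ⟪e, e⟫ = 1 := by
    have hxν' : ⟪ν, dX F 0⟫ = 0 := by rw [real_inner_comm]; exact hxν
    simp only [e, inner_add_right, inner_add_left, real_inner_smul_right, real_inner_smul_left, i1,
      hxν, hxν', hνν]
    linarith
  have hne : ‖e‖ = 1 := by
    rw [real_inner_self_eq_norm_sq] at hee
    nlinarith [norm_nonneg e]
  obtain ⟨-, -, hPx, -⟩ := geo_chart hβ hU hF e hee h0 hC
  have hAx : dX (geoA F e) 0 = s * ⟪dX (dX F) 0, ν⟫ := by
    have hd : DifferentiableAt ℝ (dX F) 0 :=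
      ((((hF.1.contDiffAt (hU.mem_nhds h0)).fderiv_right (m := ∞) le_rfl).clm_apply
        contDiffAt_const)).differentiableAt (by simp)
    show fderiv ℝ (fun y => ⟪dX F y, e⟫) 0 (1, 0) = _
    rw [geo_fderiv_inner hd (differentiableAt_const e),
      show fderiv ℝ (dX F) 0 (1, 0) = dX (dX F) 0 from rfl]
    simp [e, inner_add_right, real_inner_smul_right, hxx1]
  refine ⟨e, hne, hA, hB, ?_, ?_⟩
  · rw [geoP, hA, hB]; nlinarith
  · rw [hPx, hA, hB, hAx, zero_mul, add_zero, ← mul_assoc, hss, abs_mul]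
    have hn : ‖dX (dX F) 0‖ ^ 2 = |⟪dX (dX F) 0, ν⟫| ^ 2 := by
      rw [← real_inner_self_eq_norm_sq, expand, hxx1, hxx2, sq_abs]
      ring
    rw [(sq_eq_sq₀ (norm_nonneg _) (abs_nonneg _)).1 hn, abs_of_pos (by norm_num : (0 : ℝ) < 1 / 2)]
    ring

/-- From the chart equations to the hodograph system at a point. -/
theorem geo_system {A B Ax Ay Bx By C Cx k Px Py ux uy m R : ℝ} (hm : 0 < m) (hR : 0 < R)
    (hI : Ay = Cx * B + C * Bx)
    (hII : Ax * By - Ay * Bx = (1 - A ^ 2 - B ^ 2) * k - Cx * Px)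
    (hPx : Px = A * Ax + B * Bx) (hPy : Py = A * Ay + B * By) (hux : ux = Px⁻¹)
    (huy : uy = -Py / Px) (hA : 1 / 2 ≤ A) (hC : 1 / 2 ≤ C) (hB : |B| ≤ m / (8 * R))
    (hpy : |Py| ≤ R) (hpx : m ≤ |Px|) :
    uy * Bx + 1 * By = A * ((1 - A ^ 2 - B ^ 2) * k * ux - Cx) ∧
      ux * Bx = -(uy + A * B * ((1 - A ^ 2 - B ^ 2) * k) * ux ^ 2) / (A * C - B * uy) := by
  have hne : Px ≠ 0 := fun h => by rw [h, abs_zero] at hpx; linarith
  have key1 : By * Px - Bx * Py = A * ((1 - A ^ 2 - B ^ 2) * k - Cx * Px) := by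
    rw [← hII, hPx, hPy]; ring
  have hk2 : (1 - A ^ 2 - B ^ 2) * k = Ax * By - Ay * Bx + Cx * Px := by linarith [hII]
  have key2 : Bx * (A * C * Px + B * Py) =
      Px * Py - A * B * (1 - A ^ 2 - B ^ 2) * k := by
    rw [mul_assoc (A * B), hk2, hPx, hPy, hI]
    ring
  have hden : A * C - B * uy ≠ 0 := by
    have hdiv : |Py| / |Px| ≤ R / m := div_le_div₀ hR.le hpy hm hpx
    have h1 : |B * uy| ≤ 1 / 8 := by
      rw [huy, abs_mul, abs_div, abs_neg]
      calc |B| * (|Py| / |Px|) ≤ m / (8 * R) * (R / m) :=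
            mul_le_mul hB hdiv (by positivity) (by positivity)
        _ = 1 / 8 := by field_simp
    have h2 : 1 / 4 ≤ A * C := by nlinarith
    intro h0
    linarith [(abs_le.1 h1).2]
  constructor
  · rw [hux, huy]
    linear_combination (norm := (field_simp; ring)) key1 / Px
  · rw [eq_div_iff hden, hux, huy]
    linear_combination (norm := (field_simp; ring)) key2 / Px ^ 2

/-- The geometry module. -/
theorem geometrySpec : GeometrySpec := by
  intro M η0 hη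
  obtain ⟨R, hR1, hbd⟩ := geo_chart_bounds (max M 1)
  set m := η0 / 4 with hm'
  have hm : 0 < m := by positivity
  obtain ⟨Ru, hRu⟩ := geo_inverse_bound m R hm 16
  obtain ⟨Rs, hRs⟩ := geoBD_fixed (g := fun p : ℝ × ℝ => p.2) isOpen_univ
    contDiffOn_snd (isCompact_closedBall (0 : ℝ × ℝ) 1) (subset_univ _) 16
  set S := max (max Ru Rs) R with hS
  set κ := m / (4 * (1 + R + m)) with hκd
  have hκ : 0 < κ := by positivity
  have hκ' : 2 * κ * (1 + R + m) ≤ m / 2 := by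
    rw [hκd]; field_simp; linarith
  have hκ1 : κ ≤ 1 / 4 := by
    rw [hκd, div_le_iff₀ (by positivity)]; linarith
  set K := max (max (geoBDComp 16 S) S) R with hK
  refine ⟨min (1 / 2) (min (m / (8 * R ^ 2)) (1 / (8 * R))), κ, K, by positivity, hκ,
    lt_of_lt_of_le (by linarith) (le_max_right _ _), ?_⟩
  intro r β U F hr hrr hβ hβb hU hsub hF hFb hFxx
  simp only [le_min_iff] at hrr
  obtain ⟨hr2, hrm, hrR⟩ := hrr
  have hr0half : min (1 / 2 : ℝ) (min (m / (8 * R ^ 2)) (1 / (8 * R))) ≤ 1 / 2 := min_le_left _ _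
  have h0sq : (0 : ℝ × ℝ) ∈ sq r := by rw [geo_sq_eq]; simp [hr.le]
  have hβabs : ∀ z ∈ sq r, |β z| ≤ 1 / 2 := fun z hz => by
    have := hβb 0 (Nat.zero_le _) z hz
    rw [norm_iteratedFDeriv_zero, Real.norm_eq_abs] at this
    exact this.trans hr0half
  have hC : ∀ z ∈ sq r, 1 / 2 ≤ 1 + β z := fun z hz => by
    linarith [(abs_le.1 (hβabs z hz)).1]
  obtain ⟨e, hne, hA0, hB0, hP0, hPx0⟩ := geo_origin hβ hU hF (hsub h0sq)
    (by linarith [hC 0 h0sq] : 1 + β 0 ≠ 0)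
  have hbds : ∀ z ∈ sq r, GeoBD 19 R (geoA F e) z ∧ GeoBD 19 R (geoB β F e) z ∧
      GeoBD 19 R (geoP β F e) z := fun z hz =>
    hbd β F e z ⟨hF.1.contDiffAt (hU.mem_nhds (hsub hz)),
        fun i hi => (hFb i hi z hz).trans (le_max_left _ _)⟩
      ⟨hβ.contDiffAt, fun i hi => (hβb i hi z hz).trans
        ((hr0half.trans (by norm_num)).trans (le_max_right _ _))⟩
      hne.le (le_max_right _ _) (hβabs z hz)
  set A := geoA F e with hAdef
  set B := geoB β F e with hBdef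
  set P := geoP β F e with hPdef
  have hconv : Convex ℝ (sq r) := by rw [geo_sq_eq]; exact convex_closedBall _ _
  have lip : ∀ {f : ℝ × ℝ → ℝ}, (∀ z ∈ sq r, GeoBD 1 R f z) →
      ∀ z ∈ sq r, |f z - f 0| ≤ R * r := by
    intro f hf z hz
    have h := hconv.norm_image_sub_le_of_norm_fderiv_le
      (fun w hw => (hf w hw).1.differentiableAt (by simp)) (fun w hw => (hf w hw).norm_fderiv_le)
      h0sq hz
    rw [Real.norm_eq_abs, sub_zero] at h
    refine h.trans (mul_le_mul_of_nonneg_left ?_ (by linarith))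
    rw [geo_sq_eq] at hz; simpa using hz
  have hR0 : 0 < R := by linarith
  have hRr : R * r ≤ 1 / 8 := by
    rw [le_div_iff₀ (by positivity)] at hrR
    linarith
  have hRrm : R * r ≤ m / (8 * R) := by
    rw [le_div_iff₀ (by positivity)] at hrm ⊢
    linarith
  have hRrm' : R * r ≤ m := hRrm.trans (div_le_self hm.le (by linarith))
  obtain ⟨s, hs, hsP⟩ : ∃ s : ℝ, (s = 1 ∨ s = -1) ∧ s * dX P 0 = |dX P 0| := by
    rcases abs_cases (dX P 0) with ⟨h, -⟩ | ⟨h, -⟩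
    · exact ⟨1, Or.inl rfl, by linarith⟩
    · exact ⟨-1, Or.inr rfl, by linarith⟩
  have hPx : ∀ z ∈ sq r, m ≤ s * dX P z := by
    intro z hz
    have h := lip (fun w hw => ((hbds w hw).2.2.dX).mono (by norm_num) le_rfl) z hz
    have h2 : |s * (dX P z - dX P 0)| ≤ R * r := by
      rcases hs with e' | e' <;> subst e' <;> simpa [abs_sub_comm] using h
    rw [mul_sub, hsP] at h2
    have : 2 * m ≤ |dX P 0| := by rw [hPx0]; linarith
    linarith [(abs_le.1 h2).1]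
  have hPy : ∀ z ∈ sq r, |dY P z| ≤ R := fun z hz =>
    (abs_dY_le_norm_fderiv P z).trans
      ((hbds z hz).2.2.mono (n' := 1) (by norm_num) le_rfl).norm_fderiv_le
  have hPon : ContDiffOn ℝ ∞ P (interior (sq r) ∪ (U ∩ {w | 1 + β w ≠ 0})) := by
    intro w hw
    have hwU : w ∈ U ∧ 1 + β w ≠ 0 := by
      rcases hw with hw | hw
      · exact ⟨hsub (interior_subset hw), by linarith [hC w (interior_subset hw)]⟩
      · exact hw
    have hX : ∀ v, ContDiffAt ℝ ∞ (fun y => fderiv ℝ F y v) w := fun v =>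
      ((hF.1.contDiffAt (hU.mem_nhds hwU.1)).fderiv_right le_rfl).clm_apply contDiffAt_const
    have ha : ContDiffAt ℝ ∞ A w := (hX (1, 0)).inner ℝ contDiffAt_const
    have hb : ContDiffAt ℝ ∞ B w :=
      ((hX (0, 1)).inner ℝ contDiffAt_const).div (contDiffAt_const.add hβ.contDiffAt) hwU.2
    exact ((((ha.pow 2).add (hb.pow 2)).div_const 2).sub contDiffAt_const).contDiffWithinAt
  obtain ⟨u, hu, hu0, hkey⟩ := geo_inverse hr
    (isOpen_interior.union (hU.inter (isOpen_ne.preimage (continuous_const.add hβ.continuous))))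
    (fun w hw => Or.inr ⟨hsub hw, show 1 + β w ≠ 0 by linarith [hC w hw]⟩)
    hPon hP0 hm hR0 hκ hκ' hs hPx hPy
  set W := Metric.ball (0 : ℝ × ℝ) (3 / 2 * κ * r) with hW
  have hball : Metric.ball (0 : ℝ × ℝ) r ⊆ sq r := by
    rw [geo_sq_eq]; exact Metric.ball_subset_closedBall
  have hκr : κ * r ≤ r / 4 := by nlinarith
  have hWsq : ∀ z ∈ W, ‖z‖ ≤ 1 := fun z hz => by
    rw [hW, Metric.mem_ball, dist_zero_right] at hz; linarith
  have habsne : ∀ w ∈ sq r, m ≤ |dX P w| := fun w hw => by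
    have := hPx w hw
    rcases hs with e' | e' <;> subst e'
    · linarith [le_abs_self (dX P w)]
    · linarith [neg_le_abs (dX P w)]
  have huB : ∀ z ∈ W, GeoBD 16 Ru u z := hRu P u W Metric.isOpen_ball hu fun z hz => by
    obtain ⟨h1, h2, h3, h4⟩ := hkey z hz
    refine ⟨hWsq z hz, ?_, (hbds _ (hball h1)).2.2.mono (by norm_num) le_rfl,
      habsne _ (hball h1), h3, h4⟩
    have := (geo_mem_sq.1 (hball h1)).1
    simp only [pt] at this
    linarith
  have hBu : ContDiffOn ℝ ∞ (fun z => B (pt u z)) W := fun z hz =>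
    ((hbds _ (hball (hkey z hz).1)).2.1.1.comp z
      (hu.contDiffAt.prodMk contDiffAt_snd)).contDiffWithinAt
  obtain ⟨b, hb, hbB⟩ := geo_extend Metric.isOpen_ball (s := 9 / 8 * κ * r) (t := 5 / 4 * κ * r)
    (by positivity) (by nlinarith [mul_pos hκ hr])
    (Metric.closedBall_subset_ball (by nlinarith [mul_pos hκ hr])) hBu
  have hin : ∀ z ∈ sq (κ * r), z ∈ Metric.ball (0 : ℝ × ℝ) (9 / 8 * κ * r) ∧ z ∈ W := by
    intro z hz
    rw [geo_sq_eq, Metric.mem_closedBall] at hz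
    constructor <;> (rw [Metric.mem_ball]; nlinarith [mul_pos hκ hr])
  refine ⟨u, b, hu, hb, hu0, ?_, fun z hz => ?_⟩
  · have : (0 : ℝ × ℝ) ∈ Metric.ball (0 : ℝ × ℝ) (9 / 8 * κ * r) := by simp; positivity
    rw [hbB 0 this, show pt u 0 = 0 by simp [pt, hu0], hB0]
  · obtain ⟨hz1, hz2⟩ := hin z hz
    obtain ⟨hw, hPw, e1, e2⟩ := hkey z hz2
    set w := pt u z with hwdef
    have hwsq := hball hw
    obtain ⟨hAb, hBb, hPb⟩ := hbds w hwsq
    have hbev : b =ᶠ[𝓝 z] fun y => B (pt u y) :=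
      Filter.eventuallyEq_of_mem (Metric.isOpen_ball.mem_nhds hz1) fun y hy => hbB y hy
    have hpx : dX P w ≠ 0 := fun h0 => by
      have := habsne w hwsq; rw [h0, abs_zero] at this; linarith
    have hpxR : |dX P w| ≤ R :=
      (abs_dX_le_norm_fderiv P w).trans (hPb.mono (n' := 1) (by norm_num) le_rfl).norm_fderiv_le
    have hux : dX u z = (dX P w)⁻¹ := eq_inv_of_mul_eq_one_left e1
    have huy : dY u z = -dY P w / dX P w := by rw [eq_div_iff hpx]; linarith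
    have hptB : GeoBD 16 S (pt u) z :=
      ((huB z hz2).mono le_rfl ((le_max_left _ _).trans (le_max_left _ _))).prodMk
        ((hRs z (by simpa using hWsq z hz2)).mono le_rfl
          ((le_max_right _ _).trans (le_max_left _ _)))
    have hcomp : GeoBD 16 (geoBDComp 16 S) (fun y => B (pt u y)) z :=
      GeoBD.comp (f := pt u) (x := z) (hBb.mono (n' := 16) (by norm_num) (le_max_right _ _ : R ≤ S)) hptB
    have hbK : GeoBD 16 K b z :=
      (hcomp.congr hbev).mono le_rfl ((le_max_left _ _).trans (le_max_left _ _))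
    refine ⟨hwsq, ?_, fun i hi => Or.inl (((huB z hz2).2 i hi).trans
      ((((le_max_left _ _).trans (le_max_left _ _)).trans (le_max_right _ _)).trans
        (le_max_left _ _))), hbK.2, ?_⟩
    · rw [hux, abs_inv, ← one_div]
      exact one_div_le_one_div_of_le (abs_pos.2 hpx) (hpxR.trans (le_max_right _ _))
    obtain ⟨hI, hII, hPxw, hPyw⟩ := geo_chart hβ hU hF e
      (by rw [real_inner_self_eq_norm_sq, hne]; norm_num) (hsub hwsq)
      (by linarith [hC w hwsq] : 1 + β w ≠ 0)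
    rw [← hAdef, ← hBdef] at hI hII hPxw hPyw
    rw [← hPdef] at hII hPxw hPyw
    -- values near the centre
    have hs2 : (7 / 10 : ℝ) ≤ Real.sqrt (1 / 2) := Real.le_sqrt_of_sq_le (by norm_num)
    have hAw := lip (fun w hw => (hbds w hw).1.mono (by norm_num) le_rfl) w hwsq
    have hBw := lip (fun w hw => (hbds w hw).2.1.mono (by norm_num) le_rfl) w hwsq
    rw [hA0] at hAw
    rw [hB0, sub_zero] at hBw
    have hA1 : 1 / 2 ≤ A w := by linarith [(abs_le.1 hAw).1]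
    have hbw : b z = B w := hbev.eq_of_nhds
    have hzP : z.1 = (A w ^ 2 + B w ^ 2) / 2 - 1 / 4 := hPw.symm
    have hAfun : Afun z.1 (b z) = A w := by
      rw [Afun, hbw, hzP, show 2 * (1 / 4 + ((A w ^ 2 + B w ^ 2) / 2 - 1 / 4)) - B w ^ 2 = A w ^ 2
        by ring, Real.sqrt_sq (by linarith)]
    have hder : ∀ v, fderiv ℝ b z v =
        (fderiv ℝ u z v) * dX B w + v.2 * dY B w := by
      intro v
      have hd := (hBb.1.differentiableAt (by simp)).hasFDerivAt.comp z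
        ((hu.differentiable (by simp) z).hasFDerivAt.prodMk
          (hasFDerivAt_snd (p := z) (𝕜 := ℝ) (E := ℝ) (F := ℝ)))
      have hd' : fderiv ℝ (fun y => B (pt u y)) z = _ := hd.fderiv
      rw [hbev.fderiv_eq, hd']
      simp only [ContinuousLinearMap.comp_apply, ContinuousLinearMap.prod_apply,
        ContinuousLinearMap.coe_snd']
      rw [fderiv_prod_apply B]
      simp only [smul_eq_mul]
    have hbx : dX b z = dX u z * dX B w + 0 * dY B w := hder (1, 0)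
    have hby : dY b z = dY u z * dX B w + 1 * dY B w := hder (0, 1)
    have hk : kPrime z.1 (kbar β w) = (1 - A w ^ 2 - B w ^ 2) * kbar β w := by
      rw [kPrime, hzP]; ring
    obtain ⟨s1, s2⟩ := geo_system hm hR0 hI hII hPxw hPyw hux huy hA1 (hC w hwsq)
      (hBw.trans hRrm) (hPy w hwsq) (habsne w hwsq)
    constructor
    · rw [hby, hk, hAfun]; exact s1
    · rw [hbx, zero_mul, add_zero, Nfun, Zfun, hAfun, hk, hbw]; exact s2

end Vale.Agent.P229
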