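import Vale.Agent.P229.StageTri

/-!
# P229, module A: stages

A stage is a right triangle whose first leg is slightly stretched, so that an immersion cannot keep
all three edges straight; tiny boxes at equally spaced points of the edges, in flat charts along
the edges, then exclude every immersion with bounded derivatives.
-/

open scoped ContDiff RealInnerProductSpace Topology
open Set Filter

namespace Vale.Agent.P229

section small

/-- `f` is smooth and its derivatives up to order `m` are everywhere bounded by `B`. -/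
def SmallDer (m : ℕ) (B : ℝ) (f : ℝ × ℝ → ℝ) : Prop :=
  ContDiff ℝ ∞ f ∧ ∀ i ≤ m, ∀ z, ‖iteratedFDeriv ℝ i f z‖ ≤ B

variable {m : ℕ} {A B : ℝ} {f g : ℝ × ℝ → ℝ}

lemma SmallDer.nonneg (h : SmallDer m B f) : 0 ≤ B :=
  (norm_nonneg _).trans (h.2 0 (Nat.zero_le m) 0)

lemma SmallDer.mono (h : SmallDer m A f) (hAB : A ≤ B) : SmallDer m B f :=
  ⟨h.1, fun i hi z => (h.2 i hi z).trans hAB⟩

lemma smallDer_zero : SmallDer m 0 fun _ => (0 : ℝ) :=
  ⟨contDiff_const, fun i _ z => by rw [iteratedFDeriv_fun_zero]; simp⟩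

lemma SmallDer.abs_le (h : SmallDer m B f) (z : ℝ × ℝ) : |f z| ≤ B := by
  simpa [norm_iteratedFDeriv_zero] using h.2 0 (Nat.zero_le m) z

lemma SmallDer.add (hf : SmallDer m A f) (hg : SmallDer m B g) :
    SmallDer m (A + B) fun z => f z + g z := by
  refine ⟨hf.1.add hg.1, fun i hi z => ?_⟩
  rw [fun_iteratedFDeriv_add (hf.1.of_le (mod_cast le_top)) (hg.1.of_le (mod_cast le_top))]
  exact (norm_add_le _ _).trans (add_le_add (hf.2 i hi z) (hg.2 i hi z))

lemma SmallDer.const_mul (hf : SmallDer m A f) (c : ℝ) :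
    SmallDer m (|c| * A) fun z => c * f z := by
  refine ⟨contDiff_const.mul hf.1, fun i hi z => ?_⟩
  have : (fun z => c * f z) = c • f := rfl
  rw [this, iteratedFDeriv_const_smul_apply ((hf.1.of_le (mod_cast le_top)).contDiffAt), norm_smul,
    Real.norm_eq_abs]
  exact mul_le_mul_of_nonneg_left (hf.2 i hi z) (abs_nonneg c)

lemma SmallDer.finsetSum {ι : Type*} (s : Finset ι) {f : ι → ℝ × ℝ → ℝ}
    (hf : ∀ i ∈ s, SmallDer m B (f i)) : SmallDer m (s.card * B) fun z => ∑ i ∈ s, f i z := by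
  classical
  induction s using Finset.induction_on with
  | empty => simpa using smallDer_zero
  | insert a s ha ih =>
      simp only [Finset.sum_insert ha, Finset.card_insert_of_notMem ha, Nat.cast_add, Nat.cast_one,
        add_mul, one_mul, add_comm (_ * B) B]
      exact (hf a (Finset.mem_insert_self a s)).add
        (ih fun i hi => hf i (Finset.mem_insert_of_mem hi))

lemma smallDer_of_support {K : Set (ℝ × ℝ)} (hK : IsCompact K) (hf : ContDiff ℝ ∞ f)
    (hsupp : ∀ z, z ∉ K → f z = 0) : ∃ B : ℝ, SmallDer m B f := by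
  obtain ⟨C, hC⟩ := geoBD_fixed isOpen_univ hf.contDiffOn hK (subset_univ _) m
  refine ⟨max C 0, hf, fun i hi z => ?_⟩
  by_cases hz : z ∈ K
  · exact ((hC z hz).2 i hi).trans (le_max_left _ _)
  · have hev : f =ᶠ[𝓝 z] fun _ => 0 :=
      eventually_of_mem (hK.isClosed.isOpen_compl.mem_nhds hz) fun w hw => hsupp w hw
    rw [(hev.iteratedFDeriv ℝ i).eq_of_nhds, iteratedFDeriv_fun_zero]
    simp

lemma smallDer_box {β : ℝ × ℝ → ℝ} {σ : ℝ} (hβ : SmallDer m σ β) (hσ : σ ≤ 1) :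
    SmallDer m ((2 + 2 ^ m) * σ) fun z => 2 * β z + β z * β z := by
  have hσ0 := hβ.nonneg
  have hsq : SmallDer m (2 ^ m * σ) fun z => β z * β z := by
    refine ⟨hβ.1.mul hβ.1, fun i hi z => ?_⟩
    refine (norm_iteratedFDeriv_mul_le hβ.1 hβ.1 z (mod_cast le_top)).trans ?_
    calc ∑ j ∈ Finset.range (i + 1), (i.choose j : ℝ) * ‖iteratedFDeriv ℝ j β z‖ *
          ‖iteratedFDeriv ℝ (i - j) β z‖
        ≤ ∑ j ∈ Finset.range (i + 1), (i.choose j : ℝ) * σ * 1 := by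
          refine Finset.sum_le_sum fun j hj => mul_le_mul ?_ ((hβ.2 _ (by omega) z).trans hσ)
            (norm_nonneg _) (by positivity)
          exact mul_le_mul_of_nonneg_left
            (hβ.2 _ ((Finset.mem_range_succ_iff.1 hj).trans hi) z) (by positivity)
      _ = (2 : ℝ) ^ i * σ := by
          rw [← Finset.sum_mul, ← Finset.sum_mul, mul_one, ← Nat.cast_sum, Nat.sum_range_choose]
          push_cast; rfl
      _ ≤ 2 ^ m * σ := mul_le_mul_of_nonneg_right (pow_le_pow_right₀ one_le_two hi) hσ0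
  exact ((hβ.const_mul 2).add hsq).mono (by rw [abs_two]; linarith)

end small

lemma smallDer_bx {T : TriData} {m : ℕ} {D σ' : ℝ} {ψ : ℝ × ℝ → ℝ} (hψ : SmallDer m σ' ψ)
    (hψ0 : ∀ z : ℝ × ℝ, (T.σ < |z.1| ∨ T.σ < |z.2|) → ψ z = 0) (hD : 1 ≤ D) (e : Fin 3)
    (hout : ∀ w ∈ sq (2 * T.L), GeoBD m D (edgeOut T.L T.ε e) w)
    {k : ℕ} (hk : k ∈ Finset.Ico 1 T.N) :
    SmallDer m ((m.factorial : ℝ) * σ' * D ^ m) (T.box ψ e k) := by
  refine ⟨hψ.1.comp ((contDiff_edgeOut T.L T.ε e).sub contDiff_const), fun i hi w => ?_⟩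
  have hσ := hψ.nonneg
  by_cases hw : w ∈ sq (2 * T.L)
  · have hg : ContDiff ℝ ∞ fun y => ψ (y - T.pos e k) :=
      hψ.1.comp (contDiff_id.sub contDiff_const)
    have hcomp := norm_iteratedFDeriv_comp_le (n := i) hg (contDiff_edgeOut T.L T.ε e)
      (mod_cast le_top) w (C := σ') (D := D)
      (fun j hj => by rw [iteratedFDeriv_comp_sub]; exact hψ.2 j (hj.trans hi) _)
      (fun j hj1 hj => ((hout w hw).2 j (hj.trans hi)).trans (le_self_pow₀ hD (by omega)))
    refine hcomp.trans ?_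
    have h1 : (i.factorial : ℝ) ≤ m.factorial := by exact_mod_cast Nat.factorial_le hi
    have h2 : D ^ i ≤ D ^ m := pow_le_pow_right₀ hD hi
    gcongr
  · have hev : T.box ψ e k =ᶠ[𝓝 w] fun _ => 0 :=
      eventually_of_mem ((isClosed_sq (2 * T.L)).isOpen_compl.mem_nhds hw)
        fun v hv => T.box_supp hψ0 e hk hv
    rw [(hev.iteratedFDeriv ℝ i).eq_of_nhds, iteratedFDeriv_fun_zero]
    simp only [Pi.zero_apply, norm_zero]
    positivity

lemma smallDer_metric {T : TriData} {m : ℕ} {A B : ℝ} {χ : ℝ → ℝ} {ψ : ℝ × ℝ → ℝ}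
    (hq : SmallDer m A (T.pert χ))
    (hbx : ∀ e, ∀ k ∈ Finset.Ico 1 T.N, SmallDer m B (T.box ψ e k)) (hA : 0 ≤ A) (hB : 0 ≤ B)
    (i j : Fin 2) :
    SmallDer m (A + 3 * ((T.N : ℝ) * B)) (T.metric χ ψ i j) := by
  have hterm : ∀ e ∈ (Finset.univ : Finset (Fin 3)), SmallDer m ((T.N : ℝ) * B)
      (fun w => edgeEta e i * edgeEta e j * ∑ k ∈ Finset.Ico 1 T.N, T.box ψ e k w) := by
    intro e _
    refine ((SmallDer.finsetSum _ (hbx e)).const_mul (edgeEta e i * edgeEta e j)).mono ?_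
    refine le_trans (mul_le_of_le_one_left (by positivity) ?_)
      (mul_le_mul_of_nonneg_right ?_ hB)
    · rw [abs_mul]
      exact mul_le_one₀ (abs_edgeEta_le e i) (abs_nonneg _) (abs_edgeEta_le e j)
    · rw [Nat.card_Ico]
      exact_mod_cast Nat.sub_le T.N 1
  refine ((hq.const_mul (if i = 0 ∧ j = 0 then 1 else 0)).add
    (SmallDer.finsetSum _ hterm)).mono ?_
  rw [Finset.card_univ, Fintype.card_fin]
  have h3 : |(if i = 0 ∧ j = 0 then (1 : ℝ) else 0)| * A ≤ A := by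
    split_ifs <;> simp [hA]
  push_cast
  linarith

/-- The size of the stretching. -/
lemma exists_stretching (m : ℕ) {L δ : ℝ} (hL : 0 < L) (hδ : 0 < δ) :
    ∃ χ : ℝ → ℝ, ContDiff ℝ ∞ χ ∧ (∀ y, |y| ≤ L / 16 → χ y = 1) ∧
      (∀ y, L / 8 ≤ |y| → χ y = 0) ∧
      ∃ ε : ℝ, 0 < ε ∧ ε ≤ 1 / 4 ∧ (∀ x, |ε * L * deriv (stepFun L) x| ≤ 1 / 2) ∧
        SmallDer m δ fun z => ε * (2 * (L * deriv (stepFun L) z.1) * χ z.2) +
          ε ^ 2 * ((L * deriv (stepFun L) z.1) * (L * deriv (stepFun L) z.1) * χ z.2) := by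
  let χ : ContDiffBump (0 : ℝ) := ⟨L / 16, L / 8, by linarith, by linarith⟩
  have hχ1 : ∀ y, |y| ≤ L / 16 → χ y = 1 := fun y hy =>
    χ.one_of_mem_closedBall (by simpa [Metric.mem_closedBall, Real.dist_eq] using hy)
  have hχ0 : ∀ y, L / 8 ≤ |y| → χ y = 0 := fun y hy =>
    χ.zero_of_le_dist (by simpa [Real.dist_eq] using hy)
  have hχs : ContDiff ℝ ∞ fun z : ℝ × ℝ => χ z.2 := χ.contDiff.comp contDiff_snd
  let φ' : ℝ × ℝ → ℝ := fun z => L * deriv (stepFun L) z.1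
  have hφs : ContDiff ℝ ∞ φ' := contDiff_const.mul ((contDiff_deriv_stepFun L).comp contDiff_fst)
  have hoff : ∀ z : ℝ × ℝ, z ∉ sq (2 * L) → φ' z = 0 ∨ χ z.2 = 0 := by
    intro z hz
    rw [mem_sq, not_and_or, not_le, not_le] at hz
    rcases hz with hz | hz
    · left
      simp only [φ']
      rw [deriv_stepFun_of_lt hL, mul_zero]
      rcases lt_abs.1 hz with h | h
      · right; linarith
      · left; linarith
    · exact Or.inr (hχ0 _ (by linarith))
  obtain ⟨KA, hKA⟩ := smallDer_of_support (m := m) (f := fun z => 2 * φ' z * χ z.2)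
    (isCompact_sq (2 * L)) ((contDiff_const.mul hφs).mul hχs)
    (fun z hz => by rcases hoff z hz with h | h <;> simp [h])
  obtain ⟨KB, hKB⟩ := smallDer_of_support (m := m) (f := fun z => φ' z * φ' z * χ z.2)
    (isCompact_sq (2 * L)) ((hφs.mul hφs).mul hχs)
    (fun z hz => by rcases hoff z hz with h | h <;> simp [h])
  obtain ⟨Cd, hCd⟩ := exists_deriv_stepFun_bound hL
  obtain ⟨ε, hε0, hε1, hεd, hεK⟩ : ∃ ε : ℝ, 0 < ε ∧ ε ≤ 1 / 4 ∧ ε * (L * |Cd|) ≤ 1 / 2 ∧
      ε * (|KA| + |KB|) ≤ δ := by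
    refine ⟨min (1 / 4) (min (1 / 2 / (L * |Cd| + 1)) (δ / (|KA| + |KB| + 1))), by positivity,
      min_le_left _ _, ?_, ?_⟩
    · calc _ ≤ 1 / 2 / (L * |Cd| + 1) * (L * |Cd|) :=
            mul_le_mul_of_nonneg_right ((min_le_right _ _).trans (min_le_left _ _)) (by positivity)
        _ ≤ 1 / 2 := by
            rw [div_mul_eq_mul_div, div_le_iff₀ (by positivity)]; linarith
    · calc _ ≤ δ / (|KA| + |KB| + 1) * (|KA| + |KB|) :=
            mul_le_mul_of_nonneg_right ((min_le_right _ _).trans (min_le_right _ _)) (by positivity)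
        _ ≤ δ := by
            rw [div_mul_eq_mul_div, div_le_iff₀ (by positivity)]; nlinarith
  refine ⟨χ, χ.contDiff, hχ1, hχ0, ε, hε0, hε1, fun x => ?_, ?_⟩
  · rw [abs_mul, abs_of_pos (mul_pos hε0 hL), mul_assoc]
    exact le_trans (mul_le_mul_of_nonneg_left (mul_le_mul_of_nonneg_left
      ((hCd x).trans (le_abs_self Cd)) hL.le) hε0.le) hεd
  · refine ((hKA.const_mul ε).add (hKB.const_mul (ε ^ 2))).mono ?_
    rw [abs_of_pos hε0, abs_of_pos (by positivity : (0 : ℝ) < ε ^ 2)]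
    have h1 : ε * KA ≤ ε * |KA| := mul_le_mul_of_nonneg_left (le_abs_self _) hε0.le
    have h2 : ε ^ 2 * KB ≤ ε * |KB| :=
      mul_le_mul (by nlinarith) (le_abs_self _) hKB.nonneg hε0.le
    linarith

/-- The box statement gives stages. -/
theorem stageSpec_of_box (hbox : BoxSpec) : StageSpec := by
  intro m L hL
  obtain ⟨δ₀, hδpos, hδm, hδ10⟩ : ∃ δ : ℝ, 0 < δ ∧ 2 * δ ≤ (1 / 2) ^ m ∧ 2 * δ ≤ 1 / 10 :=
    ⟨min ((1 / 2) ^ m) (1 / 10) / 2, by positivity, by linarith [min_le_left ((1 / 2 : ℝ) ^ m) (1 / 10)],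
      by linarith [min_le_right ((1 / 2 : ℝ) ^ m) (1 / 10)]⟩
  obtain ⟨χ, hχs, hχ1, hχ0, ε, hε0, hε1, hdbd, hq⟩ := exists_stretching m hL hδpos
  obtain ⟨R, R', hRs, -, hSR, hR0, hRℓ, hR', hRR', hRid, hRlow, hRhigh⟩ :=
    exists_unstretch hL hε0.le hε1 hdbd
  have hCin : ∀ e, ∃ C : ℝ, ∀ z ∈ sq (3 * L), GeoBD 20 C (edgeIn L R e) z := fun e =>
    geoBD_fixed isOpen_univ (contDiff_edgeIn L hRs e).contDiffOn (isCompact_sq _) (subset_univ _) 20
  choose Cin hCin using hCin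
  have hCout : ∀ e, ∃ C : ℝ, ∀ z ∈ sq (2 * L), GeoBD m C (edgeOut L ε e) z := fun e =>
    geoBD_fixed isOpen_univ (contDiff_edgeOut L ε e).contDiffOn (isCompact_sq _) (subset_univ _) m
  choose Cout hCout using hCout
  obtain ⟨R0, hmR0, hCR0⟩ : ∃ R0 : ℝ, (m : ℝ) ≤ R0 ∧ ∀ e, Cin e ≤ R0 :=
    ⟨max (m : ℝ) (∑ e, |Cin e|), le_max_left _ _, fun e => (le_abs_self _).trans
      ((Finset.single_le_sum (fun e _ => abs_nonneg (Cin e)) (Finset.mem_univ e)).trans
        (le_max_right _ _))⟩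
  obtain ⟨D, hD1, hCD⟩ : ∃ D : ℝ, 1 ≤ D ∧ ∀ e, Cout e ≤ D :=
    ⟨1 + ∑ e, |Cout e|, le_add_of_nonneg_right (Finset.sum_nonneg fun e _ => abs_nonneg _),
      fun e => (le_abs_self _).trans
        ((Finset.single_le_sum (fun e _ => abs_nonneg (Cout e)) (Finset.mem_univ e)).trans
          (le_add_of_nonneg_left zero_le_one))⟩
  set M : ℝ := geoBDComp 20 R0 with hM
  set gap : ℝ := Real.sqrt ((1 + ε) ^ 2 + 1) - 2 * rhalf with hgap
  have hgap0 : 0 < gap := triangle_gap hε0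
  obtain ⟨η0, hη0pos, hη0⟩ : ∃ η : ℝ, 0 < η ∧ 7 * (2 * η) * L < gap :=
    ⟨gap / (20 * L), by positivity, by field_simp; linarith⟩
  obtain ⟨N, hN2, hNM⟩ : ∃ N : ℕ, 2 ≤ N ∧ |M| * (2 * L / N) ≤ η0 := by
    obtain ⟨n, hn⟩ := exists_nat_gt (|M| * (2 * L) / η0)
    refine ⟨n + 2, by omega, ?_⟩
    rw [div_lt_iff₀ hη0pos] at hn
    rw [← mul_div_assoc, div_le_iff₀ (by positivity)]
    push_cast
    linarith
  have hNr : (0 : ℝ) < N := by exact_mod_cast (show 0 < N by omega)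
  set Kb : ℝ := 3 * N * ((m.factorial : ℝ) * (2 + 2 ^ m) * D ^ m) with hKb
  have hKb0 : 0 < Kb := by rw [hKb]; positivity
  obtain ⟨σ, hσ0, hσa, hσ1, hσK⟩ : ∃ σ : ℝ, 0 < σ ∧ σ ≤ L / N / 100 ∧ σ ≤ 1 ∧ Kb * σ ≤ δ₀ := by
    refine ⟨min (L / N / 100) (min 1 (δ₀ / Kb)), by positivity, min_le_left _ _,
      (min_le_right _ _).trans (min_le_left _ _), ?_⟩
    rw [mul_comm, ← le_div_iff₀ hKb0]
    exact (min_le_right _ _).trans (min_le_right _ _)
  obtain ⟨β, hβs, hβsupp, -, hβsmall, hβno⟩ := hbox m M η0 σ hη0pos hσ0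
  let T : TriData := ⟨L, ε, σ, N, R, R', hL, hε0, hε1, hN2, hσ0, hσa, hRs, hSR, hR0, hRℓ, hR',
    hRR', hRid, hRlow, hRhigh⟩
  set ψ : ℝ × ℝ → ℝ := fun z => 2 * β z + β z * β z with hψdef
  have hψ : SmallDer m ((2 + 2 ^ m) * σ) ψ := smallDer_box ⟨hβs, hβsmall⟩ hσ1
  have hψ0 : ∀ z : ℝ × ℝ, (T.σ < |z.1| ∨ T.σ < |z.2|) → ψ z = 0 := by
    intro z hz
    have : z ∉ sq σ := by
      rw [mem_sq]
      rintro ⟨h1, h2⟩
      rcases hz with h | h
      · exact absurd h1 (not_le.2 h)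
      · exact absurd h2 (not_le.2 h)
    simp [hψdef, hβsupp z this]
  have hh : ∀ i j, SmallDer m (2 * δ₀) (T.metric χ ψ i j) := by
    intro i j
    refine (smallDer_metric (T := T) (A := δ₀) (B := (m.factorial : ℝ) * ((2 + 2 ^ m) * σ) * D ^ m)
      hq (fun e k hk => smallDer_bx hψ hψ0 hD1 e
        (fun w hw => (hCout e w hw).mono le_rfl (hCD e)) hk) hδpos.le (by positivity) i j).mono ?_
    have : (T.N : ℝ) = N := rfl
    rw [this]
    linarith [show Kb * σ = 3 * ((N : ℝ) * ((m.factorial : ℝ) * ((2 + 2 ^ m) * σ) * D ^ m)) by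
      rw [hKb]; ring]
  refine ⟨T.metric χ ψ, fun i j => (hh i j).1, fun i j => ?_, fun i j z hz => ?_,
    fun i j z => ((hh i j).abs_le z).trans hδ10, fun i j k hk z => ((hh i j).2 k hk z).trans hδm,
    fun V F hV hsub hF himm hFb => ?_⟩
  · funext w
    simp only [TriData.metric, and_comm, mul_comm (edgeEta _ i) (edgeEta _ j)]
  · have hq0 : T.pert χ z = 0 := by
      rw [mem_sq, not_and_or, not_le, not_le] at hz
      rcases hz with hz | hz
      · have : z.1 < L / 4 ∨ L / 2 < z.1 := by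
          rcases lt_abs.1 hz with h | h
          · right; linarith
          · left; linarith
        simp [TriData.pert, T, deriv_stepFun_of_lt hL this]
      · simp [TriData.pert, hχ0 z.2 (by linarith)]
    simp only [TriData.metric, hq0, mul_zero, zero_add]
    refine Finset.sum_eq_zero fun e _ => ?_
    rw [Finset.sum_eq_zero fun k hk => T.box_supp hψ0 e hk hz, mul_zero]
  exact T.no_immersion hχ1 hχ0 hβsupp hβno hη0 hNM hV hsub hF himm fun e z h1 h2 h3 =>
    T.chart_bound hV hsub hF hFb hmR0 (fun e z hz => (hCin e z hz).mono le_rfl (hCR0 e)) e h1 h2 h3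

/-- The box statement gives a smooth metric without local isometric immersions. -/
theorem noLocalImmersion_of_box (hbox : BoxSpec) : NoLocalImmersion :=
  noLocalImmersion_of_stage (stageSpec_of_box hbox)

end Vale.Agent.P229
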