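import Vale.Agent.P229.BoxImp
import Vale.Agent.P229.BoxPair
import Vale.Agent.P229.BoxSignal
import Vale.Agent.P229.BoxFinalAux
import Vale.Agent.P229.Geometry
import Vale.Agent.P229.Stage

/-!
# P229: no solution in the box
-/

open scoped ContDiff Topology
open MeasureTheory Set Filter

namespace Vale.Agent.P229

/-- The comparison of the exponents. -/
theorem bfExponents {t εδn : ℝ} (ht : 0 < t) (ht4 : 4 ≤ t⁻¹) {Qe Pe μ N a b d : ℕ}
    (hPQ : Pe + 4 ≤ Qe) (hsig : (t⁻¹) ^ (4 * Qe - 2 * Pe) ≤ εδn)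
    (h1 : Qe + μ + N + a + 2 ≤ 4 * Qe - 2 * Pe)
    (h2 : N + b + 2 ≤ 4 * Qe - 2 * Pe + (Qe + μ))
    (h3 : N + d + 2 ≤ 4 * Qe - 2 * Pe + (2 * Qe - Pe + μ)) :
    ¬ t * εδn ≤ (t⁻¹) ^ (Qe + μ + N) * (t⁻¹) ^ a +
      (t⁻¹) ^ N * (t ^ (Qe + μ) * (t⁻¹) ^ b + t ^ (2 * Qe - Pe + μ) * (t⁻¹) ^ d) := by
  intro h
  have hT1 : 1 ≤ t⁻¹ := by linarith
  have ht1 : t ≤ 1 := (one_le_inv₀ ht).1 hT1
  set X := 4 * Qe - 2 * Pe - 2 with hX
  have e1 : (t⁻¹) ^ (Qe + μ + N) * (t⁻¹) ^ a ≤ (t⁻¹) ^ X := by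
    rw [← pow_add]; exact pow_le_pow_right₀ hT1 (by omega)
  have e2 : (t⁻¹) ^ N * (t ^ (Qe + μ) * (t⁻¹) ^ b) ≤ (t⁻¹) ^ X := by
    rw [mul_left_comm, ← pow_add]; exact bfPow ht ht1 (by omega)
  have e3 : (t⁻¹) ^ N * (t ^ (2 * Qe - Pe + μ) * (t⁻¹) ^ d) ≤ (t⁻¹) ^ X := by
    rw [mul_left_comm, ← pow_add]; exact bfPow ht ht1 (by omega)
  have e4 : t⁻¹ * (t⁻¹) ^ X ≤ t * εδn := by
    refine le_trans (le_of_eq ?_) (mul_le_mul_of_nonneg_left hsig ht.le)
    rw [show 4 * Qe - 2 * Pe = X + 2 by omega, pow_add _ X 2]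
    field_simp
  have h0 : 0 < (t⁻¹) ^ X := by positivity
  nlinarith [mul_le_mul_of_nonneg_right ht4 h0.le]

/-- The bump dominates. -/
theorem Par.bf_bump (c : Par) (n : ℕ) (hn : n = c.j + 4) {t : ℝ} (ht : 0 < t) :
    (t⁻¹) ^ (4 * c.Qe - 2 * c.Pe) ≤ c.ε t * c.δ t / c.δ t ^ n := by
  have hd := c.bxδ_pos ht
  have e : c.ε t * c.δ t / c.δ t ^ n = ((c.δ t) ^ 2)⁻¹ := by
    rw [hn, Par.ε, pow_add (c.δ t) c.j 4, pow_add (c.δ t) c.j 1]
    field_simp
  rw [e, inv_pow]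
  refine inv_anti₀ (pow_pos hd 2) ?_
  calc c.δ t ^ 2 ≤ (1 * t ^ (2 * c.Qe - c.Pe)) ^ 2 :=
        pow_le_pow_left₀ hd.le (mul_le_mul_of_nonneg_right c.bxc1_le (pow_nonneg ht.le _)) 2
    _ = t ^ (4 * c.Qe - 2 * c.Pe) := by rw [one_mul, ← pow_mul]; congr 1; omega

/-- The box excludes solutions of the hodograph system. -/
theorem Par.no_sol (K : ℝ) (hK : 1 ≤ K) (κ : ℝ) (hκ : 0 < κ) (Pe j : ℕ) (hP : 40 ≤ Pe)
    (hj : 12 ≤ j) : ∃ c : Par, c.K = K ∧ c.κ = κ ∧ c.Pe = Pe ∧ c.j = j ∧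
      ∀ᶠ t in 𝓝[>] (0 : ℝ), ∀ u b : ℝ × ℝ → ℝ, ¬ c.Sol t u b := by
  obtain ⟨Np, hpair⟩ := Par.pairing Pe
  obtain ⟨Nl, hlevels⟩ := Par.levels K hK Pe (j + 4)
  obtain ⟨Ns, hsup⟩ := Par.sup_at K hK Pe (j + 4)
  obtain ⟨Ni, himp⟩ := Par.improved K hK Pe j
  obtain ⟨Nr, hrem⟩ := bxSrc_rem K hK (j + 4) (by omega) Ns
  obtain ⟨Nb, hbump⟩ := bxSrc_bump K hK (j + 4) (by omega) Ns
  set μ := Np + Nl + Nr + 2 * Pe + 30 with hμ
  set Qe := 4 * (μ + Np + Ni + 2 * Pe + 10) + Np + 4 * μ + 4 * Pe + 20 with hQe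
  let c : Par :=
    { K := K, κ := κ, Pe := Pe, Qe := Qe, j := j, one_le_K := hK, κ_pos := hκ,
      Pe_le := by omega }
  refine ⟨c, rfl, rfl, rfl, rfl, ?_⟩
  have cP : c.Pe = Pe := rfl
  have cQ : c.Qe = Qe := rfl
  have cj : c.j = j := rfl
  filter_upwards [bxEv_pos, bxEv_T 4,
    hpair μ (by omega) c rfl (by omega) (by omega) (by omega) (j + 4),
    hlevels c rfl rfl (by omega) (by omega) (by omega) (by omega) 0 le_rfl one_pos,
    hsup c rfl rfl (by omega) (by omega) (by omega) (by omega) 0 le_rfl one_pos,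
    himp c rfl rfl rfl (by omega) (by omega) (by omega),
    hrem c rfl (by omega) (by omega) (by omega) (by omega),
    hbump c rfl (by omega) (by omega) (by omega) (by omega),
    c.coef_bd (by omega) (by omega) (by omega) (j + 4),
    Par.cent_bd c (by omega) (by omega) μ (by omega) (by omega),
    Par.signal c (by omega) (by omega) μ (by omega) (by omega) (j + 4),
    c.bf_integrals (by omega) (by omega) (j + 4) Nr Nl rfl]
    with t ⟨ht, ht1⟩ hT4 hpair hlev hsup himp hrem hbump hcoef hcent hsig hint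
  intro u b h
  set n := j + 4 with hn
  have hsc : BpScale c t μ := ⟨ht, ht1, by omega⟩
  have hrect : c.rect t 0 ⊆ c.rect t 1 := c.rect_subset ht.le zero_le_one
  obtain ⟨hHc, hHG⟩ := hint u b h.smu h.smb (hlev u b h)
  set S : ℝ × ℝ → ℝ := dX^[n] (c.cGf t u b) with hS
  have sS : Continuous S := (bxSmooth_iter (Par.cGf_smooth h) n).continuous
  set F : ℝ × ℝ → ℝ := (c.bumpSet t).indicator S with hF
  have hFi : Integrable F :=
    (integrable_indicator_iff (c.bumpSet_compact t).measurableSet).2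
      (sS.continuousOn.integrableOn_compact (c.bumpSet_compact t))
  have hFS : ∀ z ∈ c.rect t 0, F z = S z := fun z hz => by
    by_cases hb : z ∈ c.bumpSet t
    · exact indicator_of_mem hb _
    · have := hbump u b h z (hrect hz) (hsup u b h z hz)
      rw [Par.indB, indicator_of_notMem hb, zero_mul, abs_nonpos_iff] at this
      rw [hF, indicator_of_notMem hb]
      exact this.symm
  have hψF : ∀ z, c.wave t n μ z * F z = c.wave t n μ z * S z := fun z => by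
    by_cases hz : z ∈ bpBox c t μ
    · rw [hFS z (hsc.box_subset_rect hz)]
    · rw [bpWave_eq_zero hsc n hz, zero_mul, zero_mul]
  have hop : ∀ z ∈ c.rect t 0,
      |opL (c.cK1 t u b) (c.cK2 t u b) (c.cB1 t u b n) (c.cB0 t u b n) (dX^[n] u) z + F z| ≤
        c.bfG t u b n Nr z := fun z hz => by
    rw [hFS z hz]
    refine (hrem u b h z (hrect hz) (hsup u b h z hz)).trans ?_
    have := c.indB_le_bfCut ht z
    have := c.ε_pos ht
    have := c.bxδ_pos ht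
    unfold Par.bfG
    gcongr
  have key := hpair (c.cK1 t u b) (c.cK2 t u b) (c.cB1 t u b n) (c.cB0 t u b n) (dX^[n] u)
    (c.bfG t u b n Nr) F _ _ _ (hcoef u b h) (hcent u b h) (bxSmooth_iter h.smu n)
    (c.bfG_cont h.smu h.smb n Nr) (c.bfG_nonneg ht u b n Nr) hFi
    (fun z hz => indicator_of_notMem hz _) hop (by positivity) (by positivity) (by positivity)
    (himp u b h) hHc hHG
  simp only [hψF] at key
  exact bfExponents ht hT4 (by omega) (c.bf_bump n rfl ht) (by omega) (by omega) (by omega)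
    ((hsig u b h).trans key)

/-- The box statement. -/
theorem boxSpec : BoxSpec := by
  intro m M η0 σ hη hσ
  obtain ⟨r0, κ, K0, hr0, hκ, hK0, hgeo⟩ := geometrySpec M η0 hη
  obtain ⟨c, hcK, hcκ, hcP, hcj, hev⟩ := Par.no_sol (max K0 1) (le_max_right _ _) κ hκ (max m 60)
    (max m 20) (by omega) (by omega)
  obtain ⟨t0, ht0, hsmall⟩ := c.beta_eventually_small (m := max m 20) (by omega) (by omega)
    (lt_min hσ hr0)
  obtain ⟨t, ⟨ht, -⟩, htt, hno⟩ := (bxEv_pos.and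
    ((eventually_nhdsWithin_of_eventually_nhds (eventually_le_nhds ht0)).and hev)).exists
  obtain ⟨hr, hsupp, hhalf, hbd⟩ := hsmall t ht htt
  have hsq : ∀ {a a' : ℝ}, a ≤ a' → sq a ⊆ sq a' := fun h =>
    prod_mono (Icc_subset_Icc (neg_le_neg h) h) (Icc_subset_Icc (neg_le_neg h) h)
  have hr0' : 0 < c.r t := mul_pos c.bxcr_pos ht
  have hrσ : c.r t ≤ σ := by linarith [min_le_left σ r0]
  have hrr : c.r t ≤ r0 := by linarith [min_le_right σ r0]
  refine ⟨c.beta t, c.contDiff_beta t, fun z hz => hsupp z fun h => hz (hsq (min_le_left σ r0) h),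
    hhalf, fun i hi z => (hbd i (by omega) z).trans (min_le_left σ r0), ?_⟩
  intro U F hU hsub hF hFb hFxx
  obtain ⟨u, b, hu, hb, hu0, hb0, hall⟩ := hgeo (c.r t) (c.beta t) U F hr0' hrr
    (c.contDiff_beta t) (fun i hi z _ => (hbd i (by omega) z).trans (min_le_right σ r0)) hU
    ((hsq hrσ).trans hsub) hF (fun i hi z hz => hFb i hi z (hsq hrσ hz)) hFxx
  rw [← hcκ] at hall
  have hKK : K0 ≤ c.K := by rw [hcK]; exact le_max_left _ _
  refine hno u b ⟨hu, hb, hu0, hb0, fun z hz => (hall z hz).1,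
    fun z hz => le_trans (one_div_le_one_div_of_le hK0 hKK) (hall z hz).2.1,
    fun z hz i h1 h16 => ?_, fun z hz i hi => ((hall z hz).2.2.2.1 i hi).trans hKK,
    fun z hz => (hall z hz).2.2.2.2.1, fun z hz => (hall z hz).2.2.2.2.2⟩
  rcases (hall z hz).2.2.1 i h16 with h | h
  · exact h.trans hKK
  · omega

/-- There is no local isometric immersion. -/
theorem noLocalImmersion : NoLocalImmersion := noLocalImmersion_of_box boxSpec

end Vale.Agent.P229
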