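import Vale.Agent.P229.BoxBasic
import Mathlib.Analysis.Calculus.LineDeriv.IntegrationByParts
import Mathlib.MeasureTheory.Measure.Lebesgue.EqHaar
import Mathlib.Analysis.Calculus.Deriv.Mul
import Mathlib.Analysis.Calculus.Deriv.Pow
import Mathlib.Tactic.LinearCombination

/-!
# P229: the multiplier identity

For `L W = W_yy + 2 K1 W_py + K2 W_pp + β1 W_p + β0 W_y` and the multiplier
`m P W_p + ζ W_y + λ W` the product is a divergence plus a quadratic form.
-/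

open scoped ContDiff
open MeasureTheory

namespace Vale.Agent.P229

instance bxVolumeIsAddHaar : (volume : Measure (ℝ × ℝ)).IsAddHaarMeasure := by
  rw [Measure.volume_eq_prod]; infer_instance

theorem bxIntegral_dX_eq_zero {f : ℝ × ℝ → ℝ} (hf : ContDiff ℝ ∞ f) (hs : HasCompactSupport f) :
    ∫ z, dX f z = 0 := by
  have hc : Continuous (dX f) := (bxSmooth_dX hf).continuous
  have hcs : HasCompactSupport (dX f) := hs.fderiv_apply ℝ (1, 0)
  have := integral_mul_fderiv_eq_neg_fderiv_mul_of_integrable (μ := (volume : Measure (ℝ × ℝ)))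
    (f := fun _ => (1 : ℝ)) (g := f) (v := ((1 : ℝ), (0 : ℝ)))
    (by simp) (by simp only [one_mul]; exact hc.integrable_of_hasCompactSupport hcs)
    (by simpa using hf.continuous.integrable_of_hasCompactSupport hs)
    (fun _ _ => differentiableAt_const _) (fun x _ => hf.differentiable (by simp) x)
  simpa [dX] using this

theorem bxIntegral_dY_eq_zero {f : ℝ × ℝ → ℝ} (hf : ContDiff ℝ ∞ f) (hs : HasCompactSupport f) :
    ∫ z, dY f z = 0 := by
  have hc : Continuous (dY f) := (bxSmooth_dY hf).continuous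
  have hcs : HasCompactSupport (dY f) := hs.fderiv_apply ℝ (0, 1)
  have := integral_mul_fderiv_eq_neg_fderiv_mul_of_integrable (μ := (volume : Measure (ℝ × ℝ)))
    (f := fun _ => (1 : ℝ)) (g := f) (v := ((0 : ℝ), (1 : ℝ)))
    (by simp) (by simp only [one_mul]; exact hc.integrable_of_hasCompactSupport hcs)
    (by simpa using hf.continuous.integrable_of_hasCompactSupport hs)
    (fun _ _ => differentiableAt_const _) (fun x _ => hf.differentiable (by simp) x)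
  simpa [dY] using this

/-- The operator. -/
noncomputable def opL (K1 K2 B1 B0 W : ℝ × ℝ → ℝ) (z : ℝ × ℝ) : ℝ :=
  dY (dY W) z + 2 * K1 z * dY (dX W) z + K2 z * dX (dX W) z + B1 z * dX W z + B0 z * dY W z

/-- The multiplier. -/
noncomputable def multM (m : ℝ) (ζ lam W : ℝ × ℝ → ℝ) (z : ℝ × ℝ) : ℝ :=
  m * z.1 * dX W z + ζ z * dY W z + lam z * W z

/-- Coefficient of `W_y²`. -/
noncomputable def cYY (m : ℝ) (ζ lam K1 B0 : ℝ × ℝ → ℝ) (z : ℝ × ℝ) : ℝ :=
  m / 2 - dY ζ z / 2 - lam z - dX (fun w => K1 w * ζ w) z + B0 z * ζ z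

/-- Coefficient of `W_p²`. -/
noncomputable def cPP (m : ℝ) (ζ lam K1 K2 B1 : ℝ × ℝ → ℝ) (z : ℝ × ℝ) : ℝ :=
  -(m * K2 z + m * z.1 * dX K2 z) / 2 + dY (fun w => ζ w * K2 w) z / 2 - lam z * K2 z
    - m * z.1 * dY K1 z + B1 z * (m * z.1)

/-- Coefficient of `W_y W_p`. -/
noncomputable def cYP (m : ℝ) (ζ lam K1 K2 B1 B0 : ℝ × ℝ → ℝ) (z : ℝ × ℝ) : ℝ :=
  -dX (fun w => ζ w * K2 w) z - 2 * K1 z * lam z + B1 z * ζ z + B0 z * (m * z.1)

/-- Coefficient of `W W_y`. -/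
noncomputable def c0Y (lam K1 B0 : ℝ × ℝ → ℝ) (z : ℝ × ℝ) : ℝ :=
  B0 z * lam z - 2 * dX (fun w => K1 w * lam w) z

/-- Coefficient of `W²`. -/
noncomputable def c00 (lam K2 : ℝ × ℝ → ℝ) (z : ℝ × ℝ) : ℝ :=
  dY (dY lam) z / 2 + dX (dX (fun w => lam w * K2 w)) z / 2

/-- The quadratic form. -/
noncomputable def quadQ (m : ℝ) (ζ lam K1 K2 B1 B0 W : ℝ × ℝ → ℝ) (z : ℝ × ℝ) : ℝ :=
  cYY m ζ lam K1 B0 z * dY W z ^ 2 + cPP m ζ lam K1 K2 B1 z * dX W z ^ 2
    + cYP m ζ lam K1 K2 B1 B0 z * (dY W z * dX W z) + c0Y lam K1 B0 z * (W z * dY W z)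
    + B1 z * lam z * (W z * dX W z) + c00 lam K2 z * W z ^ 2

theorem bxDX_eq {f : ℝ × ℝ → ℝ} (hf : ContDiff ℝ ∞ f) {z : ℝ × ℝ} {v : ℝ}
    (h : HasDerivAt (fun s => f (s, z.2)) v z.1) : dX f z = v :=
  (bxHasDerivAt_X hf z).unique h

theorem bxDY_eq {f : ℝ × ℝ → ℝ} (hf : ContDiff ℝ ∞ f) {z : ℝ × ℝ} {v : ℝ}
    (h : HasDerivAt (fun s => f (z.1, s)) v z.2) : dY f z = v :=
  (bxHasDerivAt_Y hf z).unique h

theorem bxMult_identity (m : ℝ) {ζ lam K1 K2 W : ℝ × ℝ → ℝ} (B1 B0 : ℝ × ℝ → ℝ)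
    (hζ : ContDiff ℝ ∞ ζ) (hl : ContDiff ℝ ∞ lam) (hK1 : ContDiff ℝ ∞ K1)
    (hK2 : ContDiff ℝ ∞ K2) (hW : ContDiff ℝ ∞ W) :
    ∃ FX FY : ℝ × ℝ → ℝ, ContDiff ℝ ∞ FX ∧ ContDiff ℝ ∞ FY ∧
      (∀ z, W =ᶠ[nhds z] 0 → FX z = 0 ∧ FY z = 0) ∧
      ∀ z, multM m ζ lam W z * opL K1 K2 B1 B0 W z
        = dX FX z + dY FY z + quadQ m ζ lam K1 K2 B1 B0 W z := by
  have hX := bxSmooth_dX hW
  have hY := bxSmooth_dY hW
  have hlK : ContDiff ℝ ∞ (fun w => lam w * K2 w) := hl.mul hK2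
  have hlKx := bxSmooth_dX hlK
  have hly := bxSmooth_dY hl
  refine ⟨fun w => -(m * w.1) * dY W w ^ 2 / 2 + m * w.1 * K2 w * dX W w ^ 2 / 2
      + ζ w * K2 w * dY W w * dX W w + lam w * K2 w * W w * dX W w
      - dX (fun v => lam v * K2 v) w * W w ^ 2 / 2 + K1 w * ζ w * dY W w ^ 2
      + 2 * (K1 w * lam w) * W w * dY W w,
    fun w => m * w.1 * dX W w * dY W w + ζ w * dY W w ^ 2 / 2 + lam w * W w * dY W w
      - dY lam w * W w ^ 2 / 2 - ζ w * K2 w * dX W w ^ 2 / 2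
      + K1 w * (m * w.1) * dX W w ^ 2, by fun_prop, by fun_prop, fun z h => ?_, fun z => ?_⟩
  · have h0 : W z = 0 := h.eq_of_nhds
    have h1 : fderiv ℝ W z = 0 := by rw [h.fderiv_eq]; simp
    simp [dX, dY, h0, h1]
  · have aP : HasDerivAt (fun s : ℝ => m * s) m z.1 := by
      simpa using (hasDerivAt_id z.1).const_mul m
    have eX := bxDX_eq (f := fun w => -(m * w.1) * dY W w ^ 2 / 2
        + m * w.1 * K2 w * dX W w ^ 2 / 2
        + ζ w * K2 w * dY W w * dX W w + lam w * K2 w * W w * dX W w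
        - dX (fun v => lam v * K2 v) w * W w ^ 2 / 2 + K1 w * ζ w * dY W w ^ 2
        + 2 * (K1 w * lam w) * W w * dY W w) (by fun_prop) (z := z)
      ((((((((aP.neg).mul ((bxHasDerivAt_X hY z).pow 2)).div_const 2).add
        (((aP.mul (bxHasDerivAt_X hK2 z)).mul ((bxHasDerivAt_X hX z).pow 2)).div_const 2)).add
        ((((bxHasDerivAt_X hζ z).mul (bxHasDerivAt_X hK2 z)).mul (bxHasDerivAt_X hY z)).mul
          (bxHasDerivAt_X hX z))).add
        (((bxHasDerivAt_X hlK z).mul (bxHasDerivAt_X hW z)).mul (bxHasDerivAt_X hX z))).sub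
        (((bxHasDerivAt_X hlKx z).mul ((bxHasDerivAt_X hW z).pow 2)).div_const 2)).add
        ((bxHasDerivAt_X (hK1.mul hζ) z).mul ((bxHasDerivAt_X hY z).pow 2)) |>.add
        ((((bxHasDerivAt_X (hK1.mul hl) z).const_mul 2).mul (bxHasDerivAt_X hW z)).mul
          (bxHasDerivAt_X hY z)))
    have aQ : HasDerivAt (fun _ : ℝ => m * z.1) 0 z.2 := hasDerivAt_const _ _
    have eY := bxDY_eq (f := fun w => m * w.1 * dX W w * dY W w + ζ w * dY W w ^ 2 / 2
        + lam w * W w * dY W w - dY lam w * W w ^ 2 / 2 - ζ w * K2 w * dX W w ^ 2 / 2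
        + K1 w * (m * w.1) * dX W w ^ 2) (by fun_prop) (z := z)
      (((((((aQ.mul (bxHasDerivAt_Y hX z)).mul (bxHasDerivAt_Y hY z))).add
        (((bxHasDerivAt_Y hζ z).mul ((bxHasDerivAt_Y hY z).pow 2)).div_const 2)).add
        (((bxHasDerivAt_Y hl z).mul (bxHasDerivAt_Y hW z)).mul (bxHasDerivAt_Y hY z))).sub
        (((bxHasDerivAt_Y hly z).mul ((bxHasDerivAt_Y hW z).pow 2)).div_const 2)).sub
        (((bxHasDerivAt_Y (hζ.mul hK2) z).mul ((bxHasDerivAt_Y hX z).pow 2)).div_const 2)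
        |>.add (((bxHasDerivAt_Y hK1 z).mul aQ).mul ((bxHasDerivAt_Y hX z).pow 2)))
    rw [eX, eY]
    have d1 : dX (fun w => ζ w * K2 w) z = dX ζ z * K2 z + ζ z * dX K2 z :=
      bxDX_eq (hζ.mul hK2) ((bxHasDerivAt_X hζ z).mul (bxHasDerivAt_X hK2 z))
    have d2 : dY (fun w => ζ w * K2 w) z = dY ζ z * K2 z + ζ z * dY K2 z :=
      bxDY_eq (hζ.mul hK2) ((bxHasDerivAt_Y hζ z).mul (bxHasDerivAt_Y hK2 z))
    have d3 : dX (fun w => lam w * K2 w) z = dX lam z * K2 z + lam z * dX K2 z :=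
      bxDX_eq hlK ((bxHasDerivAt_X hl z).mul (bxHasDerivAt_X hK2 z))
    simp only [multM, opL, quadQ, cYY, cPP, cYP, c0Y, c00, bxMixed hW z, Pi.mul_apply,
      Pi.pow_apply, Pi.neg_apply, Prod.mk.eta]
    rw [d1, d2, d3]
    push_cast
    ring

theorem bxMult_integral (m : ℝ) {ζ lam K1 K2 B1 B0 W : ℝ × ℝ → ℝ}
    (hζ : ContDiff ℝ ∞ ζ) (hl : ContDiff ℝ ∞ lam) (hK1 : ContDiff ℝ ∞ K1)
    (hK2 : ContDiff ℝ ∞ K2) (hB1 : Continuous B1) (hB0 : Continuous B0) (hW : ContDiff ℝ ∞ W)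
    (hs : HasCompactSupport W) :
    ∫ z, quadQ m ζ lam K1 K2 B1 B0 W z
      = ∫ z, multM m ζ lam W z * opL K1 K2 B1 B0 W z := by
  obtain ⟨FX, FY, hFX, hFY, h0, hid⟩ := bxMult_identity m B1 B0 hζ hl hK1 hK2 hW
  have z0 : ∀ z, z ∉ tsupport W → FX z = 0 ∧ FY z = 0 := fun z hz =>
    h0 z (notMem_tsupport_iff_eventuallyEq.1 hz)
  have sX : HasCompactSupport FX := HasCompactSupport.intro hs fun z hz => (z0 z hz).1
  have sY : HasCompactSupport FY := HasCompactSupport.intro hs fun z hz => (z0 z hz).2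
  have cQ : Continuous (quadQ m ζ lam K1 K2 B1 B0 W) := by
    have := (bxSmooth_dX hW).continuous
    have := (bxSmooth_dY hW).continuous
    have := hW.continuous
    have := hl.continuous
    have := hζ.continuous
    have := hK1.continuous
    have := hK2.continuous
    have := (bxSmooth_dY hζ).continuous
    have := (bxSmooth_dX hK2).continuous
    have := (bxSmooth_dY hK1).continuous
    have := (bxSmooth_dY (bxSmooth_dY hl)).continuous
    have := (bxSmooth_dX (hK1.mul hζ)).continuous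
    have := (bxSmooth_dY (hζ.mul hK2)).continuous
    have := (bxSmooth_dX (hζ.mul hK2)).continuous
    have := (bxSmooth_dX (hK1.mul hl)).continuous
    have := (bxSmooth_dX (bxSmooth_dX (hl.mul hK2))).continuous
    unfold quadQ cYY cPP cYP c0Y c00
    fun_prop
  have sQ : HasCompactSupport (quadQ m ζ lam K1 K2 B1 B0 W) := by
    refine HasCompactSupport.intro hs fun z hz => ?_
    have h := notMem_tsupport_iff_eventuallyEq.1 hz
    have h1 : fderiv ℝ W z = 0 := by rw [h.fderiv_eq]; simp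
    simp [quadQ, dX, dY, h.eq_of_nhds, h1]
  have iX : Integrable (dX FX) :=
    (bxSmooth_dX hFX).continuous.integrable_of_hasCompactSupport (sX.fderiv_apply ℝ (1, 0))
  have iY : Integrable (dY FY) :=
    (bxSmooth_dY hFY).continuous.integrable_of_hasCompactSupport (sY.fderiv_apply ℝ (0, 1))
  have iQ := cQ.integrable_of_hasCompactSupport sQ (μ := (volume : Measure (ℝ × ℝ)))
  simp_rw [hid]
  rw [integral_add (f := fun z => dX FX z + dY FY z) (iX.add iY) iQ, integral_add iX iY,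
    bxIntegral_dX_eq_zero hFX sX, bxIntegral_dY_eq_zero hFY sY]
  simp

end Vale.Agent.P229
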