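import Vale.Agent.P229.BoxInd

/-!
# P229: the improved estimate for the level below the top one
-/

open scoped ContDiff Topology
open MeasureTheory Set Filter

namespace Vale.Agent.P229

theorem bxPow_le {t : ℝ} (ht : 0 < t) (ht1 : t ≤ 1) {n m k : ℕ} (h : n ≤ m + k) :
    (t⁻¹) ^ n * t ^ k ≤ (t⁻¹) ^ m := by
  refine (mul_le_mul_of_nonneg_right
    (pow_le_pow_right₀ ((one_le_inv₀ ht).2 ht1) h) (pow_nonneg ht.le k)).trans (le_of_eq ?_)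
  rw [pow_add, mul_assoc, ← mul_pow, inv_mul_cancel₀ ht.ne', one_pow, mul_one]

theorem bxAbsorbPow {T C : ℝ} {a b : ℕ} (hT : 1 ≤ T) (hC : C ≤ T) (h : a + 1 ≤ b) :
    C * T ^ a ≤ T ^ b := by
  calc C * T ^ a ≤ T * T ^ a := mul_le_mul_of_nonneg_right hC (pow_nonneg (by linarith) a)
    _ = T ^ (a + 1) := by ring
    _ ≤ T ^ b := pow_le_pow_right₀ hT h

theorem bxRoot {E A X Z : ℝ} (hE : 0 ≤ E) (h : E ≤ A + X * Real.sqrt E + Z) :
    E ≤ 2 * A + X ^ 2 + 2 * Z := by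
  nlinarith [sq_nonneg (Real.sqrt E - X), Real.sq_sqrt hE]

/-- The integral of the square of a function bounded on a set by a constant and another function. -/
theorem bxSqInt {B : Set (ℝ × ℝ)} (hB : IsCompact B) {f V : ℝ × ℝ → ℝ} (hf : Continuous f)
    (hV : Continuous V) {a b A I : ℝ} (h : ∀ z ∈ B, |f z| ≤ a + b * V z)
    (hA : ∫ _ in B, (1 : ℝ) ≤ A) (hI : ∫ z in B, V z ^ 2 ≤ I) :
    ∫ z in B, f z ^ 2 ≤ 2 * (a ^ 2 * A) + 2 * (b ^ 2 * I) := by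
  have i1 : IntegrableOn (fun z => f z ^ 2) B := (hf.pow 2).continuousOn.integrableOn_compact hB
  have i2 : IntegrableOn (fun _ : ℝ × ℝ => 2 * (a ^ 2 * 1)) B :=
    continuousOn_const.integrableOn_compact hB
  have i3 : IntegrableOn (fun z => 2 * (b ^ 2 * V z ^ 2)) B :=
    (continuous_const.mul (continuous_const.mul (hV.pow 2))).continuousOn.integrableOn_compact hB
  have i23 : IntegrableOn (fun z => 2 * (a ^ 2 * 1) + 2 * (b ^ 2 * V z ^ 2)) B := i2.add i3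
  refine (setIntegral_mono_on i1 i23 hB.measurableSet fun z hz => ?_).trans ?_
  · rw [← sq_abs]
    refine (pow_le_pow_left₀ (abs_nonneg _) (h z hz) 2).trans ?_
    nlinarith [sq_nonneg (a - b * V z)]
  · rw [integral_add i2 i3, integral_const_mul, integral_const_mul, integral_const_mul,
      integral_const_mul]
    gcongr

namespace Par

variable (c : Par) {t : ℝ} {u b : ℝ × ℝ → ℝ}

/-- The source of the bump vanishes off the bump. -/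
theorem cGf_zero (h : c.Sol t u b) (ht : 0 < t) {z : ℝ × ℝ} (hz : z ∈ c.rect t 1)
    (hb : z ∉ c.bumpSet t) (q : ℕ) : dX^[q] (c.cGf t u b) z = 0 := by
  have ho : IsOpen ({w : ℝ × ℝ | 2 * c.δ t < |u w|} ∪ {w | 2 * c.δ t < |w.2|}) :=
    (isOpen_lt continuous_const h.smu.continuous.abs).union
      (isOpen_lt continuous_const continuous_snd.abs)
  have h0 : ∀ w, w ∉ ({w : ℝ × ℝ | 2 * c.δ t < |u w|} ∪ {w | 2 * c.δ t < |w.2|})ᶜ →
      c.cGf t u b w = 0 := by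
    intro w hw
    rw [mem_compl_iff, not_not] at hw
    obtain ⟨-, -, -, v1, v2⟩ := c.f_vanish ht (p := pt u w) hw 0
    simp only [Function.iterate_zero, id_eq] at v1 v2
    simp [cGf, termFun, v1, v2]
  exact dX_iterate_eq_zero_off ho.isClosed_compl h0 q z fun hc =>
    hc (h.off_bump ht hz hb)

theorem cGf_smooth (h : c.Sol t u b) : ContDiff ℝ ∞ (c.cGf t u b) := by
  have hj := bxJetJ_smooth (c.contDiff_beta t) h.smu h.smb
  have hk := bxSmooth_kbar (c.contDiff_betaF t)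
  exact ((bxPt_smooth (bxSmooth_dX hk) h.smu).mul
      ((bxCutJ_smooth c.one_le_K fun J hJ => (bxSm_coef hJ).2.2.2.2.2.2.2.1).comp hj)).add
    ((bxPt_smooth (bxSmooth_dY hk) h.smu).mul
      ((bxCutJ_smooth c.one_le_K fun J hJ => (bxSm_coef hJ).2.2.2.2.2.2.2.2.1).comp hj))

theorem topJ_cont (hu : ContDiff ℝ ∞ u) (hb : ContDiff ℝ ∞ b) (q : ℕ) :
    Continuous (topJ u b q) := by
  rw [funext fun z => topJ_eq u b q z]
  exact (bxSmooth_iter hu q).continuous.abs.add (bxLowJ_cont hu hb q)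

/-- The integral of `lowJ²`. -/
theorem bxLowJ_int (hu : ContDiff ℝ ∞ u) (hb : ContDiff ℝ ∞ b) (t : ℝ) {s : ℝ} {q : ℕ} {R : ℝ}
    (hL : ∀ q' ≤ q - 1, ∫ z in c.rect t s, c.lev t u b q' z ≤ R ^ 2) :
    ∫ z in c.rect t s, lowJ u b q z ^ 2 ≤ 48 * R ^ 2 := by
  have hi := fun m => c.intOn (c.lev_cont hu hb t (q - 1 - m)) t s
  refine (bxSetInt_le c ((bxLowJ_cont hu hb q).pow 2)
    (c.intOn (continuous_const.mul (continuous_finsetSum _ fun m _ =>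
      c.lev_cont hu hb t (q - 1 - m))) t s) fun z _ => bxLowJ_sq c t u b q z).trans ?_
  show ∫ z in c.rect t s, 12 * ∑ m ∈ Finset.range 4, c.lev t u b (q - 1 - m) z ≤ _
  rw [integral_const_mul, integral_finsetSum _ fun m _ => hi m]
  have : ∑ m ∈ Finset.range 4, ∫ z in c.rect t s, c.lev t u b (q - 1 - m) z
      ≤ ∑ _m ∈ Finset.range 4, R ^ 2 :=
    Finset.sum_le_sum fun m _ => hL _ (Nat.sub_le _ _)
  rw [Finset.sum_const, Finset.card_range, nsmul_eq_mul] at this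
  push_cast at this
  linarith

theorem bxLev_sa (ht : 0 < t) (q : ℕ) (z : ℝ × ℝ) :
    dX^[q + 1] u z ^ 2 ≤ (t⁻¹ ^ c.Qe) ^ 2 * c.lev t u b q z ∧
      dX^[q] u z ^ 2 + dX^[q] (dY u) z ^ 2 ≤ c.lev t u b q z ∧
      c.W t z.2 * dX^[q + 1] u z ^ 2 ≤ c.lev t u b q z := by
  have hW : c.sa t ^ 2 ≤ c.W t z.2 := le_add_of_nonneg_right (by positivity)
  have h0 : 0 ≤ c.W t z.2 * dX^[q + 1] u z ^ 2 :=
    mul_nonneg ((sq_nonneg _).trans hW) (sq_nonneg _)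
  have h1 : c.W t z.2 * dX^[q + 1] u z ^ 2 ≤ c.lev t u b q z := by
    unfold lev
    linarith [sq_nonneg (dX^[q] (dY u) z), sq_nonneg (dX^[q] u z), sq_nonneg (dX^[q] b z),
      sq_nonneg (dX^[q - 1] (dY (dY u)) z)]
  refine ⟨?_, ?_, h1⟩
  · have e : (t⁻¹ ^ c.Qe) ^ 2 * c.sa t ^ 2 = 1 := by
      rw [sa, ← mul_pow, ← mul_pow, inv_mul_cancel₀ ht.ne', one_pow, one_pow]
    calc dX^[q + 1] u z ^ 2 = (t⁻¹ ^ c.Qe) ^ 2 * (c.sa t ^ 2 * dX^[q + 1] u z ^ 2) := by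
          rw [← mul_assoc, e, one_mul]
      _ ≤ _ := by
          refine mul_le_mul_of_nonneg_left ?_ (sq_nonneg _)
          exact (mul_le_mul_of_nonneg_right hW (sq_nonneg _)).trans h1
  · unfold lev
    linarith [sq_nonneg (dX^[q] b z), sq_nonneg (dX^[q - 1] (dY (dY u)) z)]

/-- The top derivatives in the bump. -/
theorem bxTop_int (h : c.Sol t u b) (ht : 0 < t) (ht1 : t ≤ 1) {s : ℝ}
    (hbr : c.bumpSet t ⊆ c.rect t s) {q : ℕ} {R : ℝ}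
    (hL : ∀ q' ≤ q, ∫ z in c.rect t s, c.lev t u b q' z ≤ R ^ 2) :
    ∫ z in c.bumpSet t, (topJ u b q z + |dX^[q] (dY u) z| + |dX^[q + 1] u z|) ^ 2
      ≤ 200 * (t⁻¹ ^ c.Qe * R) ^ 2 := by
  obtain ⟨K2, hK2⟩ : ∃ K2, K2 = (t⁻¹ ^ c.Qe) ^ 2 := ⟨_, rfl⟩
  have hK21 : 1 ≤ K2 := by rw [hK2]; exact one_le_pow₀ (one_le_pow₀ ((one_le_inv₀ ht).2 ht1))
  have cV : Continuous fun z =>
      (topJ u b q z + |dX^[q] (dY u) z| + |dX^[q + 1] u z|) ^ 2 :=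
    (((topJ_cont h.smu h.smb q).add (bxSmooth_iter (bxSmooth_dY h.smu) q).continuous.abs).add
      (bxSmooth_iter h.smu (q + 1)).continuous.abs).pow 2
  have cl := c.lev_cont h.smu h.smb t q
  have cj := (bxLowJ_cont h.smu h.smb q).pow 2
  have i1 : IntegrableOn (fun z => 4 * ((1 + K2) * c.lev t u b q z)) (c.rect t s) :=
    c.intOn (continuous_const.mul (continuous_const.mul cl)) t s
  have i2 : IntegrableOn (fun z => 4 * lowJ u b q z ^ 2) (c.rect t s) :=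
    c.intOn (continuous_const.mul cj) t s
  have i12 : IntegrableOn (fun z => 4 * ((1 + K2) * c.lev t u b q z) + 4 * lowJ u b q z ^ 2)
      (c.rect t s) := i1.add i2
  refine (setIntegral_mono_set (c.intOn cV t s) (.of_forall fun z => sq_nonneg _)
    hbr.eventuallyLE).trans ((bxSetInt_le c cV i12 fun z _ => ?_).trans ?_)
  · obtain ⟨a1, a2, -⟩ := c.bxLev_sa (u := u) (b := b) ht q z
    rw [← hK2] at a1
    rw [topJ_eq]
    have four : ∀ x y z v : ℝ, (x + y + z + v) ^ 2 ≤ 4 * (x ^ 2 + y ^ 2 + z ^ 2 + v ^ 2) :=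
      fun x y z v => by
        nlinarith [sq_nonneg (x - y), sq_nonneg (z - v), sq_nonneg (x + y - z - v)]
    refine (four _ _ _ _).trans ?_
    rw [sq_abs, sq_abs, sq_abs]
    linarith
  · rw [integral_add i1 i2, integral_const_mul, integral_const_mul, integral_const_mul]
    have e1 := mul_le_mul_of_nonneg_left (hL q le_rfl) (by linarith : 0 ≤ 1 + K2)
    have e2 := c.bxLowJ_int h.smu h.smb t (s := s) (q := q) fun q' hq' => hL q' (by omega)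
    have e3 : 1 * R ^ 2 ≤ K2 * R ^ 2 := mul_le_mul_of_nonneg_right hK21 (sq_nonneg R)
    rw [mul_pow (t⁻¹ ^ c.Qe) R, ← hK2]
    linarith

/-- The scales of the bump as powers of `t`. -/
theorem bxScales (ht : 0 < t) (ht1 : t ≤ 1) :
    c.δ t ≤ t ^ (2 * c.Qe - c.Pe) ∧ Real.sqrt (c.δ t) ≤ t ^ (c.Qe - c.Pe) ∧
      Real.sqrt (c.ym t) ≤ t ^ ((c.Qe - c.Pe) / 2) ∧
      1 / (c.sa t * Real.sqrt (c.ym t)) ≤ t⁻¹ ^ (c.Qe + (c.Qe - c.Pe + 1) / 2) := by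
  have hPQ := c.Pe_le
  have h1 : c.δ t ≤ t ^ (2 * c.Qe - c.Pe) :=
    mul_le_of_le_one_left (pow_nonneg ht.le _) c.bxc1_le
  have p : ∀ {n k : ℕ}, 2 * k ≤ n → Real.sqrt (t ^ n) ≤ t ^ k := fun {n k} h => by
    rw [Real.sqrt_le_left (pow_nonneg ht.le _), ← pow_mul]
    exact pow_le_pow_of_le_one ht.le ht1 (by omega)
  refine ⟨h1, (Real.sqrt_le_sqrt h1).trans (p (by omega)), p (by omega), ?_⟩
  have hs : t ^ ((c.Qe - c.Pe + 1) / 2) ≤ Real.sqrt (c.ym t) := by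
    refine Real.le_sqrt_of_sq_le ?_
    rw [← pow_mul]
    exact pow_le_pow_of_le_one ht.le ht1 (by omega)
  have hpos : 0 < c.sa t * t ^ ((c.Qe - c.Pe + 1) / 2) := mul_pos (pow_pos ht _) (pow_pos ht _)
  refine (one_div_le_one_div_of_le hpos
    (mul_le_mul_of_nonneg_left hs (pow_nonneg ht.le _))).trans ?_
  rw [sa, ← pow_add, one_div, inv_pow]

/-- The powers of the bump in the sources. -/
theorem bxBumpPow (ht : 0 < t) (ht1 : t ≤ 1) (hd : (c.δ t)⁻¹ ≤ t⁻¹ ^ (2 * c.Qe - c.Pe + 1))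
    (hj : 12 ≤ c.j) :
    c.ε t / c.δ t ^ (c.j + 3) * c.δ t ≤ t⁻¹ ^ (2 * c.Qe + 1) ∧
    c.ε t / c.δ t ^ (c.j + 4) * c.δ t ≤ t⁻¹ ^ (4 * c.Qe + 2) ∧
    c.δ t * (c.ε t / c.δ t ^ (c.j + 5)) * c.δ t ≤ t⁻¹ ^ (4 * c.Qe + 2) ∧
    c.ε t / c.δ t ^ 9 ≤ c.δ t := by
  have hδ := c.bxδ_pos ht
  have hT1 : (1 : ℝ) ≤ t⁻¹ := (one_le_inv₀ ht).2 ht1
  have d1 : (c.δ t)⁻¹ ≤ t⁻¹ ^ (2 * c.Qe + 1) := hd.trans (pow_le_pow_right₀ hT1 (by omega))
  have d2 : (c.δ t)⁻¹ ^ 2 ≤ t⁻¹ ^ (4 * c.Qe + 2) := by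
    refine (pow_le_pow_left₀ (inv_nonneg.2 hδ.le) d1 2).trans (le_of_eq ?_)
    rw [← pow_mul]; congr 1; ring
  refine ⟨le_trans (le_of_eq ?_) d1, le_trans (le_of_eq ?_) d2, le_trans (le_of_eq ?_) d2, ?_⟩
  iterate 3
    unfold ε
    field_simp
    ring
  unfold ε
  rw [div_le_iff₀ (pow_pos hδ _), ← pow_succ']
  exact pow_le_pow_of_le_one hδ.le ((c.bxδ_le ht ht1).trans ht1) (by omega)

/-- The arithmetic of the sources in the bump. -/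
theorem bxPhiNum {a b A I T R d : ℝ} {M M' : ℕ} (hT : 1000 ≤ T) (ha : 0 ≤ a) (hb : 0 ≤ b)
    (hd : 0 ≤ d) (hR : 0 ≤ R) (hA : A ≤ T * d ^ 2) (hI : I ≤ 200 * R ^ 2)
    (h1 : a * d * T ≤ T ^ M) (h2 : b * R ≤ T ^ M) (hM : M + 1 ≤ M') :
    2 * (a ^ 2 * A) + 2 * (b ^ 2 * I) ≤ (T ^ M') ^ 2 := by
  have hT1 : (1 : ℝ) ≤ T := by linarith
  have e1 : a ^ 2 * A ≤ (T ^ M) ^ 2 := by
    calc a ^ 2 * A ≤ a ^ 2 * (T * d ^ 2) := by gcongr
      _ ≤ a ^ 2 * (T ^ 2 * d ^ 2) := by gcongr; exact le_self_pow₀ hT1 two_ne_zero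
      _ = (a * d * T) ^ 2 := by ring
      _ ≤ _ := by gcongr
  have e2 : b ^ 2 * I ≤ 200 * (T ^ M) ^ 2 := by
    calc b ^ 2 * I ≤ b ^ 2 * (200 * R ^ 2) := by gcongr
      _ = 200 * (b * R) ^ 2 := by ring
      _ ≤ _ := by gcongr
  calc 2 * (a ^ 2 * A) + 2 * (b ^ 2 * I) ≤ 402 * T ^ (M * 2) := by rw [pow_mul]; linarith
    _ ≤ T ^ (M' * 2) := bxAbsorbPow hT1 (by linarith) (by omega)
    _ = _ := pow_mul T M' 2

/-- The source in the bump and its derivative. -/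
theorem bxPhi_int (h : c.Sol t u b) (ht : 0 < t) (ht1 : t ≤ 1) {s : ℝ}
    (hbr : c.bumpSet t ⊆ c.rect t s) (hd : (c.δ t)⁻¹ ≤ t⁻¹ ^ (2 * c.Qe - c.Pe + 1))
    (hT : 2 * c.K * (c.K + 1) ≤ t⁻¹) (hT2 : 1000 ≤ t⁻¹) (hPQ : c.Pe ≤ c.Qe) (hj : 12 ≤ c.j)
    {N1 N4 : ℕ} (hA : ∫ _ in c.bumpSet t, (1 : ℝ) ≤ t⁻¹ * c.δ t ^ 2)
    (hLi : ∀ q ≤ c.j + 3, ∫ z in c.rect t s, c.lev t u b q z ≤ (t⁻¹ ^ (N1 + 3 * c.Qe)) ^ 2)
    (hLj : ∀ q ≤ c.j + 4, ∫ z in c.rect t s, c.lev t u b q z ≤ (t⁻¹ ^ (N1 + 5 * c.Qe)) ^ 2)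
    (hi : ∀ z ∈ c.bumpSet t, |dX^[c.j + 3] (c.cGf t u b) z| ≤
      c.indB t z * (t⁻¹ ^ N4 * (c.ε t / c.δ t ^ (c.j + 3 + 1)) + t⁻¹ ^ 3 * (c.ε t / c.δ t ^ 9) *
        (topJ u b (c.j + 3) z + |dX^[c.j + 3] (dY u) z| + |dX^[c.j + 3 + 1] u z|)))
    (hi' : ∀ z ∈ c.bumpSet t, |dX^[c.j + 4] (c.cGf t u b) z| ≤
      c.indB t z * (t⁻¹ ^ N4 * (c.ε t / c.δ t ^ (c.j + 4 + 1)) + t⁻¹ ^ 3 * (c.ε t / c.δ t ^ 9) *
        (topJ u b (c.j + 4) z + |dX^[c.j + 4] (dY u) z| + |dX^[c.j + 4 + 1] u z|))) :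
    ∫ z in c.bumpSet t, dX^[c.j + 3] (c.cGf t u b) z ^ 2
        ≤ (t⁻¹ ^ (N1 + N4 + 7 + 4 * c.Qe)) ^ 2 ∧
      ∫ z in c.bumpSet t, (z.1 * dX (dX^[c.j + 3] (c.cGf t u b)) z) ^ 2
        ≤ (t⁻¹ ^ (N1 + N4 + 7 + 4 * c.Qe)) ^ 2 := by
  have hB := c.bxBump_compact t
  have hδ := c.bxδ_pos ht
  have he := c.ε_pos ht
  have hT1 : (1 : ℝ) ≤ t⁻¹ := (one_le_inv₀ ht).2 ht1
  have hT0 : 0 ≤ t⁻¹ := by linarith
  obtain ⟨-, b2, b3, b9⟩ := c.bxBumpPow ht ht1 hd hj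
  obtain ⟨dp, -, -, -⟩ := c.bxScales ht ht1
  have dQ : c.δ t * t⁻¹ ^ (c.Qe + 1) ≤ t⁻¹ := by
    calc c.δ t * t⁻¹ ^ (c.Qe + 1) ≤ t ^ (2 * c.Qe - c.Pe) * t⁻¹ ^ (c.Qe + 1) := by gcongr
      _ ≤ t⁻¹ ^ 1 := by rw [mul_comm]; exact bxPow_le ht ht1 (by omega)
      _ = t⁻¹ := pow_one _
  have dQ' : c.δ t * t⁻¹ ^ c.Qe ≤ 1 := by
    calc c.δ t * t⁻¹ ^ c.Qe ≤ t ^ (2 * c.Qe - c.Pe) * t⁻¹ ^ c.Qe := by gcongr
      _ ≤ t⁻¹ ^ 0 := by rw [mul_comm]; exact bxPow_le ht ht1 (by omega)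
      _ = 1 := pow_zero _
  have hd1 : c.δ t ≤ 1 := (le_mul_of_one_le_right hδ.le (one_le_pow₀ hT1)).trans dQ'
  have V : ∀ q, Continuous fun z =>
      topJ u b q z + |dX^[q] (dY u) z| + |dX^[q + 1] u z| := fun q =>
    ((topJ_cont h.smu h.smb q).add (bxSmooth_iter (bxSmooth_dY h.smu) q).continuous.abs).add
      (bxSmooth_iter h.smu (q + 1)).continuous.abs
  have hΦ := c.cGf_smooth h
  have I3 := c.bxTop_int h ht ht1 hbr (q := c.j + 3) hLi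
  have I4 := c.bxTop_int h ht ht1 hbr (q := c.j + 4) hLj
  have hι : ∀ z ∈ c.bumpSet t, c.indB t z = 1 := fun z hz => c.indB_mem hz
  constructor
  · refine (bxSqInt hB (bxSmooth_iter hΦ _).continuous (V (c.j + 3))
      (fun z hz => (hi z hz).trans_eq (by rw [hι z hz, one_mul])) hA I3).trans ?_
    refine bxPhiNum (M := N1 + N4 + 6 + 4 * c.Qe) hT2 (by positivity) (by positivity) hδ.le
      (by positivity) le_rfl le_rfl ?_ ?_ (by omega)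
    · calc t⁻¹ ^ N4 * (c.ε t / c.δ t ^ (c.j + 3 + 1)) * c.δ t * t⁻¹
          = t⁻¹ ^ N4 * (c.ε t / c.δ t ^ (c.j + 4) * c.δ t) * t⁻¹ := by ring
        _ ≤ t⁻¹ ^ N4 * t⁻¹ ^ (4 * c.Qe + 2) * t⁻¹ := by gcongr
        _ = t⁻¹ ^ (N4 + (4 * c.Qe + 2) + 1) := by ring
        _ ≤ _ := pow_le_pow_right₀ hT1 (by omega)
    · calc t⁻¹ ^ 3 * (c.ε t / c.δ t ^ 9) * (t⁻¹ ^ c.Qe * t⁻¹ ^ (N1 + 3 * c.Qe))
          ≤ t⁻¹ ^ 3 * 1 * (t⁻¹ ^ c.Qe * t⁻¹ ^ (N1 + 3 * c.Qe)) := by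
            gcongr; exact b9.trans hd1
        _ = t⁻¹ ^ (3 + (c.Qe + (N1 + 3 * c.Qe))) := by ring
        _ ≤ _ := pow_le_pow_right₀ hT1 (by omega)
  · have cP : Continuous fun z : ℝ × ℝ => z.1 * dX (dX^[c.j + 3] (c.cGf t u b)) z :=
      continuous_fst.mul (bxSmooth_dX (bxSmooth_iter hΦ _)).continuous
    refine (bxSqInt hB cP (V (c.j + 4))
      (a := t⁻¹ * c.δ t * (t⁻¹ ^ N4 * (c.ε t / c.δ t ^ (c.j + 5))))
      (b := t⁻¹ * c.δ t * (t⁻¹ ^ 3 * (c.ε t / c.δ t ^ 9))) (fun z hz => ?_) hA I4).trans ?_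
    · rw [abs_mul]
      have h1 : |z.1| ≤ t⁻¹ * c.δ t := hz.1.trans (mul_le_mul_of_nonneg_right hT hδ.le)
      refine (mul_le_mul h1 ((le_of_eq ?_).trans (hi' z hz)) (abs_nonneg _)
        (mul_nonneg hT0 hδ.le)).trans (le_of_eq ?_)
      · conv_rhs => rw [show c.j + 4 = c.j + 3 + 1 from rfl, Function.iterate_succ_apply']
      · rw [hι z hz]; ring
    refine bxPhiNum (M := N1 + N4 + 6 + 4 * c.Qe) hT2 (by positivity) (by positivity) hδ.le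
      (by positivity) le_rfl le_rfl ?_ ?_ (by omega)
    · calc t⁻¹ * c.δ t * (t⁻¹ ^ N4 * (c.ε t / c.δ t ^ (c.j + 5))) * c.δ t * t⁻¹
          = t⁻¹ ^ N4 * (c.δ t * (c.ε t / c.δ t ^ (c.j + 5)) * c.δ t) * t⁻¹ ^ 2 := by ring
        _ ≤ t⁻¹ ^ N4 * t⁻¹ ^ (4 * c.Qe + 2) * t⁻¹ ^ 2 := by gcongr
        _ = t⁻¹ ^ (N4 + (4 * c.Qe + 2) + 2) := by ring
        _ ≤ _ := pow_le_pow_right₀ hT1 (by omega)
    · calc t⁻¹ * c.δ t * (t⁻¹ ^ 3 * (c.ε t / c.δ t ^ 9)) * (t⁻¹ ^ c.Qe * t⁻¹ ^ (N1 + 5 * c.Qe))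
          ≤ t⁻¹ * c.δ t * (t⁻¹ ^ 3 * c.δ t) * (t⁻¹ ^ c.Qe * t⁻¹ ^ (N1 + 5 * c.Qe)) := by gcongr
        _ = (c.δ t * t⁻¹ ^ (c.Qe + 1)) * (c.δ t * t⁻¹ ^ c.Qe) * t⁻¹ ^ (3 + (N1 + 4 * c.Qe)) := by
            ring
        _ ≤ t⁻¹ * 1 * t⁻¹ ^ (3 + (N1 + 4 * c.Qe)) :=
            mul_le_mul_of_nonneg_right (mul_le_mul dQ dQ' (by positivity) hT0) (by positivity)
        _ = t⁻¹ ^ (1 + (3 + (N1 + 4 * c.Qe))) := by ring
        _ ≤ _ := pow_le_pow_right₀ hT1 (by omega)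

/-- The energy controls the weighted derivative in the smallest rectangle. -/
theorem bxEnergy_inner (ht : 0 < t) {s s' : ℝ} (hs : 0 < s) (hss : s < s') {w : ℝ × ℝ → ℝ}
    (hw : ContDiff ℝ ∞ w) :
    ∫ z in c.rect t 0, c.W t z.2 * dX w z ^ 2 ≤ c.energy t (fun z => c.cut t s s' z * w z) := by
  set f := fun z => c.cut t s s' z * w z with hfdef
  have hf : ContDiff ℝ ∞ f := (c.bxCut_smooth t s s').mul hw
  have hfs : HasCompactSupport f :=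
    HasCompactSupport.intro (c.bxRect_isCompact t s') fun z hz => by
      simp [hfdef, c.bxCut_zero_off ht hs.le hss hz]
  have hWc := c.bxW_continuous t
  have ia := bxInt_sq (bxSmooth_dY hf).continuous (hasCompactSupport_dY hfs)
  have iq := bxInt_sq hf.continuous hfs
  have ib : Integrable fun z => c.W t z.2 * dX f z ^ 2 :=
    (hWc.mul ((bxSmooth_dX hf).continuous.pow 2)).integrable_of_hasCompactSupport
      (HasCompactSupport.intro (hasCompactSupport_dX hfs) fun z hz => by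
        simp [image_eq_zero_of_notMem_tsupport hz])
  have hp := c.bxpOut_pos
  have e : ∀ z ∈ c.rect t 0, c.W t z.2 * dX w z ^ 2 = c.W t z.2 * dX f z ^ 2 := by
    intro z hz
    have h1 : |z.1| < c.pOut * (2 + s) * t :=
      hz.1.trans_lt (mul_lt_mul_of_pos_right (mul_lt_mul_of_pos_left (by linarith) hp) ht)
    have h2 : |z.2| < (1 + s) / 2 * t := hz.2.trans_lt (mul_lt_mul_of_pos_right (by linarith) ht)
    have he : f =ᶠ[𝓝 z] w := by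
      filter_upwards [((isOpen_lt continuous_fst.abs continuous_const).inter
        (isOpen_lt continuous_snd.abs continuous_const)).mem_nhds
          (show z ∈ {v : ℝ × ℝ | |v.1| < c.pOut * (2 + s) * t} ∩
            {v | |v.2| < (1 + s) / 2 * t} from ⟨h1, h2⟩)] with v hv
      have hv' : v ∈ c.rect t s := ⟨le_of_lt hv.1, le_of_lt hv.2⟩
      simp [hfdef, c.bxCut_one ht hs.le hss hv']
    rw [dX_congr he]
  rw [setIntegral_congr_fun (c.rect_compact t 0).measurableSet e]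
  have nn : ∀ z : ℝ × ℝ, 0 ≤ c.W t z.2 * dX f z ^ 2 := fun z =>
    mul_nonneg (c.bxW_pos ht _).le (sq_nonneg _)
  refine (setIntegral_le_integral ib (.of_forall nn)).trans ?_
  unfold energy
  refine integral_mono ib ((ia.add ib).add (iq.const_mul _)) fun z => ?_
  linarith [sq_nonneg (dY f z), mul_nonneg (sq_nonneg t⁻¹) (sq_nonneg (f z))]

/-- The source outside of the main part in the bump. -/
theorem bxRem_int (h : c.Sol t u b) (ht : 0 < t) (ht1 : t ≤ 1) {s : ℝ}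
    (hbr : c.bumpSet t ⊆ c.rect t s) (hd : (c.δ t)⁻¹ ≤ t⁻¹ ^ (2 * c.Qe - c.Pe + 1))
    (hT2 : 1000 ≤ t⁻¹) (hj : 12 ≤ c.j)
    (hA : ∫ _ in c.bumpSet t, (1 : ℝ) ≤ t⁻¹ * c.δ t ^ 2) {N1 N2 : ℕ}
    (hL : ∀ q ≤ c.j + 2, ∫ z in c.rect t s, c.lev t u b q z ≤ (t⁻¹ ^ (N1 + c.Qe)) ^ 2)
    {f : ℝ × ℝ → ℝ} (hf : Continuous f)
    (hfb : ∀ z ∈ c.bumpSet t, |f z| ≤
      t⁻¹ ^ 10 * (|dX^[c.j + 3] u z| + lowJ u b (c.j + 3) z) +
        t⁻¹ ^ N2 * (1 + c.ε t / c.δ t ^ (c.j + 3))) :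
    ∫ z in c.bumpSet t, f z ^ 2 ≤ (t⁻¹ ^ (N1 + N2 + 13 + 2 * c.Qe)) ^ 2 := by
  have hδ := c.bxδ_pos ht
  have he := c.ε_pos ht
  have hT1 : (1 : ℝ) ≤ t⁻¹ := (one_le_inv₀ ht).2 ht1
  obtain ⟨b1, -, -, -⟩ := c.bxBumpPow ht ht1 hd hj
  obtain ⟨dp, -, -, -⟩ := c.bxScales ht ht1
  have hd1 : c.δ t ≤ 1 := dp.trans (pow_le_one₀ ht.le ht1)
  have hV : Continuous fun z => |dX^[c.j + 3] u z| + lowJ u b (c.j + 3) z :=
    (bxSmooth_iter h.smu _).continuous.abs.add (bxLowJ_cont h.smu h.smb _)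
  have hI : ∫ z in c.bumpSet t, (|dX^[c.j + 3] u z| + lowJ u b (c.j + 3) z) ^ 2 ≤
      200 * (t⁻¹ ^ c.Qe * t⁻¹ ^ (N1 + c.Qe)) ^ 2 := by
    obtain ⟨K2, hK2⟩ : ∃ K2, K2 = (t⁻¹ ^ c.Qe) ^ 2 := ⟨_, rfl⟩
    have hK21 : 1 ≤ K2 := by rw [hK2]; exact one_le_pow₀ (one_le_pow₀ hT1)
    have cl := c.lev_cont h.smu h.smb t (c.j + 2)
    have cj := (bxLowJ_cont h.smu h.smb (c.j + 3)).pow 2
    have i1 : IntegrableOn (fun z => 2 * (K2 * c.lev t u b (c.j + 2) z)) (c.rect t s) :=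
      c.intOn (continuous_const.mul (continuous_const.mul cl)) t s
    have i2 : IntegrableOn (fun z => 2 * lowJ u b (c.j + 3) z ^ 2) (c.rect t s) :=
      c.intOn (continuous_const.mul cj) t s
    have i12 : IntegrableOn (fun z => 2 * (K2 * c.lev t u b (c.j + 2) z) +
        2 * lowJ u b (c.j + 3) z ^ 2) (c.rect t s) := i1.add i2
    refine (setIntegral_mono_set (c.intOn (hV.pow 2) t s) (.of_forall fun z => sq_nonneg _)
      hbr.eventuallyLE).trans ((bxSetInt_le c (hV.pow 2) i12 fun z _ => ?_).trans ?_)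
    · obtain ⟨a1, -, -⟩ := c.bxLev_sa (u := u) (b := b) ht (c.j + 2) z
      rw [← hK2] at a1
      refine (add_sq_le (a := |dX^[c.j + 3] u z|) (b := lowJ u b (c.j + 3) z)).trans ?_
      rw [sq_abs]
      linarith
    · rw [integral_add i1 i2, integral_const_mul, integral_const_mul, integral_const_mul]
      have e1 := mul_le_mul_of_nonneg_left (hL (c.j + 2) le_rfl) (by linarith : 0 ≤ K2)
      have e2 := c.bxLowJ_int h.smu h.smb t (s := s) (q := c.j + 3) fun q' hq' => hL q' (by omega)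
      have e3 : 1 * (t⁻¹ ^ (N1 + c.Qe)) ^ 2 ≤ K2 * (t⁻¹ ^ (N1 + c.Qe)) ^ 2 :=
        mul_le_mul_of_nonneg_right hK21 (sq_nonneg _)
      rw [mul_pow (t⁻¹ ^ c.Qe), ← hK2]
      linarith [sq_nonneg (t⁻¹ ^ (N1 + c.Qe))]
  refine (bxSqInt (c.bxBump_compact t) hf hV (a := t⁻¹ ^ N2 * (1 + c.ε t / c.δ t ^ (c.j + 3)))
    (b := t⁻¹ ^ 10) (fun z hz => (hfb z hz).trans_eq (add_comm _ _)) hA hI).trans ?_
  refine bxPhiNum (M := N1 + N2 + 12 + 2 * c.Qe) hT2 (by positivity) (by positivity) hδ.le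
    (by positivity) le_rfl le_rfl ?_ ?_ (by omega)
  · calc t⁻¹ ^ N2 * (1 + c.ε t / c.δ t ^ (c.j + 3)) * c.δ t * t⁻¹
        = t⁻¹ ^ N2 * (c.δ t + c.ε t / c.δ t ^ (c.j + 3) * c.δ t) * t⁻¹ := by ring
      _ ≤ t⁻¹ ^ N2 * (t⁻¹ * t⁻¹ ^ (2 * c.Qe + 1)) * t⁻¹ := by
          gcongr
          refine (add_le_add (hd1.trans (one_le_pow₀ (n := 2 * c.Qe + 1) hT1)) b1).trans ?_
          rw [← two_mul]
          gcongr
          linarith
      _ = t⁻¹ ^ (N2 + (2 * c.Qe + 2) + 1) := by ring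
      _ ≤ _ := pow_le_pow_right₀ hT1 (by omega)
  · calc t⁻¹ ^ 10 * (t⁻¹ ^ c.Qe * t⁻¹ ^ (N1 + c.Qe)) = t⁻¹ ^ (10 + (c.Qe + (N1 + c.Qe))) := by ring
      _ ≤ _ := pow_le_pow_right₀ hT1 (by omega)

end Par

/-- The final arithmetic of the improved estimate. -/
theorem bxImp_final {T E A X Z I : ℝ} {a x z e : ℕ} (hT : 1000 ≤ T) (hE : 0 ≤ E) (hI : I ≤ E)
    (h : E ≤ A + X * Real.sqrt E + Z) (hA : A ≤ T ^ a) (hX0 : 0 ≤ X) (hX : X ≤ 4 * T ^ x)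
    (hZ : Z ≤ 2 * T ^ z) (ha : a + 1 ≤ e * 2) (hx : x * 2 + 1 ≤ e * 2) (hz : z + 1 ≤ e * 2) :
    I ≤ (T ^ e) ^ 2 := by
  have hT1 : (1 : ℝ) ≤ T := by linarith
  have hT0 : (0 : ℝ) ≤ T := by linarith
  have r := bxRoot hE h
  have hX2 : X ^ 2 ≤ 16 * T ^ (x * 2) := by
    refine (pow_le_pow_left₀ hX0 hX 2).trans (le_of_eq ?_)
    rw [pow_mul]; ring
  have key : ∀ n, n + 1 ≤ e * 2 → T ^ n * 1000 ≤ T ^ (e * 2) := fun n hn =>
    (mul_le_mul_of_nonneg_left hT (pow_nonneg hT0 n)).trans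
      (by rw [← pow_succ]; exact pow_le_pow_right₀ hT1 hn)
  have := key a ha
  have := key _ hx
  have := key z hz
  have : 0 ≤ T ^ (e * 2) := pow_nonneg hT0 _
  rw [← pow_mul]
  linarith

/-- The improved bound on the weighted top derivative. -/
theorem Par.improved (K : ℝ) (hK : 1 ≤ K) (Pe j : ℕ) : ∃ N : ℕ, ∀ c : Par, c.K = K → c.Pe = Pe →
    c.j = j → 40 ≤ c.Pe → 12 ≤ c.j → c.Pe + 20 ≤ c.Qe →
    ∀ᶠ t in 𝓝[>] (0 : ℝ), ∀ u b : ℝ × ℝ → ℝ, c.Sol t u b →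
      ∫ z in c.rect t 0, c.W t z.2 * dX^[c.j + 4] u z ^ 2 ≤
        ((t⁻¹) ^ (N + 3 * c.Qe - c.Qe / 4)) ^ 2 := by
  by_cases hj : 12 ≤ j
  swap
  · exact ⟨0, fun c _ _ h1 _ h2 _ => absurd (h1 ▸ h2) hj⟩
  obtain ⟨N1, hN1⟩ := Par.levels K hK Pe (j + 4)
  obtain ⟨N0, hN0⟩ := Par.sup_at K hK Pe (j + 3)
  obtain ⟨N0', hN0'⟩ := Par.sup_at K hK Pe (j + 4)
  obtain ⟨N2, hN2⟩ := bxSrc_rem K hK (j + 3) (by omega) N0
  obtain ⟨N4a, hN4a⟩ := bxSrc_bump K hK (j + 3) (by omega) N0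
  obtain ⟨N4b, hN4b⟩ := bxSrc_bump K hK (j + 4) (by omega) N0'
  obtain ⟨N3, hN3⟩ := Par.energy_estimate Pe
  obtain ⟨τ, -, hτ⟩ := Par.mult_bd
  refine ⟨(N1 + 4) + N2 + N3 + (N4a + N4b) + 2 * Pe + 60, ?_⟩
  intro c hcK hcP hcj hP _ hQ
  subst hcj
  have hPQ : c.Pe ≤ c.Qe := by omega
  have hj5 : c.j + 3 ≤ c.j + 5 := by omega
  filter_upwards [bxEv_pos,
    hN1 c hcK hcP hP hj le_rfl hQ (1 / 4) (by norm_num) (by norm_num),
    hN0 c hcK hcP hP hj (by omega) hQ (1 / 4) (by norm_num) (by norm_num),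
    hN0' c hcK hcP hP hj le_rfl hQ (1 / 4) (by norm_num) (by norm_num),
    hN2 c hcK (by omega) hj hj5 (by omega), hN4a c hcK (by omega) hj hj5 (by omega),
    hN4b c hcK (by omega) hj (by omega) (by omega),
    hN3 c hcP hP (1 / 8) (1 / 4) (by norm_num) (by norm_num) (by norm_num),
    hτ c (by omega) hj (by omega) (c.j + 3), c.coef_bd (by omega) hj (by omega) (c.j + 3),
    c.rBd_top (by omega) (by omega), c.δ_inv_le, c.rect_area, c.W_le_one (by omega),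
    c.bxBump_rect (1 / 4) (by norm_num), bxEv_T (1000 + 2 * c.K * (c.K + 1)),
    c.bump_crude (1 / 8) (1 / 4) (by norm_num) (by norm_num) (by norm_num),
    c.bump_improved (1 / 8) (1 / 4) (by norm_num) (by norm_num) (by norm_num)]
    with t ⟨ht, ht1⟩ hlev hsup hsup' hrem hbump hbump' hen hM hC hrb hd harea hW hbr hT hcrude himp
      u b h
  have hT1 : (1 : ℝ) ≤ t⁻¹ := (one_le_inv₀ ht).2 ht1
  have hKp : 0 ≤ 2 * c.K * (c.K + 1) := by nlinarith [c.one_le_K]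
  have hT2 : 1000 ≤ t⁻¹ := by linarith
  have hTK : 2 * c.K * (c.K + 1) ≤ t⁻¹ := by linarith
  have hbs : c.bumpSet t ⊆ c.rect t (1 / 4) := fun z hz =>
    ⟨(hbr z hz).1.le, (hbr z hz).2.le⟩
  have hr1 : c.rect t (1 / 4) ⊆ c.rect t 1 := c.rect_subset ht.le (by norm_num)
  obtain ⟨hA1, -, hA⟩ := harea (1 / 4) (by norm_num) (by norm_num)
  -- the levels
  have lv : ∀ (a : ℕ), a ≤ 3 → ∀ q ≤ c.j + 1 + a,
      ∫ z in c.rect t (1 / 4), c.lev t u b q z ≤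
        (t⁻¹ ^ (N1 + 4 + (2 * a - 1) * c.Qe)) ^ 2 := by
    intro a ha q hq
    refine (hlev u b h q (by omega)).trans ?_
    refine pow_le_pow_left₀ (mul_nonneg (pow_nonneg (by linarith) _)
      (zero_le_one.trans (c.rBd_ge_one ht q))) ?_ 2
    calc t⁻¹ ^ N1 * c.rBd t q ≤ t⁻¹ ^ N1 * t⁻¹ ^ (4 + (2 * a - 1) * c.Qe) := by
          gcongr; exact hrb a ha q hq
      _ = _ := by rw [← pow_add, add_assoc]
  have l1 : ∀ q ≤ c.j + 2, ∫ z in c.rect t (1 / 4), c.lev t u b q z ≤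
      (t⁻¹ ^ (N1 + 4 + c.Qe)) ^ 2 := fun q hq =>
    (lv 1 (by omega) q hq).trans_eq (by norm_num)
  have l2 : ∀ q ≤ c.j + 3, ∫ z in c.rect t (1 / 4), c.lev t u b q z ≤
      (t⁻¹ ^ (N1 + 4 + 3 * c.Qe)) ^ 2 := fun q hq =>
    (lv 2 (by omega) q (by omega)).trans_eq (by norm_num)
  have l3 : ∀ q ≤ c.j + 4, ∫ z in c.rect t (1 / 4), c.lev t u b q z ≤
      (t⁻¹ ^ (N1 + 4 + 5 * c.Qe)) ^ 2 := fun q hq =>
    (lv 3 le_rfl q (by omega)).trans_eq (by norm_num)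
  -- the objects
  have hC := hC u b h
  have hM := hM u b h
  set w := dX^[c.j + 3] u with hwdef
  have hw : ContDiff ℝ ∞ w := bxSmooth_iter h.smu _
  set L := fun z => opL (c.cK1 t u b) (c.cK2 t u b) (c.cB1 t u b (c.j + 3))
    (c.cB0 t u b (c.j + 3)) w z with hLdef
  set Φ := dX^[c.j + 3] (c.cGf t u b) with hΦdef
  have hΦ : ContDiff ℝ ∞ Φ := bxSmooth_iter (c.cGf_smooth h) _
  have hLc : Continuous L := by
    have := hC.sm1.continuous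
    have := hC.sm2.continuous
    have := hC.ct1
    have := hC.ct0
    have := (bxSmooth_dX (bxSmooth_dX hw)).continuous
    have := (bxSmooth_dY (bxSmooth_dX hw)).continuous
    have := (bxSmooth_dY (bxSmooth_dY hw)).continuous
    have := (bxSmooth_dX hw).continuous
    have := (bxSmooth_dY hw).continuous
    rw [hLdef]; unfold opL; fun_prop
  have hB := c.bxBump_compact t
  have hBm := hB.measurableSet
  set G := fun z : ℝ × ℝ => c.om t z.2 * c.sA t *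
    (t⁻¹ ^ 10 * lowJ u b (c.j + 3) z + t⁻¹ ^ N2) with hGdef
  have hG : Continuous G :=
    ((c.om_cont t).mul continuous_const).mul
      ((continuous_const.mul (bxLowJ_cont h.smu h.smb _)).add continuous_const)
  have hos : ∀ z : ℝ × ℝ, 0 ≤ c.om t z.2 * c.sA t := fun z =>
    mul_nonneg (c.om_pos ht _).le (c.sA_pos ht).le
  have hG0 : ∀ z, 0 ≤ G z := fun z => mul_nonneg (hos z)
    (add_nonneg (mul_nonneg (by positivity) (lowJ_nonneg _ _ _ _)) (by positivity))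
  set F := (c.bumpSet t).indicator fun z => -L z with hFdef
  have hFi : Integrable F :=
    (integrable_indicator_iff hBm).2 (hLc.neg.continuousOn.integrableOn_compact hB)
  set F' := (c.bumpSet t).indicator fun z => L z + Φ z with hF'def
  have hLΦ : Continuous fun z => L z + Φ z := hLc.add hΦ.continuous
  have hF'i : Integrable F' :=
    (integrable_indicator_iff hBm).2 (hLΦ.continuousOn.integrableOn_compact hB)
  have hF'sq : (fun z => F' z ^ 2) = (c.bumpSet t).indicator fun z => (L z + Φ z) ^ 2 :=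
    funext fun z => by by_cases hz : z ∈ c.bumpSet t <;> simp [hF'def, hz]
  have hF'i2 : Integrable fun z => F' z ^ 2 := by
    rw [hF'sq]
    exact (integrable_indicator_iff hBm).2 ((hLΦ.pow 2).continuousOn.integrableOn_compact hB)
  have hr := fun z (hz : z ∈ c.rect t (1 / 4)) => hrem u b h z (hr1 hz) (hsup u b h z hz)
  -- the source of the energy estimate
  have hL : ∀ z ∈ c.rect t (1 / 4), |L z + F z| ≤
      c.om t z.2 * c.sA t * t⁻¹ ^ 10 * |w z| + G z := by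
    intro z hz
    by_cases hzb : z ∈ c.bumpSet t
    · rw [hFdef, indicator_of_mem hzb, add_neg_cancel, abs_zero]
      exact add_nonneg (mul_nonneg (mul_nonneg (hos z) (by positivity)) (abs_nonneg _)) (hG0 z)
    · have e0 : Φ z = 0 := c.cGf_zero h ht (hr1 hz) hzb _
      have := hr z hz
      rw [← hwdef, ← hΦdef, e0, indB, indicator_of_notMem hzb, zero_mul, add_zero] at this
      rw [hFdef, indicator_of_notMem hzb, add_zero]
      simp only [hLdef]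
      refine this.trans (le_of_eq ?_)
      rw [hGdef]; ring
  have hE := hen _ _ _ _ _ _ w G F hC hM hw hG hG0 hFi
    (fun z hz => indicator_of_notMem hz _) hL
  -- the size of the data
  obtain ⟨R, hR⟩ : ∃ R, R = t⁻¹ ^ (N1 + 4 + c.Qe) := ⟨_, rfl⟩
  have hR0 : 0 ≤ R := hR ▸ pow_nonneg (by linarith) _
  have hWw : ∫ z in c.rect t (1 / 4), c.W t z.2 * w z ^ 2 ≤ R ^ 2 := by
    refine (bxSetInt_le c ((c.W_cont t).mul (hw.continuous.pow 2))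
      (c.intOn (c.lev_cont h.smu h.smb t (c.j + 2)) t (1 / 4))
      fun z _ => (c.bxLev_sa ht (c.j + 2) z).2.2).trans ?_
    rw [hR]; exact l1 _ le_rfl
  have hGW : ∫ z in c.rect t (1 / 4), G z ^ 2 / c.W t z.2 ≤
      96 * (t⁻¹ ^ 10) ^ 2 * R ^ 2 + 2 * (t⁻¹ ^ N2) ^ 2 * t⁻¹ := by
    have cj := (bxLowJ_cont h.smu h.smb (c.j + 3)).pow 2
    have i1 : IntegrableOn (fun z => 2 * (t⁻¹ ^ 10) ^ 2 * lowJ u b (c.j + 3) z ^ 2)
        (c.rect t (1 / 4)) := c.intOn (continuous_const.mul cj) t _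
    have i2 : IntegrableOn (fun _ : ℝ × ℝ => 2 * (t⁻¹ ^ N2) ^ 2 * 1) (c.rect t (1 / 4)) :=
      c.intOn continuous_const t _
    have i12 : IntegrableOn (fun z => 2 * (t⁻¹ ^ 10) ^ 2 * lowJ u b (c.j + 3) z ^ 2 +
        2 * (t⁻¹ ^ N2) ^ 2 * 1) (c.rect t (1 / 4)) := i1.add i2
    refine (bxSetInt_le c ((hG.pow 2).div (c.W_cont t) fun z => (c.bxW_pos ht _).ne') i12
      fun z _ => ?_).trans ?_
    · rw [Pi.div_apply, Pi.pow_apply]
      simp only [hGdef]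
      rw [mul_pow, mul_pow (c.om t z.2), c.bxOm_sq ht]
      have hWp := c.bxW_pos ht z.2
      rw [mul_assoc, mul_div_cancel_left₀ _ hWp.ne', mul_one]
      refine (mul_le_of_le_one_left (sq_nonneg _)
        (pow_le_one₀ (c.sA_pos ht).le (pow_le_one₀ ht.le ht1))).trans
          (add_sq_le.trans (le_of_eq ?_))
      ring
    · rw [integral_add i1 i2, integral_const_mul, integral_const_mul]
      refine add_le_add ?_ (mul_le_mul_of_nonneg_left hA1 (by positivity))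
      refine (mul_le_mul_of_nonneg_left
        (c.bxLowJ_int h.smu h.smb t (R := R) fun q hq => hR ▸ l1 q (by omega))
        (by positivity)).trans (le_of_eq ?_)
      ring
  -- the source in the bump
  obtain ⟨hΦ1, hΦ2⟩ := c.bxPhi_int h ht ht1 hbs hd hTK hT2 hPQ hj (N1 := N1 + 4)
    (N4 := N4a + N4b) hA l2 l3
    (fun z hz => (hbump u b h z (hr1 (hbs hz)) (hsup u b h z (hbs hz))).trans <| by
      have := c.ε_pos ht
      have := c.bxδ_pos ht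
      gcongr
      · exact c.indB_nonneg t z
      · omega)
    (fun z hz => (hbump' u b h z (hr1 (hbs hz)) (hsup' u b h z (hbs hz))).trans <| by
      have := c.ε_pos ht
      have := c.bxδ_pos ht
      gcongr
      · exact c.indB_nonneg t z
      · omega)
  have hF'int : ∫ z, F' z ^ 2 ≤ (t⁻¹ ^ (N1 + 4 + N2 + 13 + 2 * c.Qe)) ^ 2 := by
    rw [hF'sq, integral_indicator hBm]
    refine c.bxRem_int h ht ht1 hbs hd hT2 hj hA (N1 := N1 + 4) l1 hLΦ fun z hz => ?_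
    refine (hr z (hbs hz)).trans ?_
    rw [c.indB_mem hz, one_mul, ← hwdef]
    have hw1 : c.om t z.2 * c.sA t ≤ 1 :=
      mul_le_one₀ (hW z.2 (c.rect_small ht.le le_rfl (hr1 (hbs hz))).2).2.1 (c.sA_pos ht).le
        (pow_le_one₀ ht.le ht1)
    have := lowJ_nonneg u b (c.j + 3) z
    gcongr
    exact mul_le_of_le_one_left (by positivity) hw1
  -- the multiplier against the source
  obtain ⟨E, hEdef⟩ : ∃ E, E = c.energy t (fun z => c.cut t (1 / 8) (1 / 4) z * w z) := ⟨_, rfl⟩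
  set ζ := c.zetaM t u b
  set lam := c.lamM t u τ
  have hMc : Continuous (multM 1 ζ lam w) := by
    have := hM.smζ.continuous
    have := hM.sml.continuous
    have := (bxSmooth_dX hw).continuous
    have := (bxSmooth_dY hw).continuous
    have := hw.continuous
    unfold multM; fun_prop
  have hc1 := hcrude ζ lam w F' _ hM.absζ hM.absl hM.smζ hM.sml hw hF'i hF'i2
    (fun z hz => indicator_of_notMem hz _) (pow_nonneg (by linarith) _) hF'int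
  have hc2 := himp ζ lam w Φ _ R hM.absζ hM.absl hM.smζ hM.sml hw hΦ
    (fun z hz hzb => c.cGf_zero h ht hz hzb _) (pow_nonneg (by linarith) _) hΦ1 hΦ2 hR0 hWw
  rw [← hEdef] at hc1 hc2 hE
  have hMF : |∫ z, multM 1 ζ lam w z * F z| ≤
      |∫ z in c.bumpSet t, multM 1 ζ lam w z * Φ z| + |∫ z, multM 1 ζ lam w z * F' z| := by
    have e : ∀ f : ℝ × ℝ → ℝ, (fun z => multM 1 ζ lam w z * (c.bumpSet t).indicator f z) =
        (c.bumpSet t).indicator fun z => multM 1 ζ lam w z * f z := fun f =>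
      funext fun z => by by_cases hz : z ∈ c.bumpSet t <;> simp [hz]
    rw [hFdef, hF'def, e, e, integral_indicator hBm, integral_indicator hBm]
    have i1 : IntegrableOn (fun z => multM 1 ζ lam w z * Φ z) (c.bumpSet t) :=
      (hMc.mul hΦ.continuous).continuousOn.integrableOn_compact hB
    have i2 : IntegrableOn (fun z => multM 1 ζ lam w z * (L z + Φ z)) (c.bumpSet t) :=
      (hMc.mul hLΦ).continuousOn.integrableOn_compact hB
    rw [show (fun z => multM 1 ζ lam w z * -L z) = fun z =>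
      multM 1 ζ lam w z * Φ z - multM 1 ζ lam w z * (L z + Φ z) from funext fun z => by ring,
      integral_sub i1 i2]
    exact abs_sub _ _
  obtain ⟨-, s1, s2, s3⟩ := c.bxScales ht ht1
  have hsdm : Real.sqrt (c.δ t) * Real.sqrt (c.ym t) ≤ t ^ (c.Qe - c.Pe + (c.Qe - c.Pe) / 2) := by
    rw [pow_add]; gcongr
  have hsdz : Real.sqrt (c.δ t) * (R / (c.sa t * Real.sqrt (c.ym t))) ≤
      t ^ (c.Qe - c.Pe) * (R * t⁻¹ ^ (c.Qe + (c.Qe - c.Pe + 1) / 2)) := by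
    have hsa := c.sa_pos ht
    refine mul_le_mul s1 ?_ (by positivity) (by positivity)
    rw [div_eq_mul_one_div]
    exact mul_le_mul_of_nonneg_left s3 hR0
  have hyQ : c.ym t = t ^ (c.Qe - c.Pe) := rfl
  have hX1 : t⁻¹ * c.ym t * t⁻¹ ^ (N1 + 4 + N2 + 13 + 2 * c.Qe) ≤
      t⁻¹ ^ (N1 + 4 + N2 + 14 + Pe + c.Qe) := by
    rw [hyQ]
    calc t⁻¹ * t ^ (c.Qe - c.Pe) * t⁻¹ ^ (N1 + 4 + N2 + 13 + 2 * c.Qe)
        = t⁻¹ ^ (1 + (N1 + 4 + N2 + 13 + 2 * c.Qe)) * t ^ (c.Qe - c.Pe) := by ring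
      _ ≤ _ := bxPow_le ht ht1 (by omega)
  have hX2 : t⁻¹ * (Real.sqrt (c.δ t) * Real.sqrt (c.ym t)) *
        t⁻¹ ^ (N1 + 4 + (N4a + N4b) + 7 + 4 * c.Qe) ≤
      t⁻¹ ^ (N1 + 4 + (N4a + N4b) + 9 + 2 * Pe + 3 * c.Qe - c.Qe / 2) := by
    calc _ ≤ t⁻¹ * t ^ (c.Qe - c.Pe + (c.Qe - c.Pe) / 2) *
          t⁻¹ ^ (N1 + 4 + (N4a + N4b) + 7 + 4 * c.Qe) := by gcongr
      _ = t⁻¹ ^ (1 + (N1 + 4 + (N4a + N4b) + 7 + 4 * c.Qe)) *
          t ^ (c.Qe - c.Pe + (c.Qe - c.Pe) / 2) := by ring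
      _ ≤ _ := bxPow_le ht ht1 (by omega)
  have hZ : t⁻¹ * (t⁻¹ * (Real.sqrt (c.δ t) * (R / (c.sa t * Real.sqrt (c.ym t)))) *
        t⁻¹ ^ (N1 + 4 + (N4a + N4b) + 7 + 4 * c.Qe)) ≤
      t⁻¹ ^ (2 * (N1 + 4) + (N4a + N4b) + 9 + Pe + 5 * c.Qe + (c.Qe + 1) / 2) := by
    calc _ ≤ t⁻¹ * (t⁻¹ * (t ^ (c.Qe - c.Pe) * (R * t⁻¹ ^ (c.Qe + (c.Qe - c.Pe + 1) / 2))) *
          t⁻¹ ^ (N1 + 4 + (N4a + N4b) + 7 + 4 * c.Qe)) := by gcongr
      _ = t⁻¹ ^ (1 + (1 + (N1 + 4 + c.Qe) + (c.Qe + (c.Qe - c.Pe + 1) / 2) +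
          (N1 + 4 + (N4a + N4b) + 7 + 4 * c.Qe))) * t ^ (c.Qe - c.Pe) := by rw [hR]; ring
      _ ≤ _ := bxPow_le ht ht1 (by omega)
  have hAle : t⁻¹ ^ N3 * (R ^ 2 + (96 * (t⁻¹ ^ 10) ^ 2 * R ^ 2 + 2 * (t⁻¹ ^ N2) ^ 2 * t⁻¹)) ≤
      t⁻¹ ^ (N3 + (1 + (2 * (N1 + 4 + c.Qe) + 20 + 2 * N2 + 1))) := by
    rw [pow_add]
    refine mul_le_mul_of_nonneg_left ?_ (by positivity)
    have e : ∀ n, n ≤ 2 * (N1 + 4 + c.Qe) + 20 + 2 * N2 + 1 →
        t⁻¹ ^ n ≤ t⁻¹ ^ (2 * (N1 + 4 + c.Qe) + 20 + 2 * N2 + 1) := fun n hn =>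
      pow_le_pow_right₀ hT1 hn
    have e1 : R ^ 2 ≤ _ := (le_of_eq (by rw [hR, ← pow_mul])).trans
      (e ((N1 + 4 + c.Qe) * 2) (by omega))
    have e2 : (t⁻¹ ^ 10) ^ 2 * R ^ 2 ≤ _ :=
      (le_of_eq (by rw [hR, ← pow_mul, ← pow_mul, ← pow_add])).trans
        (e (10 * 2 + (N1 + 4 + c.Qe) * 2) (by omega))
    have e3 : (t⁻¹ ^ N2) ^ 2 * t⁻¹ ≤ _ :=
      (le_of_eq (by rw [← pow_mul, ← pow_succ])).trans (e (N2 * 2 + 1) (by omega))
    have e4 := mul_le_mul_of_nonneg_right (show (99 : ℝ) ≤ t⁻¹ by linarith)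
      (pow_nonneg (show (0 : ℝ) ≤ t⁻¹ by linarith) (2 * (N1 + 4 + c.Qe) + 20 + 2 * N2 + 1))
    rw [pow_add t⁻¹ 1, pow_one]
    linarith
  have hin := c.bxEnergy_inner ht (s := 1 / 8) (s' := 1 / 4) (by norm_num) (by norm_num) hw
  rw [← hEdef] at hin
  have hE0 : 0 ≤ E := le_trans (setIntegral_nonneg (c.rect_compact t 0).measurableSet fun z _ =>
    mul_nonneg (c.bxW_pos ht _).le (sq_nonneg _)) hin
  obtain ⟨X, hXdef⟩ : ∃ X, X = 2 * t⁻¹ * (t⁻¹ * c.ym t * t⁻¹ ^ (N1 + 4 + N2 + 13 + 2 * c.Qe) +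
      t⁻¹ * (Real.sqrt (c.δ t) * Real.sqrt (c.ym t)) *
        t⁻¹ ^ (N1 + 4 + (N4a + N4b) + 7 + 4 * c.Qe)) := ⟨_, rfl⟩
  obtain ⟨Z, hZdef⟩ : ∃ Z, Z = 2 * (t⁻¹ * (t⁻¹ * (Real.sqrt (c.δ t) *
      (R / (c.sa t * Real.sqrt (c.ym t)))) * t⁻¹ ^ (N1 + 4 + (N4a + N4b) + 7 + 4 * c.Qe))) :=
    ⟨_, rfl⟩
  refine bxImp_final (a := N3 + (1 + (2 * (N1 + 4 + c.Qe) + 20 + 2 * N2 + 1)))
    (x := max (N1 + 4 + N2 + 15 + Pe + c.Qe)
      (N1 + 4 + (N4a + N4b) + 10 + 2 * Pe + 3 * c.Qe - c.Qe / 2))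
    (z := 2 * (N1 + 4) + (N4a + N4b) + 9 + Pe + 5 * c.Qe + (c.Qe + 1) / 2)
    (X := X) (Z := Z) hT2 hE0 ?_ ?_ hAle ?_ ?_ ?_ (by omega) (by omega) (by omega)
  · refine le_trans (le_of_eq ?_) hin
    simp only [hwdef]
    rw [← Function.iterate_succ_apply' dX]
  · refine hE.trans (le_trans (add_le_add (mul_le_mul_of_nonneg_left (add_le_add hWw hGW)
      (pow_nonneg (by linarith) _)) (mul_le_mul_of_nonneg_left
        (hMF.trans (add_le_add hc2 hc1)) (by positivity))) (le_of_eq ?_))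
    rw [hXdef, hZdef]; ring
  · rw [hXdef]
    have : 0 ≤ c.ym t := pow_nonneg ht.le _
    positivity
  · rw [hXdef]
    have q1 := mul_le_mul_of_nonneg_left hX1 (show (0 : ℝ) ≤ t⁻¹ by linarith)
    have q2 := mul_le_mul_of_nonneg_left hX2 (show (0 : ℝ) ≤ t⁻¹ by linarith)
    rw [← pow_succ'] at q1 q2
    have b : ∀ {n}, n ≤ max (N1 + 4 + N2 + 15 + Pe + c.Qe)
        (N1 + 4 + (N4a + N4b) + 10 + 2 * Pe + 3 * c.Qe - c.Qe / 2) →
        t⁻¹ ^ n ≤ t⁻¹ ^ max (N1 + 4 + N2 + 15 + Pe + c.Qe)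
          (N1 + 4 + (N4a + N4b) + 10 + 2 * Pe + 3 * c.Qe - c.Qe / 2) := fun hn =>
      pow_le_pow_right₀ hT1 hn
    have := q1.trans (b (by omega))
    have := q2.trans (b (by omega))
    linarith
  · rw [hZdef]; linarith

end Vale.Agent.P229
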