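import Vale.Agent.P229.BoxMultAux

/-!
# P229: positivity of the quadratic form
-/

open scoped ContDiff Topology
open Set Filter

namespace Vale.Agent.P229

open BoxEq

namespace Par

variable {c : Par} {t : ℝ} {u b : ℝ × ℝ → ℝ}

theorem zetaM_derivs (h : c.Sol t u b) (z : ℝ × ℝ) :
    dX (c.zetaM t u b) z = -2 * c.gAt t u b gamJ z - 2 * z.1 * dX (c.gAt t u b gamJ) z ∧
    dY (c.zetaM t u b) z = 1 / 2 - 2 * z.1 * dY (c.gAt t u b gamJ) z := by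
  have hg := gAt_smooth h (g := gamJ) fun J hJ => (bxSm_coef hJ).2.2.2.1
  constructor
  · refine bxDX_eq (bxMult_smooth h 0).1 ?_
    refine (((hasDerivAt_const z.1 (z.2 / 2)).sub
      (((hasDerivAt_id z.1).const_mul 2).mul (bxHasDerivAt_X hg z)))).congr_deriv ?_
    simp; ring
  · refine bxDY_eq (bxMult_smooth h 0).1 ?_
    refine ((((hasDerivAt_id z.2).div_const 2).sub
      ((hasDerivAt_const z.2 (2 * z.1)).mul (bxHasDerivAt_Y hg z)))).congr_deriv ?_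
    simp

theorem gAt_eq {g : J8 → ℝ} {z : ℝ × ℝ} (hJ : jetJ (c.beta t) u b z ∈ jetIn c.K) :
    c.gAt t u b g z = g (jetJ (c.beta t) u b z) :=
  (bxCutJ_eventually c.one_le_K g hJ).eq_of_nhds

/-- The coefficient of `W_p²` along a solution. -/
theorem cPP_eq (h : c.Sol t u b) {z : ℝ × ℝ} (hJ : jetJ (c.beta t) u b z ∈ jetIn c.K) (i : ℕ)
    (τ : ℝ) :
    cPP 1 (c.zetaM t u b) (c.lamM t u τ) (c.cK1 t u b) (c.cK2 t u b) (c.cB1 t u b i) z =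
      c.gAt t u b a2v z * (-τ * zeta0 (u z / c.L t) * kbar (c.betaBg t) (pt u z)
        + dX (kbar (c.betaBg t)) (pt u z) * (((i : ℝ) + 3 / 2) * (z.1 * dX u z) + z.2 * dY u z / 4)
        + dY (kbar (c.betaBg t)) (pt u z) * (z.2 / 4))
      + (z.1 * (kbar (c.betaBg t) (pt u z) + kbar (c.betaF t) (pt u z))
          * (-(dX (c.gAt t u b a2v) z) / 2 + i * dX (c.gAt t u b a2v) z
            - c.gAt t u b a2v z * dY (c.gAt t u b gamJ) z - dY (c.gAt t u b a1v) z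
            + dX (dX u) z * dUP (cutJ c.K a2v) (jetJ (c.beta t) u b z)
            + 2 * dX (dY u) z * dUP (cutJ c.K a1v) (jetJ (c.beta t) u b z)
            + dUP (cutJ c.K g0v) (jetJ (c.beta t) u b z))
        + c.zetaM t u b z / 2 * (kbar (c.betaBg t) (pt u z) + kbar (c.betaF t) (pt u z))
            * dY (c.gAt t u b a2v) z
        + z.1 * dX (kbar (c.betaBg t)) (pt u z)
            * (dUP g1v (jetJ (c.beta t) u b z) - 2 * dX u z * c.gAt t u b a2v z)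
        + z.1 * dY (kbar (c.betaBg t)) (pt u z)
            * (dUP g2v (jetJ (c.beta t) u b z) - 2 * c.gAt t u b gamJ z * c.gAt t u b a2v z)
        - 2 * c.gAt t u b a2v z * z.1 * c.gAt t u b gamJ z * dY u z
            * dX (kbar (c.betaBg t)) (pt u z)
        + dX (kbar (c.betaF t)) (pt u z) * (c.gAt t u b a2v z * (((i : ℝ) - 1 / 2) * z.1 * dX u z
            + c.zetaM t u b z * dY u z / 2 - z.1 * c.gAt t u b gamJ z * dY u z))
        + dY (kbar (c.betaF t)) (pt u z)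
            * (c.gAt t u b a2v z * (c.zetaM t u b z / 2 - z.1 * c.gAt t u b gamJ z))
        - τ * zeta0 (u z / c.L t) * c.gAt t u b a2v z * kbar (c.betaF t) (pt u z)) := by
  have hK := c.one_le_K
  have hdom := bxJetIn_dom hK hJ
  -- derivatives
  have hK2 := bxProd_derivs (bxSmooth_kbar (c.contDiff_beta t)) h.smu
    (gAt_smooth h (g := a2v) fun J hJ => (bxSm_coef hJ).2.2.2.2.2.1) z
  have hY2 := bxProd_dY (bxSmooth_kbar (c.contDiff_beta t)) h.smu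
    (gAt_smooth h (g := a2v) fun J hJ => (bxSm_coef hJ).2.2.2.2.2.1) z
  have hY1 := bxProd_dY (bxSmooth_kbar (c.contDiff_beta t)) h.smu
    (gAt_smooth h (g := a1v) fun J hJ => (bxSm_coef hJ).2.2.2.2.1) z
  obtain ⟨-, -, s3, s4, s5⟩ := c.pert_split t
  have hζK : dY (fun w => c.zetaM t u b w * c.cK2 t u b w) z
      = dY (c.zetaM t u b) z * c.cK2 t u b z + c.zetaM t u b z * dY (c.cK2 t u b) z :=
    dY_mul ((bxMult_smooth h τ).1.differentiable (by simp) z)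
      ((bxK_smooth h).2.differentiable (by simp) z)
  have ea1 : c.gAt t u b a1v z = c.gAt t u b gamJ z * c.gAt t u b a2v z := by
    rw [gAt_eq hJ, gAt_eq hJ, gAt_eq hJ, bxA1_eq hdom]
  have eB : c.cB1 t u b i z = i * dX (c.cK2 t u b) z
      + dX (dX u) z * (kbar (c.beta t) (pt u z) * dUP (cutJ c.K a2v) (jetJ (c.beta t) u b z))
      + 2 * dX (dY u) z * (kbar (c.beta t) (pt u z) * dUP (cutJ c.K a1v) (jetJ (c.beta t) u b z))
      + (kbar (c.beta t) (pt u z) * dUP (cutJ c.K g0v) (jetJ (c.beta t) u b z)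
        + dX (kbar (c.betaBg t)) (pt u z) * dUP g1v (jetJ (c.beta t) u b z)
        + dY (kbar (c.betaBg t)) (pt u z) * dUP g2v (jetJ (c.beta t) u b z)) := by
    simp only [cB1, sumG, (bxDUP_cut hK g1v hJ).1, (bxDUP_cut hK g2v hJ).1,
      (bxDUP_cut hK g3v hJ).1, (bxDUP_cut hK g4v hJ).1, bxDUP_g34 hdom, mul_zero, add_zero]
  unfold cPP
  rw [hζK, (zetaM_derivs h z).2, eB]
  simp only [cK2_eq, cK1_eq]
  rw [hK2.1, hY2, hY1, ea1, congr_fun s3 (pt u z), congr_fun s4 (pt u z), congr_fun s5 (pt u z)]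
  simp only [lamM, zetaM]
  ring

variable (c)

/-- The coefficient of `W_p²` dominates the weight. -/
theorem cPP_lower {τ cz : ℝ} (hτ0 : 0 < τ) (hτ : τ ≤ 1 / 8) (hcz0 : 0 < cz)
    (hcz : ∀ s, cz ≤ zeta0 s ^ 2 + (-(s * deriv zeta0 s))) (hP : 12 ≤ c.Pe) (hj : 12 ≤ c.j)
    (hQ : c.Pe + 4 ≤ c.Qe) (i : ℕ) :
    ∀ᶠ t in 𝓝[>] (0 : ℝ), ∀ u b : ℝ × ℝ → ℝ, c.Sol t u b → ∀ z ∈ c.rect t 1,
      |c.gAt t u b gamJ z| ≤ 1 / 2 ∧ 2 * t * c.W t z.2 ≤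
        cPP 1 (c.zetaM t u b) (c.lamM t u τ) (c.cK1 t u b) (c.cK2 t u b) (c.cB1 t u b i) z := by
  have hK := c.one_le_K
  have hp0 := c.bxpOut_pos
  obtain ⟨R, hR, hk⟩ := c.k_basic (by omega) hj (by omega)
  obtain ⟨Rγ, hRγ, hγd⟩ := c.coef_deriv (by omega) (by omega) (g := gamJ)
    fun J hJ => (bxSm_coef hJ).2.2.2.1
  obtain ⟨R1, hR1, h1d⟩ := c.coef_deriv (by omega) (by omega) (g := a1v)
    fun J hJ => (bxSm_coef hJ).2.2.2.2.1
  obtain ⟨R2, hR2, h2d⟩ := c.coef_deriv (by omega) (by omega) (g := a2v)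
    fun J hJ => (bxSm_coef hJ).2.2.2.2.2.1
  obtain ⟨D0, hD01, hD0⟩ := bxD_bound hK (g := g0v) fun J hJ => (bxSm_coef hJ).2.2.2.2.2.2.1
  obtain ⟨D1, hD11, hD1⟩ := bxD_bound hK (g := a1v) fun J hJ => (bxSm_coef hJ).2.2.2.2.1
  obtain ⟨D2, hD21, hD2⟩ := bxD_bound hK (g := a2v) fun J hJ => (bxSm_coef hJ).2.2.2.2.2.1
  obtain ⟨E, hE0, hE⟩ := bxDUP_g12 hK
  obtain ⟨Q, hQ'⟩ : ∃ Q : ℝ, Q = 3 * c.pOut + 1 := ⟨_, rfl⟩
  obtain ⟨M, hM⟩ : ∃ M : ℝ, M = Q + 3 * (c.K + 1) * c.K * Q + i + R + Rγ + R1 + R2 + D0 + D1 + D2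
    + E * (c.K * Q + 4) + 3 + c.K := ⟨_, rfl⟩
  have hQ00 : 0 < Q := by linarith
  obtain ⟨κ, hκ⟩ : ∃ κ : ℝ, κ = 3 / 50 * min (1 / 4) (τ * cz) := ⟨_, rfl⟩
  have hκ0 : 0 < κ := by rw [hκ]; positivity
  filter_upwards [bxEv_pos, hk, hγd, h1d, h2d, c.jet_mem (by omega) (by omega),
    c.W_le_one (by omega), bxEv_small (50 * M ^ 5 + 3) hκ0,
    bxEv_small (2 * c.K * Q ^ 2 + 6 * (c.K + 1) * c.K * Q + 16) one_pos]
    with t ⟨ht, ht1⟩ hk hγd h1d h2d hjet hWl hsmall hsmall' u b h z hz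
  obtain ⟨hpt, bk, -, -⟩ := hk u b h z hz
  have hJ := hjet u b h z hz
  have hdom := bxJetIn_dom hK hJ
  have hm := c.rect_sub_sq ht hz
  obtain ⟨z1, z2⟩ := c.rect_small ht.le le_rfl hz
  obtain ⟨ha0, ha3, -, hγb, -⟩ := bxVals hK hJ
  obtain ⟨hW1, hom1, -, hW2⟩ := hWl z.2 z2
  have hW0 := c.W_pos ht z.2
  have hsA : c.sA t ≤ t := by
    simpa [sA] using pow_le_pow_of_le_one ht.le ht1 (show 1 ≤ c.Pe by omega)
  have hsA0 := c.sA_pos ht
  have hδ := c.bxδ_pos ht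
  have hε := c.ε_pos ht
  have hδ1 : c.δ t ≤ 1 := (c.bxδ_le ht ht1).trans ht1
  -- elementary sizes
  have hQ1 : |z.1| + |z.2| ≤ Q * t := by rw [hQ']; linarith
  have hbb : |b z| ≤ c.K * Q * t := ((h.lipschitz ht hz).2).trans (by
    rw [mul_assoc]; gcongr)
  have hγ : |c.gAt t u b gamJ z| ≤ 3 * (c.K + 1) * c.K * Q * t := by
    rw [gAt_eq hJ]
    refine hγb.trans ?_
    rw [show jetJ (c.beta t) u b z 1 = b z from rfl]
    calc 3 * (c.K + 1) * |b z| ≤ 3 * (c.K + 1) * (c.K * Q * t) := by gcongr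
      _ = _ := by ring
  have hQK : 0 ≤ 2 * c.K * Q ^ 2 * t := by positivity
  have hKQ : 0 ≤ 6 * (c.K + 1) * c.K * Q * t := by positivity
  have hγ2 : |c.gAt t u b gamJ z| ≤ 1 / 2 := by linarith
  refine ⟨hγ2, ?_⟩
  obtain ⟨hE1, hE2⟩ := hE _ hJ
  have hgam : gamJ (jetJ (c.beta t) u b z) = c.gAt t u b gamJ z := (gAt_eq hJ).symm
  have ha2 : a2v (jetJ (c.beta t) u b z) = c.gAt t u b a2v z := (gAt_eq hJ).symm
  rw [hgam, ha2] at hE2
  rw [ha2] at hE1 ha0 ha3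
  obtain ⟨-, -, f3, f4, f5⟩ := c.betaBg_formulas ht (h.mem z hm)
  obtain ⟨g0, g1, g2, -⟩ := hγd u b h z hz
  obtain ⟨-, -, a1y, -⟩ := h1d u b h z hz
  obtain ⟨-, a2p, a2y, -⟩ := h2d u b h z hz
  -- the main term
  have hL : (0 : ℝ) < c.L t := mul_pos c.bxΓ1_pos ht
  have hp : |dX u z| ≤ c.K := (h.iter_bound hm 1 0 (by norm_num)).1 le_rfl
  have huy : |dY u z| ≤ c.K := (h.iter_bound hm 0 1 (by norm_num)).1 le_rfl
  have hbr := bxBracket (u := u z) (L := c.L t) (A := c.sA t) (a := c.sa t) (y := z.2)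
    (Q := ((i : ℝ) + 3 / 2) * (z.1 * dX u z) + z.2 * dY u z / 4) hτ0.le hτ hcz hL (fun hu => by
      have hr := h.taylor ht hz
      have hq := bxQ_lower (a := (i : ℝ) + 3 / 2) (u := u z) (v := z.2 * dY u z)
        (r := u z - dX u z * z.1 - dY u z * z.2) (by linarith [Nat.cast_nonneg (α := ℝ) i]) (by
          have h1 : |z.2 * dY u z| ≤ t * c.K := by rw [abs_mul]; gcongr
          have h2 : 2 * c.K * (|z.1| + |z.2|) ^ 2 ≤ 1 * t := by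
            calc 2 * c.K * (|z.1| + |z.2|) ^ 2 ≤ 2 * c.K * (Q * t) ^ 2 := by gcongr
              _ = 2 * c.K * Q ^ 2 * t * t := by ring
              _ ≤ _ := by gcongr; linarith
          have hL16 : c.L t = 16 * (c.K + 1) * t := by rw [L, c.bxΓ1_eq]
          linarith)
      exact hq.trans_eq (by ring))
  have hW : c.W t z.2 = c.sa t ^ 2 + c.sA t ^ 2 * z.2 ^ 2 := rfl
  have hmain : κ * c.W t z.2 ≤ c.gAt t u b a2v z *
      (-τ * zeta0 (u z / c.L t) * kbar (c.betaBg t) (pt u z)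
        + dX (kbar (c.betaBg t)) (pt u z) * (((i : ℝ) + 3 / 2) * (z.1 * dX u z) + z.2 * dY u z / 4)
        + dY (kbar (c.betaBg t)) (pt u z) * (z.2 / 4)) := by
    rw [f3, f4, f5, hW, hκ, mul_assoc]
    have h0 : 0 ≤ min (1 / 4) (τ * cz) := le_min (by norm_num) (by positivity)
    exact mul_le_mul ha0 hbr (by positivity) (by linarith)
  -- the error
  have hi0 : (0 : ℝ) ≤ i := Nat.cast_nonneg i
  have hQ0 : 0 < Q := by rw [hQ']; linarith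
  have hEQ : 0 ≤ E * (c.K * Q + 4) := by positivity
  have hγ0 : 0 ≤ 3 * (c.K + 1) * c.K * Q := by positivity
  have hMi : (i : ℝ) ≤ M := by linarith
  have hK2W : 2 * c.W t z.2 ≤ 4 * t := by
    have : c.om t z.2 * c.sA t ≤ 1 * t :=
      mul_le_mul hom1 hsA hsA0.le zero_le_one
    linarith
  have hF : ∀ x, x ≤ c.indB t z * (R * (c.ε t / c.δ t ^ 2)) → x ≤ t * c.W t z.2 := fun x hx => by
    refine hx.trans ((mul_le_of_le_one_left (by positivity) (c.indB_le_one t z)).trans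
      (hpt.fsmall.trans ?_))
    gcongr
    exact mul_le_of_le_one_left hW0.le (hsA.trans ht1)
  have hd2 : c.ε t ≤ c.ε t / c.δ t ^ 2 :=
    le_div_self hε.le (pow_pos hδ 2) (pow_le_one₀ hδ.le hδ1)
  have hd12 : c.ε t / c.δ t ≤ c.ε t / c.δ t ^ 2 :=
    div_le_div_of_nonneg_left hε.le (pow_pos hδ 2) (pow_le_of_le_one hδ.le hδ1 (by norm_num))
  have hι := c.indB_nonneg t z
  have bk' : |kbar (c.betaBg t) (pt u z) + kbar (c.betaF t) (pt u z)| ≤ 2 * c.W t z.2 := by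
    rw [← c.kbar_beta]; exact bk
  have hb5 : |jetJ (c.beta t) u b z 1| + |jetJ (c.beta t) u b z 5| ≤ (c.K * Q + 4) * t := by
    rw [show jetJ (c.beta t) u b z 1 = b z from rfl,
      show jetJ (c.beta t) u b z 5 = kbar (c.beta t) (pt u z) from rfl]
    linarith
  have hM2E : 2 * E ≤ M := by
    have : E * 2 ≤ E * (c.K * Q + 4) :=
      mul_le_mul_of_nonneg_left (by linarith [show 0 ≤ c.K * Q by positivity]) hE0
    linarith
  have herr := bxCppErr (i := (i : ℝ)) (τ := τ) (z0 := zeta0 (u z / c.L t))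
    (a := c.gAt t u b a2v z) (ap := dX (c.gAt t u b a2v) z) (ay := dY (c.gAt t u b a2v) z)
    (hy := dY (c.gAt t u b a1v) z) (γ := c.gAt t u b gamJ z) (γy := dY (c.gAt t u b gamJ) z)
    (p := dX u z) (uy := dY u z) (x1 := dX (dX u) z) (x2 := dX (dY u) z)
    (d0 := dUP (cutJ c.K g0v) (jetJ (c.beta t) u b z))
    (d1 := dUP (cutJ c.K a1v) (jetJ (c.beta t) u b z))
    (d2 := dUP (cutJ c.K a2v) (jetJ (c.beta t) u b z))
    (P := z.1) (ze := c.zetaM t u b z) (kB := kbar (c.betaBg t) (pt u z))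
    (kF := kbar (c.betaF t) (pt u z)) (kxB := dX (kbar (c.betaBg t)) (pt u z))
    (kxF := dX (kbar (c.betaF t)) (pt u z)) (kyB := dY (kbar (c.betaBg t)) (pt u z))
    (kyF := dY (kbar (c.betaF t)) (pt u z)) (e1 := dUP g1v (jetJ (c.beta t) u b z))
    (e2 := dUP g2v (jetJ (c.beta t) u b z)) (M := M) (t := t) (W := c.W t z.2)
    (by linarith) ht hW0.le hi0 hMi hτ0.le (by linarith) (bxZeta0_abs _)
    (abs_le.2 ⟨by linarith, by linarith⟩) (a2p.trans (by linarith)) (a2y.trans (by linarith))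
    (a1y.trans (by linarith))
    (hγ.trans (mul_le_mul_of_nonneg_right (by linarith) ht.le)) (g2.trans (by linarith))
    (hp.trans (by linarith)) (huy.trans (by linarith))
    (((h.iter_bound hm 2 0 (by norm_num)).1 (by norm_num)).trans (by linarith))
    (((h.iter_bound hm 1 1 (by norm_num)).1 (by norm_num)).trans (by linarith))
    ((hD0 _).1.trans (by linarith)) ((hD1 _).1.trans (by linarith))
    ((hD2 _).1.trans (by linarith)) ht1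
    (z1.trans (mul_le_mul_of_nonneg_right (by linarith) ht.le))
    (by
      refine le_trans ?_ (hQ1.trans (mul_le_mul_of_nonneg_right (by linarith) ht.le))
      rw [zetaM]
      refine (abs_sub _ _).trans ?_
      rw [abs_mul, abs_mul, abs_div, abs_two]
      have := mul_le_mul_of_nonneg_left hγ2 (by positivity : 0 ≤ 2 * |z.1|)
      linarith [abs_nonneg z.2])
    bk'
    (hpt.kxBg.trans (by gcongr; linarith))
    (hpt.kyBg.trans (by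
      calc 2 * c.sA t ^ 2 * |z.2| ≤ 2 * t ^ 2 * t := by gcongr
        _ ≤ 2 * t ^ 2 * 1 := by gcongr
        _ ≤ 2 * (1 / 16) ^ 2 * 1 := by gcongr; linarith
        _ ≤ 1 := by norm_num))
    (hF _ (hpt.kF.trans (by gcongr)))
    (hF _ (hpt.kxF.trans (by gcongr)))
    (hF _ (hpt.kyF.trans (by gcongr)))
    (hE1.trans (le_trans (mul_le_mul_of_nonneg_left hb5 hE0) (by
      rw [← mul_assoc]; gcongr; linarith)))
    (hE2.trans (le_trans (mul_le_mul_of_nonneg_left bk hE0) (by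
      have := mul_le_mul_of_nonneg_right hM2E hW0.le
      linarith)))
  rw [cPP_eq h hJ i τ]
  have hfin := mul_le_mul_of_nonneg_right hsmall hW0.le
  linarith [(abs_le.1 herr).1, hmain, mul_nonneg ht.le hW0.le]

variable {c}

/-- Bounds on the multiplier of `W`. -/
theorem lamM_bounds {B τ : ℝ} (hB : ∀ q ≤ 4, ∀ s, |deriv^[q + 1] zeta0 s| ≤ B) (hτ0 : 0 ≤ τ)
    (hτB : τ * B ≤ 1 / 128) (h : c.Sol t u b) (ht : 0 < t) (ht1 : t ≤ 1) {z : ℝ × ℝ}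
    (hm : z ∈ sq (c.κ * c.r t)) :
    |dX (c.lamM t u τ) z| ≤ t⁻¹ ∧ |dX (dX (c.lamM t u τ)) z| ≤ t⁻¹ ^ 2 ∧
      |dY (dY (c.lamM t u τ)) z| ≤ 1 / 1024 * t⁻¹ ^ 2 := by
  have hK := c.one_le_K
  have hT1 : (1 : ℝ) ≤ t⁻¹ := (one_le_inv₀ ht).2 ht1
  have hB0 : ∀ s, |deriv zeta0 s| ≤ B := fun s => hB 0 (by norm_num) s
  have hB2 : ∀ s, |deriv (deriv zeta0) s| ≤ B := fun s => hB 1 (by norm_num) s
  have hL : (0 : ℝ) < c.L t := mul_pos c.bxΓ1_pos ht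
  have hLt : 16 * (c.K + 1) * t = c.L t := by rw [L, c.bxΓ1_eq]
  obtain ⟨lx, -, lxx, lyy⟩ := bxLam_derivs h.smu τ (c.L t) z
  have hd : ∀ l k, 1 ≤ l + k → l + k ≤ 16 →
      |dX^[l] (dY^[k] u) z / c.L t| ≤ 1 / 16 * t⁻¹ := fun l k h1 h2 => by
    rw [abs_div, abs_of_pos hL, div_le_iff₀ hL, ← hLt]
    refine ((h.iter_bound hm l k h2).1 h1).trans ?_
    rw [show 1 / 16 * t⁻¹ * (16 * (c.K + 1) * t) = (c.K + 1) * (t⁻¹ * t) by ring,
      inv_mul_cancel₀ ht.ne', mul_one]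
    linarith
  have e : c.lamM t u τ = fun v => -(1 / 4) + τ * zeta0 (u v / c.L t) := rfl
  have hT0 : 0 ≤ t⁻¹ := by linarith
  have sec : ∀ x xx d1 d2 : ℝ, |x| ≤ 1 / 16 * t⁻¹ → |xx| ≤ 1 / 16 * t⁻¹ → |d1| ≤ B → |d2| ≤ B →
      |τ * (d2 * x * x + d1 * xx)| ≤ 1 / 1024 * t⁻¹ ^ 2 := fun x xx d1 d2 hx hxx h1 h2 => by
    rw [abs_mul, abs_of_nonneg hτ0]
    have hB' : 0 ≤ B := (abs_nonneg _).trans h1
    refine (mul_le_mul_of_nonneg_left (abs_add_le _ _) hτ0).trans ?_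
    rw [abs_mul, abs_mul, abs_mul]
    calc τ * (|d2| * |x| * |x| + |d1| * |xx|)
        ≤ τ * (B * (1 / 16 * t⁻¹) * (1 / 16 * t⁻¹) + B * (1 / 16 * t⁻¹)) := by gcongr
      _ = τ * B * (1 / 256 * t⁻¹ ^ 2 + 1 / 16 * t⁻¹) := by ring
      _ ≤ 1 / 128 * (1 / 256 * t⁻¹ ^ 2 + 1 / 16 * t⁻¹ ^ 2) := by
          gcongr; exact le_self_pow₀ hT1 two_ne_zero
      _ ≤ _ := by linarith [sq_nonneg t⁻¹]
  refine ⟨?_, ?_, ?_⟩
  · rw [e, lx, abs_mul, abs_mul, abs_of_nonneg hτ0]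
    calc τ * |deriv zeta0 (u z / c.L t)| * |dX u z / c.L t| ≤ τ * B * (1 / 16 * t⁻¹) := by
          gcongr
          · exact mul_nonneg hτ0 ((abs_nonneg _).trans (hB0 0))
          · exact hB0 _
          · exact hd 1 0 le_rfl (by norm_num)
      _ ≤ 1 / 128 * (1 / 16 * t⁻¹) := by gcongr
      _ ≤ _ := by linarith
  · rw [e, lxx]
    exact (sec _ _ _ _ (hd 1 0 le_rfl (by norm_num)) (hd 2 0 (by norm_num) (by norm_num))
      (hB0 _) (hB2 _)).trans (by linarith [sq_nonneg t⁻¹])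
  · rw [e, lyy]
    exact sec _ _ _ _ (hd 0 1 le_rfl (by norm_num)) (hd 0 2 (by norm_num) (by norm_num))
      (hB0 _) (hB2 _)

/-- The numerical bounds on the small coefficients. -/
theorem bxMultNum {k1 k2 b1 b0 k1x k2x k2xx ζ ζx l lx lxx lyy p gy o e M T : ℝ} (hk1 : |k1| ≤ o)
    (hk2 : |k2| ≤ o) (hb1 : |b1| ≤ o) (hb0 : |b0| ≤ o) (hk1x : |k1x| ≤ o) (hk2x : |k2x| ≤ o)
    (hk2xx : |k2xx| ≤ o) (hoe : o ≤ e) (hT : 1 ≤ T) (hM : 1 ≤ M) (hζ : |ζ| ≤ M) (hζx : |ζx| ≤ M)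
    (hp : |p| ≤ M) (hl : |l| ≤ 1) (hlx : |lx| ≤ T) (hlxx : |lxx| ≤ T ^ 2)
    (hlyy : |lyy| ≤ 1 / 1024 * T ^ 2) (hsmall : 8 * M * (T ^ 2 * e) ≤ 1 / 1024) (hgy : |gy| ≤ 1 / 16)
    {r : ℝ} (hr : |r| ≤ 1 / 8) :
    |-(ζx * k2 + ζ * k2x) - 2 * k1 * l + b1 * ζ + b0 * p| ≤ 8 * M * o ∧
    |b0 * l - 2 * (k1x * l + k1 * lx)| ≤ 8 * (T * e) ∧ |b1 * l| ≤ 8 * M * o ∧
    |lyy / 2 + (lxx * k2 + 2 * (lx * k2x) + l * k2xx) / 2| ≤ 1 / 128 * T ^ 2 ∧
    1 / 4 ≤ (1 : ℝ) / 2 - (1 / 2 - 2 * gy) / 2 - (-(1 / 4) + r) - (k1x * ζ + k1 * ζx) + b0 * ζ := by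
  have ho : 0 ≤ o := (abs_nonneg _).trans hk1
  have he : 0 ≤ e := ho.trans hoe
  have hT2 : T ≤ T ^ 2 := le_self_pow₀ hT two_ne_zero
  have m : ∀ {x y L : ℝ}, |x| ≤ o → |y| ≤ L → |x * y| ≤ o * L := fun hx hy => by
    rw [abs_mul]; exact mul_le_mul hx hy (abs_nonneg _) ho
  have hTe : e ≤ T * e := le_mul_of_one_le_left he hT
  have hTe2 : T * e ≤ T ^ 2 * e := mul_le_mul_of_nonneg_right hT2 he
  have hMTe : T ^ 2 * e ≤ M * (T ^ 2 * e) := le_mul_of_one_le_left (by positivity) hM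
  have hMo : o * 1 ≤ o * M := mul_le_mul_of_nonneg_left hM ho
  have hMoe : o * M ≤ M * (T ^ 2 * e) := by
    rw [mul_comm]; exact mul_le_mul_of_nonneg_left (hoe.trans (hTe.trans hTe2)) (by linarith)
  have hoT : o * T ≤ T * e := by
    rw [mul_comm]; exact mul_le_mul_of_nonneg_left hoe (by linarith)
  have hoT2 : o * T ^ 2 ≤ T ^ 2 * e := by
    rw [mul_comm]; exact mul_le_mul_of_nonneg_left hoe (by positivity)
  have a1 := abs_le.1 (m hk2 hζx)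
  have a2 := abs_le.1 (m hk2x hζ)
  have a3 := abs_le.1 (m hk1 hl)
  have a4 := abs_le.1 (m hb1 hζ)
  have a5 := abs_le.1 (m hb0 hp)
  have a6 := abs_le.1 (m hb0 hl)
  have a7 := abs_le.1 (m hk1x hl)
  have a8 := abs_le.1 (m hk1 hlx)
  have a9 := abs_le.1 (m hb1 hl)
  have a10 := abs_le.1 (m hk2 hlxx)
  have a11 := abs_le.1 (m hk2x hlx)
  have a12 := abs_le.1 (m hk2xx hl)
  have a13 := abs_le.1 (m hk1x hζ)
  have a14 := abs_le.1 (m hk1 hζx)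
  have a15 := abs_le.1 (m hb0 hζ)
  rw [abs_le] at hlyy hgy hr
  have hT21 : 1 ≤ T ^ 2 := one_le_pow₀ hT
  refine ⟨abs_le.2 ⟨?_, ?_⟩, abs_le.2 ⟨?_, ?_⟩, abs_le.2 ⟨?_, ?_⟩, abs_le.2 ⟨?_, ?_⟩, ?_⟩
  · linarith [a1.2, a2.2, a3.2, a4.1, a5.1]
  · linarith [a1.1, a2.1, a3.1, a4.2, a5.2]
  · linarith [a6.1, a7.2, a8.2]
  · linarith [a6.2, a7.1, a8.1]
  · linarith [a9.1]
  · linarith [a9.2]
  · linarith [a10.1, a11.1, a12.1]
  · linarith [a10.2, a11.2, a12.2]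
  · linarith [a13.2, a14.2, a15.1]

/-- The multiplier makes the quadratic form positive. -/
theorem mult_bd : ∃ τ : ℝ, 0 < τ ∧ ∀ c : Par, 12 ≤ c.Pe → 12 ≤ c.j → c.Pe + 4 ≤ c.Qe →
    (∀ i : ℕ, ∀ᶠ t in 𝓝[>] (0 : ℝ), ∀ u b : ℝ × ℝ → ℝ, c.Sol t u b →
      c.MultBd t (c.zetaM t u b) (c.lamM t u τ) (c.cK1 t u b) (c.cK2 t u b)
        (c.cB1 t u b i) (c.cB0 t u b i)) := by
  obtain ⟨B, hB1, -, hB⟩ := bxZeta_bound
  obtain ⟨cz, hcz0, hcz⟩ := bxZeta0_nondeg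
  obtain ⟨τ, hτdef⟩ : ∃ τ : ℝ, τ = min (1 / 8) (1 / (128 * B)) := ⟨_, rfl⟩
  have hτ0 : 0 < τ := by rw [hτdef]; positivity
  have hτ8 : τ ≤ 1 / 8 := hτdef.le.trans (min_le_left _ _)
  have hτB : τ * B ≤ 1 / 128 := by
    calc τ * B ≤ 1 / (128 * B) * B := by gcongr; exact hτdef.le.trans (min_le_right _ _)
      _ = 1 / 128 := by field_simp
  refine ⟨τ, hτ0, fun c hP hj hQ i => ?_⟩
  have hp0 := c.bxpOut_pos
  obtain ⟨Rγ, hRγ, hγd⟩ := c.coef_deriv (by omega) (by omega) (g := gamJ)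
    fun J hJ => (bxSm_coef hJ).2.2.2.1
  obtain ⟨M, hM⟩ : ∃ M : ℝ, M = 3 * c.pOut + 1 + 1 + 2 * (3 * c.pOut) * Rγ := ⟨_, rfl⟩
  filter_upwards [bxEv_pos, c.cPP_lower hτ0 hτ8 hcz0 hcz hP hj hQ i, hγd,
    c.coef_bd (by omega) hj hQ i, c.W_le_one (by omega),
    bxEv_small (8192 * M) one_pos, bxEv_small 16 one_pos, bxEv_small (3 * c.pOut * Rγ)
      (show (0 : ℝ) < 1 / 16 by norm_num)]
    with t ⟨ht, ht1⟩ hpp hγd hC hWl hsm h16 hPγ u b h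
  obtain ⟨sz, sl⟩ := bxMult_smooth h τ
  obtain ⟨sk1, sk2⟩ := bxK_smooth h
  have hC := hC u b h
  have hζabs : ∀ z ∈ c.rect t 1, |c.zetaM t u b z| ≤ |z.1| + |z.2| := fun z hz => by
    obtain ⟨hγ2, -⟩ := hpp u b h z hz
    rw [zetaM]
    refine (abs_sub _ _).trans ?_
    rw [abs_mul, abs_mul, abs_div, abs_two]
    have := mul_le_mul_of_nonneg_left hγ2 (by positivity : 0 ≤ 2 * |z.1|)
    linarith [abs_nonneg z.2]
  have hlabs : ∀ z : ℝ × ℝ, |c.lamM t u τ z| ≤ 1 := fun z => by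
    rw [lamM]
    refine (abs_add_le _ _).trans ?_
    rw [abs_mul, abs_of_pos hτ0]
    have := mul_le_mul hτ8 (bxZeta0_abs (u z / c.L t)) (abs_nonneg _) (by norm_num)
    norm_num at this ⊢
    linarith
  refine ⟨sz, sl, hζabs, fun z _ => hlabs z, fun W z hz => ?_⟩
  obtain ⟨z1, z2⟩ := c.rect_small ht.le le_rfl hz
  obtain ⟨hγ2, hppz⟩ := hpp u b h z hz
  obtain ⟨-, g1, g2, -⟩ := hγd u b h z hz
  obtain ⟨-, hom1, -, -⟩ := hWl z.2 z2
  have hom := (c.om_pos ht z.2).le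
  obtain ⟨hZX, hZY⟩ := zetaM_derivs h z
  obtain ⟨hlx, hlxx, hlyy⟩ := lamM_bounds hB hτ0.le hτB h ht ht1 (c.rect_sub_sq ht hz)
  obtain ⟨e, he⟩ : ∃ e : ℝ, e = c.sA t * t⁻¹ ^ 6 := ⟨_, rfl⟩
  have he0 : 0 ≤ e := by rw [he]; exact mul_nonneg (c.sA_pos ht).le (by positivity)
  have hsm' : ∀ f ∈ ([c.cK1 t u b, c.cK2 t u b, c.cB1 t u b i, c.cB0 t u b i, dX (c.cK1 t u b),
      dX (c.cK2 t u b), dX (dX (c.cK2 t u b))] : List (ℝ × ℝ → ℝ)),
      |f z| ≤ c.om t z.2 * e := fun f hf =>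
    (hC.small z hz f hf).trans_eq (by rw [he]; ring)
  have hT1 : (1 : ℝ) ≤ t⁻¹ := (one_le_inv₀ ht).2 ht1
  have hPR : 0 ≤ 2 * (3 * c.pOut) * Rγ := by positivity
  have hM1 : 1 ≤ M := by linarith
  have hP1 : |z.1| ≤ 3 * c.pOut := z1.trans (mul_le_of_le_one_right (by linarith) ht1)
  have hzX : |dX (c.zetaM t u b) z| ≤ M := by
    rw [hZX]
    refine (abs_sub _ _).trans ?_
    rw [abs_mul, abs_mul, abs_mul, abs_neg, abs_two]
    have : 2 * |z.1| * |dX (c.gAt t u b gamJ) z| ≤ 2 * (3 * c.pOut) * Rγ := by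
      gcongr
      exact g1
    linarith
  have hzM : |c.zetaM t u b z| ≤ M := (hζabs z hz).trans (by linarith)
  have het : t⁻¹ ^ 2 * e ≤ t ^ 2 := by
    rw [he, ← mul_assoc, mul_comm (t⁻¹ ^ 2), mul_assoc, ← pow_add, inv_pow, ← div_eq_mul_inv,
      div_le_iff₀ (by positivity), ← pow_add, sA]
    exact pow_le_pow_of_le_one ht.le ht1 (by omega)
  obtain ⟨ν, hν⟩ : ∃ ν : ℝ, ν = 8 * M * (t⁻¹ ^ 2 * e) := ⟨_, rfl⟩
  have hν0 : 0 ≤ ν := by rw [hν]; exact mul_nonneg (by linarith) (mul_nonneg (sq_nonneg _) he0)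
  have hν1 : ν ≤ 1 / 1024 * t := by
    calc ν ≤ 8 * M * t ^ 2 := by rw [hν]; gcongr
      _ = 8192 * M * t * (1 / 1024 * t) := by ring
      _ ≤ _ := mul_le_of_le_one_left (by positivity) hsm
  have hgy : |z.1 * dY (c.gAt t u b gamJ) z| ≤ 1 / 16 := by
    rw [abs_mul]
    refine (mul_le_mul z1 g2 (abs_nonneg _) (by positivity)).trans ?_
    linarith
  obtain ⟨r1, r2, r3, r4, r5⟩ := bxMultNum (o := c.om t z.2 * e) (e := e) (M := M) (T := t⁻¹)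
    (hsm' (c.cK1 t u b) (by simp)) (hsm' (c.cK2 t u b) (by simp))
    (hsm' (c.cB1 t u b i) (by simp)) (hsm' (c.cB0 t u b i) (by simp))
    (hsm' (dX (c.cK1 t u b)) (by simp)) (hsm' (dX (c.cK2 t u b)) (by simp))
    (hsm' (dX (dX (c.cK2 t u b))) (by simp)) (mul_le_of_le_one_left he0 hom1) hT1 hM1 hzM hzX
    (show |z.1| ≤ M by linarith) (hlabs z) hlx hlxx hlyy (by linarith)
    hgy (r := τ * zeta0 (u z / c.L t))
    (by rw [abs_mul, abs_of_pos hτ0]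
        exact (mul_le_of_le_one_right hτ0.le (bxZeta0_abs _)).trans hτ8)
  have hMo : 8 * M * (c.om t z.2 * e) ≤ ν * c.om t z.2 := by
    have : e ≤ t⁻¹ ^ 2 * e := le_mul_of_one_le_left he0 (one_le_pow₀ hT1)
    rw [hν]
    calc 8 * M * (c.om t z.2 * e) ≤ 8 * M * (c.om t z.2 * (t⁻¹ ^ 2 * e)) := by gcongr
      _ = _ := by ring
  have hTe : 8 * (t⁻¹ * e) ≤ ν := by
    rw [hν]
    calc 8 * (t⁻¹ * e) = 8 * 1 * (t⁻¹ * e) := by ring
      _ ≤ _ := by gcongr; exact le_self_pow₀ hT1 two_ne_zero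
  have dd : ∀ {f : ℝ × ℝ → ℝ}, ContDiff ℝ ∞ f → ∀ v, DifferentiableAt ℝ f v := fun hf v =>
    hf.differentiable (by simp) v
  have e1 := dX_mul (dd sk1 z) (dd sz z)
  have e2 := dX_mul (dd sz z) (dd sk2 z)
  have e3 := dX_mul (dd sk1 z) (dd sl z)
  have e4 : dX (dX (fun v => c.lamM t u τ v * c.cK2 t u b v)) z =
      dX (dX (c.lamM t u τ)) z * c.cK2 t u b z + 2 * (dX (c.lamM t u τ) z * dX (c.cK2 t u b) z)
        + c.lamM t u τ z * dX (dX (c.cK2 t u b)) z := by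
    have e : dX (fun v => c.lamM t u τ v * c.cK2 t u b v)
        = fun v => dX (c.lamM t u τ) v * c.cK2 t u b v + c.lamM t u τ v * dX (c.cK2 t u b) v :=
      funext fun v => dX_mul (dd sl v) (dd sk2 v)
    rw [e, dX_add (dd ((bxSmooth_dX sl).mul sk2) z) (dd (sl.mul (bxSmooth_dX sk2)) z),
      dX_mul (dd (bxSmooth_dX sl) z) (dd sk2 z), dX_mul (dd sl z) (dd (bxSmooth_dX sk2) z)]
    ring
  refine bxQuad_pos hom (c.om_sq ht _) ht (by linarith) (by linarith) hν0 ?_ hppz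
    (ν := ν) ?_ ?_ (r3.trans hMo) ?_
  · refine r5.trans (le_of_eq ?_)
    rw [cYY, e1, hZY]
    simp only [lamM]
    ring
  · refine le_trans (le_of_eq ?_) (r1.trans hMo)
    rw [cYP, e2, one_mul]
  · refine le_trans (le_of_eq ?_) (r2.trans hTe)
    rw [c0Y, e3]
  · refine le_trans (le_of_eq ?_) (r4.trans (le_of_eq ?_))
    · rw [c00, e4]
    · rw [inv_pow]; field_simp

end Par

end Vale.Agent.P229
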