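import Vale.Agent.P229.BoxSup
import Vale.Agent.P229.BoxMult
import Vale.Agent.P229.BoxEnergy

/-!
# P229: the crude induction on the order of differentiation
-/

open scoped ContDiff Topology
open MeasureTheory Set Filter

namespace Vale.Agent.P229

theorem bxiRect_nhds (c : Par) {t s s' : ℝ} (ht : 0 < t) (h : s < s') {z : ℝ × ℝ}
    (hz : z ∈ c.rect t s) : c.rect t s' ∈ 𝓝 z := by
  have hp := c.bxpOut_pos
  have h1 : |z.1| < c.pOut * (2 + s') * t := hz.1.trans_lt (by gcongr)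
  have h2 : |z.2| < (1 + s') / 2 * t := hz.2.trans_lt (by gcongr)
  exact mem_of_superset (((isOpen_lt continuous_fst.abs continuous_const).inter
    (isOpen_lt continuous_snd.abs continuous_const)).mem_nhds ⟨h1, h2⟩)
    fun w hw => ⟨hw.1.le, hw.2.le⟩

/-- The linear operator on the bump. -/
theorem bxiBump_arith {o x l y v e p T Φ e9 d4 a : ℝ} {Nr Nb : ℕ} (hT : 32 ≤ T) (hx : 0 ≤ x)
    (hl : 0 ≤ l) (hy : 0 ≤ y) (hv : 0 ≤ v) (he : 0 ≤ e) (hp : p ≤ e) (he9 : 0 ≤ e9)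
    (he91 : e9 ≤ 1) (he94 : e9 ≤ d4) (ha : 0 ≤ a) (ha1 : a ≤ 1)
    (h1 : |o + Φ| ≤ a * T ^ 10 * (x + l) + T ^ Nr * (a + p))
    (h2 : |Φ| ≤ T ^ Nb * e + T ^ 3 * e9 * (x + l + y + v)) :
    o ^ 2 ≤ T ^ 21 * (y ^ 2 + T ^ 2 * x ^ 2) + T ^ 7 * (d4 * v) ^ 2 + T ^ 21 * l ^ 2 +
      T ^ (2 * (Nr + Nb) + 3) * (1 + e) ^ 2 := by
  have hT1 : 1 ≤ T := by linarith
  have hT0 : 0 ≤ T := by linarith
  have hd4 : 0 ≤ d4 := he9.trans he94
  have tri : |o| ≤ |o + Φ| + |Φ| := by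
    have := abs_add_le (o + Φ) (-Φ)
    rwa [add_neg_cancel_right, abs_neg] at this
  have p3 : T ^ 3 ≤ T ^ 10 := pow_le_pow_right₀ hT1 (by norm_num)
  have g1 : a * T ^ 10 * (x + l) ≤ T ^ 10 * (x + l) :=
    mul_le_mul_of_nonneg_right (mul_le_of_le_one_left (by positivity) ha1) (by positivity)
  have g2 : T ^ 3 * e9 * (x + l + y + v) ≤ T ^ 10 * (x + l) + T ^ 3 * y + T ^ 3 * (d4 * v) := by
    have a1 : T ^ 3 * e9 * (x + l) ≤ T ^ 10 * (x + l) :=
      mul_le_mul_of_nonneg_right ((mul_le_of_le_one_right (by positivity) he91).trans p3)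
        (by positivity)
    have a2 : T ^ 3 * e9 * y ≤ T ^ 3 * y :=
      mul_le_mul_of_nonneg_right (mul_le_of_le_one_right (by positivity) he91) hy
    have a3 : T ^ 3 * e9 * v ≤ T ^ 3 * (d4 * v) := by
      rw [mul_assoc]; gcongr
    linarith
  have g3 : T ^ Nr * (a + p) + T ^ Nb * e ≤ T ^ (Nr + Nb + 1) * (1 + e) := by
    calc T ^ Nr * (a + p) + T ^ Nb * e
        ≤ T ^ Nr * (1 + e) + T ^ Nb * (1 + e) := by gcongr; linarith
      _ ≤ T ^ (Nr + Nb) * (1 + e) + T ^ (Nr + Nb) * (1 + e) := by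
          refine add_le_add ?_ ?_ <;>
            exact mul_le_mul_of_nonneg_right (pow_le_pow_right₀ hT1 (by omega)) (by linarith)
      _ = 2 * (T ^ (Nr + Nb) * (1 + e)) := by ring
      _ ≤ T * (T ^ (Nr + Nb) * (1 + e)) := by gcongr; linarith
      _ = _ := by ring
  have hb : |o| ≤ 2 * T ^ 10 * x + 2 * T ^ 10 * l + T ^ 3 * y + T ^ 3 * (d4 * v) +
      T ^ (Nr + Nb + 1) * (1 + e) := by linarith
  set A := 2 * T ^ 10 * x
  set B := 2 * T ^ 10 * l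
  set C := T ^ 3 * y
  set D := T ^ 3 * (d4 * v)
  set E := T ^ (Nr + Nb + 1) * (1 + e)
  have h5 : o ^ 2 ≤ 5 * (A ^ 2 + B ^ 2 + C ^ 2 + D ^ 2 + E ^ 2) := by
    rw [← sq_abs o]
    refine (pow_le_pow_left₀ (abs_nonneg _) hb 2).trans ?_
    nlinarith [sq_nonneg (A - B), sq_nonneg (A - C), sq_nonneg (A - D), sq_nonneg (A - E),
      sq_nonneg (B - C), sq_nonneg (B - D), sq_nonneg (B - E), sq_nonneg (C - D),
      sq_nonneg (C - E), sq_nonneg (D - E)]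
  have k : ∀ n : ℕ, 20 * T ^ n ≤ T ^ (n + 1) := fun n => by
    rw [pow_succ']; exact mul_le_mul_of_nonneg_right (by linarith) (by positivity)
  have eA : 5 * A ^ 2 ≤ T ^ 21 * (T ^ 2 * x ^ 2) := by
    calc 5 * A ^ 2 = 20 * T ^ 20 * x ^ 2 := by ring
      _ ≤ T ^ 21 * x ^ 2 := mul_le_mul_of_nonneg_right (k 20) (sq_nonneg _)
      _ ≤ _ := by gcongr; exact le_mul_of_one_le_left (sq_nonneg _) (one_le_pow₀ hT1)
  have eB : 5 * B ^ 2 ≤ T ^ 21 * l ^ 2 := by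
    calc 5 * B ^ 2 = 20 * T ^ 20 * l ^ 2 := by ring
      _ ≤ _ := mul_le_mul_of_nonneg_right (k 20) (sq_nonneg _)
  have eC : 5 * C ^ 2 ≤ T ^ 21 * y ^ 2 := by
    calc 5 * C ^ 2 = 5 * T ^ 6 * y ^ 2 := by ring
      _ ≤ T ^ 7 * y ^ 2 := mul_le_mul_of_nonneg_right (by
          have := k 6; norm_num at this; have : 0 ≤ T ^ 6 := by positivity
          linarith) (sq_nonneg _)
      _ ≤ _ := by gcongr; norm_num
  have eD : 5 * D ^ 2 ≤ T ^ 7 * (d4 * v) ^ 2 := by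
    calc 5 * D ^ 2 = 5 * T ^ 6 * (d4 * v) ^ 2 := by ring
      _ ≤ _ := mul_le_mul_of_nonneg_right (by
          have := k 6; norm_num at this; have : 0 ≤ T ^ 6 := by positivity
          linarith) (sq_nonneg _)
  have eE : 5 * E ^ 2 ≤ T ^ (2 * (Nr + Nb) + 3) * (1 + e) ^ 2 := by
    calc 5 * E ^ 2 = 5 * T ^ (2 * (Nr + Nb) + 2) * (1 + e) ^ 2 := by ring
      _ ≤ _ := mul_le_mul_of_nonneg_right (by
          have := k (2 * (Nr + Nb) + 2); have : 0 ≤ T ^ (2 * (Nr + Nb) + 2) := by positivity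
          linarith) (sq_nonneg _)
  linarith

/-- The estimate of the energy from the bump. -/
theorem bxiAbsorb {E A I H T ym S : ℝ} (hT : 1 ≤ T) (hE0 : 0 ≤ E) (hH0 : 0 ≤ H) (hym : 0 ≤ ym)
    (hI : I ≤ T * ym * Real.sqrt E * H) (hE : E ≤ A + 2 * T * I) (hH : H ^ 2 ≤ T ^ 21 * E + S)
    (hsmall : 4 * T ^ 25 * ym ^ 2 ≤ 1 / 4) :
    E ≤ 2 * A + 8 * T ^ 4 * (ym ^ 2 * S) := by
  set r := Real.sqrt E with hr
  have hr2 : r ^ 2 = E := Real.sq_sqrt hE0
  have h1 : 2 * T * I ≤ 2 * T ^ 2 * ym * H * r := by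
    have := mul_le_mul_of_nonneg_left hI (by linarith : 0 ≤ 2 * T)
    linarith
  have h2 : 2 * T ^ 2 * ym * H * r ≤ r ^ 2 / 4 + 4 * T ^ 4 * ym ^ 2 * H ^ 2 := by
    nlinarith [sq_nonneg (r / 2 - 2 * T ^ 2 * ym * H)]
  have h3 : 4 * T ^ 4 * ym ^ 2 * H ^ 2 ≤ 4 * T ^ 4 * ym ^ 2 * (T ^ 21 * E + S) :=
    mul_le_mul_of_nonneg_left hH (by positivity)
  have h4 : 4 * T ^ 4 * ym ^ 2 * (T ^ 21 * E) ≤ E / 4 := by
    calc 4 * T ^ 4 * ym ^ 2 * (T ^ 21 * E) = 4 * T ^ 25 * ym ^ 2 * E := by ring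
      _ ≤ 1 / 4 * E := by gcongr
      _ = _ := by ring
  rw [hr2] at h2
  nlinarith

/-- The energy of one level. -/
theorem bxiCore (K : ℝ) (hK : 1 ≤ K) (Pe i N0 N1 : ℕ) (hi : 15 ≤ i) : ∃ N : ℕ, ∀ c : Par,
    c.K = K → c.Pe = Pe → 40 ≤ c.Pe → 12 ≤ c.j → i ≤ c.j + 4 → c.Pe + 20 ≤ c.Qe →
    ∀ s s' : ℝ, 0 ≤ s → s < s' → s' ≤ 1 → ∀ᶠ t in 𝓝[>] (0 : ℝ), ∀ u b : ℝ × ℝ → ℝ, c.Sol t u b →
      (∀ z ∈ c.rect t s', SupAt t u b i N1 z) →
      (∀ q < i, ∫ z in c.rect t s', c.lev t u b q z ≤ ((t⁻¹) ^ N0 * c.rBd t i) ^ 2) →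
      ∫ z in c.rect t s,
          (dX^[i] (dY u) z ^ 2 + c.W t z.2 * dX^[i + 1] u z ^ 2 + dX^[i] u z ^ 2) ≤
        ((t⁻¹) ^ N * c.rBd t i) ^ 2 := by
  obtain ⟨τ, -, hmult⟩ := Par.mult_bd
  obtain ⟨Ne, hen⟩ := Par.energy_estimate Pe
  obtain ⟨Nr, hrem⟩ := bxSrc_rem K hK i (by omega) N1
  obtain ⟨Nb, hbmp⟩ := bxSrc_bump K hK i (by omega) N1
  refine ⟨Ne + N0 + Nr + Nb + 20, fun c hcK hPe h40 hj hij hQ s s' hs hss hs' => ?_⟩
  obtain ⟨s1, hs1, hs1'⟩ := exists_between hss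
  have hs10 : 0 ≤ s1 := by linarith
  filter_upwards [bxEv_pos, c.coef_bd (by omega) hj (by omega) i,
    hmult c (by omega) hj (by omega) i, hen c hPe h40 s1 s' hs10 hs1' hs',
    c.bump_crude s1 s' hs10 hs1' hs',
    hrem c hcK (by omega) hj (by omega) (by omega), hbmp c hcK (by omega) hj (by omega) (by omega),
    c.bumpSet_core, c.W_le_one (by omega), c.rect_area,
    bxEv_small 1 (show (0 : ℝ) < 1 / 100 by norm_num)]
    with t ⟨ht, ht1⟩ hC hM hE hcr hR hB hcore hW hA hsmall u b h hS hl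
  have hT : 100 ≤ t⁻¹ := by
    rw [le_inv_comm₀ (by norm_num) ht]; linarith
  have hT1 : (1 : ℝ) ≤ t⁻¹ := by linarith
  have hCb := hC u b h
  have hMb := hM u b h
  have hd := c.bxδ_pos ht
  have hd1 : c.δ t ≤ 1 := (c.bxδ_le ht ht1).trans ht1
  have heps := c.ε_pos ht
  have hym : 0 ≤ c.ym t := pow_nonneg ht.le _
  have hym1 : c.ym t ≤ 1 := pow_le_one₀ ht.le ht1
  set w := dX^[i] u with hw
  have hws : ContDiff ℝ ∞ w := bxSmooth_iter h.smu i
  have ew1 : dX w = dX^[i + 1] u := (Function.iterate_succ_apply' dX i u).symm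
  have ew2 : dY w = dX^[i] (dY u) := bxMixed_iter h.smu i
  have hlc := bxLowJ_cont h.smu h.smb i
  set O := opL (c.cK1 t u b) (c.cK2 t u b) (c.cB1 t u b i) (c.cB0 t u b i) w with hO
  have hOc : Continuous O := by
    have := hCb.sm1.continuous
    have := hCb.sm2.continuous
    have := hCb.ct1
    have := hCb.ct0
    have := (bxSmooth_dY (bxSmooth_dY hws)).continuous
    have := (bxSmooth_dY (bxSmooth_dX hws)).continuous
    have := (bxSmooth_dX (bxSmooth_dX hws)).continuous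
    have := (bxSmooth_dX hws).continuous
    have := (bxSmooth_dY hws).continuous
    rw [hO]; unfold opL; fun_prop
  set G : ℝ × ℝ → ℝ := fun z =>
    c.om t z.2 * c.sA t * (t⁻¹) ^ 10 * lowJ u b i z + (t⁻¹) ^ Nr * (c.om t z.2 * c.sA t) with hG
  have hGc : Continuous G := by
    have := c.om_cont t
    fun_prop
  have hG0 : ∀ z, 0 ≤ G z := fun z => by
    have := lowJ_nonneg u b i z
    have := (c.om_pos ht z.2).le
    have := (c.sA_pos ht).le
    positivity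
  have hcl : IsCompact (c.bumpSet t) := by
    refine IsCompact.of_isClosed_subset (c.rect_compact t s) ?_ fun z hz =>
      mem_of_mem_nhds (c.bxCore_nhds ht hs (hcore hz))
    exact (isClosed_le continuous_fst.abs continuous_const).inter
      (isClosed_le continuous_snd.abs continuous_const)
  set F := (c.bumpSet t).indicator fun z => -O z with hF
  have hFi : Integrable F :=
    (hOc.neg.continuousOn.integrableOn_compact hcl).integrable_indicator hcl.measurableSet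
  have hF0 : ∀ z, z ∉ c.bumpSet t → F z = 0 := fun z hz => indicator_of_notMem hz _
  have hineq : ∀ z ∈ c.rect t s',
      |O z + F z| ≤ c.om t z.2 * c.sA t * (t⁻¹) ^ 10 * |w z| + G z := by
    intro z hz
    by_cases hb : z ∈ c.bumpSet t
    · rw [hF, indicator_of_mem hb, add_neg_cancel, abs_zero]
      have := (c.om_pos ht z.2).le
      have := (c.sA_pos ht).le
      have := hG0 z
      positivity
    · have hz1 := c.rect_subset ht.le hs' hz
      have r := hR u b h z hz1 (hS z hz)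
      have p := hB u b h z hz1 (hS z hz)
      have hi0 : c.indB t z = 0 := indicator_of_notMem hb _
      rw [hi0, zero_mul, abs_nonpos_iff] at p
      rw [p, add_zero, hi0, zero_mul, add_zero] at r
      rw [hF0 z hb, add_zero]
      refine r.trans_eq ?_
      simp only [hG]; ring
  have est := hE _ _ _ _ _ _ w G F hCb hMb hws hGc hG0 hFi hF0 hineq
  set X : ℝ := ((t⁻¹) ^ N0 * c.rBd t i) ^ 2 with hX
  have hsum := bxiLev_sum c h.smu h.smb hl (by omega)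
  have hX0 : 0 ≤ X := sq_nonneg _
  have hR1 := c.rBd_ge_one ht i
  have hI : ∫ z in c.rect t s', c.W t z.2 * w z ^ 2 ≤ X := by
    refine (bxSetInt_le c ((c.W_cont t).mul (hws.continuous.pow 2))
      (c.intOn (c.lev_cont h.smu h.smb t (i - 1)) t s') fun z _ => ?_).trans (hl (i - 1) (by omega))
    simp only [Pi.mul_apply, Pi.pow_apply]
    unfold Par.lev
    rw [show i - 1 + 1 = i by omega, hw]
    linarith [sq_nonneg (dX^[i - 1] (dY u) z), sq_nonneg (dX^[i - 1] u z),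
      sq_nonneg (dX^[i - 1] b z), sq_nonneg (dX^[i - 1 - 1] (dY (dY u)) z)]
  have hJ : ∫ z in c.rect t s', G z ^ 2 / c.W t z.2 ≤
      24 * (t⁻¹) ^ 20 * (4 * X) + 2 * (t⁻¹) ^ (2 * Nr) * t⁻¹ := by
    have key := bxiInt c (t := t) (s := s') (a := 24 * (t⁻¹) ^ 20) (b := 2 * (t⁻¹) ^ (2 * Nr))
      (d := 0) (f := fun z => G z ^ 2 / c.W t z.2)
      (g := fun z => ∑ m ∈ Finset.range 4, c.lev t u b (i - 1 - m) z)
      ((hGc.pow 2).div (c.W_cont t) fun z => (c.W_pos ht z.2).ne')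
      (continuous_finsetSum _ fun m _ => c.lev_cont h.smu h.smb t _) fun z hz => ?_
    · refine key.trans ?_
      rw [zero_mul, add_zero]
      exact add_le_add (mul_le_mul_of_nonneg_left hsum (by positivity))
        (mul_le_mul_of_nonneg_left (hA s' (hs.trans hss.le) hs').1 (by positivity))
    · have hA1 : c.sA t ≤ 1 := pow_le_one₀ ht.le ht1
      have hA0 := (c.sA_pos ht).le
      have hg : G z ^ 2 / c.W t z.2 =
          c.sA t ^ 2 * ((t⁻¹) ^ 10 * lowJ u b i z + (t⁻¹) ^ Nr) ^ 2 := by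
        rw [div_eq_iff (c.W_pos ht z.2).ne', ← c.om_sq ht]; simp only [hG]; ring
      beta_reduce
      rw [hg, zero_mul, add_zero]
      calc c.sA t ^ 2 * ((t⁻¹) ^ 10 * lowJ u b i z + (t⁻¹) ^ Nr) ^ 2
          ≤ 1 * ((t⁻¹) ^ 10 * lowJ u b i z + (t⁻¹) ^ Nr) ^ 2 := by
            gcongr; exact pow_le_one₀ hA0 hA1
        _ ≤ 2 * (t⁻¹) ^ 20 * lowJ u b i z ^ 2 + 2 * (t⁻¹) ^ (2 * Nr) := by
            rw [show (t⁻¹) ^ (2 * Nr) = ((t⁻¹) ^ Nr) ^ 2 by ring,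
              show (t⁻¹) ^ 20 = ((t⁻¹) ^ 10) ^ 2 by ring]
            nlinarith [sq_nonneg ((t⁻¹) ^ 10 * lowJ u b i z - (t⁻¹) ^ Nr)]
        _ ≤ _ := by
            have := bxLowJ_sq c t u b i z
            have : 2 * (t⁻¹) ^ 20 * lowJ u b i z ^ 2 ≤
                2 * (t⁻¹) ^ 20 * (12 * ∑ m ∈ Finset.range 4, c.lev t u b (i - 1 - m) z) :=
              mul_le_mul_of_nonneg_left this (by positivity)
            linarith
  -- the energy
  set φ := c.cut t s1 s' with hφ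
  set f := fun z => φ z * w z with hf
  set den : ℝ × ℝ → ℝ := fun z => dY f z ^ 2 + c.W t z.2 * dX f z ^ 2 + (t⁻¹) ^ 2 * f z ^ 2
    with hden
  have hfs : ContDiff ℝ ∞ f := (c.bxCut_smooth t s1 s').mul hws
  have hrc := c.rect_compact t s'
  have hf0 : ∀ z, z ∉ c.rect t s' → f z = 0 := fun z hz => by
    simp [hf, hφ, c.bxCut_zero_off ht hs10 hs1' hz]
  have hdc : Continuous den := ((((bxSmooth_dY hfs).continuous.pow 2).add
    ((c.W_cont t).mul ((bxSmooth_dX hfs).continuous.pow 2))).add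
    (continuous_const.mul (hfs.continuous.pow 2)))
  have hdi : Integrable den := hdc.integrable_of_hasCompactSupport (HasCompactSupport.intro hrc
    fun z hz => by
      simp [hden, hf0 z hz, dX_eq_zero_off hrc.isClosed hf0 hz,
        dY_eq_zero_off hrc.isClosed hf0 hz])
  have hden0 : ∀ z, 0 ≤ den z := fun z => by
    have := (c.W_pos ht z.2).le
    simp only [hden]; positivity
  set E := c.energy t f with hEdef
  have hEq : E = ∫ z, den z := rfl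
  have hE0 : 0 ≤ E := by rw [hEq]; exact integral_nonneg hden0
  have hdeneq : ∀ z ∈ c.rect t s, den z = dX^[i] (dY u) z ^ 2 +
      c.W t z.2 * dX^[i + 1] u z ^ 2 + (t⁻¹) ^ 2 * dX^[i] u z ^ 2 := by
    intro z hz
    have e : f =ᶠ[𝓝 z] w := (Filter.eventually_of_mem (bxiRect_nhds c ht hs1 hz) fun v hv => by
      simp [hf, hφ, c.bxCut_one ht hs10 hs1' hv])
    simp only [hden, dY_congr e, dX_congr e, e.eq_of_nhds, ew1, ew2]
    rfl
  have hbs : ∀ z ∈ c.bumpSet t, z ∈ c.rect t s := fun z hz =>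
    mem_of_mem_nhds (c.bxCore_nhds ht hs (hcore hz))
  -- the source
  set S : ℝ := 12 * (t⁻¹) ^ 21 * (4 * X) +
    (t⁻¹) ^ (2 * (Nr + Nb) + 3) * (t⁻¹ * ((1 + c.ε t / c.δ t ^ (i + 1)) * c.δ t) ^ 2) with hSdef
  set H := Real.sqrt (∫ z, F z ^ 2) with hH
  have hF2i : Integrable fun z => F z ^ 2 := by
    have e : (fun z => F z ^ 2) = (c.bumpSet t).indicator fun z => O z ^ 2 := by
      funext z; by_cases hz : z ∈ c.bumpSet t <;> simp [hF, hz]
    rw [e]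
    exact ((hOc.pow 2).continuousOn.integrableOn_compact hcl).integrable_indicator hcl.measurableSet
  have hF2 : ∫ z, F z ^ 2 ≤ (t⁻¹) ^ 21 * E + S := by
    have e : (fun z => F z ^ 2) = (c.bumpSet t).indicator fun z => O z ^ 2 := by
      funext z; by_cases hz : z ∈ c.bumpSet t <;> simp [hF, hz]
    rw [e, integral_indicator hcl.measurableSet]
    set g : ℝ × ℝ → ℝ := fun z => ∑ m ∈ Finset.range 4, c.lev t u b (i - 1 - m) z with hg
    have hgc : Continuous g := continuous_finsetSum _ fun m _ => c.lev_cont h.smu h.smb t _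
    set e1 : ℝ := c.ε t / c.δ t ^ (i + 1) with he1
    set rhs : ℝ × ℝ → ℝ := fun z => ((t⁻¹) ^ 21 * den z + 12 * (t⁻¹) ^ 21 * g z) +
      (t⁻¹) ^ (2 * (Nr + Nb) + 3) * (1 + e1) ^ 2 * 1 with hrhs
    have hpt : ∀ z ∈ c.bumpSet t, O z ^ 2 ≤ rhs z := by
      intro z hz
      have hzs := hbs z hz
      have hz' := c.rect_subset ht.le hss.le hzs
      have hz1 := c.rect_subset ht.le hs' hz'
      have r := hR u b h z hz1 (hS z hz')
      have p := hB u b h z hz1 (hS z hz')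
      rw [c.indB_mem hz, one_mul] at r p
      rw [topJ_eq] at p
      obtain ⟨-, ho1, hWa, -⟩ := hW z.2 (c.rect_small ht.le le_rfl hz1).2
      have hp : c.ε t / c.δ t ^ i ≤ e1 :=
        div_le_div_of_nonneg_left heps.le (pow_pos hd _)
          (pow_le_pow_of_le_one hd.le hd1 (by omega))
      have e94 : c.ε t / c.δ t ^ 9 ≤ c.δ t ^ 4 := by
        rw [div_le_iff₀ (pow_pos hd _), ← pow_add]
        exact pow_le_pow_of_le_one hd.le hd1 (by omega)
      have := bxiBump_arith (T := t⁻¹) (d4 := c.δ t ^ 4) (by linarith) (abs_nonneg (w z))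
        (lowJ_nonneg u b i z) (abs_nonneg (dX^[i] (dY u) z)) (abs_nonneg (dX^[i + 1] u z))
        (by positivity : 0 ≤ e1) hp (by positivity) (e94.trans (pow_le_one₀ hd.le hd1)) e94
        (mul_nonneg (c.om_pos ht z.2).le (c.sA_pos ht).le)
        (mul_le_one₀ ho1 (c.sA_pos ht).le (pow_le_one₀ ht.le ht1)) r
        (by linarith [p])
      refine this.trans ?_
      simp only [hrhs, hdeneq z hzs, sq_abs, mul_one]
      have hv : (t⁻¹) ^ 7 * (c.δ t ^ 4 * |dX^[i + 1] u z|) ^ 2 ≤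
          (t⁻¹) ^ 21 * (c.W t z.2 * dX^[i + 1] u z ^ 2) := by
        rw [mul_pow, sq_abs]
        refine mul_le_mul (pow_le_pow_right₀ hT1 (by norm_num)) ?_ (by positivity) (by positivity)
        refine mul_le_mul_of_nonneg_right (le_trans ?_ hWa) (sq_nonneg _)
        calc (c.δ t ^ 4) ^ 2 ≤ c.δ t ^ 2 := by
              rw [← pow_mul]; exact pow_le_pow_of_le_one hd.le hd1 (by norm_num)
          _ ≤ c.sa t ^ 2 := by
              refine pow_le_pow_left₀ hd.le ?_ 2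
              calc c.δ t ≤ 1 * t ^ c.Qe := mul_le_mul c.bxc1_le
                    (pow_le_pow_of_le_one ht.le ht1 (by omega)) (by positivity) zero_le_one
                _ = c.sa t := one_mul _
      have hl' : (t⁻¹) ^ 21 * lowJ u b i z ^ 2 ≤ (t⁻¹) ^ 21 * (12 * g z) :=
        mul_le_mul_of_nonneg_left (bxLowJ_sq c t u b i z) (by positivity)
      have ew : w z = dX^[i] u z := rfl
      rw [ew] at *
      linarith
    have hgi : IntegrableOn g (c.bumpSet t) := hgc.continuousOn.integrableOn_compact hcl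
    have hdB : IntegrableOn den (c.bumpSet t) := hdi.integrableOn
    have hone : IntegrableOn (fun _ : ℝ × ℝ => (t⁻¹) ^ (2 * (Nr + Nb) + 3) * (1 + e1) ^ 2 * 1)
        (c.bumpSet t) := continuousOn_const.integrableOn_compact hcl
    have hab : IntegrableOn (fun z => (t⁻¹) ^ 21 * den z + 12 * (t⁻¹) ^ 21 * g z) (c.bumpSet t) :=
      (hdB.const_mul _).add (hgi.const_mul _)
    refine (setIntegral_mono_on ((hOc.pow 2).continuousOn.integrableOn_compact hcl)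
      (hab.add hone) hcl.measurableSet hpt).trans ?_
    rw [integral_add' hab hone, integral_add (hdB.const_mul _) (hgi.const_mul _),
      integral_const_mul, integral_const_mul, integral_const_mul]
    have a1 : ∫ z in c.bumpSet t, den z ≤ E := by
      rw [hEq]; exact setIntegral_le_integral hdi (Eventually.of_forall hden0)
    have a2 : ∫ z in c.bumpSet t, g z ≤ 4 * X :=
      (setIntegral_mono_set (c.intOn hgc t s') (Eventually.of_forall fun z =>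
        Finset.sum_nonneg fun m _ => c.lev_nonneg t u b _ z)
        (Eventually.of_forall fun z hz => c.rect_subset ht.le hss.le (hbs z hz))).trans hsum
    have a3 := (hA s hs (by linarith)).2.2
    have b1 := mul_le_mul_of_nonneg_left a1 (by positivity : 0 ≤ (t⁻¹) ^ 21)
    have b2 := mul_le_mul_of_nonneg_left a2 (by positivity : 0 ≤ 12 * (t⁻¹) ^ 21)
    have b3 := mul_le_mul_of_nonneg_left a3
      (by positivity : 0 ≤ (t⁻¹) ^ (2 * (Nr + Nb) + 3) * (1 + e1) ^ 2)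
    have ee : (t⁻¹) ^ (2 * (Nr + Nb) + 3) * (t⁻¹ * ((1 + e1) * c.δ t) ^ 2) =
        (t⁻¹) ^ (2 * (Nr + Nb) + 3) * (1 + e1) ^ 2 * (t⁻¹ * c.δ t ^ 2) := by ring
    simp only [hSdef, ← he1, ee]
    linarith
  have hFint : 0 ≤ ∫ z, F z ^ 2 := integral_nonneg fun z => sq_nonneg _
  have hHsq : H ^ 2 = ∫ z, F z ^ 2 := Real.sq_sqrt hFint
  have hcr' := hcr _ _ w F H hMb.absζ hMb.absl hMb.smζ hMb.sml hws hFi hF2i hF0
    (Real.sqrt_nonneg _) hHsq.ge
  have small : 4 * (t⁻¹) ^ 25 * c.ym t ^ 2 ≤ 1 / 4 := by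
    have : (t⁻¹) ^ 25 * c.ym t ^ 2 ≤ t := by
      have e : c.ym t ^ 2 ≤ t ^ (25 + 1) := by
        rw [Par.ym, ← pow_mul]; exact pow_le_pow_of_le_one ht.le ht1 (by omega)
      calc (t⁻¹) ^ 25 * c.ym t ^ 2 ≤ (t⁻¹) ^ 25 * t ^ (25 + 1) :=
            mul_le_mul_of_nonneg_left e (by positivity)
        _ = t := by rw [pow_succ t 25, ← mul_assoc, ← mul_pow, inv_mul_cancel₀ ht.ne', one_pow, one_mul]
    linarith
  have hEb := bxiAbsorb hT1 hE0 (Real.sqrt_nonneg _) hym hcr' est (hHsq.le.trans hF2) small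
  -- conclusion
  have hlhs : ∫ z in c.rect t s,
      (dX^[i] (dY u) z ^ 2 + c.W t z.2 * dX^[i + 1] u z ^ 2 + dX^[i] u z ^ 2) ≤ E := by
    refine (setIntegral_mono_on ?_ hdi.integrableOn (c.rect_compact t s).measurableSet
      fun z hz => ?_).trans (by
        rw [hEq]; exact setIntegral_le_integral hdi (Eventually.of_forall hden0))
    · exact c.intOn ((((bxSmooth_iter (bxSmooth_dY h.smu) i).continuous.pow 2).add
        ((c.W_cont t).mul ((bxSmooth_iter h.smu (i + 1)).continuous.pow 2))).add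
        ((bxSmooth_iter h.smu i).continuous.pow 2)) t s
    · rw [hdeneq z hz]
      have : dX^[i] u z ^ 2 ≤ (t⁻¹) ^ 2 * dX^[i] u z ^ 2 :=
        le_mul_of_one_le_left (sq_nonneg _) (one_le_pow₀ hT1)
      linarith
  refine hlhs.trans (hEb.trans ?_)
  -- powers
  set T := t⁻¹ with hTdef
  set R := c.rBd t i with hRdef
  have hR0 : 0 ≤ R := by linarith
  have hym_e : c.ym t ^ 2 * ((1 + c.ε t / c.δ t ^ (i + 1)) * c.δ t) ^ 2 ≤ R ^ 2 := by
    rw [← mul_pow]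
    refine pow_le_pow_left₀ (by positivity) ?_ 2
    have e : c.ε t / c.δ t ^ (i + 1) * c.δ t = c.ε t / c.δ t ^ i := by
      rw [pow_succ]; field_simp
    calc c.ym t * ((1 + c.ε t / c.δ t ^ (i + 1)) * c.δ t)
        = c.ym t * c.δ t + c.ε t / c.δ t ^ i * c.ym t := by rw [add_mul, e]; ring
      _ ≤ 1 + c.ε t / c.δ t ^ i * c.ym t := by
          gcongr; exact mul_le_one₀ hym1 hd.le hd1
      _ = R := rfl
  have hX2 : X = T ^ (2 * N0) * R ^ 2 := by rw [hX]; ring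
  have hR2 : 1 ≤ R ^ 2 := one_le_pow₀ hR1
  set M := Ne + N0 + Nr + Nb + 20 with hM'
  have pw : ∀ n, n + 4 ≤ 2 * M → 1000 * T ^ n * R ^ 2 ≤ (T ^ M * R) ^ 2 / 8 := fun n hn => by
    have e : T ^ n * T ^ 4 ≤ T ^ (2 * M) := by
      rw [← pow_add]; exact pow_le_pow_right₀ hT1 hn
    have e4 : 8000 ≤ T ^ 4 := le_trans (by norm_num) (pow_le_pow_left₀ (by norm_num) hT 4)
    have : T ^ n * 8000 ≤ T ^ (2 * M) :=
      le_trans (mul_le_mul_of_nonneg_left e4 (by positivity)) e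
    have := mul_le_mul_of_nonneg_right this (by positivity : 0 ≤ R ^ 2)
    rw [mul_pow, ← pow_mul, mul_comm M 2]
    linarith
  have A1 : T ^ Ne * (∫ z in c.rect t s', c.W t z.2 * w z ^ 2) ≤ T ^ (Ne + 2 * N0) * R ^ 2 := by
    refine (mul_le_mul_of_nonneg_left hI (by positivity)).trans_eq ?_
    rw [hX2]; ring
  have A2 : T ^ Ne * (∫ z in c.rect t s', G z ^ 2 / c.W t z.2) ≤
      96 * T ^ (Ne + 20 + 2 * N0) * R ^ 2 + 2 * T ^ (Ne + 2 * Nr + 1) * R ^ 2 := by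
    refine (mul_le_mul_of_nonneg_left hJ (by positivity)).trans ?_
    have : 2 * T ^ (Ne + 2 * Nr + 1) * 1 ≤ 2 * T ^ (Ne + 2 * Nr + 1) * R ^ 2 :=
      mul_le_mul_of_nonneg_left hR2 (by positivity)
    rw [hX2]
    linarith [show T ^ Ne * (24 * T ^ 20 * (4 * (T ^ (2 * N0) * R ^ 2)) + 2 * T ^ (2 * Nr) * T) =
      96 * T ^ (Ne + 20 + 2 * N0) * R ^ 2 + 2 * T ^ (Ne + 2 * Nr + 1) * 1 by ring]
  have A3 : T ^ 4 * (c.ym t ^ 2 * S) ≤
      48 * T ^ (25 + 2 * N0) * R ^ 2 + T ^ (2 * (Nr + Nb) + 8) * R ^ 2 := by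
    have a := mul_le_mul_of_nonneg_left (mul_le_of_le_one_left hX0 (pow_le_one₀ hym hym1 (n := 2)))
      (by positivity : 0 ≤ 48 * T ^ 25)
    have b' := mul_le_mul_of_nonneg_left hym_e
      (by positivity : 0 ≤ T ^ (2 * (Nr + Nb) + 8))
    rw [hSdef]
    calc T ^ 4 * (c.ym t ^ 2 * (12 * T ^ 21 * (4 * X) + T ^ (2 * (Nr + Nb) + 3) *
          (T * ((1 + c.ε t / c.δ t ^ (i + 1)) * c.δ t) ^ 2)))
        = 48 * T ^ 25 * (c.ym t ^ 2 * X) + T ^ (2 * (Nr + Nb) + 8) *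
            (c.ym t ^ 2 * ((1 + c.ε t / c.δ t ^ (i + 1)) * c.δ t) ^ 2) := by ring
      _ ≤ 48 * T ^ 25 * X + T ^ (2 * (Nr + Nb) + 8) * R ^ 2 := add_le_add a b'
      _ = _ := by rw [hX2]; ring
  have := pw (Ne + 2 * N0) (by omega)
  have := pw (Ne + 20 + 2 * N0) (by omega)
  have := pw (Ne + 2 * Nr + 1) (by omega)
  have := pw (25 + 2 * N0) (by omega)
  have := pw (2 * (Nr + Nb) + 8) (by omega)
  have n0 : ∀ n, 0 ≤ T ^ n * R ^ 2 := fun n => by positivity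
  have := n0 (Ne + 2 * N0); have := n0 (Ne + 20 + 2 * N0); have := n0 (Ne + 2 * Nr + 1)
  have := n0 (25 + 2 * N0); have := n0 (2 * (Nr + Nb) + 8)
  have : 0 ≤ (T ^ M * R) ^ 2 := sq_nonneg _
  linarith

/-- The derivative of `b`, pointwise. -/
theorem bxiB_arith {B T p ι x l g : ℝ} {Nc : ℕ} (hT : 100 ≤ T) (hι : ι ^ 2 = ι)
    (h : |B| ≤ T ^ Nc * (1 + ι * p) + T * (x + l)) (hx : x ^ 2 ≤ g) (hl : l ^ 2 ≤ 12 * g)
    (hg : 0 ≤ g) :
    B ^ 2 ≤ T ^ (2 * Nc + 4) * g + T ^ (2 * Nc + 4) + T ^ (2 * Nc + 4) * (p ^ 2 * ι) := by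
  have hT1 : 1 ≤ T := by linarith
  have hι0 : 0 ≤ ι := hι ▸ sq_nonneg ι
  have h1 : (1 + ι * p) ^ 2 ≤ 2 * (1 + p ^ 2 * ι) := by
    have e : (ι * p) ^ 2 = p ^ 2 * ι := by rw [mul_pow, hι, mul_comm]
    nlinarith [sq_nonneg (1 - ι * p)]
  have h2 : (x + l) ^ 2 ≤ 26 * g := by nlinarith [sq_nonneg (x - l)]
  have hb : B ^ 2 ≤ 2 * (T ^ Nc * (1 + ι * p)) ^ 2 + 2 * (T * (x + l)) ^ 2 := by
    rw [← sq_abs B]
    refine (pow_le_pow_left₀ (abs_nonneg _) h 2).trans ?_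
    nlinarith [sq_nonneg (T ^ Nc * (1 + ι * p) - T * (x + l))]
  have a : 2 * (T ^ Nc * (1 + ι * p)) ^ 2 ≤ 4 * T ^ (2 * Nc) * (1 + p ^ 2 * ι) := by
    calc 2 * (T ^ Nc * (1 + ι * p)) ^ 2 = 2 * T ^ (2 * Nc) * (1 + ι * p) ^ 2 := by ring
      _ ≤ 2 * T ^ (2 * Nc) * (2 * (1 + p ^ 2 * ι)) := by gcongr
      _ = _ := by ring
  have b : 2 * (T * (x + l)) ^ 2 ≤ 52 * T ^ 2 * g := by
    calc 2 * (T * (x + l)) ^ 2 = 2 * T ^ 2 * (x + l) ^ 2 := by ring
      _ ≤ 2 * T ^ 2 * (26 * g) := by gcongr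
      _ = _ := by ring
  have k1 : 52 * T ^ 2 ≤ T ^ (2 * Nc + 4) := by
    refine le_trans ?_ (pow_le_pow_right₀ hT1 (by omega : 4 ≤ 2 * Nc + 4))
    rw [show T ^ 4 = T ^ 2 * T ^ 2 by ring]
    exact mul_le_mul_of_nonneg_right (by nlinarith) (by positivity)
  have k2 : 4 * T ^ (2 * Nc) ≤ T ^ (2 * Nc + 4) := by
    rw [pow_add, mul_comm]
    exact mul_le_mul_of_nonneg_left
      (le_trans (by linarith) (le_self_pow₀ hT1 (by norm_num))) (by positivity)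
  have : 4 * T ^ (2 * Nc) * (1 + p ^ 2 * ι) ≤ T ^ (2 * Nc + 4) * (1 + p ^ 2 * ι) :=
    mul_le_mul_of_nonneg_right k2 (by positivity)
  have := mul_le_mul_of_nonneg_right k1 hg
  linarith

/-- The second derivative in `y`, pointwise. -/
theorem bxiY_arith {Y a b c d F T p ι Ya Ob Xc Yd S g : ℝ} {Nr Nb : ℕ} (hT : 100 ≤ T)
    (hι : ι ^ 2 = ι) (hι0 : 0 ≤ ι) (hp : 0 ≤ p)
    (r : |Y + a + b + c + d + F| ≤ T ^ 10 * S + T ^ Nr * (1 + ι * p))
    (u1 : |a| ≤ 2 * T * Ya) (u2 : |b| ≤ T * Ob) (u3 : |c| ≤ T ^ 6 * Xc) (u4 : |d| ≤ T ^ 6 * Yd)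
    (u5 : |F| ≤ T ^ Nb * (ι * p) + T ^ 3 * S) (hS : 0 ≤ S) (s1 : Ya ≤ S) (s2 : Ob ≤ S)
    (s3 : Xc ≤ S) (s4 : Yd ≤ S) (hS2 : S ^ 2 ≤ 100 * g) :
    Y ^ 2 ≤ T ^ (2 * (Nr + Nb) + 26) * g + T ^ (2 * (Nr + Nb) + 26) +
      T ^ (2 * (Nr + Nb) + 26) * (p ^ 2 * ι) := by
  have hT1 : 1 ≤ T := by linarith
  have rp : ∀ {n m : ℕ}, n ≤ m → T ^ n ≤ T ^ m := fun h => pow_le_pow_right₀ hT1 h
  set P : ℝ := T ^ (Nr + Nb) * (1 + ι * p) with hP
  have hιp : 0 ≤ ι * p := mul_nonneg hι0 hp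
  have hY : |Y| ≤ 10 * T ^ 11 * S + 2 * P := by
    obtain ⟨r1, r2⟩ := abs_le.1 r
    obtain ⟨a1, a2⟩ := abs_le.1 u1
    obtain ⟨b1, b2⟩ := abs_le.1 u2
    obtain ⟨c1, c2⟩ := abs_le.1 u3
    obtain ⟨d1, d2⟩ := abs_le.1 u4
    obtain ⟨e1, e2⟩ := abs_le.1 u5
    have hT0 : 0 ≤ T := by linarith
    have m1 : 2 * T * Ya ≤ 2 * T ^ 11 * S :=
      (mul_le_mul_of_nonneg_left s1 (by linarith)).trans (mul_le_mul_of_nonneg_right
        (by linarith [le_self_pow₀ hT1 (show 11 ≠ 0 by norm_num)]) hS)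
    have m2 : T * Ob ≤ T ^ 11 * S :=
      (mul_le_mul_of_nonneg_left s2 hT0).trans
        (mul_le_mul_of_nonneg_right (le_self_pow₀ hT1 (by norm_num)) hS)
    have m3 : T ^ 6 * Xc ≤ T ^ 11 * S :=
      (mul_le_mul_of_nonneg_left s3 (by positivity)).trans
        (mul_le_mul_of_nonneg_right (rp (by norm_num)) hS)
    have m4 : T ^ 6 * Yd ≤ T ^ 11 * S :=
      (mul_le_mul_of_nonneg_left s4 (by positivity)).trans
        (mul_le_mul_of_nonneg_right (rp (by norm_num)) hS)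
    have m5 : T ^ 3 * S ≤ T ^ 11 * S := mul_le_mul_of_nonneg_right (rp (by norm_num)) hS
    have m6 : T ^ 10 * S ≤ T ^ 11 * S := mul_le_mul_of_nonneg_right (rp (by norm_num)) hS
    have m7 : T ^ Nb * (ι * p) ≤ P :=
      mul_le_mul (rp (by omega)) (by linarith) hιp (by positivity)
    have m8 : T ^ Nr * (1 + ι * p) ≤ P :=
      mul_le_mul_of_nonneg_right (rp (by omega)) (by linarith)
    rw [abs_le]
    constructor <;> linarith
  have hsq : Y ^ 2 ≤ 2 * (10 * T ^ 11 * S) ^ 2 + 2 * (2 * P) ^ 2 := by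
    rw [← sq_abs Y]
    refine (pow_le_pow_left₀ (abs_nonneg _) hY 2).trans ?_
    nlinarith [sq_nonneg (10 * T ^ 11 * S - 2 * P)]
  have a' : 2 * (10 * T ^ 11 * S) ^ 2 ≤ 20000 * T ^ 22 * g := by
    calc 2 * (10 * T ^ 11 * S) ^ 2 = 200 * T ^ 22 * S ^ 2 := by ring
      _ ≤ 200 * T ^ 22 * (100 * g) := by gcongr
      _ = _ := by ring
  have h1 : (1 + ι * p) ^ 2 ≤ 2 * (1 + p ^ 2 * ι) := by
    have e : (ι * p) ^ 2 = p ^ 2 * ι := by rw [mul_pow, hι, mul_comm]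
    nlinarith [sq_nonneg (1 - ι * p)]
  have b' : 2 * (2 * P) ^ 2 ≤ 16 * T ^ (2 * (Nr + Nb)) * (1 + p ^ 2 * ι) := by
    calc 2 * (2 * P) ^ 2 = 8 * T ^ (2 * (Nr + Nb)) * (1 + ι * p) ^ 2 := by rw [hP]; ring
      _ ≤ 8 * T ^ (2 * (Nr + Nb)) * (2 * (1 + p ^ 2 * ι)) := by gcongr
      _ = _ := by ring
  have k1 : 20000 * T ^ 22 ≤ T ^ (2 * (Nr + Nb) + 26) := by
    refine le_trans ?_ (rp (by omega : 26 ≤ _))
    rw [show (26 : ℕ) = 22 + 4 by norm_num, pow_add, mul_comm]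
    exact mul_le_mul_of_nonneg_left (le_trans (by norm_num)
      (pow_le_pow_left₀ (by norm_num) hT 4)) (by positivity)
  have k2 : 16 * T ^ (2 * (Nr + Nb)) ≤ T ^ (2 * (Nr + Nb) + 26) := by
    rw [pow_add, mul_comm]
    exact mul_le_mul_of_nonneg_left
      (le_trans (by linarith) (le_self_pow₀ hT1 (by norm_num))) (by positivity)
  have hg : 0 ≤ g := by linarith [sq_nonneg S]
  have := mul_le_mul_of_nonneg_right k1 hg
  have := mul_le_mul_of_nonneg_right k2 (by positivity : 0 ≤ 1 + p ^ 2 * ι)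
  linarith

/-- The second derivative in `y` at a point, from the equation one level below. -/
theorem bxiY_point {c : Par} {t : ℝ} {u b : ℝ × ℝ → ℝ} {z : ℝ × ℝ} {i Nr Nb : ℕ}
    (h : c.Sol t u b) (ht : 0 < t) (ht1 : t ≤ 1) (hT : 100 ≤ t⁻¹)
    (hCb : c.CoefBd t (c.cK1 t u b) (c.cK2 t u b) (c.cB1 t u b (i - 1)) (c.cB0 t u b (i - 1)))
    (hi : 15 ≤ i) (hj : 8 ≤ c.j) (hz1 : z ∈ c.rect t 1) (hW1 : c.W t z.2 ≤ 1)
    (ho1 : c.om t z.2 ≤ 1)
    (r : |opL (c.cK1 t u b) (c.cK2 t u b) (c.cB1 t u b (i - 1)) (c.cB0 t u b (i - 1))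
          (dX^[i - 1] u) z + dX^[i - 1] (c.cGf t u b) z| ≤
        c.om t z.2 * c.sA t * (t⁻¹) ^ 10 * (|dX^[i - 1] u z| + lowJ u b (i - 1) z) +
          (t⁻¹) ^ Nr * (c.om t z.2 * c.sA t + c.indB t z * (c.ε t / c.δ t ^ (i - 1))))
    (q : |dX^[i - 1] (c.cGf t u b) z| ≤ c.indB t z * ((t⁻¹) ^ Nb * (c.ε t / c.δ t ^ (i - 1 + 1)) +
        (t⁻¹) ^ 3 * (c.ε t / c.δ t ^ 9) *
          (topJ u b (i - 1) z + |dX^[i - 1] (dY u) z| + |dX^[i - 1 + 1] u z|))) :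
    dX^[i - 1] (dY (dY u)) z ^ 2 ≤
      (t⁻¹) ^ (2 * (Nr + Nb) + 26) *
        ((dX^[i] (dY u) z ^ 2 + c.W t z.2 * dX^[i + 1] u z ^ 2 + dX^[i] u z ^ 2) +
          (∑ m ∈ Finset.range 4, c.lev t u b (i - 1 - m) z) +
          ∑ m ∈ Finset.range 4, c.lev t u b (i - 1 - 1 - m) z) +
      (t⁻¹) ^ (2 * (Nr + Nb) + 26) +
      (t⁻¹) ^ (2 * (Nr + Nb) + 26) * ((c.ε t / c.δ t ^ i) ^ 2 * c.indB t z) := by
  have hT1 : (1 : ℝ) ≤ t⁻¹ := by linarith
  have hd := c.bxδ_pos ht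
  have hd1 : c.δ t ≤ 1 := (c.bxδ_le ht ht1).trans ht1
  have heps := c.ε_pos ht
  set T := t⁻¹ with hTdef
  set g0 : ℝ × ℝ → ℝ := fun z =>
    dX^[i] (dY u) z ^ 2 + c.W t z.2 * dX^[i + 1] u z ^ 2 + dX^[i] u z ^ 2 with hg0
  set g1 : ℝ × ℝ → ℝ := fun z => ∑ m ∈ Finset.range 4, c.lev t u b (i - 1 - m) z with hg1
  set g2 : ℝ × ℝ → ℝ := fun z => ∑ m ∈ Finset.range 4, c.lev t u b (i - 1 - 1 - m) z with hg2
  set g : ℝ × ℝ → ℝ := fun z => g0 z + g1 z + g2 z with hg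
  set p : ℝ := c.ε t / c.δ t ^ i with hp
  have hp0 : 0 ≤ p := by positivity
  rw [show i - 1 + 1 = i by omega] at q
  rw [topJ_eq] at q
  obtain ⟨k1, k2⟩ := hCb.byW z hz1
  have hsm := hCb.small z hz1
  have hB1 := hsm (c.cB1 t u b (i - 1)) (by simp)
  have hB0 := hsm (c.cB0 t u b (i - 1)) (by simp)
  have hw1 : c.om t z.2 * c.sA t ≤ 1 :=
    mul_le_one₀ ho1 (c.sA_pos ht).le (pow_le_one₀ ht.le ht1)
  have hw0 : 0 ≤ c.om t z.2 * c.sA t := mul_nonneg (c.om_pos ht _).le (c.sA_pos ht).le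
  set v := dX^[i - 1] u with hv
  have hvs : ContDiff ℝ ∞ v := bxSmooth_iter h.smu (i - 1)
  have x1 : dX v = dX^[i] u := by
    rw [hv, ← Function.iterate_succ_apply' dX, show (i - 1).succ = i by omega]
  have y1 : dY v = dX^[i - 1] (dY u) := bxMixed_iter h.smu _
  have x2 : dX (dX v) = dX^[i + 1] u := by
    rw [x1, ← Function.iterate_succ_apply' dX]
  have xy : dY (dX v) = dX^[i] (dY u) := by rw [x1]; exact bxMixed_iter h.smu i
  have yy : dY (dY v) = dX^[i - 1] (dY (dY u)) := by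
    rw [y1]; exact bxMixed_iter (bxSmooth_dY h.smu) _
  simp only [opL, x1, y1, x2, xy] at r
  rw [show dY (dX^[i - 1] (dY u)) = dX^[i - 1] (dY (dY u)) by rw [← y1, yy],
    show dX (dX^[i] u) = dX^[i + 1] u by rw [← x1, x2],
    show dY (dX^[i] u) = dX^[i] (dY u) by rw [← x1, xy]] at *
  set Y := dX^[i - 1] (dY (dY u)) z
  set om := c.om t z.2 with hom
  have hom0 := c.om_pos ht z.2
  have hι0 := c.indB_nonneg t z
  have hι1 := c.indB_le_one t z
  have e91 : c.ε t / c.δ t ^ 9 ≤ 1 := c.εδ_le_one ht ht1 (by omega)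
  have hp' : c.ε t / c.δ t ^ (i - 1) ≤ p :=
    div_le_div_of_nonneg_left heps.le (pow_pos hd _)
      (pow_le_pow_of_le_one hd.le hd1 (by omega))
  set S := |dX^[i] (dY u) z| + om * |dX^[i + 1] u z| + |dX^[i] u z| +
    |dX^[i - 1] (dY u) z| + |v z| + lowJ u b (i - 1) z with hS'
  have hl0 := lowJ_nonneg u b (i - 1) z
  have n1 := abs_nonneg (dX^[i] (dY u) z)
  have n2 : 0 ≤ om * |dX^[i + 1] u z| := by positivity
  have n3 := abs_nonneg (dX^[i] u z)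
  have n4 := abs_nonneg (dX^[i - 1] (dY u) z)
  have n5 := abs_nonneg (v z)
  have hT6 : T ≤ T ^ 11 := le_self_pow₀ hT1 (by norm_num)
  have u1 : |2 * c.cK1 t u b z * dX^[i] (dY u) z| ≤ 2 * T * |dX^[i] (dY u) z| := by
    rw [abs_mul, abs_mul, abs_two]
    gcongr
    exact k1.trans (mul_le_of_le_one_left (by linarith) hW1)
  have u2 : |c.cK2 t u b z * dX^[i + 1] u z| ≤ T * (om * |dX^[i + 1] u z|) := by
    rw [abs_mul]
    calc |c.cK2 t u b z| * |dX^[i + 1] u z| ≤ c.W t z.2 * T * |dX^[i + 1] u z| := by gcongr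
      _ ≤ om * T * |dX^[i + 1] u z| := by
          gcongr
          rw [← c.om_sq ht, pow_two]
          exact mul_le_of_le_one_left hom0.le ho1
      _ = _ := by ring
  have u3 : |c.cB1 t u b (i - 1) z * dX^[i] u z| ≤ T ^ 6 * |dX^[i] u z| := by
    rw [abs_mul]; gcongr
    exact hB1.trans (mul_le_of_le_one_left (by positivity) hw1)
  have u4 : |c.cB0 t u b (i - 1) z * dX^[i - 1] (dY u) z| ≤ T ^ 6 * |dX^[i - 1] (dY u) z| := by
    rw [abs_mul]; gcongr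
    exact hB0.trans (mul_le_of_le_one_left (by positivity) hw1)
  have u5 : |dX^[i - 1] (c.cGf t u b) z| ≤
      T ^ Nb * (c.indB t z * p) + T ^ 3 * S := by
    refine q.trans ?_
    rw [mul_add]
    refine add_le_add (le_of_eq (by ring)) ?_
    calc c.indB t z * (T ^ 3 * (c.ε t / c.δ t ^ 9) *
          (|dX^[i - 1] u z| + lowJ u b (i - 1) z + |dX^[i - 1] (dY u) z| + |dX^[i] u z|))
        ≤ 1 * (T ^ 3 * 1 * S) := by gcongr; linarith
      _ = _ := by ring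
  have u6 : c.om t z.2 * c.sA t * T ^ 10 * (|v z| + lowJ u b (i - 1) z) +
      T ^ Nr * (c.om t z.2 * c.sA t + c.indB t z * (c.ε t / c.δ t ^ (i - 1))) ≤
      T ^ 10 * S + T ^ Nr * (1 + c.indB t z * p) := by
    gcongr
    · exact mul_le_of_le_one_left (by positivity) hw1
    · linarith
  have r' := r.trans u6
  have hS2 : S ^ 2 ≤ 100 * g z := by
    have hl2 : lowJ u b (i - 1) z ^ 2 ≤ 12 * g2 z := bxLowJ_sq c t u b (i - 1) z
    have h1 : c.lev t u b (i - 1) z ≤ g1 z := by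
      refine Finset.single_le_sum (f := fun m => c.lev t u b (i - 1 - m) z)
        (fun m _ => c.lev_nonneg t u b _ z) (Finset.mem_range.2 (show 0 < 4 by norm_num))
    have hW0 := mul_nonneg (c.W_pos ht z.2).le (sq_nonneg (dX^[i] u z))
    have h2 : v z ^ 2 + dX^[i - 1] (dY u) z ^ 2 ≤ g1 z := by
      refine le_trans ?_ h1
      unfold Par.lev
      rw [show i - 1 + 1 = i by omega]
      linarith [sq_nonneg (dX^[i - 1] b z), sq_nonneg (dX^[i - 1 - 1] (dY (dY u)) z)]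
    have h3 : 0 ≤ g2 z := Finset.sum_nonneg fun m _ => c.lev_nonneg t u b _ z
    have h4 : g0 z = |dX^[i] (dY u) z| ^ 2 + (om * |dX^[i + 1] u z|) ^ 2 +
        |dX^[i] u z| ^ 2 := by
      rw [sq_abs, mul_pow, sq_abs, sq_abs, hom, c.om_sq ht]
    have hsq : S ^ 2 ≤ 6 * (|dX^[i] (dY u) z| ^ 2 + (om * |dX^[i + 1] u z|) ^ 2 +
        |dX^[i] u z| ^ 2 + |dX^[i - 1] (dY u) z| ^ 2 + |v z| ^ 2 + lowJ u b (i - 1) z ^ 2) := by
      have := sq_sum_le_card_mul_sum_sq (s := (Finset.univ : Finset (Fin 6)))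
        (f := ![|dX^[i] (dY u) z|, om * |dX^[i + 1] u z|, |dX^[i] u z|,
          |dX^[i - 1] (dY u) z|, |v z|, lowJ u b (i - 1) z])
      simpa [Fin.sum_univ_six, hS'] using this
    rw [sq_abs (v z), sq_abs (dX^[i - 1] (dY u) z)] at hsq
    have : g z = g0 z + g1 z + g2 z := rfl
    linarith [sq_nonneg (|dX^[i] (dY u) z|), sq_nonneg (om * |dX^[i + 1] u z|),
      sq_nonneg (|dX^[i] u z|), sq_nonneg (v z), sq_nonneg (dX^[i - 1] (dY u) z)]
  have hii : c.indB t z ^ 2 = c.indB t z := by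
    by_cases hm : z ∈ c.bumpSet t <;> simp [Par.indB, hm]
  refine (bxiY_arith hT hii hι0 hp0 r' u1 u2 u3 u4 u5 (by positivity) (by linarith) (by linarith)
    (by linarith) (by linarith) hS2).trans_eq (by ring)

/-- The rest of one level. -/
theorem bxiRest (K : ℝ) (hK : 1 ≤ K) (Pe i N0 N1 : ℕ) (hi : 15 ≤ i) : ∃ N : ℕ, ∀ c : Par,
    c.K = K → c.Pe = Pe → 40 ≤ c.Pe → 12 ≤ c.j → i ≤ c.j + 4 → c.Pe + 20 ≤ c.Qe →
    ∀ s : ℝ, 0 ≤ s → s ≤ 1 → ∀ᶠ t in 𝓝[>] (0 : ℝ), ∀ u b : ℝ × ℝ → ℝ, c.Sol t u b →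
      (∀ z ∈ c.rect t s, SupAt t u b i N1 z ∧ SupAt t u b (i - 1) N1 z) →
      (∀ q < i, ∫ z in c.rect t s, c.lev t u b q z ≤ ((t⁻¹) ^ N0 * c.rBd t i) ^ 2) →
      ∫ z in c.rect t s,
          (dX^[i] (dY u) z ^ 2 + c.W t z.2 * dX^[i + 1] u z ^ 2 + dX^[i] u z ^ 2) ≤
        ((t⁻¹) ^ N0 * c.rBd t i) ^ 2 →
      ∫ z in c.rect t s, c.lev t u b i z ≤ ((t⁻¹) ^ N * c.rBd t i) ^ 2 := by
  obtain ⟨Nr, hrem⟩ := bxSrc_rem K hK (i - 1) (by omega) N1
  obtain ⟨Nb, hbmp⟩ := bxSrc_bump K hK (i - 1) (by omega) N1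
  obtain ⟨Nc, hbs⟩ := bxSrc_b K hK i (by omega) N1
  refine ⟨N0 + Nr + Nb + Nc + 30, fun c hcK hPe h40 hj hij hQ s hs hs1 => ?_⟩
  filter_upwards [bxEv_pos, c.coef_bd (by omega) hj (by omega) (i - 1),
    hrem c hcK (by omega) hj (by omega) (by omega), hbmp c hcK (by omega) hj (by omega) (by omega),
    hbs c hcK (by omega) hj (by omega) (by omega), c.W_le_one (by omega), c.rect_area,
    bxEv_T 100] with t ⟨ht, ht1⟩ hC hR hB hBs hW hA hT u b h hS hl hD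
  have hT1 : (1 : ℝ) ≤ t⁻¹ := by linarith
  have hd := c.bxδ_pos ht
  have hd1 : c.δ t ≤ 1 := (c.bxδ_le ht ht1).trans ht1
  have heps := c.ε_pos ht
  have hCb := hC u b h
  set T := t⁻¹ with hTdef
  set g0 : ℝ × ℝ → ℝ := fun z =>
    dX^[i] (dY u) z ^ 2 + c.W t z.2 * dX^[i + 1] u z ^ 2 + dX^[i] u z ^ 2 with hg0
  set g1 : ℝ × ℝ → ℝ := fun z => ∑ m ∈ Finset.range 4, c.lev t u b (i - 1 - m) z with hg1
  set g2 : ℝ × ℝ → ℝ := fun z => ∑ m ∈ Finset.range 4, c.lev t u b (i - 1 - 1 - m) z with hg2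
  have hg0c : Continuous g0 := (((bxSmooth_iter (bxSmooth_dY h.smu) i).continuous.pow 2).add
    ((c.W_cont t).mul ((bxSmooth_iter h.smu (i + 1)).continuous.pow 2))).add
    ((bxSmooth_iter h.smu i).continuous.pow 2)
  have hg1c : Continuous g1 := continuous_finsetSum _ fun m _ => c.lev_cont h.smu h.smb t _
  have hg2c : Continuous g2 := continuous_finsetSum _ fun m _ => c.lev_cont h.smu h.smb t _
  set g : ℝ × ℝ → ℝ := fun z => g0 z + g1 z + g2 z with hg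
  set X : ℝ := (T ^ N0 * c.rBd t i) ^ 2 with hX
  have hX0 : 0 ≤ X := sq_nonneg _
  have hgX : ∫ z in c.rect t s, g z ≤ 9 * X := by
    simp only [hg]
    rw [integral_add (f := fun z => g0 z + g1 z) ((c.intOn hg0c t s).add (c.intOn hg1c t s))
        (c.intOn hg2c t s), integral_add (c.intOn hg0c t s) (c.intOn hg1c t s)]
    have := bxiLev_sum c h.smu h.smb hl (by omega : 1 ≤ i)
    have := bxiLev_sum c h.smu h.smb (i := i - 1) (fun q hq => hl q (by omega)) (by omega)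
    linarith
  set p : ℝ := c.ε t / c.δ t ^ i with hp
  have hp0 : 0 ≤ p := by positivity
  have fin : ∀ f : ℝ × ℝ → ℝ, Continuous f → ∀ n,
      (∀ z ∈ c.rect t s, f z ^ 2 ≤ T ^ n * g z + T ^ n + T ^ n * p ^ 2 * c.indB t z) →
      ∫ z in c.rect t s, f z ^ 2 ≤ T ^ (n + 2) * (X + c.rBd t i ^ 2) := by
    intro f hf n hpt
    refine (bxiInt c (g := g) (hf.pow 2) ((hg0c.add hg1c).add hg2c) hpt).trans ?_
    obtain ⟨a1, a2, -⟩ := hA s hs hs1
    have hpy : p ^ 2 * c.δ t ^ 2 ≤ c.rBd t i ^ 2 := by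
      rw [← mul_pow]
      refine pow_le_pow_left₀ (by positivity) ?_ 2
      have : c.δ t ≤ c.ym t := by
        calc c.δ t ≤ 1 * t ^ (c.Qe - c.Pe) := mul_le_mul c.bxc1_le
              (pow_le_pow_of_le_one ht.le ht1 (by omega)) (by positivity) zero_le_one
          _ = c.ym t := one_mul _
      calc p * c.δ t ≤ p * c.ym t := mul_le_mul_of_nonneg_left this hp0
        _ ≤ _ := le_add_of_nonneg_left zero_le_one
    have b1 := mul_le_mul_of_nonneg_left hgX (by positivity : 0 ≤ T ^ n)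
    have b2 := mul_le_mul_of_nonneg_left a1 (by positivity : 0 ≤ T ^ n)
    have b3 := mul_le_mul_of_nonneg_left a2 (by positivity : 0 ≤ T ^ n * p ^ 2)
    have b4 : T ^ n * p ^ 2 * (T * c.δ t ^ 2) ≤ T ^ (n + 1) * c.rBd t i ^ 2 := by
      rw [show T ^ n * p ^ 2 * (T * c.δ t ^ 2) = T ^ (n + 1) * (p ^ 2 * c.δ t ^ 2) by ring]
      exact mul_le_mul_of_nonneg_left hpy (by positivity)
    have b5 : T ^ (n + 1) * 1 ≤ T ^ (n + 1) * c.rBd t i ^ 2 :=
      mul_le_mul_of_nonneg_left (one_le_pow₀ (c.rBd_ge_one ht i)) (by positivity)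
    have b6 : 9 * T ^ n * X ≤ T ^ (n + 2) * X := by
      refine mul_le_mul_of_nonneg_right ?_ hX0
      rw [show T ^ (n + 2) = T ^ n * T ^ 2 by ring, mul_comm (9 : ℝ)]
      exact mul_le_mul_of_nonneg_left (by nlinarith) (by positivity)
    have b7 : 2 * T ^ (n + 1) * c.rBd t i ^ 2 ≤ T ^ (n + 2) * c.rBd t i ^ 2 := by
      refine mul_le_mul_of_nonneg_right ?_ (sq_nonneg _)
      rw [show T ^ (n + 2) = T * T ^ (n + 1) by ring]
      exact mul_le_mul_of_nonneg_right (by linarith) (by positivity)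
    linarith [show T ^ n * T = T ^ (n + 1) by ring]
  have rp : ∀ {n m : ℕ}, n ≤ m → T ^ n ≤ T ^ m := fun h => pow_le_pow_right₀ hT1 h
  -- `b`
  have hb : ∫ z in c.rect t s, dX^[i] b z ^ 2 ≤ T ^ (2 * Nc + 6) * (X + c.rBd t i ^ 2) := by
    refine fin _ (bxSmooth_iter h.smb i).continuous (2 * Nc + 4) fun z hz => ?_
    have hz1 := c.rect_subset ht.le hs1 hz
    have e := hBs u b h z hz1 (hS z hz).1
    rw [topJ_eq] at e
    have hi := c.indB_nonneg t z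
    have hl1 : lowJ u b i z ^ 2 ≤ 12 * g1 z := bxLowJ_sq c t u b i z
    have h0 : 0 ≤ g2 z := Finset.sum_nonneg fun m _ => c.lev_nonneg t u b _ z
    have h1 : 0 ≤ g1 z := Finset.sum_nonneg fun m _ => c.lev_nonneg t u b _ z
    have hW0 := mul_nonneg (c.W_pos ht z.2).le (sq_nonneg (dX^[i + 1] u z))
    have hgz : dX^[i] u z ^ 2 + g1 z ≤ g z := by
      simp only [hg, hg0]; linarith [sq_nonneg (dX^[i] (dY u) z)]
    have hii : c.indB t z ^ 2 = c.indB t z := by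
      by_cases hm : z ∈ c.bumpSet t <;> simp [Par.indB, hm]
    have hgn : 0 ≤ g z := by linarith [sq_nonneg (dX^[i] u z)]
    refine (bxiB_arith hT hii e ?_ (by linarith [sq_nonneg (dX^[i] u z)]) hgn).trans_eq (by ring)
    rw [sq_abs]; linarith
  -- the second derivative in `y`
  have hY : ∫ z in c.rect t s, dX^[i - 1] (dY (dY u)) z ^ 2 ≤
      T ^ (2 * (Nr + Nb) + 28) * (X + c.rBd t i ^ 2) := by
    refine fin _ (bxSmooth_iter (bxSmooth_dY (bxSmooth_dY h.smu)) (i - 1)).continuous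
      (2 * (Nr + Nb) + 26) fun z hz => ?_
    have hz1 := c.rect_subset ht.le hs1 hz
    have r := hR u b h z hz1 (hS z hz).2
    have q := hB u b h z hz1 (hS z hz).2
    obtain ⟨hW1, ho1, -, -⟩ := hW z.2 (c.rect_small ht.le le_rfl hz1).2
    refine (bxiY_point h ht ht1 hT hCb (by omega) (by omega) hz1 hW1 ho1 r q).trans_eq ?_
    simp only [hg, hg0, hg1, hg2]
    ring
  -- conclusion
  have key : ∫ z in c.rect t s, c.lev t u b i z =
      (∫ z in c.rect t s, g0 z) + (∫ z in c.rect t s, dX^[i] b z ^ 2) +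
        ∫ z in c.rect t s, dX^[i - 1] (dY (dY u)) z ^ 2 := by
    have hbc : Continuous fun z => dX^[i] b z ^ 2 := (bxSmooth_iter h.smb i).continuous.pow 2
    have hyc : Continuous fun z => dX^[i - 1] (dY (dY u)) z ^ 2 :=
      (bxSmooth_iter (bxSmooth_dY (bxSmooth_dY h.smu)) (i - 1)).continuous.pow 2
    rw [← integral_add (c.intOn hg0c t s) (c.intOn hbc t s),
      ← integral_add (f := fun z => g0 z + dX^[i] b z ^ 2) (μ := volume.restrict (c.rect t s))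
        (c.intOn (f := fun z => g0 z + dX^[i] b z ^ 2) (hg0c.add hbc) t s) (c.intOn hyc t s)]
    rfl
  rw [key]
  set M := N0 + Nr + Nb + Nc + 30 with hM
  set R := c.rBd t i
  have hR2 : 0 ≤ R ^ 2 := sq_nonneg _
  have pw : ∀ n, n + 1 ≤ 2 * M → 8 * (T ^ n * R ^ 2) ≤ (T ^ M * R) ^ 2 := fun n hn => by
    rw [mul_pow, ← pow_mul, mul_comm M 2, ← mul_assoc]
    refine mul_le_mul_of_nonneg_right ?_ hR2
    calc 8 * T ^ n ≤ T * T ^ n := mul_le_mul_of_nonneg_right (by linarith) (by positivity)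
      _ = T ^ (n + 1) := by ring
      _ ≤ _ := rp hn
  have hX2 : X = T ^ (2 * N0) * R ^ 2 := by rw [hX]; ring
  have := pw (2 * N0) (by omega)
  have := pw (2 * Nc + 6 + 2 * N0) (by omega)
  have := pw (2 * Nc + 6) (by omega)
  have := pw (2 * (Nr + Nb) + 28 + 2 * N0) (by omega)
  have := pw (2 * (Nr + Nb) + 28) (by omega)
  have e1 : T ^ (2 * Nc + 6) * (X + R ^ 2) =
      T ^ (2 * Nc + 6 + 2 * N0) * R ^ 2 + T ^ (2 * Nc + 6) * R ^ 2 := by rw [hX2]; ring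
  have e2 : T ^ (2 * (Nr + Nb) + 28) * (X + R ^ 2) =
      T ^ (2 * (Nr + Nb) + 28 + 2 * N0) * R ^ 2 + T ^ (2 * (Nr + Nb) + 28) * R ^ 2 := by
    rw [hX2]; ring
  have : 0 ≤ (T ^ M * R) ^ 2 := sq_nonneg _
  linarith

namespace Par

/-- The crude bounds on all levels. -/
theorem levels (K : ℝ) (hK : 1 ≤ K) (Pe i : ℕ) : ∃ N : ℕ, ∀ c : Par, c.K = K → c.Pe = Pe →
    40 ≤ c.Pe → 12 ≤ c.j → i ≤ c.j + 4 → c.Pe + 20 ≤ c.Qe → ∀ s : ℝ, 0 ≤ s → s < 1 →
    ∀ᶠ t in 𝓝[>] (0 : ℝ), ∀ u b : ℝ × ℝ → ℝ, c.Sol t u b → ∀ q ≤ i,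
      ∫ z in c.rect t s, c.lev t u b q z ≤ ((t⁻¹) ^ N * c.rBd t q) ^ 2 := by
  induction i with
  | zero =>
    refine ⟨1, fun c _ _ h40 _ _ _ s hs hs1 => ?_⟩
    filter_upwards [bxEv_pos, bxiBase c (by omega)] with t ⟨ht, _⟩ hb u b h q hq
    refine (hb u b h s hs hs1.le q (by omega)).trans ?_
    rw [mul_pow, pow_one]
    exact le_mul_of_one_le_right (sq_nonneg _) (one_le_pow₀ (c.rBd_ge_one ht q))
  | succ i ih =>
    obtain ⟨N0, hN0⟩ := ih
    rcases le_or_gt (i + 1) 14 with hi | hi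
    · refine ⟨1, fun c _ _ h40 _ _ _ s hs hs1 => ?_⟩
      filter_upwards [bxEv_pos, bxiBase c (by omega)] with t ⟨ht, _⟩ hb u b h q hq
      refine (hb u b h s hs hs1.le q (by omega)).trans ?_
      rw [mul_pow, pow_one]
      exact le_mul_of_one_le_right (sq_nonneg _) (one_le_pow₀ (c.rBd_ge_one ht q))
    obtain ⟨N1, hN1⟩ := bxiSup K hK (i + 1) N0
    obtain ⟨N2, hN2⟩ := bxiSup K hK i N0
    obtain ⟨N3, hN3⟩ := bxiCore K hK Pe (i + 1) N0 (N1 + N2) (by omega)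
    obtain ⟨N4, hN4⟩ := bxiRest K hK Pe (i + 1) (N0 + N3) (N1 + N2) (by omega)
    refine ⟨N0 + N4, fun c hcK hPe h40 hj hij hQ s hs hs1 => ?_⟩
    obtain ⟨s2, hs2, hs2'⟩ := exists_between hs1
    obtain ⟨s3, hs3, hs3'⟩ := exists_between hs2'
    have h3 : 0 ≤ s3 := by linarith
    filter_upwards [bxEv_pos, hN0 c hcK hPe h40 hj (by omega) hQ s3 h3 hs3',
      hN1 c hcK (by omega) hj (by omega) hij s2 s3 (by linarith) hs3 hs3'.le,
      hN2 c hcK (by omega) hj (by omega) (by omega) s2 s3 (by linarith) hs3 hs3'.le,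
      hN3 c hcK hPe h40 hj hij hQ s s2 hs hs2 hs2'.le,
      hN4 c hcK hPe h40 hj hij hQ s hs hs1.le] with t ⟨ht, ht1⟩ h0 h1 h2 h3' h4 u b h q hq
    have hT1 : (1 : ℝ) ≤ t⁻¹ := (one_le_inv₀ ht).2 ht1
    have hl := h0 u b h
    have mono : ∀ {a b' : ℕ} (r : ℝ), a ≤ b' → 0 ≤ r →
        ((t⁻¹) ^ a * r) ^ 2 ≤ ((t⁻¹) ^ b' * r) ^ 2 := fun r hab hr => by
      gcongr
    have hrs : c.rect t s ⊆ c.rect t s3 := c.rect_subset ht.le (by linarith)
    have restr : ∀ {a : ℝ} {q : ℕ}, a ≤ s3 →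
        ∫ z in c.rect t a, c.lev t u b q z ≤ ∫ z in c.rect t s3, c.lev t u b q z := fun ha =>
      setIntegral_mono_set (c.intOn (c.lev_cont h.smu h.smb t _) t s3)
        (Eventually.of_forall fun z => c.lev_nonneg t u b _ z)
        (Eventually.of_forall (c.rect_subset ht.le ha))
    rcases Nat.lt_or_ge q (i + 1) with hqi | hqi
    · exact (restr (by linarith)).trans ((hl q (by omega)).trans
        (mono _ (by omega) (by linarith [c.rBd_ge_one ht q])))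
    obtain rfl : q = i + 1 := by omega
    have up : ∀ {k N : ℕ}, N ≤ N1 + N2 → ∀ z, SupAt t u b k N z → SupAt t u b k (N1 + N2) z :=
      fun hN z hz => ⟨fun p a b' => (hz.1 p a b').trans (pow_le_pow_right₀ hT1 hN), fun p a =>
        ⟨(hz.2 p a).1.trans (pow_le_pow_right₀ hT1 hN),
          (hz.2 p a).2.trans (pow_le_pow_right₀ hT1 hN)⟩⟩
    have S1 : ∀ z ∈ c.rect t s2, SupAt t u b (i + 1) (N1 + N2) z := fun z hz =>
      up (by omega) z (h1 u b h (fun q hq => hl q (by omega)) z hz)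
    have S2 : ∀ z ∈ c.rect t s2, SupAt t u b i (N1 + N2) z := fun z hz =>
      up (by omega) z (h2 u b h (fun q hq => hl q (by omega)) z hz)
    have lw : ∀ a, a ≤ s3 → ∀ q < i + 1,
        ∫ z in c.rect t a, c.lev t u b q z ≤ ((t⁻¹) ^ N0 * c.rBd t (i + 1)) ^ 2 := fun a ha q hq => by
      refine (restr ha).trans ((hl q (by omega)).trans ?_)
      have := c.rBd_ge_one ht q
      gcongr
      exact c.rBd_mono ht ht1 (by omega)
    have hD := h3' u b h S1 (lw s2 hs3.le)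
    have hR := c.rBd_ge_one ht (i + 1)
    refine (h4 u b h (fun z hz => ⟨S1 z (c.rect_subset ht.le hs2.le hz),
      S2 z (c.rect_subset ht.le hs2.le hz)⟩) ?_ (hD.trans (mono _ (by omega) (by linarith)))).trans
      (mono _ (by omega) (by linarith))
    exact fun q hq => (lw s (by linarith) q hq).trans (mono _ (by omega) (by linarith))

/-- The supremum bounds. -/
theorem sup_at (K : ℝ) (hK : 1 ≤ K) (Pe i : ℕ) : ∃ N : ℕ, ∀ c : Par, c.K = K → c.Pe = Pe →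
    40 ≤ c.Pe → 12 ≤ c.j → i ≤ c.j + 4 → c.Pe + 20 ≤ c.Qe → ∀ s : ℝ, 0 ≤ s → s < 1 →
    ∀ᶠ t in 𝓝[>] (0 : ℝ), ∀ u b : ℝ × ℝ → ℝ, c.Sol t u b → ∀ z ∈ c.rect t s,
      SupAt t u b i N z := by
  obtain ⟨N0, hN0⟩ := levels K hK Pe i
  obtain ⟨N, hN⟩ := bxiSup K hK i N0
  refine ⟨N, fun c hcK hPe h40 hj hij hQ s hs hs1 => ?_⟩
  obtain ⟨s', hs', hs''⟩ := exists_between hs1
  filter_upwards [hN0 c hcK hPe h40 hj hij hQ s' (by linarith) hs'',
    hN c hcK (by omega) hj (by omega) hij s s' hs hs' hs''.le] with t h0 h1 u b h z hz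
  exact h1 u b h (fun q hq => h0 u b h q hq.le) z hz

end Par

end Vale.Agent.P229
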