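import Vale.Agent.P229.Defs
import Mathlib.Analysis.Calculus.IteratedDeriv.Lemmas
import Mathlib.Analysis.Calculus.ContDiff.Bounds
import Mathlib.Algebra.Order.BigOperators.Group.Finset
import Mathlib.Data.Nat.Choose.Sum
import Mathlib.Tactic.Positivity
import Mathlib.Tactic.GCongr

/-!
# P229: derivative bounds for functions of one variable at a point

`Low i t0 φ B0 B E J` records that the derivatives of `φ` of order at most `6` are bounded by
`B0`, those of order at most `i - 5` by `B`, and those of order `< i` by `E + B0 * J`, where `J`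
stands for the size of the top derivatives of the unknown function.
-/

open scoped ContDiff
open Finset

namespace Vale.Agent.P229

/-- The derivative bounds. -/
structure Low (i : ℕ) (t0 : ℝ) (φ : ℝ → ℝ) (B0 B E J : ℝ) : Prop where
  smooth : ContDiffAt ℝ ∞ φ t0
  nonneg0 : 0 ≤ B0
  nonneg1 : 0 ≤ B
  nonneg2 : 0 ≤ E
  nonneg3 : 0 ≤ J
  low : ∀ l ≤ 6, |iteratedDeriv l φ t0| ≤ B0
  sup : ∀ l, l + 5 ≤ i → |iteratedDeriv l φ t0| ≤ B
  all : ∀ l < i, |iteratedDeriv l φ t0| ≤ E + B0 * J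

variable {i : ℕ} {t0 : ℝ} {φ ψ : ℝ → ℝ} {B0 B E J B0' B' E' : ℝ}

theorem Low.mono (h : Low i t0 φ B0 B E J) (h0 : B0 ≤ B0') (h1 : B ≤ B') (h2 : E ≤ E') :
    Low i t0 φ B0' B' E' J where
  smooth := h.smooth
  nonneg0 := h.nonneg0.trans h0
  nonneg1 := h.nonneg1.trans h1
  nonneg2 := h.nonneg2.trans h2
  nonneg3 := h.nonneg3
  low l hl := (h.low l hl).trans h0
  sup l hl := (h.sup l hl).trans h1
  all l hl := (h.all l hl).trans (add_le_add h2 (mul_le_mul_of_nonneg_right h0 h.nonneg3))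

theorem Low.add (h : Low i t0 φ B0 B E J) (h' : Low i t0 ψ B0' B' E' J) :
    Low i t0 (φ + ψ) (B0 + B0') (B + B') (E + E') J := by
  have key : ∀ l, iteratedDeriv l (φ + ψ) t0 = iteratedDeriv l φ t0 + iteratedDeriv l ψ t0 :=
    fun l => iteratedDeriv_add (h.smooth.of_le (WithTop.coe_le_coe.2 le_top))
      (h'.smooth.of_le (WithTop.coe_le_coe.2 le_top))
  have a := h.nonneg0
  have b := h.nonneg1
  have c := h.nonneg2
  have a' := h'.nonneg0
  have b' := h'.nonneg1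
  have c' := h'.nonneg2
  refine ⟨h.smooth.add h'.smooth, by linarith, by linarith, by linarith, h.nonneg3,
    fun l hl => ?_, fun l hl => ?_, fun l hl => ?_⟩ <;> rw [key] <;>
    refine (abs_add_le _ _).trans ?_
  · exact add_le_add (h.low l hl) (h'.low l hl)
  · exact add_le_add (h.sup l hl) (h'.sup l hl)
  · linarith [h.all l hl, h'.all l hl, add_mul B0 B0' J]

theorem bxAbs_iteratedDeriv_mul_le (hφ : ContDiffAt ℝ ∞ φ t0) (hψ : ContDiffAt ℝ ∞ ψ t0) (l : ℕ)
    (c : ℕ → ℝ)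
    (hc : ∀ q ≤ l, |iteratedDeriv q φ t0| * |iteratedDeriv (l - q) ψ t0| ≤ c q) :
    |iteratedDeriv l (φ * ψ) t0| ≤ ∑ q ∈ range (l + 1), (l.choose q : ℝ) * c q := by
  rw [iteratedDeriv_mul (hφ.of_le (WithTop.coe_le_coe.2 le_top))
    (hψ.of_le (WithTop.coe_le_coe.2 le_top))]
  refine (abs_sum_le_sum_abs _ _).trans (sum_le_sum fun q hq => ?_)
  rw [abs_mul, abs_mul, Nat.abs_cast, mul_assoc]
  exact mul_le_mul_of_nonneg_left (hc q (by simpa [Nat.lt_succ_iff] using hq)) (by positivity)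

theorem bxSum_choose_le (l i : ℕ) (hl : l ≤ i) {c : ℕ → ℝ} {M : ℝ} (hM : 0 ≤ M)
    (h : ∀ q ≤ l, c q ≤ M) : ∑ q ∈ range (l + 1), (l.choose q : ℝ) * c q ≤ 2 ^ i * M := by
  refine (sum_le_sum (g := fun q => (l.choose q : ℝ) * M) fun q hq =>
    mul_le_mul_of_nonneg_left (h q (by simpa [Nat.lt_succ_iff] using hq)) (by positivity)).trans ?_
  rw [← sum_mul, ← Nat.cast_sum, Nat.sum_range_choose]
  push_cast
  exact mul_le_mul_of_nonneg_right (pow_le_pow_right₀ (by norm_num) hl) hM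

theorem Low.mul (hi : 11 ≤ i) (h : Low i t0 φ B0 B E J) (h' : Low i t0 ψ B0' B' E' J) :
    Low i t0 (φ * ψ) (2 ^ i * (3 * (B0 * B0'))) (2 ^ i * (B * B'))
      (2 ^ i * (B0 * E' + B0' * E + B * B')) J := by
  have a := h.nonneg0
  have b := h.nonneg1
  have c := h.nonneg2
  have a' := h'.nonneg0
  have b' := h'.nonneg1
  have c' := h'.nonneg2
  have d := h.nonneg3
  refine ⟨h.smooth.mul h'.smooth, by positivity, by positivity, by positivity, h.nonneg3,
    fun l hl => ?_, fun l hl => ?_, fun l hl => ?_⟩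
  · refine (bxAbs_iteratedDeriv_mul_le h.smooth h'.smooth l (fun _ => B0 * B0') fun q hq => ?_).trans
      ((bxSum_choose_le l i (by omega) (by positivity) fun _ _ => le_rfl).trans ?_)
    · exact mul_le_mul (h.low q (by omega)) (h'.low _ (by omega)) (abs_nonneg _) a
    · nlinarith [mul_nonneg (by positivity : (0 : ℝ) ≤ 2 ^ i) (mul_nonneg a a')]
  · refine (bxAbs_iteratedDeriv_mul_le h.smooth h'.smooth l (fun _ => B * B') fun q hq => ?_).trans
      (bxSum_choose_le l i (by omega) (by positivity) fun _ _ => le_rfl)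
    exact mul_le_mul (h.sup q (by omega)) (h'.sup _ (by omega)) (abs_nonneg _) b
  · refine (bxAbs_iteratedDeriv_mul_le h.smooth h'.smooth l
      (fun _ => B0 * E' + B0' * E + B * B' + 3 * (B0 * B0') * J) fun q hq => ?_).trans
      ((bxSum_choose_le l i (by omega) (by positivity) fun _ _ => le_rfl).trans (le_of_eq (by ring)))
    have hJJ : 0 ≤ B0 * B0' * J := by positivity
    rcases le_or_gt q 6 with h6 | h6
    · have := mul_le_mul (h.low q h6) (h'.all (l - q) (by omega)) (abs_nonneg _) a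
      nlinarith [this, mul_nonneg a' c, mul_nonneg b b', hJJ]
    · rcases le_or_gt (l - q) 6 with h7 | h7
      · have := mul_le_mul (h.all q (by omega)) (h'.low (l - q) h7) (abs_nonneg _) (by positivity)
        nlinarith [this, mul_nonneg a c', mul_nonneg b b', hJJ]
      · have := mul_le_mul (h.sup q (by omega)) (h'.sup (l - q) (by omega)) (abs_nonneg _) b
        nlinarith [this, mul_nonneg a c', mul_nonneg a' c, hJJ]

/-- The middle terms of the Leibniz formula for a product. -/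
theorem Low.mul_top (hi : 11 ≤ i) (h : Low i t0 φ B0 B E J) (h' : Low i t0 ψ B0' B' E' J) :
    |iteratedDeriv i (φ * ψ) t0 - φ t0 * iteratedDeriv i ψ t0 - iteratedDeriv i φ t0 * ψ t0|
      ≤ 2 ^ i * (B0 * E' + B0' * E + B * B' + 2 * (B0 * B0') * J) := by
  have a := h.nonneg0
  have b := h.nonneg1
  have c := h.nonneg2
  have a' := h'.nonneg0
  have b' := h'.nonneg1
  have c' := h'.nonneg2
  have d := h.nonneg3
  obtain ⟨k, rfl⟩ : ∃ k, i = k + 1 := ⟨i - 1, by omega⟩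
  rw [iteratedDeriv_mul (h.smooth.of_le (WithTop.coe_le_coe.2 le_top))
    (h'.smooth.of_le (WithTop.coe_le_coe.2 le_top)), sum_range_succ, sum_range_succ']
  simp only [Nat.choose_self, Nat.choose_zero_right, Nat.cast_one, one_mul, Nat.sub_self,
    iteratedDeriv_zero, tsub_zero]
  rw [show ∀ x y w : ℝ, x + y + w - y - w = x from fun x y w => by ring]
  refine (abs_sum_le_sum_abs _ _).trans ?_
  set M : ℝ := B0 * E' + B0' * E + B * B' + 2 * (B0 * B0') * J with hM
  have hM0 : 0 ≤ M := by positivity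
  refine (sum_le_sum (g := fun q => ((k + 1).choose (q + 1) : ℝ) * M) fun q hq => ?_).trans ?_
  · rw [mem_range] at hq
    rw [abs_mul, abs_mul, Nat.abs_cast, mul_assoc]
    refine mul_le_mul_of_nonneg_left ?_ (by positivity)
    rcases le_or_gt (q + 1) 6 with h6 | h6
    · have := mul_le_mul (h.low (q + 1) h6) (h'.all (k + 1 - (q + 1)) (by omega)) (abs_nonneg _) a
      nlinarith [this, mul_nonneg a' c, mul_nonneg b b', mul_nonneg (mul_nonneg a a') d]
    · rcases le_or_gt (k + 1 - (q + 1)) 6 with h7 | h7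
      · have := mul_le_mul (h.all (q + 1) (by omega)) (h'.low (k + 1 - (q + 1)) h7) (abs_nonneg _)
          (by positivity)
        nlinarith [this, mul_nonneg a c', mul_nonneg b b', mul_nonneg (mul_nonneg a a') d]
      · have := mul_le_mul (h.sup (q + 1) (by omega)) (h'.sup (k + 1 - (q + 1)) (by omega))
          (abs_nonneg _) b
        nlinarith [this, mul_nonneg a c', mul_nonneg a' c, mul_nonneg (mul_nonneg a a') d]
  · rw [← sum_mul]
    refine mul_le_mul_of_nonneg_right ?_ hM0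
    have e := Nat.sum_range_choose (k + 1)
    rw [sum_range_succ'] at e
    have e' : ∑ q ∈ range k, (k + 1).choose (q + 1) ≤ 2 ^ (k + 1) := by
      rw [← e, sum_range_succ]; omega
    exact_mod_cast e'

theorem Low.const (i : ℕ) (t0 c : ℝ) {J : ℝ} (hJ : 0 ≤ J) :
    Low i t0 (fun _ => c) |c| |c| |c| J := by
  have key : ∀ l, |iteratedDeriv l (fun _ : ℝ => c) t0| ≤ |c| := by
    intro l; rw [iteratedDeriv_const]; split <;> simp
  exact ⟨contDiffAt_const, abs_nonneg _, abs_nonneg _, abs_nonneg _, hJ, fun l _ => key l,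
    fun l _ => key l, fun l _ => (key l).trans (le_add_of_nonneg_right (by positivity))⟩

section comp

variable {F : Type} [NormedAddCommGroup F] [NormedSpace ℝ F]

/-- Bounds on all derivatives of a composition from uniform bounds. -/
theorem bxComp_sup (l : ℕ) {S : ℝ → F} {G : F → ℝ} {t0 C D : ℝ} (hS : ContDiffAt ℝ ∞ S t0)
    (hG : ContDiffAt ℝ ∞ G (S t0)) (hC : ∀ q ≤ l, ‖iteratedFDeriv ℝ q G (S t0)‖ ≤ C)
    (hD : ∀ q, 1 ≤ q → q ≤ l → ‖iteratedDeriv q S t0‖ ≤ D ^ q) :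
    |iteratedDeriv l (G ∘ S) t0| ≤ l.factorial * C * D ^ l := by
  obtain ⟨O, hO, hGO⟩ := hG.contDiffOn (m := (l : ℕ∞ω)) (WithTop.coe_le_coe.2 le_top) (by simp)
  obtain ⟨V, hV, hSV⟩ := hS.contDiffOn (m := (l : ℕ∞ω)) (WithTop.coe_le_coe.2 le_top) (by simp)
  obtain ⟨O', hO'O, hO'o, hO'm⟩ := mem_nhds_iff.1 hO
  obtain ⟨V', hV'V, hV'o, hV'm⟩ := mem_nhds_iff.1
    (Filter.inter_mem hV (hS.continuousAt.preimage_mem_nhds (hO'o.mem_nhds hO'm)))
  rw [← Real.norm_eq_abs, ← norm_iteratedFDeriv_eq_norm_iteratedDeriv,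
    ← iteratedFDerivWithin_of_isOpen l hV'o hV'm]
  refine norm_iteratedFDerivWithin_comp_le (hGO.mono hO'O) (hSV.mono fun x hx => (hV'V hx).1)
    le_rfl hO'o.uniqueDiffOn hV'o.uniqueDiffOn (fun x hx => (hV'V hx).2) hV'm (fun q hq => ?_)
    fun q h1 hq => ?_
  · rw [iteratedFDerivWithin_of_isOpen q hO'o hO'm]; exact hC q hq
  · rw [iteratedFDerivWithin_of_isOpen q hV'o hV'm, norm_iteratedFDeriv_eq_norm_iteratedDeriv]
    exact hD q h1 hq

/-- Composition. -/
theorem bxComp_low (hT : TameSpec) (i : ℕ) (hi : 13 ≤ i) : ∃ C : ℝ, 1 ≤ C ∧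
    ∀ (F : Type) [NormedAddCommGroup F] [NormedSpace ℝ F] (S : ℝ → F) (G : F → ℝ)
      (t0 K0 Λ Es J : ℝ) (Γ : ℕ → ℝ),
      1 ≤ K0 → K0 ≤ Λ → 0 ≤ Es → 0 ≤ J → ContDiffAt ℝ ∞ S t0 → ContDiffAt ℝ ∞ G (S t0) →
      (∀ q ≤ i, ‖iteratedFDeriv ℝ q G (S t0)‖ ≤ Γ q) →
      (∀ l, 1 ≤ l → l ≤ 8 → ‖iteratedDeriv l S t0‖ ≤ K0) →
      (∀ l, 1 ≤ l → l + 5 ≤ i → ‖iteratedDeriv l S t0‖ ≤ Λ) →
      (∀ l, 1 ≤ l → l < i → ‖iteratedDeriv l S t0‖ ≤ Es + K0 * J) →
      Low i t0 (G ∘ S) (C * K0 ^ (i * i + 1) * ∑ q ∈ range 9, Γ q)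
        (C * Λ ^ (i * i) * ∑ q ∈ range (i - 4), Γ q)
        (C * (Λ ^ (i * i) * (∑ q ∈ range (i + 1), Γ q) + K0 ^ (i * i) * (∑ q ∈ range 9, Γ q) * Es))
        J ∧
      |iteratedDeriv i (G ∘ S) t0 - fderiv ℝ G (S t0) (iteratedDeriv i S t0)| ≤
        C * (Λ ^ (i * i) * (∑ q ∈ range (i + 1), Γ q)
          + K0 ^ (i * i + 1) * (∑ q ∈ range 9, Γ q) * (Es + J)) := by
  choose! Cl hCl0 hCl using hT
  set C : ℝ := 1 + i.factorial + 5 * ∑ l ∈ range (i + 1), |Cl l| with hCdef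
  have hCl' : ∀ l, 9 ≤ l → l ≤ i → 5 * Cl l ≤ C ∧ (i.factorial : ℝ) ≤ C := by
    intro l h9 hl
    have := single_le_sum (f := fun l => |Cl l|) (fun _ _ => abs_nonneg _)
      (mem_range.2 (by omega : l < i + 1))
    have h2 : (0 : ℝ) ≤ i.factorial := by positivity
    constructor
    · linarith [le_abs_self (Cl l)]
    · have : (0 : ℝ) ≤ ∑ l ∈ range (i + 1), |Cl l| := sum_nonneg fun _ _ => abs_nonneg _
      linarith
  have hfC : (i.factorial : ℝ) ≤ C := (hCl' i (by omega) le_rfl).2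
  have hC1 : (1 : ℝ) ≤ C := le_trans (by exact_mod_cast i.factorial_pos) hfC
  refine ⟨C + 1, by linarith, ?_⟩
  intro F _ _ S G t0 K0 Λ Es J Γ hK hKΛ hEs hJ hS hG hΓ hlow hsup hall
  have hΓ0 : ∀ q ≤ i, 0 ≤ Γ q := fun q hq => (norm_nonneg _).trans (hΓ q hq)
  have hΛ : 1 ≤ Λ := hK.trans hKΛ
  set G9 := ∑ q ∈ range 9, Γ q with hG9
  set Gi := ∑ q ∈ range (i + 1), Γ q with hGi
  set Gs := ∑ q ∈ range (i - 4), Γ q with hGs
  have g9 : 0 ≤ G9 := sum_nonneg fun q hq => hΓ0 q (by simp at hq; omega)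
  have gi : 0 ≤ Gi := sum_nonneg fun q hq => hΓ0 q (by simp at hq; omega)
  have gs : 0 ≤ Gs := sum_nonneg fun q hq => hΓ0 q (by simp at hq; omega)
  have pK : (1 : ℝ) ≤ K0 ^ (i * i) := one_le_pow₀ hK
  have pΛ : (1 : ℝ) ≤ Λ ^ (i * i) := one_le_pow₀ hΛ
  -- the uniform bound
  have supbound : ∀ (D : ℝ) (l m : ℕ), 1 ≤ D → l ≤ i → m ≤ i + 1 → l < m →
      (∀ q, 1 ≤ q → q ≤ l → ‖iteratedDeriv q S t0‖ ≤ D) →
      |iteratedDeriv l (G ∘ S) t0| ≤ (C + 1) * D ^ (i * i) * ∑ q ∈ range m, Γ q := by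
    intro D l m hD hl hm hlm hq
    have hsum : 0 ≤ ∑ q ∈ range m, Γ q := sum_nonneg fun q hq => hΓ0 q (by simp at hq; omega)
    refine (bxComp_sup l (C := ∑ q ∈ range m, Γ q) (D := D) hS hG (fun q hq' => ?_)
      fun q h1 hq' => (hq q h1 hq').trans (le_self_pow₀ hD (by omega))).trans ?_
    · exact (hΓ q (by omega)).trans
        (single_le_sum (fun q hq => hΓ0 q (by simp at hq; omega)) (mem_range.2 (by omega)))
    · rw [mul_right_comm (C + 1)]
      refine mul_le_mul (mul_le_mul_of_nonneg_right ?_ hsum)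
        (pow_le_pow_right₀ hD (by nlinarith)) (by positivity) (by positivity)
      have : (l.factorial : ℝ) ≤ i.factorial := by exact_mod_cast Nat.factorial_le hl
      linarith
  -- the top bound
  have hpow : ∀ {D : ℝ} {l : ℕ}, 1 ≤ D → l ≤ i → D ^ l ≤ D ^ (i * i) := fun hD hl =>
    pow_le_pow_right₀ hD (hl.trans (Nat.le_mul_self i))
  have top : ∀ l, 9 ≤ l → l ≤ i →
      |iteratedDeriv l (G ∘ S) t0 - fderiv ℝ G (S t0) (iteratedDeriv l S t0)| ≤
        C * (Λ ^ (i * i) * Gi + K0 ^ (i * i) * G9 * (Es + K0 * J)) := by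
    intro l h9 hl
    have h1 := hCl l h9 F S G t0 K0 Λ Γ hK hKΛ hS hG (fun q hq => hΓ q (hq.trans hl))
      (fun q h1 h4 => hlow q h1 (by omega)) (fun q h1 hq => hsup q h1 (by omega))
    rw [Real.norm_eq_abs] at h1
    refine h1.trans ?_
    have c0 := hCl0 l h9
    obtain ⟨c5, -⟩ := hCl' l h9 hl
    have s1 : ∑ q ∈ range (l + 1), Γ q ≤ Gi :=
      sum_le_sum_of_subset_of_nonneg (range_mono (by omega))
        fun q hq _ => hΓ0 q (by simp at hq; omega)
    have s2 : ∑ q ∈ range 7, Γ q ≤ G9 :=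
      sum_le_sum_of_subset_of_nonneg (range_mono (by omega))
        fun q hq _ => hΓ0 q (by simp at hq; omega)
    have s3 : ‖iteratedDeriv (l - 1) S t0‖ + ‖iteratedDeriv (l - 2) S t0‖ +
        ‖iteratedDeriv (l - 3) S t0‖ + ‖iteratedDeriv (l - 4) S t0‖ ≤ 4 * (Es + K0 * J) := by
      linarith [hall (l - 1) (by omega) (by omega), hall (l - 2) (by omega) (by omega),
        hall (l - 3) (by omega) (by omega), hall (l - 4) (by omega) (by omega)]
    have k0 : 0 ≤ Es + K0 * J := by positivity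
    have t1 : Cl l * Λ ^ l * (∑ q ∈ range (l + 1), Γ q) ≤ C * (Λ ^ (i * i) * Gi) := by
      rw [← mul_assoc]
      refine mul_le_mul ?_ s1 (sum_nonneg fun q hq => hΓ0 q (by simp at hq; omega)) (by positivity)
      exact mul_le_mul (by linarith) (hpow hΛ hl) (by positivity) (by linarith)
    have t2 : Cl l * K0 ^ l * (∑ q ∈ range 7, Γ q) *
        (‖iteratedDeriv (l - 1) S t0‖ + ‖iteratedDeriv (l - 2) S t0‖ +
          ‖iteratedDeriv (l - 3) S t0‖ + ‖iteratedDeriv (l - 4) S t0‖)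
        ≤ C * (K0 ^ (i * i) * G9 * (Es + K0 * J)) := by
      calc _ ≤ Cl l * K0 ^ (i * i) * G9 * (4 * (Es + K0 * J)) := by
            refine mul_le_mul ?_ s3 (by positivity) (by positivity)
            exact mul_le_mul (mul_le_mul_of_nonneg_left (hpow hK hl) c0) s2
              (sum_nonneg fun q hq => hΓ0 q (by simp at hq; omega)) (by positivity)
        _ = 4 * Cl l * (K0 ^ (i * i) * G9 * (Es + K0 * J)) := by ring
        _ ≤ _ := mul_le_mul_of_nonneg_right (by linarith) (by positivity)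
    linarith
  have hD1 : ‖fderiv ℝ G (S t0)‖ ≤ G9 := by
    have h := hΓ 1 (by omega)
    rw [norm_iteratedFDeriv_one] at h
    exact h.trans (single_le_sum (fun q hq => hΓ0 q (by simp at hq; omega)) (by simp))
  have g9i : G9 ≤ Gi := sum_le_sum_of_subset_of_nonneg (range_mono (by omega))
    fun q hq _ => hΓ0 q (by simp at hq; omega)
  have pK' : K0 ^ (i * i) ≤ K0 ^ (i * i + 1) := pow_le_pow_right₀ hK (by omega)
  have hKL : K0 ^ (i * i) ≤ Λ ^ (i * i) := pow_le_pow_left₀ (by linarith) hKΛ _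
  refine ⟨⟨hG.comp t0 hS, by positivity, by positivity, by positivity, hJ, fun l hl => ?_,
    fun l hl => ?_, fun l hl => ?_⟩, ?_⟩
  · exact (supbound K0 l 9 hK (by omega) (by omega) (by omega)
      fun q h1 hq => hlow q h1 (by omega)).trans (by gcongr)
  · exact supbound Λ l (i - 4) hΛ (by omega) (by omega) (by omega)
      fun q h1 hq => hsup q h1 (by omega)
  · rcases le_or_gt l 8 with h8 | h8
    · refine (supbound K0 l 9 hK (by omega) (by omega) (by omega)
        fun q h1 hq => hlow q h1 (by omega)).trans ?_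
      have h0 : K0 ^ (i * i) * G9 ≤ Λ ^ (i * i) * Gi := mul_le_mul hKL g9i g9 (by positivity)
      have h2 : 0 ≤ K0 ^ (i * i) * G9 * Es := by positivity
      have h3 : 0 ≤ (C + 1) * K0 ^ (i * i + 1) * G9 * J := by positivity
      nlinarith [mul_le_mul_of_nonneg_left h0 (by linarith : (0 : ℝ) ≤ C + 1),
        mul_nonneg (by linarith : (0 : ℝ) ≤ C + 1) h2]
    · have h1 := top l (by omega) hl.le
      have h2 : |fderiv ℝ G (S t0) (iteratedDeriv l S t0)| ≤ G9 * (Es + K0 * J) := by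
        rw [← Real.norm_eq_abs]
        exact ((fderiv ℝ G (S t0)).le_opNorm _).trans
          (mul_le_mul hD1 (hall l (by omega) hl) (norm_nonneg _) g9)
      have h3 : |iteratedDeriv l (G ∘ S) t0| ≤
          |fderiv ℝ G (S t0) (iteratedDeriv l S t0)| +
          |iteratedDeriv l (G ∘ S) t0 - fderiv ℝ G (S t0) (iteratedDeriv l S t0)| := by
        simpa using abs_add_le (fderiv ℝ G (S t0) (iteratedDeriv l S t0))
          (iteratedDeriv l (G ∘ S) t0 - fderiv ℝ G (S t0) (iteratedDeriv l S t0))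
      have a1 : G9 * Es ≤ K0 ^ (i * i) * G9 * Es :=
        mul_le_mul_of_nonneg_right (le_mul_of_one_le_left g9 pK) hEs
      have a2 : G9 * (K0 * J) ≤ K0 ^ (i * i + 1) * G9 * J := by
        rw [pow_succ]
        nlinarith [mul_le_mul_of_nonneg_right pK (by positivity : (0 : ℝ) ≤ G9 * (K0 * J))]
      have a3 : 0 ≤ Λ ^ (i * i) * Gi := by positivity
      have a4 : C * (K0 ^ (i * i) * G9 * (K0 * J)) = C * (K0 ^ (i * i + 1) * G9 * J) := by
        rw [pow_succ]; ring
      nlinarith [h1, h2, h3, a1, a2, a3, a4]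
  · refine (top i (by omega) le_rfl).trans ?_
    have a1 : K0 ^ (i * i) * G9 * Es ≤ K0 ^ (i * i + 1) * G9 * Es := by gcongr
    have a4 : K0 ^ (i * i) * G9 * (K0 * J) = K0 ^ (i * i + 1) * G9 * J := by
      rw [pow_succ]; ring
    have a5 : 0 ≤ Λ ^ (i * i) * Gi + K0 ^ (i * i + 1) * G9 * (Es + J) := by positivity
    nlinarith [mul_le_mul_of_nonneg_left a1 (by linarith : (0 : ℝ) ≤ C), a4, a5]

end comp

end Vale.Agent.P229
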