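import Vale.Agent.P229.BoxSrc
import Vale.Agent.P229.BoxCoefBd2
import Mathlib.Algebra.Order.Chebyshev

/-!
# P229: the levels of the induction

`rBd q` is the size allowed to the level `q`, `lev q` the density of the level `q`.
-/

open scoped ContDiff Topology
open MeasureTheory Set Filter

namespace Vale.Agent.P229

/-- `1` plus the size of the source of level `q`. -/
noncomputable def Par.rBd (c : Par) (t : ℝ) (q : ℕ) : ℝ := 1 + c.ε t / c.δ t ^ q * c.ym t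

/-- The density of the level `q`. -/
noncomputable def Par.lev (c : Par) (t : ℝ) (u b : ℝ × ℝ → ℝ) (q : ℕ) (z : ℝ × ℝ) : ℝ :=
  dX^[q] (dY u) z ^ 2 + c.W t z.2 * dX^[q + 1] u z ^ 2 + dX^[q] u z ^ 2 + dX^[q] b z ^ 2 +
    dX^[q - 1] (dY (dY u)) z ^ 2

namespace Par

variable (c : Par) {t : ℝ} {u b : ℝ × ℝ → ℝ}

theorem W_cont (t : ℝ) : Continuous fun z : ℝ × ℝ => c.W t z.2 := by
  unfold W; fun_prop

theorem om_cont (t : ℝ) : Continuous fun z : ℝ × ℝ => c.om t z.2 := by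
  unfold om; exact (c.W_cont t).sqrt

theorem lev_nonneg (t : ℝ) (u b : ℝ × ℝ → ℝ) (q : ℕ) (z : ℝ × ℝ) : 0 ≤ c.lev t u b q z := by
  have : 0 ≤ c.W t z.2 := by unfold W; positivity
  unfold lev; positivity

theorem lev_cont (hu : ContDiff ℝ ∞ u) (hb : ContDiff ℝ ∞ b) (t : ℝ) (q : ℕ) :
    Continuous (c.lev t u b q) := by
  have a := fun {f : ℝ × ℝ → ℝ} (hf : ContDiff ℝ ∞ f) (k : ℕ) => (bxSmooth_iter hf k).continuous
  exact (((((a (bxSmooth_dY hu) q).pow 2).add ((c.W_cont t).mul ((a hu (q + 1)).pow 2))).add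
    ((a hu q).pow 2)).add ((a hb q).pow 2)).add ((a (bxSmooth_dY (bxSmooth_dY hu)) (q - 1)).pow 2)

theorem rBd_ge_one (ht : 0 < t) (q : ℕ) : 1 ≤ c.rBd t q := by
  have := c.ε_pos ht
  have := c.bxδ_pos ht
  have : 0 ≤ c.ym t := pow_nonneg ht.le _
  exact le_add_of_nonneg_right (by positivity)

theorem rBd_mono (ht : 0 < t) (ht1 : t ≤ 1) {q q' : ℕ} (h : q ≤ q') :
    c.rBd t q ≤ c.rBd t q' := by
  have hd := c.bxδ_pos ht
  refine add_le_add le_rfl (mul_le_mul_of_nonneg_right ?_ (pow_nonneg ht.le _))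
  exact div_le_div_of_nonneg_left (c.ε_pos ht).le (pow_pos hd _)
    (pow_le_pow_of_le_one hd.le ((c.bxδ_le ht ht1).trans ht1) h)

theorem εδ_le_one (ht : 0 < t) (ht1 : t ≤ 1) {q : ℕ} (h : q ≤ c.j + 1) :
    c.ε t / c.δ t ^ q ≤ 1 := by
  have hd := c.bxδ_pos ht
  rw [div_le_one (pow_pos hd _)]
  exact pow_le_pow_of_le_one hd.le ((c.bxδ_le ht ht1).trans ht1) h

theorem rBd_le_two (ht : 0 < t) (ht1 : t ≤ 1) {q : ℕ} (h : q ≤ c.j + 1) : c.rBd t q ≤ 2 := by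
  have hy : c.ym t ≤ 1 := pow_le_one₀ ht.le ht1
  have : c.ε t / c.δ t ^ q * c.ym t ≤ 1 :=
    mul_le_one₀ (c.εδ_le_one ht ht1 h) (pow_nonneg ht.le _) hy
  unfold rBd; linarith

/-- The inverse of the size of the bump. -/
theorem δ_inv_le : ∀ᶠ t in 𝓝[>] (0 : ℝ), (c.δ t)⁻¹ ≤ (t⁻¹) ^ (2 * c.Qe - c.Pe + 1) := by
  filter_upwards [bxEv_pos, bxEv_T c.c1⁻¹] with t ⟨ht, _⟩ hC
  unfold δ
  rw [mul_inv, pow_succ' (t⁻¹), inv_pow]
  exact mul_le_mul_of_nonneg_right hC (by positivity)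

/-- The sizes of the top levels. -/
theorem rBd_top (hP : 2 ≤ c.Pe) (hQ : c.Pe + 4 ≤ c.Qe) : ∀ᶠ t in 𝓝[>] (0 : ℝ), ∀ a ≤ 3,
    ∀ q ≤ c.j + 1 + a, c.rBd t q ≤ (t⁻¹) ^ (4 + (2 * a - 1) * c.Qe) := by
  filter_upwards [bxEv_pos, c.δ_inv_le, bxEv_T 2] with t ⟨ht, ht1⟩ hd hT a ha q hq
  have hδ := c.bxδ_pos ht
  have hT1 : (1 : ℝ) ≤ t⁻¹ := (one_le_inv₀ ht).2 ht1
  refine (c.rBd_mono ht ht1 hq).trans ?_
  rcases Nat.eq_zero_or_pos a with rfl | ha1
  · exact ((c.rBd_le_two ht ht1 le_rfl).trans hT).trans (le_self_pow₀ hT1 (by omega))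
  have e : c.ε t / c.δ t ^ (c.j + 1 + a) = (c.δ t)⁻¹ ^ a := by
    rw [ε, pow_add (c.δ t) (c.j + 1) a, div_mul_eq_div_div, div_self (pow_ne_zero _ hδ.ne'), one_div,
      inv_pow]
  have b : c.ε t / c.δ t ^ (c.j + 1 + a) * c.ym t ≤ (t⁻¹) ^ (3 + (2 * a - 1) * c.Qe) := by
    rw [e]
    calc (c.δ t)⁻¹ ^ a * c.ym t ≤ ((t⁻¹) ^ (2 * c.Qe - c.Pe + 1)) ^ a * c.ym t := by
          have : 0 ≤ c.ym t := pow_nonneg ht.le _
          gcongr
      _ = (t⁻¹) ^ ((2 * c.Qe - c.Pe + 1) * a) * t ^ (c.Qe - c.Pe) := by rw [ym, ← pow_mul]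
      _ ≤ (t⁻¹) ^ (3 + (2 * a - 1) * c.Qe + (c.Qe - c.Pe)) * t ^ (c.Qe - c.Pe) := by
          refine mul_le_mul_of_nonneg_right (pow_le_pow_right₀ hT1 ?_) (by positivity)
          interval_cases a <;> omega
      _ = _ := by
          rw [pow_add, mul_assoc, ← mul_pow, inv_mul_cancel₀ ht.ne', one_pow, mul_one]
  have h1 : 1 ≤ (t⁻¹) ^ (3 + (2 * a - 1) * c.Qe) := one_le_pow₀ hT1
  calc c.rBd t (c.j + 1 + a) ≤ 2 * (t⁻¹) ^ (3 + (2 * a - 1) * c.Qe) := by unfold rBd; linarith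
    _ ≤ t⁻¹ * (t⁻¹) ^ (3 + (2 * a - 1) * c.Qe) := by gcongr
    _ = _ := by rw [← pow_succ']; congr 1; ring

/-- The areas. -/
theorem rect_area : ∀ᶠ t in 𝓝[>] (0 : ℝ), ∀ s, 0 ≤ s → s ≤ 1 →
    ∫ _ in c.rect t s, (1 : ℝ) ≤ t⁻¹ ∧ ∫ z in c.rect t s, c.indB t z ≤ t⁻¹ * c.δ t ^ 2 ∧
      ∫ z in c.bumpSet t, (1 : ℝ) ≤ t⁻¹ * c.δ t ^ 2 := by
  have hp := c.bxpOut_pos
  have hK := c.one_le_K
  filter_upwards [bxEv_pos, bxEv_T (12 * c.pOut + 16 * c.K * (c.K + 1))] with t ⟨ht, ht1⟩ hT s hs0 hs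
  have hd := c.bxδ_pos ht
  have hbm : MeasurableSet (c.bumpSet t) :=
    ((isClosed_le continuous_fst.abs continuous_const).inter
      (isClosed_le continuous_snd.abs continuous_const)).measurableSet
  have vol : ∀ A B : ℝ, 0 ≤ A → 0 ≤ B →
      volume.real (Icc (-A) A ×ˢ Icc (-B) B) = 4 * A * B := fun A B hA hB => by
    rw [Measure.real, Measure.volume_eq_prod, Measure.prod_prod, Real.volume_Icc, Real.volume_Icc,
      ENNReal.toReal_mul, ENNReal.toReal_ofReal (by linarith), ENNReal.toReal_ofReal (by linarith)]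
    ring
  have hb : volume.real (c.bumpSet t) ≤ t⁻¹ * c.δ t ^ 2 := by
    have e : c.bumpSet t = Icc (-(2 * c.K * (c.K + 1) * c.δ t)) (2 * c.K * (c.K + 1) * c.δ t) ×ˢ
        Icc (-(2 * c.δ t)) (2 * c.δ t) := by
      ext z; simp only [bumpSet, mem_ofPred_eq, abs_le, mem_prod, mem_Icc]
    rw [e, vol _ _ (by positivity) (by positivity)]
    calc 4 * (2 * c.K * (c.K + 1) * c.δ t) * (2 * c.δ t)
        = (16 * c.K * (c.K + 1)) * c.δ t ^ 2 := by ring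
      _ ≤ _ := mul_le_mul_of_nonneg_right (by linarith) (by positivity)
  have hbf : volume (c.bumpSet t) ≠ ⊤ := by
    refine ne_top_of_le_ne_top (isCompact_Icc.prod isCompact_Icc).measure_lt_top.ne
      (measure_mono (s := c.bumpSet t) (t := Icc (-(2 * c.K * (c.K + 1) * c.δ t))
        (2 * c.K * (c.K + 1) * c.δ t) ×ˢ Icc (-(2 * c.δ t)) (2 * c.δ t)) fun z hz => ?_)
    exact ⟨abs_le.1 hz.1, abs_le.1 hz.2⟩
  refine ⟨?_, ?_, by simpa using hb⟩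
  · rw [setIntegral_const, smul_eq_mul, mul_one, c.rect_eq, vol _ _ (by positivity) (by positivity)]
    calc 4 * (c.pOut * (2 + s) * t) * ((1 + s) / 2 * t)
        ≤ 4 * (c.pOut * (2 + 1) * t) * ((1 + 1) / 2 * t) := by gcongr
      _ = 12 * c.pOut * (t * t) := by ring
      _ ≤ t⁻¹ * 1 := by
          gcongr
          · nlinarith
          · exact mul_le_one₀ ht1 ht.le ht1
      _ = _ := mul_one _
  · unfold indB
    rw [setIntegral_indicator hbm, setIntegral_const, smul_eq_mul, mul_one]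
    exact (measureReal_mono inter_subset_right hbf).trans hb

theorem intOn {f : ℝ × ℝ → ℝ} (hf : Continuous f) (t s : ℝ) : IntegrableOn f (c.rect t s) :=
  hf.continuousOn.integrableOn_compact (c.rect_compact t s)

end Par

/-- Integrals of pointwise bounds on a rectangle. -/
theorem bxSetInt_le (c : Par) {t s : ℝ} {f g : ℝ × ℝ → ℝ} (hf : Continuous f)
    (hg : IntegrableOn g (c.rect t s)) (h : ∀ z ∈ c.rect t s, f z ≤ g z) :
    ∫ z in c.rect t s, f z ≤ ∫ z in c.rect t s, g z :=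
  setIntegral_mono_on (c.intOn hf t s) hg (c.rect_compact t s).measurableSet h

/-- `lowJ` is controlled by the four previous levels. -/
theorem bxLowJ_sq (c : Par) (t : ℝ) (u b : ℝ × ℝ → ℝ) (i : ℕ) (z : ℝ × ℝ) :
    lowJ u b i z ^ 2 ≤ 12 * ∑ m ∈ Finset.range 4, c.lev t u b (i - 1 - m) z := by
  have hW : ∀ q, 0 ≤ c.W t z.2 * dX^[q] u z ^ 2 := fun q =>
    mul_nonneg (by unfold Par.W; positivity) (sq_nonneg _)
  have e : ∀ q, (|dX^[q] u z| + |dX^[q] (dY u) z| + |dX^[q] b z|) ^ 2 ≤ 3 * c.lev t u b q z := by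
    intro q
    have := hW (q + 1)
    have := sq_abs (dX^[q] u z)
    have := sq_abs (dX^[q] (dY u) z)
    have := sq_abs (dX^[q] b z)
    unfold Par.lev
    nlinarith [sq_nonneg (|dX^[q] u z| - |dX^[q] (dY u) z|), sq_nonneg (|dX^[q] u z| - |dX^[q] b z|),
      sq_nonneg (|dX^[q] (dY u) z| - |dX^[q] b z|), sq_nonneg (dX^[q - 1] (dY (dY u)) z)]
  refine (sq_sum_le_card_mul_sum_sq (s := Finset.range 4)).trans ?_
  rw [Finset.card_range, Finset.mul_sum, Finset.mul_sum]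
  refine Finset.sum_le_sum fun m _ => ?_
  have := e (i - 1 - m)
  push_cast
  linarith

theorem bxLowJ_cont {u b : ℝ × ℝ → ℝ} (hu : ContDiff ℝ ∞ u) (hb : ContDiff ℝ ∞ b) (i : ℕ) :
    Continuous (lowJ u b i) := by
  refine continuous_finsetSum _ fun m _ => ?_
  exact (((bxSmooth_iter hu _).continuous.abs).add
    (bxSmooth_iter (bxSmooth_dY hu) _).continuous.abs).add (bxSmooth_iter hb _).continuous.abs

end Vale.Agent.P229
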