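import Vale.Agent.P229.BoxCoefBd2
import Mathlib.Analysis.Calculus.MeanValue

/-!
# P229: auxiliary facts for the positivity of the quadratic form
-/

open scoped ContDiff Topology
open Set Filter

namespace Vale.Agent.P229

/-- The lens and the walls: the main term of the coefficient of `W_p²`. -/
theorem bxBracket {τ cz Q u L A a y : ℝ} (hτ0 : 0 ≤ τ) (hτ : τ ≤ 1 / 8)
    (hcz : ∀ s, cz ≤ zeta0 s ^ 2 + (-(s * deriv zeta0 s))) (hL : 0 < L)
    (hQ : L ≤ |u| → u ^ 2 ≤ Q * u) :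
    min (1 / 4) (τ * cz) * (a ^ 2 + A ^ 2 * y ^ 2) ≤
      -τ * zeta0 (u / L) * (A ^ 2 * y ^ 2 - a ^ 2 * zeta0 (u / L))
        + -(a ^ 2 / L * deriv zeta0 (u / L)) * Q + 2 * A ^ 2 * y * (y / 4) := by
  have hs := hcz (u / L)
  have hn := bxZeta0_mul_deriv (u / L)
  have key : -(u / L * deriv zeta0 (u / L)) ≤ -(deriv zeta0 (u / L) / L) * Q := by
    rcases lt_or_ge |u / L| 1 with h | h
    · have : deriv zeta0 (u / L) = 0 := by simpa using bxZeta0_iter_zero h 0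
      simp [this]
    · rw [abs_div, abs_of_pos hL, le_div_iff₀ hL, one_mul] at h
      have hu : u ≠ 0 := by intro h0; rw [h0, abs_zero] at h; linarith
      have hu2 : 0 < u ^ 2 := by positivity
      have h2 : 1 ≤ Q * u / u ^ 2 := by rw [le_div_iff₀ hu2, one_mul]; exact hQ h
      calc -(u / L * deriv zeta0 (u / L)) ≤ -(u / L * deriv zeta0 (u / L)) * (Q * u / u ^ 2) :=
            le_mul_of_one_le_right (neg_nonneg.2 hn) h2
        _ = _ := by field_simp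
  have hn' : 0 ≤ -(u / L * deriv zeta0 (u / L)) := neg_nonneg.2 hn
  have h1 : τ * cz ≤ τ * zeta0 (u / L) ^ 2 + -(deriv zeta0 (u / L) / L) * Q := by
    have := mul_le_mul_of_nonneg_left hs hτ0
    have := mul_le_mul_of_nonneg_right (show τ ≤ 1 by linarith) hn'
    linarith
  have hA : 0 ≤ A ^ 2 * y ^ 2 := by positivity
  have e1 := mul_le_mul_of_nonneg_right (min_le_right (1 / 4) (τ * cz)) (sq_nonneg a)
  have e2 := mul_le_mul_of_nonneg_left h1 (sq_nonneg a)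
  have e3 := mul_le_mul_of_nonneg_right (min_le_left (1 / 4) (τ * cz)) hA
  have e4 : τ * zeta0 (u / L) ≤ 1 / 8 :=
    (mul_le_mul_of_nonneg_left ((le_abs_self _).trans (bxZeta0_abs _)) hτ0).trans (by linarith)
  have e5 := mul_le_mul_of_nonneg_right e4 hA
  have e6 : -(a ^ 2 / L * deriv zeta0 (u / L)) * Q
      = a ^ 2 * (-(deriv zeta0 (u / L) / L) * Q) := by ring
  linarith

/-- Where the lens has an edge, `P u_p` is essentially `u`. -/
theorem bxQ_lower {a u v r : ℝ} (ha : 3 / 2 ≤ a) (h : |v| + |r| ≤ |u| / 16) :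
    u ^ 2 ≤ (a * (u - v - r) + v / 4) * u := by
  have h1 : v * u ≤ |v| * |u| := by rw [← abs_mul]; exact le_abs_self _
  have h2 : r * u ≤ |r| * |u| := by rw [← abs_mul]; exact le_abs_self _
  have h3 := mul_le_mul_of_nonneg_left h1 (by linarith : 0 ≤ a - 1 / 4)
  have h4 := mul_le_mul_of_nonneg_left h2 (by linarith : (0 : ℝ) ≤ a)
  have h5 := mul_le_mul_of_nonneg_right h (abs_nonneg u)
  have h6 := mul_le_mul_of_nonneg_left h5 (by linarith : (0 : ℝ) ≤ a)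
  have h7 : 0 ≤ |v| * |u| := by positivity
  have e : |u| * |u| = u ^ 2 := by rw [abs_mul_abs_self, pow_two]
  have h8 := mul_le_mul_of_nonneg_right ha (sq_nonneg u)
  have e' : |u| / 16 * |u| = u ^ 2 / 16 := by rw [← e]; ring
  rw [e'] at h6
  linarith [sq_nonneg u]

/-- The cross terms are absorbed. -/
theorem bxQuad_pos {yy pp yp oy op oo a b q W om t ν : ℝ} (hom : 0 ≤ om) (hW : om ^ 2 = W)
    (ht : 0 < t) (ht' : t ≤ 1 / 16) (hν : ν ≤ t) (hν' : 0 ≤ ν) (hyy : 1 / 4 ≤ yy)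
    (hpp : 2 * t * W ≤ pp) (hyp : |yp| ≤ ν * om) (hoy : |oy| ≤ ν) (hop : |op| ≤ ν * om)
    (hoo : |oo| ≤ 1 / (128 * t ^ 2)) :
    a ^ 2 / 8 + t * W * b ^ 2 - q ^ 2 / (64 * t ^ 2) ≤
      yy * a ^ 2 + pp * b ^ 2 + yp * (a * b) + oy * (q * a) + op * (q * b) + oo * q ^ 2 := by
  have am : ∀ x y : ℝ, |x| * |y| ≤ (x ^ 2 + y ^ 2) / 2 := fun x y => by
    rw [← sq_abs x, ← sq_abs y]; nlinarith [sq_nonneg (|x| - |y|)]
  have c1 : |yp * (a * b)| ≤ ν * ((a ^ 2 + W * b ^ 2) / 2) := by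
    rw [abs_mul]
    calc |yp| * |a * b| ≤ ν * om * |a * b| := by gcongr
      _ = ν * (|a| * |om * b|) := by rw [abs_mul, abs_mul, abs_of_nonneg hom]; ring
      _ ≤ ν * ((a ^ 2 + (om * b) ^ 2) / 2) := mul_le_mul_of_nonneg_left (am _ _) hν'
      _ = _ := by rw [mul_pow, hW]
  have c2 : |oy * (q * a)| ≤ ν * ((q ^ 2 + a ^ 2) / 2) := by
    rw [abs_mul, abs_mul q]
    exact mul_le_mul hoy (am _ _) (by positivity) hν'
  have c3 : |op * (q * b)| ≤ ν * ((q ^ 2 + W * b ^ 2) / 2) := by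
    rw [abs_mul]
    calc |op| * |q * b| ≤ ν * om * |q * b| := by gcongr
      _ = ν * (|q| * |om * b|) := by rw [abs_mul, abs_mul, abs_of_nonneg hom]; ring
      _ ≤ ν * ((q ^ 2 + (om * b) ^ 2) / 2) := mul_le_mul_of_nonneg_left (am _ _) hν'
      _ = _ := by rw [mul_pow, hW]
  have hWb : 0 ≤ W * b ^ 2 := by rw [← hW]; positivity
  have k1 := mul_le_mul_of_nonneg_right hyy (sq_nonneg a)
  have k2 := mul_le_mul_of_nonneg_right hpp (sq_nonneg b)
  have k3 := mul_le_mul_of_nonneg_right (abs_le.1 hoo).1 (sq_nonneg q)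
  have k4 : t * q ^ 2 ≤ 1 / (128 * t ^ 2) * q ^ 2 := by
    gcongr
    rw [le_div_iff₀ (by positivity)]
    calc t * (128 * t ^ 2) = 128 * t ^ 3 := by ring
      _ ≤ 128 * (1 / 16) ^ 3 := by gcongr
      _ ≤ 1 := by norm_num
  have k5 := mul_le_mul_of_nonneg_right hν (sq_nonneg a)
  have k6 := mul_le_mul_of_nonneg_right hν (sq_nonneg q)
  have k7 := mul_le_mul_of_nonneg_right hν hWb
  have k8 := mul_le_mul_of_nonneg_right (show t ≤ 1 / 16 by linarith) (sq_nonneg a)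
  have e : q ^ 2 / (64 * t ^ 2) = 2 * (1 / (128 * t ^ 2) * q ^ 2) := by field_simp; ring
  linear_combination (abs_le.1 c1).1 + (abs_le.1 c2).1 + (abs_le.1 c3).1 + k1 + k2 + k3 + k4
    + k5 + k6 + k7 + k8 + sq_nonneg a * (1 / 16) + e

/-- The error of the coefficient of `W_p²`. -/
theorem bxCppErr {i τ z0 a ap ay hy γ γy p uy x1 x2 d0 d1 d2 P ze kB kF kxB kxF kyB kyF e1 e2
    M t W : ℝ} (hM : 1 ≤ M) (ht : 0 < t) (hW : 0 ≤ W) (hi0 : 0 ≤ i) (hi : i ≤ M) (hτ0 : 0 ≤ τ)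
    (hτ : τ ≤ 1) (hz0 : |z0| ≤ 1) (ha : |a| ≤ M) (hap : |ap| ≤ M) (hay : |ay| ≤ M)
    (hhy : |hy| ≤ M) (hγ : |γ| ≤ M * t) (hγy : |γy| ≤ M) (hp : |p| ≤ M) (huy : |uy| ≤ M)
    (hx1 : |x1| ≤ M) (hx2 : |x2| ≤ M) (hd0 : |d0| ≤ M) (hd1 : |d1| ≤ M) (hd2 : |d2| ≤ M)
    (ht1 : t ≤ 1) (hP : |P| ≤ M * t) (hze : |ze| ≤ M * t) (hk : |kB + kF| ≤ 2 * W)
    (hkxB : |kxB| ≤ M * W * t⁻¹) (hkyB : |kyB| ≤ 1) (hkF : |kF| ≤ t * W) (hkxF : |kxF| ≤ t * W)
    (hkyF : |kyF| ≤ t * W) (he1 : |e1 - 2 * p * a| ≤ M * t) (he2 : |e2 - 2 * γ * a| ≤ M * W) :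
    |P * (kB + kF) * (-ap / 2 + i * ap - a * γy - hy + x1 * d2 + 2 * x2 * d1 + d0)
      + ze / 2 * (kB + kF) * ay + P * kxB * (e1 - 2 * p * a) + P * kyB * (e2 - 2 * γ * a)
      - 2 * a * P * γ * uy * kxB + kxF * (a * ((i - 1 / 2) * P * p + ze * uy / 2 - P * γ * uy))
      + kyF * (a * (ze / 2 - P * γ)) - τ * z0 * a * kF| ≤ 50 * M ^ 5 * (t * W) := by
  have hM0 : 0 ≤ M := by linarith
  have tW : 0 ≤ t * W := mul_nonneg ht.le hW
  have pw : ∀ k ≤ 5, M ^ k ≤ M ^ 5 := fun k hk => pow_le_pow_right₀ hM hk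
  have q1 : |-ap / 2 + i * ap - a * γy - hy + x1 * d2 + 2 * x2 * d1 + d0| ≤ 8 * M ^ 2 := by
    refine abs_le.2 ?_
    have b1 : |i * ap| ≤ M * M := by rw [abs_mul, abs_of_nonneg hi0]; gcongr
    have b2 : |a * γy| ≤ M * M := by rw [abs_mul]; gcongr
    have b3 : |x1 * d2| ≤ M * M := by rw [abs_mul]; gcongr
    have b4 : |x2 * d1| ≤ M * M := by rw [abs_mul]; gcongr
    have b5 : M ≤ M * M := le_mul_of_one_le_left hM0 hM
    rw [abs_le] at b1 b2 b3 b4 hap hhy hd0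
    constructor <;> linarith [b1.1, b1.2, b2.1, b2.2, b3.1, b3.2, b4.1, b4.2, hap.1, hap.2,
      hhy.1, hhy.2, hd0.1, hd0.2]
  have T1 : |P * (kB + kF) * (-ap / 2 + i * ap - a * γy - hy + x1 * d2 + 2 * x2 * d1 + d0)|
      ≤ 16 * M ^ 3 * (t * W) := by
    rw [abs_mul, abs_mul]
    calc _ ≤ M * t * (2 * W) * (8 * M ^ 2) := by gcongr
      _ = _ := by ring
  have T2 : |ze / 2 * (kB + kF) * ay| ≤ M ^ 2 * (t * W) := by
    rw [abs_mul, abs_mul, abs_div, abs_two]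
    calc _ ≤ M * t / 2 * (2 * W) * M := by gcongr
      _ = _ := by ring
  have T3 : |P * kxB * (e1 - 2 * p * a)| ≤ M ^ 3 * (t * W) := by
    rw [abs_mul, abs_mul]
    calc _ ≤ M * t * (M * W * t⁻¹) * (M * t) := by gcongr
      _ = _ := by field_simp
  have T4 : |P * kyB * (e2 - 2 * γ * a)| ≤ M ^ 2 * (t * W) := by
    rw [abs_mul, abs_mul]
    calc _ ≤ M * t * 1 * (M * W) := by gcongr
      _ = _ := by ring
  have T5 : |2 * a * P * γ * uy * kxB| ≤ 2 * M ^ 5 * (t * W) := by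
    rw [abs_mul, abs_mul, abs_mul, abs_mul, abs_mul, abs_two]
    calc _ ≤ 2 * M * (M * t) * (M * t) * M * (M * W * t⁻¹) := by gcongr
      _ = _ := by field_simp
  have hPγ : |P * γ| ≤ M * M := by
    rw [abs_mul]
    calc |P| * |γ| ≤ M * 1 * (M * 1) := by
          gcongr
          · exact hP.trans (by gcongr)
          · exact hγ.trans (by gcongr)
      _ = _ := by ring
  have hze1 : |ze| ≤ M := hze.trans (mul_le_of_le_one_right hM0 ht1)
  have hP1 : |P| ≤ M := hP.trans (mul_le_of_le_one_right hM0 ht1)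
  have T6 : |kxF * (a * ((i - 1 / 2) * P * p + ze * uy / 2 - P * γ * uy))| ≤ 4 * M ^ 5 * (t * W) := by
    have b1 : |(i - 1 / 2) * P * p + ze * uy / 2 - P * γ * uy| ≤ 4 * M ^ 3 := by
      have c1 : |(i - 1 / 2) * P * p| ≤ 2 * M * M * M := by
        rw [abs_mul, abs_mul]; gcongr
        rw [abs_le]; constructor <;> linarith
      have c2 : |ze * uy| ≤ M * M := by rw [abs_mul]; gcongr
      have c3 : |P * γ * uy| ≤ M * M * M := by rw [abs_mul]; gcongr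
      have c4 : M * M ≤ M * M * M := le_mul_of_one_le_right (by positivity) hM
      rw [abs_le] at c1 c2 c3 ⊢
      constructor <;> linarith [c1.1, c1.2, c2.1, c2.2, c3.1, c3.2]
    rw [abs_mul, abs_mul]
    calc _ ≤ t * W * (M * (4 * M ^ 3)) := by gcongr
      _ = 4 * M ^ 4 * (t * W) := by ring
      _ ≤ _ := by gcongr 4 * ?_ * _; exact pw 4 (by norm_num)
  have T7 : |kyF * (a * (ze / 2 - P * γ))| ≤ 2 * M ^ 5 * (t * W) := by
    have b1 : |ze / 2 - P * γ| ≤ 2 * M ^ 2 := by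
      have : M ≤ M * M := le_mul_of_one_le_left hM0 hM
      rw [abs_le] at hPγ hze1 ⊢
      constructor <;> linarith [hPγ.1, hPγ.2, hze1.1, hze1.2]
    rw [abs_mul, abs_mul]
    calc _ ≤ t * W * (M * (2 * M ^ 2)) := by gcongr
      _ = 2 * M ^ 3 * (t * W) := by ring
      _ ≤ _ := by gcongr 2 * ?_ * _; exact pw 3 (by norm_num)
  have T8 : |τ * z0 * a * kF| ≤ M * (t * W) := by
    rw [abs_mul, abs_mul, abs_mul, abs_of_nonneg hτ0]
    calc _ ≤ 1 * 1 * M * (t * W) := by gcongr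
      _ = _ := by ring
  have w3 := mul_le_mul_of_nonneg_right (pw 3 (by norm_num)) tW
  have w2 := mul_le_mul_of_nonneg_right (pw 2 (by norm_num)) tW
  have w1 := mul_le_mul_of_nonneg_right (pow_one M ▸ pw 1 (by norm_num)) tW
  rw [abs_le] at T1 T2 T3 T4 T5 T6 T7 T8 ⊢
  constructor <;> linarith [T1.1, T1.2, T2.1, T2.2, T3.1, T3.2, T4.1, T4.2, T5.1, T5.2, T6.1,
    T6.2, T7.1, T7.2, T8.1, T8.2]

theorem bxProd_dY {F u G : ℝ × ℝ → ℝ} (hF : ContDiff ℝ ∞ F) (hu : ContDiff ℝ ∞ u)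
    (hG : ContDiff ℝ ∞ G) (z : ℝ × ℝ) :
    dY (fun w => F (pt u w) * G w) z =
      (dX F (pt u z) * dY u z + dY F (pt u z)) * G z + F (pt u z) * dY G z := by
  rw [dY_mul ((bxPt_smooth hF hu).differentiable (by simp) z) (hG.differentiable (by simp) z),
    congr_fun (bxDY_pt hF hu) z]

theorem bxLam_derivs {u : ℝ × ℝ → ℝ} (hu : ContDiff ℝ ∞ u) (τ L : ℝ) (z : ℝ × ℝ) :
    dX (fun v => -(1 / 4) + τ * zeta0 (u v / L)) z = τ * deriv zeta0 (u z / L) * (dX u z / L) ∧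
    dY (fun v => -(1 / 4) + τ * zeta0 (u v / L)) z = τ * deriv zeta0 (u z / L) * (dY u z / L) ∧
    dX (dX (fun v => -(1 / 4) + τ * zeta0 (u v / L))) z =
      τ * (deriv (deriv zeta0) (u z / L) * (dX u z / L) * (dX u z / L)
        + deriv zeta0 (u z / L) * (dX (dX u) z / L)) ∧
    dY (dY (fun v => -(1 / 4) + τ * zeta0 (u v / L))) z =
      τ * (deriv (deriv zeta0) (u z / L) * (dY u z / L) * (dY u z / L)
        + deriv zeta0 (u z / L) * (dY (dY u) z / L)) := by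
  have d : ∀ {f : ℝ × ℝ → ℝ}, ContDiff ℝ ∞ f → ∀ w, DifferentiableAt ℝ f w := fun hf w =>
    hf.differentiable (by simp) w
  have h1 : ∀ {φ : ℝ → ℝ}, ContDiff ℝ ∞ φ → ∀ x, DifferentiableAt ℝ φ x := fun hφ x =>
    hφ.differentiable (by simp) x
  have hs : ContDiff ℝ ∞ fun v => L⁻¹ * u v := contDiff_const.mul hu
  have hz1 := bxSmooth_deriv bxZeta0_smooth
  have e : (fun v => -(1 / 4) + τ * zeta0 (u v / L))
      = fun v => -(1 / 4) + τ * zeta0 (L⁻¹ * u v) := funext fun v => by rw [div_eq_inv_mul (u v)]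
  have hg : ∀ v, DifferentiableAt ℝ (fun w => zeta0 (L⁻¹ * u w)) v := fun v =>
    (h1 bxZeta0_smooth _).comp v (d hs v)
  have X1 : dX (fun v => -(1 / 4) + τ * zeta0 (L⁻¹ * u v))
      = fun v => τ * (deriv zeta0 (L⁻¹ * u v) * (L⁻¹ * dX u v)) := funext fun v => by
    rw [dX_add (differentiableAt_const _) ((hg v).const_mul τ),
      dX_const, zero_add, dX_const_mul τ (hg v),
      dX_comp (φ := zeta0) (f := fun w => L⁻¹ * u w) (h1 bxZeta0_smooth _) (d hs v),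
      dX_const_mul L⁻¹ (d hu v)]
  have Y1 : dY (fun v => -(1 / 4) + τ * zeta0 (L⁻¹ * u v))
      = fun v => τ * (deriv zeta0 (L⁻¹ * u v) * (L⁻¹ * dY u v)) := funext fun v => by
    rw [dY_add (differentiableAt_const _) ((hg v).const_mul τ),
      dY_const, zero_add, dY_const_mul τ (hg v),
      dY_comp (φ := zeta0) (f := fun w => L⁻¹ * u w) (h1 bxZeta0_smooth _) (d hs v),
      dY_const_mul L⁻¹ (d hu v)]
  have hd : DifferentiableAt ℝ (fun v => deriv zeta0 (L⁻¹ * u v)) z :=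
    (h1 hz1 _).comp z (d hs z)
  have hX2 : DifferentiableAt ℝ (fun v => L⁻¹ * dX u v) z := (d (bxSmooth_dX hu) z).const_mul _
  have hY2 : DifferentiableAt ℝ (fun v => L⁻¹ * dY u v) z := (d (bxSmooth_dY hu) z).const_mul _
  have hXm : DifferentiableAt ℝ (fun v => deriv zeta0 (L⁻¹ * u v) * (L⁻¹ * dX u v)) z := hd.mul hX2
  have hYm : DifferentiableAt ℝ (fun v => deriv zeta0 (L⁻¹ * u v) * (L⁻¹ * dY u v)) z := hd.mul hY2
  rw [e, X1, Y1]
  simp only [div_eq_inv_mul _ L]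
  refine ⟨by ring, by ring, ?_, ?_⟩
  · rw [dX_const_mul τ hXm, dX_mul hd hX2,
      dX_comp (φ := deriv zeta0) (f := fun w => L⁻¹ * u w) (h1 hz1 _) (d hs z),
      dX_const_mul L⁻¹ (d hu z), dX_const_mul L⁻¹ (d (bxSmooth_dX hu) z)]
  · rw [dY_const_mul τ hYm, dY_mul hd hY2,
      dY_comp (φ := deriv zeta0) (f := fun w => L⁻¹ * u w) (h1 hz1 _) (d hs z),
      dY_const_mul L⁻¹ (d hu z), dY_const_mul L⁻¹ (d (bxSmooth_dY hu) z)]

namespace Par

variable {c : Par} {t : ℝ} {u b : ℝ × ℝ → ℝ}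

/-- The solution is nearly linear on the rectangles. -/
theorem Sol.taylor (h : c.Sol t u b) (ht : 0 < t) {z : ℝ × ℝ} (hz : z ∈ c.rect t 1) :
    |u z - dX u z * z.1 - dY u z * z.2| ≤ 2 * c.K * (|z.1| + |z.2|) ^ 2 := by
  have hK : 0 ≤ c.K := le_trans zero_le_one c.one_le_K
  have hsq : Convex ℝ (sq (c.κ * c.r t)) := (convex_Icc _ _).prod (convex_Icc _ _)
  have h0 : (0 : ℝ × ℝ) ∈ sq (c.κ * c.r t) := c.rect_sub_sq ht (by
    refine ⟨?_, ?_⟩
    · simp; have := c.bxpOut_pos; positivity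
    · simp; positivity)
  have hm := c.rect_sub_sq ht hz
  have hn : ‖z‖ ≤ |z.1| + |z.2| := by
    rw [Prod.norm_def, Real.norm_eq_abs, Real.norm_eq_abs]
    exact max_le (le_add_of_nonneg_right (abs_nonneg _)) (le_add_of_nonneg_left (abs_nonneg _))
  have hs : Convex ℝ (sq (c.κ * c.r t) ∩ Metric.closedBall 0 ‖z‖) :=
    hsq.inter (convex_closedBall _ _)
  have hder : ∀ x ∈ sq (c.κ * c.r t) ∩ Metric.closedBall 0 ‖z‖,
      ‖fderiv ℝ u x - fderiv ℝ u z‖ ≤ 2 * c.K * ‖z‖ := by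
    intro x hx
    have := Convex.norm_image_sub_le_of_norm_fderiv_le (𝕜 := ℝ) (f := fderiv ℝ u) (C := c.K)
      (fun y _ => (contDiff_infty_iff_fderiv.1 h.smu).2.differentiable (by simp) y)
      (fun y hy => by
        rw [← norm_iteratedFDeriv_one, norm_iteratedFDeriv_fderiv]
        exact h.bdu y hy 2 (by norm_num) (by norm_num))
      hsq hm hx.1
    refine this.trans ?_
    have : ‖x - z‖ ≤ 2 * ‖z‖ := by
      refine (norm_sub_le _ _).trans ?_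
      have : ‖x‖ ≤ ‖z‖ := by simpa using hx.2
      linarith
    calc c.K * ‖x - z‖ ≤ c.K * (2 * ‖z‖) := by gcongr
      _ = _ := by ring
  have key := Convex.norm_image_sub_le_of_norm_fderiv_le' (𝕜 := ℝ) (f := u) (φ := fderiv ℝ u z)
    (fun x _ => h.smu.differentiable (by simp) x) hder hs (x := 0) (y := z)
    ⟨h0, by simp⟩ ⟨hm, by simp⟩
  rw [h.u0, sub_zero, sub_zero, Real.norm_eq_abs] at key
  have e : fderiv ℝ u z z = z.1 * dX u z + z.2 * dY u z := by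
    have hzz : z = z.1 • ((1 : ℝ), (0 : ℝ)) + z.2 • ((0 : ℝ), (1 : ℝ)) := by ext <;> simp
    calc fderiv ℝ u z z = fderiv ℝ u z (z.1 • ((1 : ℝ), (0 : ℝ)) + z.2 • ((0 : ℝ), (1 : ℝ))) := by
          rw [← hzz]
      _ = _ := by rw [map_add, map_smul, map_smul]; rfl
  rw [e] at key
  calc |u z - dX u z * z.1 - dY u z * z.2| = |u z - (z.1 * dX u z + z.2 * dY u z)| := by
        congr 1; ring
    _ ≤ 2 * c.K * ‖z‖ * ‖z‖ := key
    _ ≤ 2 * c.K * (|z.1| + |z.2|) * (|z.1| + |z.2|) := by gcongr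
    _ = _ := by ring

end Par

end Vale.Agent.P229
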