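import Vale.Agent.P229.BoxPairWave

/-!
# P229: the estimates behind the pairing with the quasimode
-/

open scoped ContDiff Topology
open MeasureTheory Set Filter

namespace Vale.Agent.P229

/-- The rectangle carrying the quasimode. -/
def bpBox (c : Par) (t : ℝ) (μ : ℕ) : Set (ℝ × ℝ) :=
  Icc (-(2 * c.width t μ)) (2 * c.width t μ) ×ˢ Icc (-(t / 2)) (t / 2)

theorem isCompact_bpBox (c : Par) (t : ℝ) (μ : ℕ) : IsCompact (bpBox c t μ) :=
  isCompact_Icc.prod isCompact_Icc

/-- Arithmetic-geometric mean with the best parameter. -/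
theorem bpAmgm {x D H : ℝ} (hD : 0 ≤ D) (hH : 0 ≤ H)
    (h : ∀ l : ℝ, 0 < l → x ≤ l / 2 * D ^ 2 + H ^ 2 / (2 * l)) : x ≤ D * H := by
  refine le_of_forall_pos_le_add fun ε hε => ?_
  set η := ε / (D + H + 1) with hη
  have hη0 : 0 < η := div_pos hε (by linarith)
  refine (h ((H + η) / (D + η)) (by positivity)).trans ?_
  have h1 : (H + η) / (D + η) / 2 * D ^ 2 ≤ (H + η) * D / 2 := by
    rw [div_div, div_mul_eq_mul_div, div_le_div_iff₀ (by positivity) two_pos]
    nlinarith [mul_nonneg (mul_nonneg (by linarith : 0 ≤ H + η) hD) hη0.le]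
  have h2 : H ^ 2 / (2 * ((H + η) / (D + η))) ≤ H * (D + η) / 2 := by
    rw [div_le_div_iff₀ (by positivity) two_pos]
    field_simp
    nlinarith [mul_nonneg (mul_nonneg hH (by linarith : 0 ≤ D + η)) hη0.le]
  have h3 : η * (D + H) ≤ ε := by
    calc η * (D + H) ≤ η * (D + H + 1) := by nlinarith
      _ = ε := div_mul_cancel₀ _ (by linarith)
  nlinarith

theorem bumpSet_eq_prod (c : Par) (t : ℝ) : c.bumpSet t =
    Icc (-(2 * c.K * (c.K + 1) * c.δ t)) (2 * c.K * (c.K + 1) * c.δ t) ×ˢ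
      Icc (-(2 * c.δ t)) (2 * c.δ t) := by
  ext z; simp only [Par.bumpSet, mem_ofPred_eq, mem_prod, mem_Icc, abs_le]

namespace BpScale

variable {c : Par} {t : ℝ} {μ : ℕ}

theorem δ_le (h : BpScale c t μ) : c.δ t ≤ c.sa t * c.ym t := by
  refine (mul_le_of_le_one_left (pow_nonneg h.t_pos.le _) c.bxc1_le).trans_eq ?_
  rw [Par.sa, Par.ym, ← pow_add]
  congr 1
  have := h.Qe_ge
  omega

theorem box_subset_rect (h : BpScale c t μ) : bpBox c t μ ⊆ c.rect t 0 := by
  intro z hz
  rw [bpBox, mem_prod, mem_Icc, mem_Icc, ← abs_le, ← abs_le] at hz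
  have h1 : 1 ≤ c.pOut := by
    have := c.one_le_K
    unfold Par.pOut Par.Γ1
    nlinarith
  refine ⟨?_, by linarith [hz.2]⟩
  nlinarith [h.width_le_ym, h.ym_le_t, h.t_pos, hz.1]

theorem rect_zero_subset_one (h : BpScale c t μ) : c.rect t 0 ⊆ c.rect t 1 := by
  rintro z ⟨h1, h2⟩
  have := c.bxpOut_pos
  refine ⟨h1.trans ?_, h2.trans ?_⟩ <;> nlinarith [h.t_pos, mul_pos this h.t_pos]

theorem env_sq_integral (h : BpScale c t μ) :
    ∫ z in bpBox c t μ, c.bpEnv t z ^ 2 ≤ 16 * c.width t μ * c.ym t := by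
  have hym := h.ym_pos
  have e : ∀ z : ℝ × ℝ, c.bpEnv t z ^ 2 =
      (1 : ℝ) * Real.exp (-(1 / (2 * c.ym t ^ 2)) * z.2 ^ 2) := fun z => by
    rw [one_mul, Par.bpEnv, ← Real.exp_nat_mul]
    congr 1
    field_simp
    ring
  simp_rw [e]
  rw [bpBox, Measure.volume_eq_prod, setIntegral_prod_mul (fun _ : ℝ => (1 : ℝ))
    (fun y : ℝ => Real.exp (-(1 / (2 * c.ym t ^ 2)) * y ^ 2)), setIntegral_const,
    Real.volume_real_Icc_of_le (by linarith [h.width_pos]), smul_eq_mul, mul_one]
  have hb : (0 : ℝ) < 1 / (2 * c.ym t ^ 2) := by positivity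
  have h1 : ∫ y in Icc (-(t / 2)) (t / 2), Real.exp (-(1 / (2 * c.ym t ^ 2)) * y ^ 2) ≤
      4 * c.ym t := by
    refine (setIntegral_le_integral (integrable_exp_neg_mul_sq hb)
      (.of_forall fun _ => (Real.exp_pos _).le)).trans ?_
    rw [integral_gaussian, Real.sqrt_le_left (by positivity), div_div_eq_mul_div, div_one]
    nlinarith [Real.pi_le_four, sq_nonneg (c.ym t)]
  calc _ ≤ (2 * c.width t μ - -(2 * c.width t μ)) * (4 * c.ym t) :=
        mul_le_mul_of_nonneg_left h1 (by linarith [h.width_pos])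
    _ = _ := by ring

theorem bump_integral (h : BpScale c t μ) :
    ∫ z in bpBox c t μ, (c.bumpSet t).indicator (fun _ => (1 : ℝ)) z ≤
      16 * (c.K * (c.K + 1)) * c.δ t ^ 2 := by
  have hδ := c.bxδ_pos h.t_pos
  have hK := c.one_le_K
  have hKδ : 0 < 2 * c.K * (c.K + 1) * c.δ t := by positivity
  have hc : IsCompact (c.bumpSet t) := by
    rw [bumpSet_eq_prod]; exact isCompact_Icc.prod isCompact_Icc
  refine (setIntegral_le_integral
    ((integrable_indicator_iff hc.measurableSet).2 (continuousOn_const.integrableOn_compact hc))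
    (.of_forall fun z => indicator_nonneg (fun _ _ => zero_le_one) z)).trans ?_
  rw [integral_indicator_const _ hc.measurableSet, smul_eq_mul, mul_one, measureReal_def,
    bumpSet_eq_prod, Measure.volume_eq_prod, Measure.prod_prod, Real.volume_Icc, Real.volume_Icc,
    ENNReal.toReal_mul, ENNReal.toReal_ofReal (by linarith [hKδ]),
    ENNReal.toReal_ofReal (by linarith)]
  nlinarith

/-- The Cauchy–Schwarz inequality against the envelope. -/
theorem pair_bound (h : BpScale c t μ) {f q : ℝ × ℝ → ℝ} {A B H : ℝ} (hA : 0 ≤ A) (hB : 0 ≤ B)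
    (hH : 0 ≤ H) (hq : Continuous q) (hf0 : ∀ z, z ∉ bpBox c t μ → f z = 0)
    (hf : ∀ z ∈ bpBox c t μ,
      |f z| ≤ (A * c.bpEnv t z + B * (c.bumpSet t).indicator (fun _ => 1) z) * |q z|)
    (hqH : ∫ z in c.rect t 0, q z ^ 2 ≤ H ^ 2) :
    |∫ z, f z| ≤ (6 * A * (c.ym t * t ^ μ) + 8 * (c.K * (c.K + 1)) * B * c.δ t) * H := by
  set S := bpBox c t μ with hS
  set ind : ℝ × ℝ → ℝ := (c.bumpSet t).indicator fun _ => (1 : ℝ) with hind
  have hK := c.one_le_K
  have hδ := c.bxδ_pos h.t_pos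
  have hym := h.ym_pos
  have ht := h.t_pos
  refine bpAmgm (by positivity) hH fun l hl => ?_
  have hind0 : ∀ z, 0 ≤ ind z ∧ ind z ^ 2 = ind z := fun z => by
    by_cases hz : z ∈ c.bumpSet t <;> simp [hind, hz]
  have hSc := isCompact_bpBox c t μ
  have hR : IsCompact (c.rect t 0) := by
    have : c.rect t 0 = Icc (-(c.pOut * (2 + 0) * t)) (c.pOut * (2 + 0) * t) ×ˢ
        Icc (-((1 + 0) / 2 * t)) ((1 + 0) / 2 * t) := by
      ext z; simp only [Par.rect, mem_ofPred_eq, mem_prod, mem_Icc, abs_le]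
    rw [this]; exact isCompact_Icc.prod isCompact_Icc
  have i1 : IntegrableOn (fun z => c.bpEnv t z ^ 2) S := by
    refine ContinuousOn.integrableOn_compact hSc (Continuous.continuousOn ?_)
    unfold Par.bpEnv; fun_prop
  have hbm : MeasurableSet (c.bumpSet t) := by
    rw [bumpSet_eq_prod]; exact measurableSet_Icc.prod measurableSet_Icc
  have i2 : IntegrableOn ind S :=
    (continuousOn_const.integrableOn_compact hSc).indicator hbm
  have i3 : IntegrableOn (fun z => q z ^ 2) (c.rect t 0) :=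
    (hq.pow 2).continuousOn.integrableOn_compact hR
  have i3' := i3.mono_set h.box_subset_rect
  have ie : IntegrableOn (fun z => l * A ^ 2 * c.bpEnv t z ^ 2) S := i1.const_mul _
  have ib : IntegrableOn (fun z => l * B ^ 2 * ind z) S := i2.const_mul _
  have iq : IntegrableOn (fun z => q z ^ 2 / (2 * l)) S := i3'.div_const _
  have ieb : IntegrableOn (fun z => l * A ^ 2 * c.bpEnv t z ^ 2 + l * B ^ 2 * ind z) S :=
    ie.add ib
  have hle : |∫ z, f z| ≤
      ∫ z in S, (l * A ^ 2 * c.bpEnv t z ^ 2 + l * B ^ 2 * ind z + q z ^ 2 / (2 * l)) := by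
    refine abs_integral_le_integral_abs.trans ?_
    rw [← setIntegral_eq_integral_of_forall_compl_eq_zero (s := S)
      fun z hz => show |f z| = 0 by simp [hf0 z hz]]
    refine integral_mono_of_nonneg (.of_forall fun _ => abs_nonneg _) (ieb.add iq) ?_
    refine (ae_restrict_iff' hSc.measurableSet).2 (.of_forall fun z hz => ?_)
    refine (hf z hz).trans ?_
    show (A * c.bpEnv t z + B * ind z) * |q z| ≤ _
    have h1 : (A * c.bpEnv t z + B * ind z) * |q z| ≤
        l / 2 * (A * c.bpEnv t z + B * ind z) ^ 2 + q z ^ 2 / (2 * l) := by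
      have e : l / 2 * (A * c.bpEnv t z + B * ind z) ^ 2 + q z ^ 2 / (2 * l) -
          (A * c.bpEnv t z + B * ind z) * |q z| =
          (l * (A * c.bpEnv t z + B * ind z) - |q z|) ^ 2 / (2 * l) := by
        rw [← sq_abs (q z)]; field_simp; ring
      nlinarith [div_nonneg (sq_nonneg (l * (A * c.bpEnv t z + B * ind z) - |q z|))
        (by positivity : 0 ≤ 2 * l)]
    refine h1.trans (add_le_add ?_ le_rfl)
    calc l / 2 * (A * c.bpEnv t z + B * ind z) ^ 2
        ≤ l / 2 * (2 * ((A * c.bpEnv t z) ^ 2 + (B * ind z) ^ 2)) :=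
          mul_le_mul_of_nonneg_left add_sq_le (by positivity)
      _ = l * A ^ 2 * c.bpEnv t z ^ 2 + l * B ^ 2 * ind z ^ 2 := by ring
      _ = _ := by rw [(hind0 z).2]
  refine hle.trans ?_
  rw [integral_add ieb iq, integral_add ie ib, integral_const_mul, integral_const_mul,
    integral_div]
  refine add_le_add ?_ (div_le_div_of_nonneg_right ((setIntegral_mono_set i3
    (.of_forall fun _ => sq_nonneg _) h.box_subset_rect.eventuallyLE).trans hqH) (by positivity))
  have hw : c.width t μ * c.ym t = (c.ym t * t ^ μ) ^ 2 := by rw [Par.width]; ring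
  calc l * A ^ 2 * (∫ z in S, c.bpEnv t z ^ 2) + _
      ≤ l * A ^ 2 * (16 * c.width t μ * c.ym t) +
          l * B ^ 2 * (16 * (c.K * (c.K + 1)) * c.δ t ^ 2) :=
        add_le_add (mul_le_mul_of_nonneg_left h.env_sq_integral (by positivity))
          (mul_le_mul_of_nonneg_left h.bump_integral (by positivity))
    _ = l / 2 * (32 * A ^ 2 * (c.ym t * t ^ μ) ^ 2 +
          32 * (c.K * (c.K + 1)) * B ^ 2 * c.δ t ^ 2) := by rw [← hw]; ring
    _ ≤ _ := by
        refine mul_le_mul_of_nonneg_left ?_ (by positivity)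
        nlinarith [mul_nonneg (mul_nonneg (by positivity : 0 ≤ A * (c.ym t * t ^ μ))
            (by positivity : 0 ≤ c.K * (c.K + 1))) (mul_nonneg hB hδ.le),
          mul_le_mul_of_nonneg_right (by nlinarith : (1 : ℝ) ≤ c.K * (c.K + 1))
            (by positivity : 0 ≤ c.K * (c.K + 1) * (B * c.δ t) ^ 2),
          sq_nonneg (A * (c.ym t * t ^ μ))]

end BpScale

end Vale.Agent.P229
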