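import Vale.Agent.P229.BoxCtrl

/-!
# P229: the perturbation at the points of a solution
-/

open scoped ContDiff Topology
open Set Filter

namespace Vale.Agent.P229

theorem bxIter_add {f g : ℝ × ℝ → ℝ} (hf : ContDiff ℝ ∞ f) (hg : ContDiff ℝ ∞ g) (q : ℕ)
    (z : ℝ × ℝ) : dX^[q] (fun w => f w + g w) z = dX^[q] f z + dX^[q] g z := by
  have e := fun {h : ℝ × ℝ → ℝ} (hh : ContDiff ℝ ∞ h) =>
    (congr_fun (bxIter_slice hh z.2 q) z.1).symm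
  rw [← Prod.mk.eta (p := z), e (hf.add hg), e hf, e hg]
  exact iteratedDeriv_add ((bxSlice_smooth hf z.2).contDiffAt.of_le (mod_cast le_top))
    ((bxSlice_smooth hg z.2).contDiffAt.of_le (mod_cast le_top))

theorem bxIter_neg {f : ℝ × ℝ → ℝ} (hf : ContDiff ℝ ∞ f) (q : ℕ) (z : ℝ × ℝ) :
    dX^[q] (fun w => -f w) z = -dX^[q] f z := by
  have e := fun {h : ℝ × ℝ → ℝ} (hh : ContDiff ℝ ∞ h) =>
    (congr_fun (bxIter_slice hh z.2 q) z.1).symm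
  rw [← Prod.mk.eta (p := z), e hf.neg, e hf]
  exact iteratedDeriv_neg q _ _

theorem bxDX_addF {f g : ℝ × ℝ → ℝ} (hf : ContDiff ℝ ∞ f) (hg : ContDiff ℝ ∞ g) :
    dX (fun w => f w + g w) = fun w => dX f w + dX g w :=
  funext fun w => dX_add (hf.differentiable (by simp) w) (hg.differentiable (by simp) w)

theorem bxDY_addF {f g : ℝ × ℝ → ℝ} (hf : ContDiff ℝ ∞ f) (hg : ContDiff ℝ ∞ g) :
    dY (fun w => f w + g w) = fun w => dY f w + dY g w :=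
  funext fun w => dY_add (hf.differentiable (by simp) w) (hg.differentiable (by simp) w)

namespace Par

variable (c : Par)

/-- The indicator of the bump. -/
noncomputable def indB (t : ℝ) (z : ℝ × ℝ) : ℝ := (c.bumpSet t).indicator (fun _ => (1 : ℝ)) z

theorem indB_nonneg (t : ℝ) (z : ℝ × ℝ) : 0 ≤ c.indB t z :=
  indicator_nonneg (fun _ _ => zero_le_one) z

theorem indB_le_one (t : ℝ) (z : ℝ × ℝ) : c.indB t z ≤ 1 :=
  indicator_le' (fun _ _ => le_rfl) (fun _ _ => zero_le_one) z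

theorem indB_mem {t : ℝ} {z : ℝ × ℝ} (h : z ∈ c.bumpSet t) : c.indB t z = 1 :=
  indicator_of_mem h _

theorem ε_pos {t : ℝ} (ht : 0 < t) : 0 < c.ε t := pow_pos (c.bxδ_pos ht) _

theorem sA_pos {t : ℝ} (ht : 0 < t) : 0 < c.sA t := pow_pos ht _

theorem sa_pos {t : ℝ} (ht : 0 < t) : 0 < c.sa t := pow_pos ht _

theorem om_pos {t : ℝ} (ht : 0 < t) (y : ℝ) : 0 < c.om t y :=
  lt_of_lt_of_le (c.sa_pos ht) (c.bxom_lower t y).1

theorem W_pos {t : ℝ} (ht : 0 < t) (y : ℝ) : 0 < c.W t y :=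
  add_pos_of_pos_of_nonneg (pow_pos (c.sa_pos ht) 2) (by positivity)

theorem om_sq {t : ℝ} (ht : 0 < t) (y : ℝ) : c.om t y ^ 2 = c.W t y :=
  Real.sq_sqrt (c.W_pos ht y).le

theorem bxKbar_F (t : ℝ) : kbar (c.betaF t) = fun w => -(dX^[2] (c.betaF t) w) := rfl

theorem bg_bound (q : ℕ) : ∀ᶠ t in 𝓝[>] (0 : ℝ), ∀ z ∈ sq (c.r t),
    |dX^[q] (dX (c.betaBg t)) z| ≤ c.om t z.2 * c.sA t * (t⁻¹) ^ (q + 2) ∧
    |dX^[q] (dY (c.betaBg t)) z| ≤ c.om t z.2 * c.sA t * (t⁻¹) ^ (q + 2) ∧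
    |dX^[q] (kbar (c.betaBg t)) z| ≤ c.om t z.2 * c.sA t * (t⁻¹) ^ (q + 2) ∧
    |dX^[q] (dX (kbar (c.betaBg t))) z| ≤ c.om t z.2 * c.sA t * (t⁻¹) ^ (q + 2) ∧
    |dX^[q] (dY (kbar (c.betaBg t))) z| ≤ c.om t z.2 * c.sA t * (t⁻¹) ^ (q + 2) := by
  obtain ⟨C, hC0, hC⟩ := c.betaBg_bounds q
  filter_upwards [bxEv_pos, bxEv_T C] with t ⟨ht, ht1⟩ hCT z hz
  have hw : 0 ≤ c.om t z.2 * c.sA t := mul_nonneg (c.om_pos ht _).le (c.sA_pos ht).le
  have key : C * (c.om t z.2 * c.sA t) / t ^ (q + 1) ≤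
      c.om t z.2 * c.sA t * (t⁻¹) ^ (q + 2) := by
    rw [div_eq_mul_inv, ← inv_pow]
    calc C * (c.om t z.2 * c.sA t) * t⁻¹ ^ (q + 1) ≤ t⁻¹ * (c.om t z.2 * c.sA t) * t⁻¹ ^ (q + 1) := by
          gcongr
      _ = _ := by ring
  obtain ⟨h1, h2, h3, h4, h5⟩ := hC t ht ht1 z hz
  exact ⟨h1.trans key, h2.trans key, h3.trans key, h4.trans key, h5.trans key⟩

theorem f_bound (q : ℕ) : ∀ᶠ t in 𝓝[>] (0 : ℝ), ∀ z : ℝ × ℝ,
    |dX^[q] (dX (c.betaF t)) z| ≤ t⁻¹ * (c.ε t * c.δ t) / c.δ t ^ q ∧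
    |dX^[q] (dY (c.betaF t)) z| ≤ t⁻¹ * (c.ε t * c.δ t) / c.δ t ^ q ∧
    |dX^[q] (kbar (c.betaF t)) z| ≤ t⁻¹ * c.ε t / c.δ t ^ q ∧
    |dX^[q] (dX (kbar (c.betaF t))) z| ≤ t⁻¹ * (c.ε t / c.δ t) / c.δ t ^ q ∧
    |dX^[q] (dY (kbar (c.betaF t))) z| ≤ t⁻¹ * (c.ε t / c.δ t) / c.δ t ^ q := by
  obtain ⟨C, hC0, hC⟩ := c.betaF_bounds (q + 3)
  filter_upwards [bxEv_pos, bxEv_T C] with t ⟨ht, ht1⟩ hCT z
  have hd := c.bxδ_pos ht
  have he := c.ε_pos ht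
  have hs := c.contDiff_betaF t
  have hB : ∀ p k, p + k ≤ q + 3 → ∀ w : ℝ,
      w = c.δ t ^ (p + k) → |dX^[p] (dY^[k] (c.betaF t)) z| ≤ t⁻¹ * (c.ε t * c.δ t ^ 2) / w := by
    rintro p k h w rfl
    exact (hC t ht ht1 p k h z).trans (by gcongr)
  have hk : ∀ p, dX^[p] (kbar (c.betaF t)) z = -dX^[p + 2] (c.betaF t) z := fun p => by
    rw [c.bxKbar_F, bxIter_neg (bxSmooth_iter hs 2), ← Function.iterate_add_apply]
  have hks : ContDiff ℝ ∞ (kbar (c.betaF t)) := bxSmooth_kbar hs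
  refine ⟨?_, ?_, ?_, ?_, ?_⟩
  · rw [← Function.iterate_succ_apply]
    refine (hB (q + 1) 0 (by omega) _ rfl).trans (le_of_eq ?_)
    rw [pow_succ, add_zero]; field_simp; ring
  · refine (hB q 1 (by omega) _ rfl).trans (le_of_eq ?_)
    rw [pow_succ]; field_simp; ring
  · rw [hk, abs_neg]
    refine (hB (q + 2) 0 (by omega) _ rfl).trans (le_of_eq ?_)
    rw [add_zero, pow_add]; field_simp
  · rw [← Function.iterate_succ_apply, hk, abs_neg]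
    refine (hB (q + 3) 0 (by omega) _ rfl).trans (le_of_eq ?_)
    rw [add_zero, pow_add]; field_simp
  · have e : dY (kbar (c.betaF t)) = fun w => -(dX^[2] (dY (c.betaF t)) w) := by
      funext w
      rw [c.bxKbar_F, dY_neg, congr_fun (bxMixed_iter hs 2) w]
    rw [e, bxIter_neg (bxSmooth_iter (bxSmooth_dY hs) 2), abs_neg, ← Function.iterate_add_apply]
    refine (hB (q + 2) 1 (by omega) _ rfl).trans (le_of_eq ?_)
    rw [pow_add, pow_add]; field_simp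

theorem pert_split (t : ℝ) :
    dX (c.beta t) = (fun w => dX (c.betaBg t) w + dX (c.betaF t) w) ∧
    dY (c.beta t) = (fun w => dY (c.betaBg t) w + dY (c.betaF t) w) ∧
    kbar (c.beta t) = (fun w => kbar (c.betaBg t) w + kbar (c.betaF t) w) ∧
    dX (kbar (c.beta t)) = (fun w => dX (kbar (c.betaBg t)) w + dX (kbar (c.betaF t)) w) ∧
    dY (kbar (c.beta t)) = (fun w => dY (kbar (c.betaBg t)) w + dY (kbar (c.betaF t)) w) := by
  have h1 := c.contDiff_betaBg t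
  have h2 := c.contDiff_betaF t
  have e : kbar (c.beta t) = fun w => kbar (c.betaBg t) w + kbar (c.betaF t) w :=
    funext (c.kbar_beta t)
  refine ⟨bxDX_addF h1 h2, bxDY_addF h1 h2, e, ?_, ?_⟩
  · rw [e]; exact bxDX_addF (bxSmooth_kbar h1) (bxSmooth_kbar h2)
  · rw [e]; exact bxDY_addF (bxSmooth_kbar h1) (bxSmooth_kbar h2)

/-- All the bounds on the perturbation at the chart point. -/
structure PertBd (t : ℝ) (p : ℝ × ℝ) (q : ℕ) (w ι : ℝ) : Prop where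
  cx : |dX^[q] (dX (c.beta t)) p| ≤ w + ι * (c.ε t * c.δ t) / c.δ t ^ q
  cy : |dX^[q] (dY (c.beta t)) p| ≤ w + ι * (c.ε t * c.δ t) / c.δ t ^ q
  k : |dX^[q] (kbar (c.beta t)) p| ≤ w + ι * c.ε t / c.δ t ^ q
  kxBg : |dX^[q] (dX (kbar (c.betaBg t))) p| ≤ w
  kyBg : |dX^[q] (dY (kbar (c.betaBg t))) p| ≤ w
  kxF : |dX^[q] (dX (kbar (c.betaF t))) p| ≤ ι * (c.ε t / c.δ t) / c.δ t ^ q
  kyF : |dX^[q] (dY (kbar (c.betaF t))) p| ≤ ι * (c.ε t / c.δ t) / c.δ t ^ q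

theorem f_vanish {t : ℝ} (ht : 0 < t) {p : ℝ × ℝ}
    (hp : 2 * c.δ t < |p.1| ∨ 2 * c.δ t < |p.2|) (q : ℕ) :
    dX^[q] (dX (c.betaF t)) p = 0 ∧ dX^[q] (dY (c.betaF t)) p = 0 ∧
    dX^[q] (kbar (c.betaF t)) p = 0 ∧ dX^[q] (dX (kbar (c.betaF t))) p = 0 ∧
    dX^[q] (dY (kbar (c.betaF t))) p = 0 := by
  have hs := c.contDiff_betaF t
  have z0 : ∀ a k, dX^[a] (dY^[k] (c.betaF t)) p = 0 := fun a k => c.betaF_eq_zero ht a k hp
  have hk : ∀ a, dX^[a] (kbar (c.betaF t)) p = 0 := fun a => by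
    rw [c.bxKbar_F, bxIter_neg (bxSmooth_iter hs 2), ← Function.iterate_add_apply, neg_eq_zero]
    exact z0 (a + 2) 0
  refine ⟨?_, z0 q 1, hk q, ?_, ?_⟩
  · rw [← Function.iterate_succ_apply]; exact z0 (q + 1) 0
  · rw [← Function.iterate_succ_apply]; exact hk (q + 1)
  · have e : dY (kbar (c.betaF t)) = fun w => -(dX^[2] (dY (c.betaF t)) w) := by
      funext w
      rw [c.bxKbar_F, dY_neg, congr_fun (bxMixed_iter hs 2) w]
    rw [e, bxIter_neg (bxSmooth_iter (bxSmooth_dY hs) 2), ← Function.iterate_add_apply, neg_eq_zero]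
    exact z0 (q + 2) 1

theorem pert_at (q : ℕ) : ∀ᶠ t in 𝓝[>] (0 : ℝ), ∀ u b : ℝ × ℝ → ℝ, c.Sol t u b →
    ∀ z ∈ c.rect t 1,
      c.PertBd t (pt u z) q (c.om t z.2 * c.sA t * (t⁻¹) ^ (q + 2)) (c.indB t z * t⁻¹) := by
  filter_upwards [bxEv_pos, c.bg_bound q, c.f_bound q] with t ⟨ht, _⟩ hbg hf u b h z hz
  obtain ⟨b1, b2, b3, b4, b5⟩ := hbg _ (h.mem z (c.rect_sub_sq ht hz))
  have key : ∀ (X : ℝ) (Y : ℝ), 0 ≤ Y →
      (z ∉ c.bumpSet t → X = 0) → |X| ≤ t⁻¹ * Y / c.δ t ^ q →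
      |X| ≤ c.indB t z * t⁻¹ * Y / c.δ t ^ q := by
    intro X Y hY h0 hX
    by_cases hb : z ∈ c.bumpSet t
    · rw [c.indB_mem hb, one_mul]; exact hX
    · rw [h0 hb, abs_zero]
      have := c.indB_nonneg t z
      have := (c.bxδ_pos ht).le
      positivity
  obtain ⟨g1, g2, g3, g4, g5⟩ := hf (pt u z)
  have v := fun hb => c.f_vanish ht (h.off_bump ht hz hb) q
  have he := (c.ε_pos ht).le
  have hd := (c.bxδ_pos ht).le
  have f1 := key _ _ (mul_nonneg he hd) (fun hb => (v hb).1) g1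
  have f2 := key _ _ (mul_nonneg he hd) (fun hb => (v hb).2.1) g2
  have f3 := key _ _ he (fun hb => (v hb).2.2.1) g3
  have f4 := key _ _ (div_nonneg he hd) (fun hb => (v hb).2.2.2.1) g4
  have f5 := key _ _ (div_nonneg he hd) (fun hb => (v hb).2.2.2.2) g5
  obtain ⟨s1, s2, s3, -, -⟩ := c.pert_split t
  have hB := c.contDiff_betaBg t
  have hF := c.contDiff_betaF t
  refine ⟨?_, ?_, ?_, b4, b5, f4, f5⟩
  · rw [s1, bxIter_add (bxSmooth_dX hB) (bxSmooth_dX hF)]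
    exact (abs_add_le _ _).trans (add_le_add b1 f1)
  · rw [s2, bxIter_add (bxSmooth_dY hB) (bxSmooth_dY hF)]
    exact (abs_add_le _ _).trans (add_le_add b2 f2)
  · rw [s3, bxIter_add (bxSmooth_kbar hB) (bxSmooth_kbar hF)]
    exact (abs_add_le _ _).trans (add_le_add b3 f3)

/-- The perturbation is small with two derivatives. -/
theorem pert_small (hP : 2 ≤ c.Pe) (hj : 2 ≤ c.j) {ν : ℝ} (hν : 0 < ν) :
    ∀ᶠ t in 𝓝[>] (0 : ℝ), ∀ z : ℝ × ℝ, |c.beta t z| ≤ ν ∧ |dX (c.beta t) z| ≤ ν ∧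
      |dY (c.beta t) z| ≤ ν ∧ |kbar (c.beta t) z| ≤ ν := by
  obtain ⟨t0, ht0, h⟩ := c.beta_eventually_small hP hj hν
  filter_upwards [bxEv_pos, mem_nhdsWithin_of_mem_nhds (Iic_mem_nhds ht0)] with t ⟨ht, _⟩ htt z
  obtain ⟨-, -, -, hb⟩ := h t ht htt
  have hs := c.contDiff_beta t
  refine ⟨?_, ?_, ?_, ?_⟩
  · have := hb 0 (Nat.zero_le _) z
    rwa [norm_iteratedFDeriv_zero, Real.norm_eq_abs] at this
  · exact (abs_dX_iterate_dY_iterate_le hs 1 0 z).trans (hb 1 (by norm_num) z)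
  · exact (abs_dX_iterate_dY_iterate_le hs 0 1 z).trans (hb 1 (by norm_num) z)
  · rw [kbar, abs_neg]
    exact (abs_dX_iterate_dY_iterate_le hs 2 0 z).trans (hb 2 le_rfl z)

/-- The jets of a solution lie in the box of jets. -/
theorem jet_mem (hP : 2 ≤ c.Pe) (hj : 2 ≤ c.j) : ∀ᶠ t in 𝓝[>] (0 : ℝ), ∀ u b : ℝ × ℝ → ℝ,
    c.Sol t u b → ∀ z ∈ c.rect t 1, jetJ (c.beta t) u b z ∈ jetIn c.K := by
  have hK := c.one_le_K
  have hp := c.bxpOut_pos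
  set ν : ℝ := 1 / (16 * (c.K + 1) ^ 2) with hν
  have hν0 : 0 < ν := by positivity
  filter_upwards [bxEv_pos, c.pert_small hP hj hν0,
    bxEv_small (c.K * (3 * c.pOut + 1)) (show (0 : ℝ) < 1 / (64 * (c.K + 1)) by positivity),
    bxEv_small (3 * c.pOut) (show (0 : ℝ) < 1 / 64 by positivity)]
    with t ⟨ht, _⟩ hs hb hP' u b h z hz
  obtain ⟨s1, s2, s3, s4⟩ := hs (pt u z)
  obtain ⟨z1, z2⟩ := c.rect_small ht.le le_rfl hz
  have hm := c.rect_sub_sq ht hz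
  have i2 : |dY u z| ≤ c.K := (h.iter_bound hm 0 1 (by norm_num)).1 (by norm_num)
  have i3 : |dX u z| ≤ c.K := (h.iter_bound hm 1 0 (by norm_num)).1 (by norm_num)
  have ib : |b z| < 1 / (32 * (c.K + 1)) := by
    refine lt_of_le_of_lt (((h.lipschitz ht hz).2).trans (le_trans ?_ hb)) ?_
    · rw [mul_assoc]; gcongr; linarith
    · gcongr; linarith
  have hν1 : ν < 1 / 16 := by
    rw [hν]; gcongr; nlinarith
  have hν2 : ν < 1 / (8 * (c.K + 1) ^ 2) := by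
    rw [hν]; gcongr; nlinarith
  intro k
  fin_cases k <;>
    simp only [jetJ, jetCtr, jetRad, Fin.zero_eta, Fin.isValue, Matrix.cons_val_zero,
      Fin.mk_one, Matrix.cons_val_one, Matrix.cons_val, Fin.reduceFinMk, sub_zero, add_sub_cancel_left]
  · linarith
  · exact ib
  · linarith
  · linarith
  · linarith
  · linarith
  · linarith
  · linarith

end Par

end Vale.Agent.P229
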