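import Vale.Agent.P229.BoxBeta
import Vale.Agent.P229.BoxExpand
import Vale.Agent.P229.BoxIdent

/-!
# P229: solutions in the box and the objects of the linear estimates

`T = t⁻¹`. All constants are absorbed into powers of `T`, for `t` small.
-/

open scoped ContDiff Topology
open MeasureTheory Set

namespace Vale.Agent.P229

namespace Par

variable (c : Par) (t : ℝ)

/-- The hodograph functions of an immersion of the box. -/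
structure Sol (u b : ℝ × ℝ → ℝ) : Prop where
  smu : ContDiff ℝ ∞ u
  smb : ContDiff ℝ ∞ b
  u0 : u 0 = 0
  b0 : b 0 = 0
  mem : ∀ z ∈ sq (c.κ * c.r t), pt u z ∈ sq (c.r t)
  up : ∀ z ∈ sq (c.κ * c.r t), 1 / c.K ≤ |dX u z|
  bdu : ∀ z ∈ sq (c.κ * c.r t), ∀ i, 1 ≤ i → i ≤ 16 → ‖iteratedFDeriv ℝ i u z‖ ≤ c.K
  bdb : ∀ z ∈ sq (c.κ * c.r t), ∀ i ≤ 16, ‖iteratedFDeriv ℝ i b z‖ ≤ c.K
  e1 : ∀ z ∈ sq (c.κ * c.r t), dY b z = Afun z.1 (b z) *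
    (kPrime z.1 (kbar (c.beta t) (pt u z)) * dX u z - dX (c.beta t) (pt u z))
  e2 : ∀ z ∈ sq (c.κ * c.r t), dX b z =
    -(Nfun z.1 (b z) (dY u z) (dX u z) (kbar (c.beta t) (pt u z))) /
      Zfun z.1 (b z) (dY u z) (1 + c.beta t (pt u z))

/-- The rectangles of the estimates, `0 ≤ s ≤ 1`. -/
def rect (s : ℝ) : Set (ℝ × ℝ) :=
  {z | |z.1| ≤ c.pOut * (2 + s) * t ∧ |z.2| ≤ (1 + s) / 2 * t}

/-- The set outside of which the perturbation is a positive curvature density. -/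
def core : Set (ℝ × ℝ) := {z | |z.1| ≤ c.pOut * t ∧ |z.2| ≤ t / 4}

/-- The set containing the support of the bump in the hodograph variables. -/
def bumpSet : Set (ℝ × ℝ) :=
  {z | |z.1| ≤ 2 * c.K * (c.K + 1) * c.δ t ∧ |z.2| ≤ 2 * c.δ t}

/-- `1` on `|s| ≤ lo`, `0` for `|s| ≥ hi`. -/
noncomputable def prof (lo hi s : ℝ) : ℝ :=
  Real.smoothTransition ((hi ^ 2 - s ^ 2) / (hi ^ 2 - lo ^ 2))

/-- The cut-off between two rectangles. -/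
noncomputable def cut (s s' : ℝ) (z : ℝ × ℝ) : ℝ :=
  prof (c.pOut * (2 + s)) (c.pOut * (2 + s')) (z.1 / t) *
    prof ((1 + s) / 2) ((1 + s') / 2) (z.2 / t)

/-- The cut-off of the core. -/
noncomputable def hole (z : ℝ × ℝ) : ℝ :=
  prof c.pOut (3 / 2 * c.pOut) (z.1 / t) * prof (1 / 4) (3 / 8) (z.2 / t)

/-- The bounds on the coefficients of the linear operator. -/
structure CoefBd (K1 K2 B1 B0 : ℝ × ℝ → ℝ) : Prop where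
  sm1 : ContDiff ℝ ∞ K1
  sm2 : ContDiff ℝ ∞ K2
  ct1 : Continuous B1
  ct0 : Continuous B0
  small : ∀ z ∈ c.rect t 1, ∀ f ∈ ([K1, K2, B1, B0, dX K1, dX K2, dX (dX K2)] :
    List (ℝ × ℝ → ℝ)), |f z| ≤ c.om t z.2 * c.sA t * (t⁻¹) ^ 6
  byW : ∀ z ∈ c.rect t 1, |K1 z| ≤ c.W t z.2 * t⁻¹ ∧ |K2 z| ≤ c.W t z.2 * t⁻¹
  outer : ∀ z ∈ c.rect t 1, z ∉ c.core t → c.W t z.2 / 16 ≤ K2 z ∧
    |dX K2 z| ≤ c.W t z.2 * (t⁻¹) ^ 3 ∧ |dX (dX K2) z| ≤ c.W t z.2 * (t⁻¹) ^ 3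

/-- The properties of the multiplier. -/
structure MultBd (ζ lam K1 K2 B1 B0 : ℝ × ℝ → ℝ) : Prop where
  smζ : ContDiff ℝ ∞ ζ
  sml : ContDiff ℝ ∞ lam
  absζ : ∀ z ∈ c.rect t 1, |ζ z| ≤ |z.1| + |z.2|
  absl : ∀ z ∈ c.rect t 1, |lam z| ≤ 1
  pos : ∀ W : ℝ × ℝ → ℝ, ∀ z ∈ c.rect t 1,
    dY W z ^ 2 / 8 + t * c.W t z.2 * dX W z ^ 2 - W z ^ 2 / (64 * t ^ 2) ≤
      quadQ 1 ζ lam K1 K2 B1 B0 W z

/-- The energy of a function supported in the strip. -/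
noncomputable def energy (W : ℝ × ℝ → ℝ) : ℝ :=
  ∫ z, (dY W z ^ 2 + c.W t z.2 * dX W z ^ 2 + (t⁻¹) ^ 2 * W z ^ 2)

end Par

end Vale.Agent.P229
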