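import Mathlib.Analysis.Calculus.ContDiff.Bounds
import Mathlib.Analysis.Calculus.IteratedDeriv.Lemmas
import Vale.Agent.P229.Defs

/-!
# P229: the tame composition lemma

`tameSup` is the crude bound for the derivatives of a composition along a curve; `tameSpec` keeps
the top four derivatives of the inner function linear.
-/

open scoped ContDiff Topology
open Set Filter Finset

namespace Vale.Agent.P229

section

variable {E F G : Type*} [NormedAddCommGroup E] [NormedSpace ℝ E] [NormedAddCommGroup F]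
  [NormedSpace ℝ F] [NormedAddCommGroup G] [NormedSpace ℝ G]

/-- Leibniz bound for a moving linear map applied to a moving vector. -/
theorem tame_leibniz {A : ℝ → E →L[ℝ] F} {v : ℝ → E} {t : ℝ} (n : ℕ)
    (hA : ContDiffAt ℝ n A t) (hv : ContDiffAt ℝ n v t) :
    ‖iteratedDeriv n (fun s => A s (v s)) t‖ ≤ ∑ c ∈ Finset.range (n + 1),
      (n.choose c : ℝ) * ‖iteratedDeriv c A t‖ * ‖iteratedDeriv (n - c) v t‖ := by
  obtain ⟨u, hu, htu, huA⟩ := hA.contDiffWithinAt.contDiffOn' (m := (n : ℕ∞ω)) le_rfl (by simp)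
  obtain ⟨w, hw, htw, hwv⟩ := hv.contDiffWithinAt.contDiffOn' (m := (n : ℕ∞ω)) le_rfl (by simp)
  rw [insert_eq_of_mem (mem_univ _), univ_inter] at huA hwv
  have key := norm_iteratedFDerivWithin_clm_apply (huA.mono (inter_subset_left (t := w)))
    (hwv.mono (inter_subset_right (s := u))) (hu.inter hw).uniqueDiffOn ⟨htu, htw⟩
    (n := n) le_rfl
  simpa only [iteratedFDerivWithin_of_isOpen _ (hu.inter hw) ⟨htu, htw⟩,
    norm_iteratedFDeriv_eq_norm_iteratedDeriv] using key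

/-- The crude bound: all derivatives of the inner curve up to order `n` bounded by `Λ`. -/
theorem tameSup {S : ℝ → E} {g : E → F} {t0 Λ : ℝ} {Γ : ℕ → ℝ} (n : ℕ) (hΛ : 1 ≤ Λ)
    (hS : ContDiffAt ℝ n S t0) (hg : ContDiffAt ℝ n g (S t0))
    (hΓ : ∀ q ≤ n, ‖iteratedFDeriv ℝ q g (S t0)‖ ≤ Γ q)
    (hl : ∀ l, 1 ≤ l → l ≤ n → ‖iteratedDeriv l S t0‖ ≤ Λ) :
    ‖iteratedDeriv n (g ∘ S) t0‖ ≤ n.factorial * Λ ^ n * ∑ q ∈ Finset.range (n + 1), Γ q := by
  obtain ⟨t, ht, hxt, htg⟩ := hg.contDiffWithinAt.contDiffOn' (m := (n : ℕ∞ω)) le_rfl (by simp)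
  obtain ⟨s, hs, hxs, hsf⟩ := hS.contDiffWithinAt.contDiffOn' (m := (n : ℕ∞ω)) le_rfl (by simp)
  rw [insert_eq_of_mem (mem_univ _), univ_inter] at htg hsf
  obtain ⟨s', hs'sub, hs', hxs'⟩ : ∃ s' ⊆ s ∩ S ⁻¹' t, IsOpen s' ∧ t0 ∈ s' :=
    mem_nhds_iff.1 (Filter.inter_mem (hs.mem_nhds hxs)
      (hS.continuousAt.preimage_mem_nhds (ht.mem_nhds hxt)))
  have key := norm_iteratedFDerivWithin_comp_le (n := n) (x := t0)
    (C := ∑ q ∈ Finset.range (n + 1), Γ q) (D := Λ) htg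
    (hsf.mono fun y hy => (hs'sub hy).1) le_rfl ht.uniqueDiffOn hs'.uniqueDiffOn
    (fun y hy => (hs'sub hy).2) hxs'
    (fun j hj => by
      rw [iteratedFDerivWithin_of_isOpen j ht hxt]
      exact (hΓ j hj).trans (Finset.single_le_sum
        (fun q hq => (norm_nonneg _).trans (hΓ q (Nat.lt_succ_iff.1 (Finset.mem_range.1 hq))))
        (Finset.mem_range.2 (Nat.lt_succ_iff.2 hj))))
    (fun j hj1 hj => by
      rw [iteratedFDerivWithin_of_isOpen j hs' hxs', norm_iteratedFDeriv_eq_norm_iteratedDeriv]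
      exact (hl j hj1 hj).trans (le_self_pow₀ hΛ (by omega)))
  rw [iteratedFDerivWithin_of_isOpen n hs' hxs', norm_iteratedFDeriv_eq_norm_iteratedDeriv] at key
  exact key.trans_eq (by ring)

variable {S : ℝ → E} {g : E → F} {t0 : ℝ}

theorem tame_deriv_comp (hS : ContDiffAt ℝ ∞ S t0) (hg : ContDiffAt ℝ ∞ g (S t0)) :
    deriv (g ∘ S) =ᶠ[𝓝 t0] fun t => fderiv ℝ g (S t) (deriv S t) := by
  have h1 : ∀ᶠ t in 𝓝 t0, ContDiffAt ℝ 1 S t :=
    (hS.of_le (m := (1 : ℕ∞ω)) (mod_cast le_top)).eventually (by simp)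
  have h2 : ∀ᶠ t in 𝓝 t0, ContDiffAt ℝ 1 g (S t) :=
    hS.continuousAt.eventually ((hg.of_le (m := (1 : ℕ∞ω)) (mod_cast le_top)).eventually (by simp))
  filter_upwards [h1, h2] with t hs hgt
  exact fderiv_comp_deriv t (hgt.differentiableAt one_ne_zero) (hs.differentiableAt one_ne_zero)

theorem tame_contDiffAt_deriv (hS : ContDiffAt ℝ ∞ S t0) : ContDiffAt ℝ ∞ (deriv S) t0 :=
  (hS.fderiv_right (m := ∞) le_rfl).clm_apply contDiffAt_const

theorem tame_contDiffAt_fderiv_comp (hS : ContDiffAt ℝ ∞ S t0) (hg : ContDiffAt ℝ ∞ g (S t0)) :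
    ContDiffAt ℝ ∞ (fderiv ℝ g ∘ S) t0 :=
  (hg.fderiv_right (m := ∞) le_rfl).comp t0 hS

/-- Bound for the derivative of order `n + 1` of a composition. -/
theorem tame_succ_bound (hS : ContDiffAt ℝ ∞ S t0) (hg : ContDiffAt ℝ ∞ g (S t0)) (n : ℕ) :
    ‖iteratedDeriv (n + 1) (g ∘ S) t0‖ ≤ ∑ c ∈ Finset.range (n + 1),
      (n.choose c : ℝ) * ‖iteratedDeriv c (fderiv ℝ g ∘ S) t0‖ *
        ‖iteratedDeriv (n + 1 - c) S t0‖ := by
  rw [iteratedDeriv_succ', (tame_deriv_comp hS hg).iteratedDeriv_eq n]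
  refine (tame_leibniz (A := fderiv ℝ g ∘ S) (v := deriv S) n
    ((tame_contDiffAt_fderiv_comp hS hg).of_le (mod_cast le_top))
    ((tame_contDiffAt_deriv hS).of_le (mod_cast le_top))).trans_eq
      (Finset.sum_congr rfl fun c hc => ?_)
  rw [Finset.mem_range] at hc
  rw [show n + 1 - c = (n - c) + 1 by omega, iteratedDeriv_succ']

/-- Bound for the difference with the linear term in the top derivative. -/
theorem tame_succ_bound_sub (hS : ContDiffAt ℝ ∞ S t0) (hg : ContDiffAt ℝ ∞ g (S t0)) (n : ℕ) :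
    ‖iteratedDeriv (n + 1) (g ∘ S) t0 - fderiv ℝ g (S t0) (iteratedDeriv (n + 1) S t0)‖ ≤
      ∑ c ∈ Finset.range (n + 1), (n.choose c : ℝ) *
        (if c = 0 then 0 else ‖iteratedDeriv c (fderiv ℝ g ∘ S) t0‖) *
          ‖iteratedDeriv (n + 1 - c) S t0‖ := by
  set A := fderiv ℝ g (S t0) with hA
  have hd := tame_contDiffAt_deriv hS
  have hc := tame_contDiffAt_fderiv_comp hS hg
  have hlin : iteratedDeriv n (fun t => A (deriv S t)) t0 = A (iteratedDeriv (n + 1) S t0) := by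
    rw [iteratedDeriv_succ', iteratedDeriv_eq_iteratedFDeriv, iteratedDeriv_eq_iteratedFDeriv]
    show iteratedFDeriv ℝ n (A ∘ deriv S) t0 _ = _
    rw [A.iteratedFDeriv_comp_left (hd.of_le (m := (n : ℕ∞ω)) (mod_cast le_top)) le_rfl]
    rfl
  rw [← hlin, iteratedDeriv_succ', (tame_deriv_comp hS hg).iteratedDeriv_eq n,
    ← iteratedDeriv_fun_sub]
  rotate_left
  · exact (hc.clm_apply hd).of_le (mod_cast le_top)
  · exact (contDiffAt_const.clm_apply hd).of_le (mod_cast le_top)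
  have hsub : (fun t => fderiv ℝ g (S t) (deriv S t) - A (deriv S t)) =
      fun t => ((fderiv ℝ g ∘ S) t - A) (deriv S t) := rfl
  rw [hsub]
  refine (tame_leibniz (A := fun t => (fderiv ℝ g ∘ S) t - A) (v := deriv S) n
    ((hc.sub contDiffAt_const).of_le (mod_cast le_top))
    (hd.of_le (mod_cast le_top))).trans_eq (Finset.sum_congr rfl fun c hcn => ?_)
  rw [Finset.mem_range] at hcn
  rw [show n + 1 - c = (n - c) + 1 by omega, iteratedDeriv_succ']
  congr 2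
  split_ifs with h0
  · subst h0; simp [hA]
  · rw [iteratedDeriv_fun_sub (hc.of_le (mod_cast le_top)) contDiffAt_const, iteratedDeriv_const,
      if_neg h0, sub_zero]

end

/-! ### Sums of bounds -/

theorem tame_sum_shift {Γ : ℕ → ℝ} {k K : ℕ} (hk : k + 1 ≤ K) (h0 : ∀ q < K, 0 ≤ Γ q) :
    ∑ q ∈ Finset.range k, Γ (q + 1) ≤ ∑ q ∈ Finset.range K, Γ q := by
  have h1 : ∑ q ∈ Finset.range k, Γ (q + 1) ≤ ∑ q ∈ Finset.range (k + 1), Γ q := by
    rw [Finset.sum_range_succ']; linarith [h0 0 (by omega)]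
  exact h1.trans (Finset.sum_le_sum_of_subset_of_nonneg (Finset.range_mono hk)
    fun q hq _ => h0 q (Finset.mem_range.1 hq))

/-- The sum of the four derivatives above order `m`. -/
noncomputable def tameTop {E : Type} [NormedAddCommGroup E] [NormedSpace ℝ E] (S : ℝ → E)
    (t0 : ℝ) (m : ℕ) : ℝ :=
  ∑ k ∈ Finset.range 4, ‖iteratedDeriv (m + 1 + k) S t0‖

theorem tameTop_nonneg {E : Type} [NormedAddCommGroup E] [NormedSpace ℝ E] (S : ℝ → E) (t0 : ℝ)
    (m : ℕ) : 0 ≤ tameTop S t0 m :=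
  Finset.sum_nonneg fun _ _ => norm_nonneg _

theorem le_tameTop {E : Type} [NormedAddCommGroup E] [NormedSpace ℝ E] (S : ℝ → E) (t0 : ℝ)
    {m l : ℕ} (h1 : m < l) (h2 : l ≤ m + 4) : ‖iteratedDeriv l S t0‖ ≤ tameTop S t0 m := by
  obtain ⟨k, rfl⟩ : ∃ k, l = m + 1 + k := ⟨l - (m + 1), by omega⟩
  exact Finset.single_le_sum (f := fun j => ‖iteratedDeriv (m + 1 + j) S t0‖)
    (fun _ _ => norm_nonneg _) (Finset.mem_range.2 (by omega))

/-- The weak tame bound at order `n`, with the derivatives up to order `m` bounded by `Λ`. -/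
def TameWeak (n : ℕ) (C : ℝ) : Prop :=
  ∀ (E F : Type) [NormedAddCommGroup E] [NormedSpace ℝ E] [NormedAddCommGroup F] [NormedSpace ℝ F]
    (S : ℝ → E) (g : E → F) (t0 Λ0 Λ : ℝ) (Γ : ℕ → ℝ) (m : ℕ),
    4 ≤ m → n ≤ m + 4 → 1 ≤ Λ0 → Λ0 ≤ Λ → ContDiffAt ℝ ∞ S t0 → ContDiffAt ℝ ∞ g (S t0) →
    (∀ q ≤ n, ‖iteratedFDeriv ℝ q g (S t0)‖ ≤ Γ q) →
    (∀ l, 1 ≤ l → l ≤ 4 → ‖iteratedDeriv l S t0‖ ≤ Λ0) →
    (∀ l, 1 ≤ l → l ≤ m → ‖iteratedDeriv l S t0‖ ≤ Λ) →
    ‖iteratedDeriv n (g ∘ S) t0‖ ≤ C * Λ ^ n * (∑ q ∈ Finset.range (n + 1), Γ q) +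
      C * Λ0 ^ n * (∑ q ∈ Finset.range (n - m + 1), Γ q) * tameTop S t0 m

/-- One term of the expansion of the derivative of order `n`. -/
theorem tame_term {n c : ℕ} {C : ℝ} (hC : 0 ≤ C) (hw : TameWeak c C)
    {E F : Type} [NormedAddCommGroup E] [NormedSpace ℝ E] [NormedAddCommGroup F] [NormedSpace ℝ F]
    {S : ℝ → E} {g : E → F} {t0 Λ0 Λ : ℝ} {Γ : ℕ → ℝ} {m : ℕ}
    (hm : 4 ≤ m) (hc : c < n) (hn : n ≤ m + 5) (hc0 : c = 0 → n ≤ m + 4)
    (h1 : 1 ≤ Λ0) (h01 : Λ0 ≤ Λ) (hS : ContDiffAt ℝ ∞ S t0) (hg : ContDiffAt ℝ ∞ g (S t0))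
    (hΓ : ∀ q ≤ n, ‖iteratedFDeriv ℝ q g (S t0)‖ ≤ Γ q)
    (h4 : ∀ l, 1 ≤ l → l ≤ 4 → ‖iteratedDeriv l S t0‖ ≤ Λ0)
    (hl : ∀ l, 1 ≤ l → l ≤ m → ‖iteratedDeriv l S t0‖ ≤ Λ) :
    ‖iteratedDeriv c (fderiv ℝ g ∘ S) t0‖ * ‖iteratedDeriv (n - c) S t0‖ ≤
      (c.factorial + C) * (Λ ^ n * (∑ q ∈ Finset.range (n + 1), Γ q) +
        Λ0 ^ n * (∑ q ∈ Finset.range (n - m + 1), Γ q) * tameTop S t0 m) := by
  have hΛ : 1 ≤ Λ := h1.trans h01
  have hΓ' : ∀ q ≤ c, ‖iteratedFDeriv ℝ q (fderiv ℝ g) (S t0)‖ ≤ Γ (q + 1) := fun q hq => by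
    rw [norm_iteratedFDeriv_fderiv]; exact hΓ _ (by omega)
  have hg' : ContDiffAt ℝ ∞ (fderiv ℝ g) (S t0) := hg.fderiv_right le_rfl
  have h0 : ∀ q ≤ n, 0 ≤ Γ q := fun q hq => (norm_nonneg _).trans (hΓ q hq)
  have hA : 0 ≤ Λ ^ n * ∑ q ∈ Finset.range (n + 1), Γ q :=
    mul_nonneg (pow_nonneg (by linarith) _)
      (Finset.sum_nonneg fun q hq => h0 q (Nat.lt_succ_iff.1 (Finset.mem_range.1 hq)))
  have hs2 : ∀ {k : ℕ}, k ≤ n → 0 ≤ ∑ q ∈ Finset.range (k + 1), Γ q := fun hk =>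
    Finset.sum_nonneg fun q hq => h0 q
      ((Nat.lt_succ_iff.1 (Finset.mem_range.1 hq)).trans hk)
  have hB : 0 ≤ Λ0 ^ n * (∑ q ∈ Finset.range (n - m + 1), Γ q) * tameTop S t0 m :=
    mul_nonneg (mul_nonneg (pow_nonneg (by linarith) _) (hs2 (Nat.sub_le n m)))
      (tameTop_nonneg S t0 m)
  have hT := tameTop_nonneg S t0 m
  have hf : (0 : ℝ) ≤ c.factorial := Nat.cast_nonneg _
  rcases Nat.lt_or_ge m (n - c) with hbig | hsmall
  · -- a top derivative of the curve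
    have hc4 : c ≤ 4 := by omega
    have hb := tameSup (g := fderiv ℝ g) (Γ := fun q => Γ (q + 1)) c h1
      (hS.of_le (mod_cast le_top)) (hg'.of_le (mod_cast le_top)) hΓ'
      fun l hl1 hl2 => h4 l hl1 (hl2.trans hc4)
    have hsum := tame_sum_shift (Γ := Γ) (k := c + 1) (K := n - m + 1) (by omega)
      fun q hq => h0 q (by omega)
    have hD := le_tameTop S t0 hbig (by omega)
    calc ‖iteratedDeriv c (fderiv ℝ g ∘ S) t0‖ * ‖iteratedDeriv (n - c) S t0‖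
        ≤ (c.factorial * Λ0 ^ c * ∑ q ∈ Finset.range (c + 1), Γ (q + 1)) * tameTop S t0 m :=
          mul_le_mul hb hD (norm_nonneg _) ((norm_nonneg _).trans hb)
      _ ≤ (c.factorial * Λ0 ^ n * ∑ q ∈ Finset.range (n - m + 1), Γ q) * tameTop S t0 m := by
          refine mul_le_mul_of_nonneg_right ?_ hT
          refine mul_le_mul (mul_le_mul_of_nonneg_left (pow_le_pow_right₀ h1 hc.le) hf) hsum
            (Finset.sum_nonneg fun q hq => h0 _ ?_) (mul_nonneg hf (pow_nonneg (by linarith) _))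
          have := Finset.mem_range.1 hq; omega
      _ ≤ _ := by nlinarith [mul_nonneg hC hA, mul_nonneg hC hB, mul_nonneg hf hA]
  · rcases Nat.lt_or_ge m c with hcm | hcm
    · -- a top derivative inside
      have hb := hw E (E →L[ℝ] F) S (fderiv ℝ g) t0 Λ0 Λ (fun q => Γ (q + 1)) m hm (by omega) h1 h01
        hS hg' hΓ' h4 hl
      have hD : ‖iteratedDeriv (n - c) S t0‖ ≤ Λ0 := h4 _ (by omega) (by omega)
      have s1 := tame_sum_shift (Γ := Γ) (k := c + 1) (K := n + 1) (by omega)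
        fun q hq => h0 q (by omega)
      have s2 := tame_sum_shift (Γ := Γ) (k := c - m + 1) (K := n - m + 1) (by omega)
        fun q hq => h0 q (by omega)
      have s10 : 0 ≤ ∑ q ∈ Finset.range (c + 1), Γ (q + 1) := Finset.sum_nonneg fun q hq =>
        h0 _ (by have := Finset.mem_range.1 hq; omega)
      have s20 : 0 ≤ ∑ q ∈ Finset.range (c - m + 1), Γ (q + 1) := Finset.sum_nonneg fun q hq =>
        h0 _ (by have := Finset.mem_range.1 hq; omega)
      have p1 : Λ ^ c * Λ0 ≤ Λ ^ n :=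
        (mul_le_mul_of_nonneg_left h01 (pow_nonneg (by linarith) _)).trans
          ((pow_succ Λ c).symm.le.trans (pow_le_pow_right₀ hΛ hc))
      have p2 : Λ0 ^ c * Λ0 ≤ Λ0 ^ n := (pow_succ Λ0 c).symm.le.trans (pow_le_pow_right₀ h1 hc)
      calc ‖iteratedDeriv c (fderiv ℝ g ∘ S) t0‖ * ‖iteratedDeriv (n - c) S t0‖
          ≤ (C * Λ ^ c * (∑ q ∈ Finset.range (c + 1), Γ (q + 1)) +
              C * Λ0 ^ c * (∑ q ∈ Finset.range (c - m + 1), Γ (q + 1)) * tameTop S t0 m) * Λ0 :=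
            mul_le_mul hb hD (norm_nonneg _) ((norm_nonneg _).trans hb)
        _ = C * ((Λ ^ c * Λ0) * ∑ q ∈ Finset.range (c + 1), Γ (q + 1)) +
              C * ((Λ0 ^ c * Λ0) * (∑ q ∈ Finset.range (c - m + 1), Γ (q + 1)) *
                tameTop S t0 m) := by ring
        _ ≤ C * (Λ ^ n * ∑ q ∈ Finset.range (n + 1), Γ q) +
              C * (Λ0 ^ n * (∑ q ∈ Finset.range (n - m + 1), Γ q) * tameTop S t0 m) :=
            add_le_add
              (mul_le_mul_of_nonneg_left (mul_le_mul p1 s1 s10 (pow_nonneg (by linarith) _)) hC)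
              (mul_le_mul_of_nonneg_left (mul_le_mul_of_nonneg_right
                (mul_le_mul p2 s2 s20 (pow_nonneg (by linarith) _)) hT) hC)
        _ ≤ _ := by nlinarith [mul_nonneg hf hA, mul_nonneg hf hB]
    · -- no top derivative
      have hb := tameSup (g := fderiv ℝ g) (Γ := fun q => Γ (q + 1)) c hΛ
        (hS.of_le (mod_cast le_top)) (hg'.of_le (mod_cast le_top)) hΓ'
        fun l hl1 hl2 => hl l hl1 (hl2.trans hcm)
      have hsum := tame_sum_shift (Γ := Γ) (k := c + 1) (K := n + 1) (by omega)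
        fun q hq => h0 q (by omega)
      have hD : ‖iteratedDeriv (n - c) S t0‖ ≤ Λ := hl _ (by omega) hsmall
      calc ‖iteratedDeriv c (fderiv ℝ g ∘ S) t0‖ * ‖iteratedDeriv (n - c) S t0‖
          ≤ (c.factorial * Λ ^ c * ∑ q ∈ Finset.range (c + 1), Γ (q + 1)) * Λ :=
            mul_le_mul hb hD (norm_nonneg _) ((norm_nonneg _).trans hb)
        _ = c.factorial * (Λ ^ (c + 1) * ∑ q ∈ Finset.range (c + 1), Γ (q + 1)) := by ring
        _ ≤ c.factorial * (Λ ^ n * ∑ q ∈ Finset.range (n + 1), Γ q) :=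
            mul_le_mul_of_nonneg_left (mul_le_mul (pow_le_pow_right₀ hΛ hc) hsum
              (Finset.sum_nonneg fun q hq => h0 _ (by have := Finset.mem_range.1 hq; omega))
              (pow_nonneg (by linarith) _)) hf
        _ ≤ _ := by nlinarith [mul_nonneg hC hA, mul_nonneg hC hB, mul_nonneg hf hB]

theorem exists_tameWeak (n : ℕ) : ∃ C : ℝ, 0 ≤ C ∧ TameWeak n C := by
  induction n using Nat.strong_induction_on with
  | _ n ih =>
    have h' : ∀ c, ∃ C : ℝ, c < n → 0 ≤ C ∧ TameWeak c C := fun c => by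
      by_cases hc : c < n
      · obtain ⟨C, hC⟩ := ih c hc
        exact ⟨C, fun _ => hC⟩
      · exact ⟨0, fun h => absurd h hc⟩
    choose D hD using h'
    have hD0 : 0 ≤ ∑ c ∈ Finset.range n, ((n - 1).choose c : ℝ) * (c.factorial + D c) :=
      Finset.sum_nonneg fun c hc =>
        mul_nonneg (Nat.cast_nonneg _) (add_nonneg (Nat.cast_nonneg _)
          (hD c (Finset.mem_range.1 hc)).1)
    refine ⟨n.factorial + ∑ c ∈ Finset.range n, ((n - 1).choose c : ℝ) * (c.factorial + D c),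
      add_nonneg (Nat.cast_nonneg _) hD0, ?_⟩
    intro E F _ _ _ _ S g t0 Λ0 Λ Γ m hm hn h1 h01 hS hg hΓ h4 hl
    have h0 : ∀ q ≤ n, 0 ≤ Γ q := fun q hq => (norm_nonneg _).trans (hΓ q hq)
    have hA : 0 ≤ Λ ^ n * ∑ q ∈ Finset.range (n + 1), Γ q :=
      mul_nonneg (pow_nonneg (by linarith) _)
        (Finset.sum_nonneg fun q hq => h0 q (Nat.lt_succ_iff.1 (Finset.mem_range.1 hq)))
    have hB : 0 ≤ Λ0 ^ n * (∑ q ∈ Finset.range (n - m + 1), Γ q) * tameTop S t0 m :=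
      mul_nonneg (mul_nonneg (pow_nonneg (by linarith) _) (Finset.sum_nonneg fun q hq => h0 q
        (by have := Finset.mem_range.1 hq; omega))) (tameTop_nonneg S t0 m)
    have hf : (0 : ℝ) ≤ n.factorial := Nat.cast_nonneg _
    rcases Nat.lt_or_ge m n with hmn | hnm
    · obtain ⟨p, rfl⟩ : ∃ p, n = p + 1 := ⟨n - 1, by omega⟩
      refine (tame_succ_bound hS hg p).trans ?_
      have hterm : ∀ c ∈ Finset.range (p + 1),
          (p.choose c : ℝ) * ‖iteratedDeriv c (fderiv ℝ g ∘ S) t0‖ *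
            ‖iteratedDeriv (p + 1 - c) S t0‖ ≤
          ((p + 1 - 1).choose c : ℝ) * (c.factorial + D c) *
            (Λ ^ (p + 1) * (∑ q ∈ Finset.range (p + 1 + 1), Γ q) +
              Λ0 ^ (p + 1) * (∑ q ∈ Finset.range (p + 1 - m + 1), Γ q) * tameTop S t0 m) := by
        intro c hc
        obtain ⟨hC, hw⟩ := hD c (Finset.mem_range.1 hc)
        rw [Nat.add_sub_cancel, mul_assoc, mul_assoc]
        exact mul_le_mul_of_nonneg_left (tame_term hC hw hm (Finset.mem_range.1 hc) (by omega)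
          (fun _ => hn) h1 h01 hS hg hΓ h4 hl) (Nat.cast_nonneg _)
      refine (Finset.sum_le_sum hterm).trans ?_
      rw [← Finset.sum_mul]
      nlinarith [mul_nonneg hf hA, mul_nonneg hf hB]
    · refine (tameSup (Γ := Γ) n (h1.trans h01) (hS.of_le (mod_cast le_top))
        (hg.of_le (mod_cast le_top)) hΓ fun l hl1 hl2 => hl l hl1 (hl2.trans hnm)).trans ?_
      nlinarith [mul_nonneg hD0 hA, mul_nonneg hD0 hB, mul_nonneg hf hB]

/-- The tame composition lemma. -/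
theorem tameSpec : TameSpec := by
  intro i hi
  choose D hD0 hD using exists_tameWeak
  refine ⟨∑ c ∈ Finset.range i, ((i - 1).choose c : ℝ) * (c.factorial + D c),
    Finset.sum_nonneg fun c _ => mul_nonneg (Nat.cast_nonneg _)
      (add_nonneg (Nat.cast_nonneg _) (hD0 c)), ?_⟩
  intro E _ _ S g t0 Λ0 Λ Γ h1 h01 hS hg hΓ h4 hl
  obtain ⟨m, rfl⟩ : ∃ m, i = m + 5 := ⟨i - 5, by omega⟩
  set K := ∑ c ∈ Finset.range (m + 5), ((m + 5 - 1).choose c : ℝ) * (c.factorial + D c) with hK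
  have hK0 : 0 ≤ K := Finset.sum_nonneg fun c _ => mul_nonneg (Nat.cast_nonneg _)
      (add_nonneg (Nat.cast_nonneg _) (hD0 c))
  have h0 : ∀ q ≤ m + 5, 0 ≤ Γ q := fun q hq => (norm_nonneg _).trans (hΓ q hq)
  have hsum : ∑ q ∈ Finset.range (m + 5 - m + 1), Γ q ≤ ∑ q ∈ Finset.range 7, Γ q :=
    Finset.sum_le_sum_of_subset_of_nonneg (Finset.range_mono (by omega))
      fun q hq _ => h0 q (by have := Finset.mem_range.1 hq; omega)
  have hA : 0 ≤ Λ ^ (m + 5) * ∑ q ∈ Finset.range (m + 5 + 1), Γ q :=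
    mul_nonneg (pow_nonneg (by linarith) _)
      (Finset.sum_nonneg fun q hq => h0 q (Nat.lt_succ_iff.1 (Finset.mem_range.1 hq)))
  have hB : 0 ≤ Λ0 ^ (m + 5) * (∑ q ∈ Finset.range (m + 5 - m + 1), Γ q) * tameTop S t0 m :=
    mul_nonneg (mul_nonneg (pow_nonneg (by linarith) _) (Finset.sum_nonneg fun q hq => h0 q
      (by have := Finset.mem_range.1 hq; omega))) (tameTop_nonneg S t0 m)
  have key := (tame_succ_bound_sub hS hg (m + 4)).trans
    (Finset.sum_le_sum (g := fun c => ((m + 5 - 1).choose c : ℝ) * (c.factorial + D c) *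
      (Λ ^ (m + 5) * (∑ q ∈ Finset.range (m + 5 + 1), Γ q) +
        Λ0 ^ (m + 5) * (∑ q ∈ Finset.range (m + 5 - m + 1), Γ q) * tameTop S t0 m)) ?_)
  · have htop : tameTop S t0 m = ‖iteratedDeriv (m + 5 - 1) S t0‖ +
        ‖iteratedDeriv (m + 5 - 2) S t0‖ + ‖iteratedDeriv (m + 5 - 3) S t0‖ +
        ‖iteratedDeriv (m + 5 - 4) S t0‖ := by
      simp only [tameTop, Finset.sum_range_succ, Finset.sum_range_zero,
        show m + 5 - 1 = m + 1 + 3 by omega, show m + 5 - 2 = m + 1 + 2 by omega,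
        show m + 5 - 3 = m + 1 + 1 by omega, show m + 5 - 4 = m + 1 + 0 by omega]
      ring
    rw [← htop]
    refine key.trans ?_
    rw [← Finset.sum_mul, ← hK, mul_add]
    refine add_le_add (le_of_eq (by ring)) ?_
    calc K * (Λ0 ^ (m + 5) * (∑ q ∈ Finset.range (m + 5 - m + 1), Γ q) * tameTop S t0 m)
        ≤ K * (Λ0 ^ (m + 5) * (∑ q ∈ Finset.range 7, Γ q) * tameTop S t0 m) :=
          mul_le_mul_of_nonneg_left (mul_le_mul_of_nonneg_right
            (mul_le_mul_of_nonneg_left hsum (pow_nonneg (by linarith) _))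
            (tameTop_nonneg S t0 m)) hK0
      _ = _ := by ring
  · intro c hc
    rw [Finset.mem_range] at hc
    rw [show m + 5 - 1 = m + 4 by omega, mul_assoc, mul_assoc]
    refine mul_le_mul_of_nonneg_left ?_ (Nat.cast_nonneg _)
    split_ifs with hc0
    · rw [zero_mul]
      exact mul_nonneg (add_nonneg (Nat.cast_nonneg _) (hD0 c)) (add_nonneg hA hB)
    · exact tame_term (hD0 c) (hD c) (by omega) hc le_rfl (fun h => absurd h hc0) h1 h01 hS hg hΓ
        h4 fun l hl1 hl2 => hl l hl1 (by omega)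

end Vale.Agent.P229
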