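import Vale.Agent.P229.BoxSrc0
import Vale.Agent.P229.Tame

/-!
# P229: the differentiated equation as a linear equation with a source
-/

open scoped ContDiff Topology
open Set Filter

namespace Vale.Agent.P229

open BoxEq

/-- The supremum hypothesis at a point. -/
def SupAt (t : ℝ) (u b : ℝ × ℝ → ℝ) (i N : ℕ) (z : ℝ × ℝ) : Prop :=
  (∀ q, 1 ≤ q → q + 4 ≤ i → |dX^[q] u z| ≤ (t⁻¹) ^ N) ∧
    ∀ q, q + 5 ≤ i → |dX^[q] (dY u) z| ≤ (t⁻¹) ^ N ∧ |dX^[q] b z| ≤ (t⁻¹) ^ N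

/-- One bound for all coefficient functions. -/
theorem bxK0_exists {K : ℝ} (hK : 1 ≤ K) (i : ℕ) : ∃ K0 : ℝ, K + 1 ≤ K0 ∧
    ∀ g ∈ ([a1v, a2v, g0v, g1v, g2v, g3v, g4v, hvJ] : List (J8 → ℝ)), ∀ q ≤ i, ∀ J,
      ‖iteratedFDeriv ℝ q (cutJ K g) J‖ ≤ K0 := by
  have B := fun g hg => bxCutJ_bound hK (g := g) hg i
  obtain ⟨A1, hA11, hA1⟩ := B a1v fun J hJ => (bxSm_coef hJ).2.2.2.2.1
  obtain ⟨A2, hA21, hA2⟩ := B a2v fun J hJ => (bxSm_coef hJ).2.2.2.2.2.1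
  obtain ⟨G0, hG01, hG0⟩ := B g0v fun J hJ => (bxSm_coef hJ).2.2.2.2.2.2.1
  obtain ⟨G1, hG11, hG1⟩ := B g1v fun J hJ => (bxSm_coef hJ).2.2.2.2.2.2.2.1
  obtain ⟨G2, hG21, hG2⟩ := B g2v fun J hJ => (bxSm_coef hJ).2.2.2.2.2.2.2.2.1
  obtain ⟨G3, hG31, hG3⟩ := B g3v fun J hJ => (bxSm_coef hJ).2.2.2.2.2.2.2.2.2.1
  obtain ⟨G4, hG41, hG4⟩ := B g4v fun J hJ => (bxSm_coef hJ).2.2.2.2.2.2.2.2.2.2
  obtain ⟨H, hH1, hH⟩ := B hvJ fun J hJ => (bxSm_coef hJ).2.2.1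
  refine ⟨K + 1 + (A1 + A2 + G0 + G1 + G2 + G3 + G4 + H), by linarith, fun g hg q hq J => ?_⟩
  simp only [List.mem_cons, List.not_mem_nil, or_false] at hg
  rcases hg with rfl | rfl | rfl | rfl | rfl | rfl | rfl | rfl
  · exact (hA1 q hq J).trans (by linarith)
  · exact (hA2 q hq J).trans (by linarith)
  · exact (hG0 q hq J).trans (by linarith)
  · exact (hG1 q hq J).trans (by linarith)
  · exact (hG2 q hq J).trans (by linarith)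
  · exact (hG3 q hq J).trans (by linarith)
  · exact (hG4 q hq J).trans (by linarith)
  · exact (hH q hq J).trans (by linarith)

theorem bxJetHyp {c : Par} {t : ℝ} {u b : ℝ × ℝ → ℝ} {z : ℝ × ℝ} {i N : ℕ}
    {K0 C g0 g1 h0 h1 : ℝ} (h : c.Sol t u b) (ht : 0 < t) (ht1 : t ≤ 1) (hz : z ∈ c.rect t 1)
    (hK0 : c.K + 1 ≤ K0) (hC : K0 ≤ t⁻¹)
    (hbd : ∀ q ≤ i, ∀ J, ‖iteratedFDeriv ℝ q (cutJ c.K hvJ) J‖ ≤ K0)
    (hjet : jetJ (c.beta t) u b z ∈ jetIn c.K)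
    (hlow : ∀ p : ℝ × ℝ, ∀ q ≤ 8, |dX^[q] (c.beta t) p| ≤ 1 ∧
      |dX^[q] (kbar (c.beta t)) p| ≤ 1 ∧ |dX^[q] (dX (c.beta t)) p| ≤ 1 ∧
      |dX^[q] (dY (c.beta t)) p| ≤ 1)
    (hS : SupAt t u b i N z) (hcs : CoefSize c t u z i g0 g1 h0 h1)
    (hg1 : g1 ≤ C * (1 + c.indB t z * (c.ε t / c.δ t ^ i))) (hC1 : 1 ≤ C) :
    JetHyp (c.beta t) u b i z K0 ((t⁻¹) ^ (N + i + 4))
      (C * (1 + c.indB t z * (c.ε t / c.δ t ^ i))) := by
  have hK := c.one_le_K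
  have hT1 : (1 : ℝ) ≤ t⁻¹ := (one_le_inv₀ ht).2 ht1
  have hd := c.bxδ_pos ht
  have he := c.ε_pos ht
  have hι := c.indB_nonneg t z
  have hE : 1 ≤ C * (1 + c.indB t z * (c.ε t / c.δ t ^ i)) :=
    one_le_mul_of_one_le_of_one_le hC1 (le_add_of_nonneg_right (by positivity))
  have hN : t⁻¹ ^ N ≤ t⁻¹ ^ (N + i + 4) := pow_le_pow_right₀ hT1 (by omega)
  have hi3 : t⁻¹ ^ (i + 3) ≤ t⁻¹ ^ (N + i + 4) := pow_le_pow_right₀ hT1 (by omega)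
  have h1T : (1 : ℝ) ≤ t⁻¹ ^ (N + i + 4) := one_le_pow₀ hT1
  have hb := c.contDiff_beta t
  have hm := c.rect_sub_sq ht hz
  have hev : ∀ᶠ w in 𝓝 z, w ∈ sq (c.κ * c.r t) := c.rect_nhds ht hz
  have hcut : cutJ c.K hvJ =ᶠ[𝓝 (jetJ (c.beta t) u b z)] hvJ := bxCutJ_eventually hK hvJ hjet
  refine
    { smβ := hb, smu := h.smu, smb := h.smb, one_le := by linarith,
      le_Λ := hC.trans (le_self_pow₀ hT1 (by omega)), le_E := hE,
      lowu := fun l hl => ?_, supu := fun q h1 h2 => (hS.1 q h1 h2).trans hN,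
      supy := fun q hq => ⟨(hS.2 q hq).1.trans hN, (hS.2 q hq).2.trans hN⟩,
      coefLow := fun q hq => ?_, coefSup := fun q hq => ?_, coefAll := fun q hq => ?_,
      eqb := ?_, hsm := ?_, hbd := fun q hq => ?_ }
  · refine ⟨?_, ?_, ?_⟩
    · rw [← Function.iterate_succ_apply]
      exact ((h.iter_bound hm (l + 1) 0 (by omega)).1 (by omega)).trans (by linarith)
    · exact ((h.iter_bound hm l 1 (by omega)).1 (by omega)).trans (by linarith)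
    · exact ((h.iter_bound hm l 0 (by omega)).2).trans (by linarith)
  · obtain ⟨a, b', c', d⟩ := hlow (pt u z) q hq
    exact ⟨a.trans (by linarith), b'.trans (by linarith), c'.trans (by linarith),
      d.trans (by linarith)⟩
  · obtain ⟨s1, s2, s3⟩ := hcs.supB q hq
    refine ⟨?_, s1.trans hi3, s2.trans hi3, s3.trans hi3⟩
    rcases q with _ | q
    · exact ((hlow (pt u z) 0 (by norm_num)).1).trans h1T
    · rw [Function.iterate_succ_apply]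
      exact ((hcs.supB q (by omega)).2.1).trans hi3
  · refine ⟨?_, (hcs.all _ (by simp) q hq).trans hg1, (hcs.all _ (by simp) q hq).trans hg1,
      (hcs.all _ (by simp) q hq).trans hg1⟩
    rcases q with _ | q
    · exact ((hlow (pt u z) 0 (by norm_num)).1).trans hE
    · rw [Function.iterate_succ_apply]
      exact (hcs.all _ (by simp) q (by omega)).trans hg1
  · filter_upwards [hev] with w hw
    exact h.e2 w hw
  · exact (bxSm_coef (bxJetIn_dom hK hjet)).2.2.1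
  · rw [show (fun J => -(nv J) / zv J) = hvJ from rfl,
      ← (hcut.iteratedFDeriv ℝ q).eq_of_nhds]
    exact hbd q hq _

/-- The differentiated equation at a point. -/
theorem bxEq_iter {c : Par} {t : ℝ} {u b : ℝ × ℝ → ℝ} {z : ℝ × ℝ} (h : c.Sol t u b)
    (ht : 0 < t) (hz : z ∈ c.rect t 1) (hjet : jetJ (c.beta t) u b z ∈ jetIn c.K) (i : ℕ) :
    dX^[i] (dY (dY u)) z
      + 2 * dX^[i] (fun w => termFun (kbar (c.beta t)) (cutJ c.K a1v) (c.beta t) u b w *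
          dX (dY u) w) z
      + dX^[i] (fun w => termFun (kbar (c.beta t)) (cutJ c.K a2v) (c.beta t) u b w *
          dX (dX u) w) z
      + dX^[i] (termFun (kbar (c.beta t)) (cutJ c.K g0v) (c.beta t) u b) z
      + dX^[i] (termFun (dX (kbar (c.betaBg t))) (cutJ c.K g1v) (c.beta t) u b) z
      + dX^[i] (termFun (dY (kbar (c.betaBg t))) (cutJ c.K g2v) (c.beta t) u b) z
      + dX^[i] (termFun (dX (c.beta t)) (cutJ c.K g3v) (c.beta t) u b) z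
      + dX^[i] (termFun (dY (c.beta t)) (cutJ c.K g4v) (c.beta t) u b) z
      + dX^[i] (c.cGf t u b) z = 0 := by
  have hK := c.one_le_K
  have hb := c.contDiff_beta t
  have hB := c.contDiff_betaBg t
  have hF := c.contDiff_betaF t
  have hsm : ∀ {F : ℝ × ℝ → ℝ} {g : J8 → ℝ}, ContDiff ℝ ∞ F →
      (∀ J ∈ jetDom, ContDiffAt ℝ ∞ g J) →
      ContDiff ℝ ∞ (termFun F (cutJ c.K g) (c.beta t) u b) := fun hF' hg =>
    (bxPt_smooth hF' h.smu).mul ((bxCutJ_smooth hK hg).comp (bxJetJ_smooth hb h.smu h.smb))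
  set T1 := termFun (kbar (c.beta t)) (cutJ c.K a1v) (c.beta t) u b with hT1
  set T2 := termFun (kbar (c.beta t)) (cutJ c.K a2v) (c.beta t) u b with hT2
  set S0 := termFun (kbar (c.beta t)) (cutJ c.K g0v) (c.beta t) u b with hS0
  set S1 := termFun (dX (kbar (c.betaBg t))) (cutJ c.K g1v) (c.beta t) u b with hS1
  set S2 := termFun (dY (kbar (c.betaBg t))) (cutJ c.K g2v) (c.beta t) u b with hS2
  set S3 := termFun (dX (c.beta t)) (cutJ c.K g3v) (c.beta t) u b with hS3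
  set S4 := termFun (dY (c.beta t)) (cutJ c.K g4v) (c.beta t) u b with hS4
  have hy := bxSmooth_dY (bxSmooth_dY h.smu)
  have hp := bxSmooth_dX (bxSmooth_dY h.smu)
  have hpp := bxSmooth_dX (bxSmooth_dX h.smu)
  have i1 : ContDiff ℝ ∞ (fun w => T1 w * dX (dY u) w) :=
    (hsm (bxSmooth_kbar hb) fun J hJ => (bxSm_coef hJ).2.2.2.2.1).mul hp
  have i2 : ContDiff ℝ ∞ (fun w => T2 w * dX (dX u) w) :=
    (hsm (bxSmooth_kbar hb) fun J hJ => (bxSm_coef hJ).2.2.2.2.2.1).mul hpp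
  have j0 : ContDiff ℝ ∞ S0 :=
    hsm (bxSmooth_kbar hb) fun J hJ => (bxSm_coef hJ).2.2.2.2.2.2.1
  have j1 : ContDiff ℝ ∞ S1 :=
    hsm (bxSmooth_dX (bxSmooth_kbar hB)) fun J hJ => (bxSm_coef hJ).2.2.2.2.2.2.2.1
  have j2 : ContDiff ℝ ∞ S2 :=
    hsm (bxSmooth_dY (bxSmooth_kbar hB)) fun J hJ => (bxSm_coef hJ).2.2.2.2.2.2.2.2.1
  have j3 : ContDiff ℝ ∞ S3 :=
    hsm (bxSmooth_dX hb) fun J hJ => (bxSm_coef hJ).2.2.2.2.2.2.2.2.2.1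
  have j4 : ContDiff ℝ ∞ S4 :=
    hsm (bxSmooth_dY hb) fun J hJ => (bxSm_coef hJ).2.2.2.2.2.2.2.2.2.2
  have jf : ContDiff ℝ ∞ (c.cGf t u b) :=
    (hsm (bxSmooth_dX (bxSmooth_kbar hF)) fun J hJ => (bxSm_coef hJ).2.2.2.2.2.2.2.1).add
      (hsm (bxSmooth_dY (bxSmooth_kbar hF)) fun J hJ => (bxSm_coef hJ).2.2.2.2.2.2.2.2.1)
  have a1 := hy.add (i1.add i1)
  have a2 := a1.add i2
  have a3 := a2.add j0
  have a4 := a3.add j1
  have a5 := a4.add j2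
  have a6 := a5.add j3
  have a7 := a6.add j4
  obtain ⟨O, hO, hOo, hzO⟩ : ∃ O ⊆ sq (c.κ * c.r t) ∩
      {w | jetJ (c.beta t) u b w ∈ jetIn c.K}, IsOpen O ∧ z ∈ O :=
    mem_nhds_iff.1 (Filter.inter_mem (c.rect_nhds ht hz)
      ((bxJetJ_smooth hb h.smu h.smb).continuous.continuousAt.preimage_mem_nhds
        ((bxJetIn_open c.K).mem_nhds hjet)))
  have key : EqOn (fun w => dY (dY u) w + (T1 w * dX (dY u) w + T1 w * dX (dY u) w)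
      + T2 w * dX (dX u) w + S0 w + S1 w + S2 w + S3 w + S4 w + c.cGf t u b w)
      (fun _ => (0 : ℝ)) O := by
    intro w hw
    obtain ⟨hwm, hwj⟩ := hO hw
    have hev : ∀ᶠ v in 𝓝 w, v ∈ sq (c.κ * c.r t) :=
      Filter.mem_of_superset (hOo.mem_nhds hw) fun v hv => (hO hv).1
    obtain ⟨hR, hZ, hD, hD0⟩ := bxJetIn_dom hK hwj
    have := bxEquation hb h.smu h.smb w (hev.mono fun v hv => h.e1 v hv)
      (hev.mono fun v hv => h.e2 v hv) hR hZ hD hD0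
    obtain ⟨-, -, -, s4, s5⟩ := c.pert_split t
    have e : ∀ g : J8 → ℝ, cutJ c.K g (jetJ (c.beta t) u b w) = g (jetJ (c.beta t) u b w) :=
      fun g => (bxCutJ_eventually hK g hwj).eq_of_nhds
    rw [bxMixed h.smu w, congr_fun s4 (pt u w), congr_fun s5 (pt u w)] at this
    simp only [hT1, hT2, hS0, hS1, hS2, hS3, hS4, Par.cGf, termFun, e]
    linarith
  have := bxDX_iterate_congr hOo i key hzO
  rw [bxIter_add a7 jf, bxIter_add a6 j4, bxIter_add a5 j3, bxIter_add a4 j2, bxIter_add a3 j1,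
    bxIter_add a2 j0, bxIter_add a1 i2, bxIter_add hy (i1.add i1), bxIter_add i1 i1] at this
  have z0 : dX^[i] (fun _ : ℝ × ℝ => (0 : ℝ)) z = 0 := by
    simpa using congr_fun (bxIterate_zero i 0) z
  rw [z0] at this
  linarith

/-- Bookkeeping of the powers. -/
theorem bxSrc_arith {Λ T w ι e g0 g1 E C Cs : ℝ} {N N' i : ℕ} (hT : 1 ≤ T) (hw : 0 ≤ w)
    (hw1 : w ≤ 1) (hι : 0 ≤ ι) (he : 0 ≤ e) (hΛ : Λ ≤ T ^ N) (hΛ0 : 0 ≤ Λ) (hC0 : 0 ≤ C)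
    (hg1 : g1 = w * T ^ (i + 3) + ι * T * e) (hg0 : g0 = Cs * (w * T ^ 9))
    (hE : E = T ^ (i + 4) * (1 + ι * e)) (hCs : 0 ≤ Cs) (hCsT : Cs ≤ T) (hCT : 3 * C ≤ T) :
    C * Λ ^ N' * (g1 + g1 + g0 * E) ≤ T ^ (N * N' + i + 15) * (w + ι * e) := by
  have hT0 : 0 ≤ T := by linarith
  have hx : 0 ≤ ι * e := mul_nonneg hι he
  have a : g1 ≤ T ^ (i + 14) * (w + ι * e) := by
    have p1 : T ^ (i + 3) ≤ T ^ (i + 14) := pow_le_pow_right₀ hT (by omega)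
    have p2 : T ≤ T ^ (i + 14) := le_self_pow₀ hT (by omega)
    rw [hg1, mul_add]
    refine add_le_add ?_ ?_
    · rw [mul_comm]; exact mul_le_mul_of_nonneg_right p1 hw
    · rw [mul_comm ι T, mul_assoc]; exact mul_le_mul_of_nonneg_right p2 hx
  have b : g0 * E ≤ T ^ (i + 14) * (w + ι * e) := by
    rw [hg0, hE]
    calc Cs * (w * T ^ 9) * (T ^ (i + 4) * (1 + ι * e))
        = Cs * T ^ (i + 13) * (w * (1 + ι * e)) := by ring
      _ ≤ T * T ^ (i + 13) * (w + ι * e) := by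
          refine mul_le_mul (mul_le_mul_of_nonneg_right hCsT (by positivity)) ?_ (by positivity)
            (by positivity)
          rw [mul_add, mul_one]
          exact add_le_add le_rfl (mul_le_of_le_one_left hx hw1)
      _ = _ := by ring
  have hG : g1 + g1 + g0 * E ≤ 3 * (T ^ (i + 14) * (w + ι * e)) := by linarith
  have hg1n : 0 ≤ g1 := by rw [hg1]; positivity
  have hg0n : 0 ≤ g0 * E := by rw [hg0, hE]; positivity
  calc C * Λ ^ N' * (g1 + g1 + g0 * E)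
      ≤ C * (T ^ N) ^ N' * (3 * (T ^ (i + 14) * (w + ι * e))) := by gcongr
    _ = 3 * C * T ^ (N * N' + i + 14) * (w + ι * e) := by ring
    _ ≤ T * T ^ (N * N' + i + 14) * (w + ι * e) := by gcongr
    _ = _ := by ring

theorem bxCombine {Y A1 A2 a0 a1 a2 a3 a4 F x1 y1 v1 x2 y2 v2 p0 p1 p2 p3 p4 R1 R2 : ℝ}
    (h0 : Y + 2 * A1 + A2 + a0 + a1 + a2 + a3 + a4 + F = 0)
    (h1 : |A1 - x1 - y1 - v1| ≤ R2) (h2 : |A2 - x2 - y2 - v2| ≤ R2) (g0 : |a0 - p0| ≤ R1)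
    (g1 : |a1 - p1| ≤ R1) (g2 : |a2 - p2| ≤ R1) (g3 : |a3 - p3| ≤ R1) (g4 : |a4 - p4| ≤ R1) :
    |Y + 2 * (x1 + y1 + v1) + (x2 + y2 + v2) + p0 + p1 + p2 + p3 + p4 + F| ≤ 3 * R2 + 5 * R1 := by
  obtain ⟨l1, u1⟩ := abs_le.1 h1
  obtain ⟨l2, u2⟩ := abs_le.1 h2
  obtain ⟨l3, u3⟩ := abs_le.1 g0
  obtain ⟨l4, u4⟩ := abs_le.1 g1
  obtain ⟨l5, u5⟩ := abs_le.1 g2
  obtain ⟨l6, u6⟩ := abs_le.1 g3
  obtain ⟨l7, u7⟩ := abs_le.1 g4
  rw [abs_le]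
  constructor <;> linarith

/-- The linear operator in terms of the highest order parts of the terms. -/
theorem bxOpL_parts {c : Par} {t : ℝ} {u b : ℝ × ℝ → ℝ} (h : c.Sol t u b) {i : ℕ} (hi : 1 ≤ i)
    (z : ℝ × ℝ) :
    opL (c.cK1 t u b) (c.cK2 t u b) (c.cB1 t u b i) (c.cB0 t u b i) (dX^[i] u) z =
      dX^[i] (dY (dY u)) z
      + 2 * (termFun (kbar (c.beta t)) (cutJ c.K a1v) (c.beta t) u b z * dX^[i] (dX (dY u)) z
        + i * dX (termFun (kbar (c.beta t)) (cutJ c.K a1v) (c.beta t) u b) z *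
          dX^[i - 1] (dX (dY u)) z
        + kbar (c.beta t) (pt u z) * gTop (cutJ c.K a1v) (c.beta t) u b i z * dX (dY u) z)
      + (termFun (kbar (c.beta t)) (cutJ c.K a2v) (c.beta t) u b z * dX^[i] (dX (dX u)) z
        + i * dX (termFun (kbar (c.beta t)) (cutJ c.K a2v) (c.beta t) u b) z *
          dX^[i - 1] (dX (dX u)) z
        + kbar (c.beta t) (pt u z) * gTop (cutJ c.K a2v) (c.beta t) u b i z * dX (dX u) z)
      + kbar (c.beta t) (pt u z) * gTop (cutJ c.K g0v) (c.beta t) u b i z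
      + dX (kbar (c.betaBg t)) (pt u z) * gTop (cutJ c.K g1v) (c.beta t) u b i z
      + dY (kbar (c.betaBg t)) (pt u z) * gTop (cutJ c.K g2v) (c.beta t) u b i z
      + dX (c.beta t) (pt u z) * gTop (cutJ c.K g3v) (c.beta t) u b i z
      + dY (c.beta t) (pt u z) * gTop (cutJ c.K g4v) (c.beta t) u b i z := by
  have e1 : dX (dX^[i] u) = dX^[i] (dX u) := by
    rw [← Function.iterate_succ_apply' dX, Function.iterate_succ_apply]
  have eX1 : dX^[i - 1] (dX (dX u)) = dX^[i] (dX u) := by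
    rw [← Function.iterate_succ_apply dX (i - 1), show (i - 1).succ = i by omega]
  have eY1 : dX^[i - 1] (dX (dY u)) = dX^[i] (dY u) := by
    rw [← Function.iterate_succ_apply dX (i - 1), show (i - 1).succ = i by omega]
  have e2 : dY (dX^[i] u) = dX^[i] (dY u) := bxMixed_iter h.smu i
  have e3 : dY (dX^[i] (dY u)) = dX^[i] (dY (dY u)) := bxMixed_iter (bxSmooth_dY h.smu) i
  have e4 : dX (dX^[i] (dX u)) = dX^[i] (dX (dX u)) := by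
    rw [← Function.iterate_succ_apply' dX, Function.iterate_succ_apply]
  have e5 : dY (dX^[i] (dX u)) = dX^[i] (dX (dY u)) := by
    rw [bxMixed_iter (bxSmooth_dX h.smu) i, show dY (dX u) = dX (dY u) from funext (bxMixed h.smu)]
  simp only [opL, e1, e2, e3, e4, e5, eX1, eY1, Par.cB1, Par.cB0, Par.sumG, Par.cK1, Par.cK2, gTop]
  ring

/-- The common hypotheses at a point. -/
structure SrcCtx (c : Par) (t : ℝ) (u b : ℝ × ℝ → ℝ) (z : ℝ × ℝ) (i N0 : ℕ) (K0 Cs : ℝ) :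
    Prop where
  jet : JetHyp (c.beta t) u b i z K0 ((t⁻¹) ^ (N0 + i + 4))
    ((t⁻¹) ^ (i + 4) * (1 + c.indB t z * (c.ε t / c.δ t ^ i)))
  size : CoefSize c t u z i (Cs * (c.om t z.2 * c.sA t * (t⁻¹) ^ 9))
    (c.om t z.2 * c.sA t * (t⁻¹) ^ (i + 3) + c.indB t z * t⁻¹ * (c.ε t / c.δ t ^ i))
    (c.indB t z * t⁻¹ * (c.ε t / c.δ t ^ 9))
    (c.indB t z * t⁻¹ * (c.ε t / c.δ t ^ (i + 1)))
  inJet : jetJ (c.beta t) u b z ∈ jetIn c.K
  w_le : c.om t z.2 * c.sA t ≤ 1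

theorem bxCtx_exists (c : Par) (hP : 10 ≤ c.Pe) (hj : 12 ≤ c.j) (hQ : 4 ≤ c.Qe) (i N0 : ℕ)
    (hi : i ≤ c.j + 5) (K0 : ℝ) (hK0 : c.K + 1 ≤ K0)
    (hK0b : ∀ q ≤ i, ∀ J, ‖iteratedFDeriv ℝ q (cutJ c.K hvJ) J‖ ≤ K0) :
    ∃ Cs : ℝ, 1 ≤ Cs ∧ ∀ᶠ t in 𝓝[>] (0 : ℝ), ∀ u b : ℝ × ℝ → ℝ, c.Sol t u b →
      ∀ z ∈ c.rect t 1, SupAt t u b i N0 z → SrcCtx c t u b z i N0 K0 Cs := by
  obtain ⟨Cs, hCs1, hcsz⟩ := c.coef_size (by omega) hj (by omega) i hi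
  refine ⟨Cs, hCs1, ?_⟩
  filter_upwards [bxEv_pos, hcsz, c.low_small hP (by omega), c.jet_mem (by omega) (by omega),
    c.W_le_one (by omega), bxEv_T K0]
    with t ⟨ht, ht1⟩ hcsz hlow hjet hW hK0T u b h z hz hS
  have hcs := hcsz u b h z hz
  obtain ⟨-, ho1, -, -⟩ := hW z.2 (c.rect_small ht.le le_rfl hz).2
  have hT1 : (1 : ℝ) ≤ t⁻¹ := (one_le_inv₀ ht).2 ht1
  have hι := c.indB_nonneg t z
  have hd := c.bxδ_pos ht
  have he := c.ε_pos ht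
  have hw1 : c.om t z.2 * c.sA t ≤ 1 :=
    mul_le_one₀ ho1 (c.sA_pos ht).le (pow_le_one₀ ht.le ht1)
  refine ⟨bxJetHyp h ht ht1 hz hK0 hK0T hK0b (hjet u b h z hz) hlow hS hcs ?_ (one_le_pow₀ hT1),
    hcs, hjet u b h z hz, hw1⟩
  have p1 : t⁻¹ ^ (i + 3) ≤ t⁻¹ ^ (i + 4) := pow_le_pow_right₀ hT1 (by omega)
  have p2 : t⁻¹ ≤ t⁻¹ ^ (i + 4) := le_self_pow₀ hT1 (by omega)
  have hw0 : 0 ≤ c.om t z.2 * c.sA t := mul_nonneg (c.om_pos ht _).le (c.sA_pos ht).le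
  rw [mul_add, mul_one]
  refine add_le_add ?_ ?_
  · exact le_trans (mul_le_of_le_one_left (by positivity) hw1) p1
  · rw [mul_comm (c.indB t z) t⁻¹, mul_assoc]
    exact mul_le_mul_of_nonneg_right p2 (by positivity)

theorem bxTerm_slice {c : Par} {t : ℝ} {u b : ℝ × ℝ → ℝ} (h : c.Sol t u b) {F : ℝ × ℝ → ℝ}
    {g : J8 → ℝ} (hF : ContDiff ℝ ∞ F) (hg : ∀ J ∈ jetDom, ContDiffAt ℝ ∞ g J) (z : ℝ × ℝ)
    (i : ℕ) : iteratedDeriv i (fun s => termFun F (cutJ c.K g) (c.beta t) u b (s, z.2)) z.1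
      = dX^[i] (termFun F (cutJ c.K g) (c.beta t) u b) z :=
  congr_fun (bxIter_slice ((bxPt_smooth hF h.smu).mul ((bxCutJ_smooth c.one_le_K hg).comp
    (bxJetJ_smooth (c.contDiff_beta t) h.smu h.smb))) z.2 i) z.1

theorem bxTerm2_slice {c : Par} {t : ℝ} {u b : ℝ × ℝ → ℝ} (h : c.Sol t u b) {F ψ : ℝ × ℝ → ℝ}
    {g : J8 → ℝ} (hF : ContDiff ℝ ∞ F) (hg : ∀ J ∈ jetDom, ContDiffAt ℝ ∞ g J)
    (hψ : ContDiff ℝ ∞ ψ) (z : ℝ × ℝ) (i : ℕ) :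
    iteratedDeriv i (fun s => termFun F (cutJ c.K g) (c.beta t) u b (s, z.2) * ψ (s, z.2)) z.1
      = dX^[i] (fun v => termFun F (cutJ c.K g) (c.beta t) u b v * ψ v) z :=
  congr_fun (bxIter_slice (((bxPt_smooth hF h.smu).mul ((bxCutJ_smooth c.one_le_K hg).comp
    (bxJetJ_smooth (c.contDiff_beta t) h.smu h.smb))).mul hψ) z.2 i) z.1

/-- The coefficient hypothesis for the non-singular terms. -/
theorem SrcCtx.coefHyp {c : Par} {t : ℝ} {u b : ℝ × ℝ → ℝ} {z : ℝ × ℝ} {i N0 : ℕ} {K0 Cs : ℝ}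
    (X : SrcCtx c t u b z i N0 K0 Cs)
    (hK0b : ∀ g ∈ ([a1v, a2v, g0v, g1v, g2v, g3v, g4v, hvJ] : List (J8 → ℝ)), ∀ q ≤ i, ∀ J,
      ‖iteratedFDeriv ℝ q (cutJ c.K g) J‖ ≤ K0)
    {F : ℝ × ℝ → ℝ} {g : J8 → ℝ} (hF : ContDiff ℝ ∞ F)
    (hmem : F ∈ ([kbar (c.beta t), dX (kbar (c.betaBg t)), dY (kbar (c.betaBg t)), dX (c.beta t),
      dY (c.beta t)] : List (ℝ × ℝ → ℝ)))
    (hg : g ∈ ([a1v, a2v, g0v, g1v, g2v, g3v, g4v, hvJ] : List (J8 → ℝ)))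
    (hsm : ∀ J ∈ jetDom, ContDiffAt ℝ ∞ g J) :
    CoefHyp F (cutJ c.K g) (c.beta t) u b i z K0 (Cs * (c.om t z.2 * c.sA t * (t⁻¹) ^ 9))
      (c.om t z.2 * c.sA t * (t⁻¹) ^ (i + 3) + c.indB t z * t⁻¹ * (c.ε t / c.δ t ^ i))
      (c.om t z.2 * c.sA t * (t⁻¹) ^ (i + 3) + c.indB t z * t⁻¹ * (c.ε t / c.δ t ^ i)) where
  smF := hF
  smg := (bxCutJ_smooth c.one_le_K hsm).contDiffAt
  bdg q hq := hK0b _ hg q hq _
  lowF := X.size.low _ hmem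
  supF q hq := X.size.all _ hmem q (by omega)
  allF := X.size.all _ hmem

/-- The remainder of the linear equation. -/
theorem bxSrc_rem (K : ℝ) (hK : 1 ≤ K) (i : ℕ) (hi : 14 ≤ i) (N0 : ℕ) : ∃ N : ℕ, ∀ c : Par,
    c.K = K → 10 ≤ c.Pe → 12 ≤ c.j → i ≤ c.j + 5 → 4 ≤ c.Qe → ∀ᶠ t in 𝓝[>] (0 : ℝ),
    ∀ u b : ℝ × ℝ → ℝ, c.Sol t u b → ∀ z ∈ c.rect t 1, SupAt t u b i N0 z →
      |opL (c.cK1 t u b) (c.cK2 t u b) (c.cB1 t u b i) (c.cB0 t u b i) (dX^[i] u) z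
          + dX^[i] (c.cGf t u b) z| ≤
        c.om t z.2 * c.sA t * (t⁻¹) ^ 10 * (|dX^[i] u z| + lowJ u b i z) +
          (t⁻¹) ^ N * (c.om t z.2 * c.sA t + c.indB t z * (c.ε t / c.δ t ^ i)) := by
  obtain ⟨K0, hK0, hK0b⟩ := bxK0_exists hK i
  obtain ⟨C1, N1, hC1, htm⟩ := bxTerm tameSpec i hi K0
  obtain ⟨C2, N2, hC2, hts⟩ := bxTermSecond tameSpec i hi K0
  refine ⟨(N0 + i + 4) * (N1 + N2) + i + 17, fun c hcK hP hj hij hQ => ?_⟩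
  subst hcK
  obtain ⟨Cs, hCs1, hctx⟩ := bxCtx_exists c hP hj hQ i N0 hij K0 hK0
    (fun q hq J => hK0b hvJ (by simp) q hq J)
  filter_upwards [bxEv_pos, hctx, bxEv_T (8 * (C1 + C2) * Cs + Cs + 8)]
    with t ⟨ht, ht1⟩ hctx hT u b h z hz hS
  have X := hctx u b h z hz hS
  have hb := c.contDiff_beta t
  have hB := c.contDiff_betaBg t
  have p : ∀ {F : ℝ × ℝ → ℝ} {g : J8 → ℝ}, ContDiff ℝ ∞ F →
      F ∈ ([kbar (c.beta t), dX (kbar (c.betaBg t)), dY (kbar (c.betaBg t)), dX (c.beta t),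
        dY (c.beta t)] : List (ℝ × ℝ → ℝ)) →
      g ∈ ([a1v, a2v, g0v, g1v, g2v, g3v, g4v, hvJ] : List (J8 → ℝ)) →
      (∀ J ∈ jetDom, ContDiffAt ℝ ∞ g J) → _ := fun a b' c' d => X.coefHyp hK0b a b' c' d
  have D1 := hts _ u b z _ _ X.jet _ _ _ _ _ (p (g := a1v) (bxSmooth_kbar hb) (by simp) (by simp)
    fun J hJ => (bxSm_coef hJ).2.2.2.2.1) _ (Or.inr rfl)
  have D2 := hts _ u b z _ _ X.jet _ _ _ _ _ (p (g := a2v) (bxSmooth_kbar hb) (by simp) (by simp)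
    fun J hJ => (bxSm_coef hJ).2.2.2.2.2.1) _ (Or.inl rfl)
  have D3 := (htm _ u b z _ _ X.jet _ _ _ _ _ (p (g := g0v) (bxSmooth_kbar hb) (by simp) (by simp)
    fun J hJ => (bxSm_coef hJ).2.2.2.2.2.2.1)).2
  have D4 := (htm _ u b z _ _ X.jet _ _ _ _ _ (p (g := g1v) (bxSmooth_dX (bxSmooth_kbar hB))
    (by simp) (by simp) fun J hJ => (bxSm_coef hJ).2.2.2.2.2.2.2.1)).2
  have D5 := (htm _ u b z _ _ X.jet _ _ _ _ _ (p (g := g2v) (bxSmooth_dY (bxSmooth_kbar hB))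
    (by simp) (by simp) fun J hJ => (bxSm_coef hJ).2.2.2.2.2.2.2.2.1)).2
  have D6 := (htm _ u b z _ _ X.jet _ _ _ _ _ (p (g := g3v) (bxSmooth_dX hb) (by simp) (by simp)
    fun J hJ => (bxSm_coef hJ).2.2.2.2.2.2.2.2.2.1)).2
  have D7 := (htm _ u b z _ _ X.jet _ _ _ _ _ (p (g := g4v) (bxSmooth_dY hb) (by simp) (by simp)
    fun J hJ => (bxSm_coef hJ).2.2.2.2.2.2.2.2.2.2)).2
  rw [bxTerm2_slice h (bxSmooth_kbar hb) (fun J hJ => (bxSm_coef hJ).2.2.2.2.1)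
    (bxSmooth_dX (bxSmooth_dY h.smu))] at D1
  rw [bxTerm2_slice h (bxSmooth_kbar hb) (fun J hJ => (bxSm_coef hJ).2.2.2.2.2.1)
    (bxSmooth_dX (bxSmooth_dX h.smu))] at D2
  rw [bxTerm_slice h (bxSmooth_kbar hb) fun J hJ => (bxSm_coef hJ).2.2.2.2.2.2.1] at D3
  rw [bxTerm_slice h (bxSmooth_dX (bxSmooth_kbar hB))
    fun J hJ => (bxSm_coef hJ).2.2.2.2.2.2.2.1] at D4
  rw [bxTerm_slice h (bxSmooth_dY (bxSmooth_kbar hB))
    fun J hJ => (bxSm_coef hJ).2.2.2.2.2.2.2.2.1] at D5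
  rw [bxTerm_slice h (bxSmooth_dX hb) fun J hJ => (bxSm_coef hJ).2.2.2.2.2.2.2.2.2.1] at D6
  rw [bxTerm_slice h (bxSmooth_dY hb) fun J hJ => (bxSm_coef hJ).2.2.2.2.2.2.2.2.2.2] at D7
  have hc := bxCombine (bxEq_iter h ht hz X.inJet i) D1 D2 D3 D4 D5 D6 D7
  rw [bxOpL_parts h (by omega), ← topJ_eq]
  refine hc.trans ?_
  clear hc D1 D2 D3 D4 D5 D6 D7 p
  set w : ℝ := c.om t z.2 * c.sA t with hw
  have hw0 : 0 ≤ w := mul_nonneg (c.om_pos ht _).le (c.sA_pos ht).le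
  set e : ℝ := c.ε t / c.δ t ^ i
  have he : 0 ≤ e := div_nonneg (c.ε_pos ht).le (pow_nonneg (c.bxδ_pos ht).le _)
  have hι := c.indB_nonneg t z
  have hT1 : (1 : ℝ) ≤ t⁻¹ := (one_le_inv₀ ht).2 ht1
  have hJ : 0 ≤ topJ u b i z := topJ_nonneg _ _ _ _
  have hbig : 8 * (C1 + C2) * Cs ≤ t⁻¹ := by linarith
  have h3 : 3 * C1 ≤ t⁻¹ ∧ 3 * C2 ≤ t⁻¹ := by
    have h38 : ∀ C, 1 ≤ C → C ≤ C1 + C2 → 3 * C ≤ t⁻¹ := fun C hC hle => by
      have : 3 * C * 1 ≤ 8 * (C1 + C2) * Cs :=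
        mul_le_mul (by linarith) hCs1 zero_le_one (by linarith)
      linarith
    exact ⟨h38 C1 hC1 (by linarith), h38 C2 hC2 (by linarith)⟩
  have hCsT : Cs ≤ t⁻¹ := by
    have : 0 ≤ 8 * (C1 + C2) * Cs := by positivity
    linarith
  have A : ∀ (C : ℝ) (M : ℕ), 1 ≤ C → 3 * C ≤ t⁻¹ → M ≤ N1 + N2 →
      C * (t⁻¹ ^ (N0 + i + 4)) ^ M *
        (w * t⁻¹ ^ (i + 3) + c.indB t z * t⁻¹ * e + (w * t⁻¹ ^ (i + 3) + c.indB t z * t⁻¹ * e)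
          + Cs * (w * t⁻¹ ^ 9) * (t⁻¹ ^ (i + 4) * (1 + c.indB t z * e)))
        ≤ t⁻¹ ^ ((N0 + i + 4) * (N1 + N2) + i + 15) * (w + c.indB t z * e) := by
    intro C M hC h3C hM
    refine (bxSrc_arith hT1 hw0 X.w_le hι he le_rfl (by positivity) (by linarith) rfl rfl rfl
      (by linarith) hCsT h3C).trans ?_
    gcongr
  have a1 := A C1 N1 hC1 h3.1 (by omega)
  have a2 := A C2 N2 hC2 h3.2 (by omega)
  have hX0 : 0 ≤ t⁻¹ ^ ((N0 + i + 4) * (N1 + N2) + i + 15) * (w + c.indB t z * e) := by positivity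
  have main : 8 * (t⁻¹ ^ ((N0 + i + 4) * (N1 + N2) + i + 15) * (w + c.indB t z * e)) ≤
      t⁻¹ ^ ((N0 + i + 4) * (N1 + N2) + i + 17) * (w + c.indB t z * e) := by
    rw [show (N0 + i + 4) * (N1 + N2) + i + 17 = 2 + ((N0 + i + 4) * (N1 + N2) + i + 15) by ring,
      pow_add _ 2, mul_assoc (t⁻¹ ^ 2)]
    gcongr
    calc (8 : ℝ) ≤ t⁻¹ := by nlinarith
      _ ≤ _ := le_self_pow₀ hT1 two_ne_zero
  have jterm : (3 * C2 + 5 * C1) * (Cs * (w * t⁻¹ ^ 9)) * topJ u b i z ≤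
      w * t⁻¹ ^ 10 * topJ u b i z := by
    refine mul_le_mul_of_nonneg_right ?_ hJ
    calc (3 * C2 + 5 * C1) * (Cs * (w * t⁻¹ ^ 9)) = ((3 * C2 + 5 * C1) * Cs) * (w * t⁻¹ ^ 9) := by
          ring
      _ ≤ t⁻¹ * (w * t⁻¹ ^ 9) := by
          refine mul_le_mul_of_nonneg_right (le_trans ?_ hbig) (by positivity)
          refine mul_le_mul_of_nonneg_right ?_ (by linarith)
          linarith
      _ = _ := by ring
  linarith

/-- The source in the bump. -/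
theorem bxSrc_bump (K : ℝ) (hK : 1 ≤ K) (i : ℕ) (hi : 14 ≤ i) (N0 : ℕ) : ∃ N : ℕ, ∀ c : Par,
    c.K = K → 10 ≤ c.Pe → 12 ≤ c.j → i ≤ c.j + 5 → 4 ≤ c.Qe → ∀ᶠ t in 𝓝[>] (0 : ℝ),
    ∀ u b : ℝ × ℝ → ℝ, c.Sol t u b → ∀ z ∈ c.rect t 1, SupAt t u b i N0 z →
      |dX^[i] (c.cGf t u b) z| ≤ c.indB t z * ((t⁻¹) ^ N * (c.ε t / c.δ t ^ (i + 1)) +
        (t⁻¹) ^ 3 * (c.ε t / c.δ t ^ 9) *
          (topJ u b i z + |dX^[i] (dY u) z| + |dX^[i + 1] u z|)) := by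
  obtain ⟨K0, hK0, hK0b⟩ := bxK0_exists hK i
  obtain ⟨C1, N1, hC1, htm⟩ := bxTerm tameSpec i hi K0
  refine ⟨(N0 + i + 4) * N1 + i + 8, fun c hcK hP hj hij hQ => ?_⟩
  subst hcK
  obtain ⟨Cs, -, hctx⟩ := bxCtx_exists c hP hj hQ i N0 hij K0 hK0
    (fun q hq J => hK0b hvJ (by simp) q hq J)
  filter_upwards [bxEv_pos, hctx, bxEv_T (4 * C1 * K0 + 4 * C1 + 2 * K0)]
    with t ⟨ht, ht1⟩ hctx hT u b h z hz hS
  have X := hctx u b h z hz hS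
  have hF := c.contDiff_betaF t
  have hd := c.bxδ_pos ht
  have hd1 : c.δ t ≤ 1 := (c.bxδ_le ht ht1).trans ht1
  have he := c.ε_pos ht
  have hι := c.indB_nonneg t z
  have hι1 := c.indB_le_one t z
  have hT1 : (1 : ℝ) ≤ t⁻¹ := (one_le_inv₀ ht).2 ht1
  set h0 : ℝ := c.indB t z * t⁻¹ * (c.ε t / c.δ t ^ 9) with hh0
  set h1 : ℝ := c.indB t z * t⁻¹ * (c.ε t / c.δ t ^ (i + 1)) with hh1
  have p : ∀ {F : ℝ × ℝ → ℝ} {g : J8 → ℝ}, ContDiff ℝ ∞ F →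
      F ∈ ([dX (kbar (c.betaF t)), dY (kbar (c.betaF t))] : List (ℝ × ℝ → ℝ)) →
      g ∈ ([a1v, a2v, g0v, g1v, g2v, g3v, g4v, hvJ] : List (J8 → ℝ)) →
      (∀ J ∈ jetDom, ContDiffAt ℝ ∞ g J) →
      CoefHyp F (cutJ c.K g) (c.beta t) u b i z K0 h0 h1 h1 := fun hF' hmem hg hsm =>
    { smF := hF', smg := (bxCutJ_smooth c.one_le_K hsm).contDiffAt,
      bdg := fun q hq => hK0b _ hg q hq _, lowF := X.size.lowF _ hmem,
      supF := fun q hq => X.size.allF _ hmem q (by omega), allF := X.size.allF _ hmem }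
  have s1 := fun J hJ => (bxSm_coef (J := J) hJ).2.2.2.2.2.2.2.1
  have s2 := fun J hJ => (bxSm_coef (J := J) hJ).2.2.2.2.2.2.2.2.1
  have c1h := p (g := g1v) (bxSmooth_dX (bxSmooth_kbar hF)) (by simp) (by simp) s1
  have c2h := p (g := g2v) (bxSmooth_dY (bxSmooth_kbar hF)) (by simp) (by simp) s2
  have D1 := (htm _ u b z _ _ X.jet _ _ _ _ _ c1h).2
  have D2 := (htm _ u b z _ _ X.jet _ _ _ _ _ c2h).2
  rw [bxTerm_slice h (bxSmooth_dX (bxSmooth_kbar hF)) s1] at D1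
  rw [bxTerm_slice h (bxSmooth_dY (bxSmooth_kbar hF)) s2] at D2
  have F1 := c1h.lowF 0 (by norm_num)
  have F2 := c2h.lowF 0 (by norm_num)
  have gb : ∀ g ∈ ([a1v, a2v, g0v, g1v, g2v, g3v, g4v, hvJ] : List (J8 → ℝ)),
      |gTop (cutJ c.K g) (c.beta t) u b i z| ≤
        K0 * (|dX^[i] (dY u) z| + |dX^[i + 1] u z|) := by
    intro g hg
    have hh := hK0b g hg 1 (by omega) (jetJ (c.beta t) u b z)
    rw [norm_iteratedFDeriv_one] at hh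
    have n : ∀ k : Fin 8,
        |fderiv ℝ (cutJ c.K g) (jetJ (c.beta t) u b z) (Pi.single k 1)| ≤ K0 := fun k => by
      rw [← Real.norm_eq_abs]
      refine ((fderiv ℝ (cutJ c.K g) _).le_opNorm _).trans ?_
      rw [Pi.norm_single]; simpa using hh
    unfold gTop
    refine (abs_add_le _ _).trans ?_
    rw [abs_mul, abs_mul, mul_add, Function.iterate_succ_apply]
    exact add_le_add (mul_le_mul_of_nonneg_right (n 2) (abs_nonneg _))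
      (mul_le_mul_of_nonneg_right (n 3) (abs_nonneg _))
  have g1b := gb g1v (by simp)
  have g2b := gb g2v (by simp)
  set V : ℝ := |dX^[i] (dY u) z| + |dX^[i + 1] u z| with hV
  have hV0 : 0 ≤ V := by positivity
  set J : ℝ := topJ u b i z
  have hJ : 0 ≤ J := topJ_nonneg _ _ _ _
  have hh00 : 0 ≤ h0 := by positivity
  have tot : ∀ (A F G R : ℝ), |A - F * G| ≤ R → |F| ≤ h0 → |G| ≤ K0 * V →
      |A| ≤ R + h0 * (K0 * V) := fun A F G R hA hF' hG => by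
    have := abs_add_le (A - F * G) (F * G)
    rw [sub_add_cancel, abs_mul] at this
    refine this.trans (add_le_add hA ?_)
    exact mul_le_mul hF' hG (abs_nonneg _) hh00
  have t1 := tot _ _ _ _ D1 F1 g1b
  have t2 := tot _ _ _ _ D2 F2 g2b
  have hsum : dX^[i] (c.cGf t u b) z =
      dX^[i] (termFun (dX (kbar (c.betaF t))) (cutJ c.K g1v) (c.beta t) u b) z +
      dX^[i] (termFun (dY (kbar (c.betaF t))) (cutJ c.K g2v) (c.beta t) u b) z :=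
    bxIter_add ((bxPt_smooth (bxSmooth_dX (bxSmooth_kbar hF)) h.smu).mul
      ((bxCutJ_smooth c.one_le_K s1).comp (bxJetJ_smooth (c.contDiff_beta t) h.smu h.smb)))
      ((bxPt_smooth (bxSmooth_dY (bxSmooth_kbar hF)) h.smu).mul
      ((bxCutJ_smooth c.one_le_K s2).comp (bxJetJ_smooth (c.contDiff_beta t) h.smu h.smb))) i z
  rw [hsum]
  refine (abs_add_le _ _).trans ((add_le_add t1 t2).trans ?_)
  clear t1 t2 tot hsum gb g1b g2b D1 D2 F1 F2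
  set E : ℝ := t⁻¹ ^ (i + 4) * (1 + c.indB t z * (c.ε t / c.δ t ^ i)) with hE
  set P : ℝ := c.ε t / c.δ t ^ (i + 1) with hP'
  have hP0 : 0 ≤ P := by positivity
  have e9 : c.ε t / c.δ t ^ 9 ≤ P :=
    div_le_div_of_nonneg_left he.le (pow_pos hd _) (pow_le_pow_of_le_one hd.le hd1 (by omega))
  have e8 : c.ε t / c.δ t ^ 8 ≤ 1 := by
    rw [div_le_one (pow_pos hd _)]
    exact pow_le_pow_of_le_one hd.le hd1 (by omega)
  have e9i : c.ε t / c.δ t ^ 9 * (c.ε t / c.δ t ^ i) ≤ P := by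
    have : c.ε t / c.δ t ^ 9 * (c.ε t / c.δ t ^ i) = c.ε t / c.δ t ^ 8 * P := by
      rw [hP', pow_succ, pow_succ]; field_simp; ring
    rw [this]; exact mul_le_of_le_one_left hP0 e8
  have hG : h1 + h1 + h0 * E ≤ 4 * t⁻¹ ^ (i + 5) * (c.indB t z * P) := by
    have a : h1 ≤ t⁻¹ ^ (i + 5) * (c.indB t z * P) := by
      rw [hh1, mul_comm (c.indB t z) t⁻¹, mul_assoc]
      exact mul_le_mul_of_nonneg_right (le_self_pow₀ hT1 (by omega)) (by positivity)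
    have b' : h0 * E ≤ 2 * t⁻¹ ^ (i + 5) * (c.indB t z * P) := by
      have : c.indB t z * (c.ε t / c.δ t ^ 9) * (1 + c.indB t z * (c.ε t / c.δ t ^ i)) ≤
          c.indB t z * (2 * P) := by
        rw [mul_assoc]
        refine mul_le_mul_of_nonneg_left ?_ hι
        have := mul_le_of_le_one_left (by positivity : 0 ≤ c.ε t / c.δ t ^ 9 * (c.ε t / c.δ t ^ i)) hι1
        linarith
      calc h0 * E = t⁻¹ ^ (i + 5) *
            (c.indB t z * (c.ε t / c.δ t ^ 9) * (1 + c.indB t z * (c.ε t / c.δ t ^ i))) := by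
              rw [hh0, hE]; ring
        _ ≤ t⁻¹ ^ (i + 5) * (c.indB t z * (2 * P)) := by gcongr
        _ = _ := by ring
    linarith
  have hC1' : 0 ≤ C1 := by linarith
  have m1 : C1 * (t⁻¹ ^ (N0 + i + 4)) ^ N1 * (h1 + h1 + h0 * E) * 2 ≤
      t⁻¹ ^ ((N0 + i + 4) * N1 + i + 8) * (c.indB t z * P) := by
    rw [← pow_mul]
    calc C1 * t⁻¹ ^ ((N0 + i + 4) * N1) * (h1 + h1 + h0 * E) * 2
        ≤ C1 * t⁻¹ ^ ((N0 + i + 4) * N1) * (4 * t⁻¹ ^ (i + 5) * (c.indB t z * P)) * 2 := by gcongr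
      _ = 8 * C1 * t⁻¹ ^ ((N0 + i + 4) * N1 + i + 5) * (c.indB t z * P) := by ring
      _ ≤ t⁻¹ ^ 3 * t⁻¹ ^ ((N0 + i + 4) * N1 + i + 5) * (c.indB t z * P) := by
          gcongr
          have h2 : 2 ≤ t⁻¹ := by nlinarith
          have : 4 * C1 ≤ t⁻¹ := by nlinarith
          calc 8 * C1 = 2 * (4 * C1) * 1 := by ring
            _ ≤ t⁻¹ * t⁻¹ * t⁻¹ := by gcongr
            _ = _ := by ring
      _ = _ := by ring
  have m2 : 2 * (C1 * h0 * J) + 2 * (h0 * (K0 * V)) ≤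
      c.indB t z * (t⁻¹ ^ 3 * (c.ε t / c.δ t ^ 9) * (J + V)) := by
    have hC : 2 * C1 ≤ t⁻¹ := by nlinarith
    have hK' : 2 * K0 ≤ t⁻¹ := by nlinarith
    calc 2 * (C1 * h0 * J) + 2 * (h0 * (K0 * V))
        = c.indB t z * (t⁻¹ * (c.ε t / c.δ t ^ 9) * ((2 * C1) * J + (2 * K0) * V)) := by
          rw [hh0]; ring
      _ ≤ c.indB t z * (t⁻¹ * (c.ε t / c.δ t ^ 9) * (t⁻¹ * J + t⁻¹ * V)) := by gcongr
      _ = c.indB t z * (t⁻¹ ^ 2 * (c.ε t / c.δ t ^ 9) * (J + V)) := by ring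
      _ ≤ _ := by gcongr <;> first | exact hT1 | norm_num
  rw [mul_add (c.indB t z)]
  linarith

/-- The derivative of `b`. -/
theorem bxSrc_b (K : ℝ) (hK : 1 ≤ K) (i : ℕ) (hi : 14 ≤ i) (N0 : ℕ) : ∃ N : ℕ, ∀ c : Par,
    c.K = K → 10 ≤ c.Pe → 12 ≤ c.j → i ≤ c.j + 5 → 4 ≤ c.Qe → ∀ᶠ t in 𝓝[>] (0 : ℝ),
    ∀ u b : ℝ × ℝ → ℝ, c.Sol t u b → ∀ z ∈ c.rect t 1, SupAt t u b i N0 z →
      |dX^[i] b z| ≤ (t⁻¹) ^ N * (1 + c.indB t z * (c.ε t / c.δ t ^ i)) +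
        t⁻¹ * topJ u b i z := by
  obtain ⟨K0, hK0, hK0b⟩ := bxK0_exists hK i
  obtain ⟨C3, N3, hC3, hcm⟩ := bxComps tameSpec i hi K0
  refine ⟨(N0 + i + 4) * N3 + i + 5, fun c hcK hP hj hij hQ => ?_⟩
  subst hcK
  obtain ⟨Cs, -, hctx⟩ := bxCtx_exists c hP hj hQ i N0 hij K0 hK0
    (fun q hq J => hK0b hvJ (by simp) q hq J)
  filter_upwards [bxEv_pos, hctx, bxEv_T C3] with t ⟨ht, ht1⟩ hctx hT u b h z hz hS
  have X := hctx u b h z hz hS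
  obtain ⟨-, -, -, ntop⟩ := hcm _ u b z _ _ X.jet
  have hb1 := ntop 1 (by decide) (by decide)
  rw [show iteratedDeriv i (fun s => jetSlice (c.beta t) u b z s 1) z.1 = dX^[i] b z from
    congr_fun (bxIter_slice h.smb z.2 i) z.1] at hb1
  have hι := c.indB_nonneg t z
  have hd := c.bxδ_pos ht
  have he := c.ε_pos ht
  refine hb1.trans (add_le_add ?_ (mul_le_mul_of_nonneg_right hT (topJ_nonneg _ _ _ _)))
  rw [← pow_mul]
  calc C3 * t⁻¹ ^ ((N0 + i + 4) * N3) *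
        (t⁻¹ ^ (i + 4) * (1 + c.indB t z * (c.ε t / c.δ t ^ i)))
      = C3 * t⁻¹ ^ ((N0 + i + 4) * N3 + i + 4) * (1 + c.indB t z * (c.ε t / c.δ t ^ i)) := by ring
    _ ≤ t⁻¹ * t⁻¹ ^ ((N0 + i + 4) * N3 + i + 4) *
        (1 + c.indB t z * (c.ε t / c.δ t ^ i)) := by gcongr
    _ = _ := by ring

end Vale.Agent.P229
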