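import Vale.Agent.P229.BoxCoef

/-!
# P229: bookkeeping for the expansion of the differentiated equation
-/

open scoped ContDiff Topology
open Set Filter Finset

namespace Vale.Agent.P229

open BoxEq

/-- The sum of the derivatives of intermediate order. -/
noncomputable def lowJ (u b : ℝ × ℝ → ℝ) (i : ℕ) (z : ℝ × ℝ) : ℝ :=
  ∑ m ∈ range 4, (|dX^[i - 1 - m] u z| + |dX^[i - 1 - m] (dY u) z| + |dX^[i - 1 - m] b z|)

theorem lowJ_nonneg (u b : ℝ × ℝ → ℝ) (i : ℕ) (z : ℝ × ℝ) : 0 ≤ lowJ u b i z := by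
  unfold lowJ; positivity

theorem topJ_eq (u b : ℝ × ℝ → ℝ) (i : ℕ) (z : ℝ × ℝ) :
    topJ u b i z = |dX^[i] u z| + lowJ u b i z := by
  have e1 : i - 1 - 1 = i - 2 := by omega
  have e2 : i - 1 - 2 = i - 3 := by omega
  have e3 : i - 1 - 3 = i - 4 := by omega
  simp only [topJ, lowJ, sum_range_succ, sum_range_zero, e1, e2, e3, Nat.sub_zero]
  ring

/-- The low order bounds on the derivatives of the perturbation. -/
theorem Par.low_small (c : Par) (hP : 10 ≤ c.Pe) (hj : 10 ≤ c.j) :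
    ∀ᶠ t in 𝓝[>] (0 : ℝ), ∀ p : ℝ × ℝ, ∀ q ≤ 8,
      |dX^[q] (c.beta t) p| ≤ 1 ∧ |dX^[q] (kbar (c.beta t)) p| ≤ 1 ∧
      |dX^[q] (dX (c.beta t)) p| ≤ 1 ∧ |dX^[q] (dY (c.beta t)) p| ≤ 1 := by
  obtain ⟨t0, ht0, h⟩ := c.beta_eventually_small hP hj one_pos
  filter_upwards [bxEv_pos, mem_nhdsWithin_of_mem_nhds (Iic_mem_nhds ht0)] with t ⟨ht, _⟩ htt p q hq
  obtain ⟨-, -, -, hb⟩ := h t ht htt
  have hs := c.contDiff_beta t
  have hd : ∀ l k, l + k ≤ 10 → |dX^[l] (dY^[k] (c.beta t)) p| ≤ 1 := fun l k hlk =>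
    (abs_dX_iterate_dY_iterate_le hs l k p).trans (hb _ hlk p)
  refine ⟨hd q 0 (by omega), ?_, ?_, hd q 1 (by omega)⟩
  · rw [show kbar (c.beta t) = fun w => -(dX^[2] (c.beta t) w) from rfl,
      bxIter_neg (bxSmooth_iter hs 2), abs_neg, ← Function.iterate_add_apply]
    exact hd (q + 2) 0 (by omega)
  · rw [← Function.iterate_succ_apply]
    exact hd (q + 1) 0 (by omega)

/-- The sizes used in the expansion. -/
structure CoefSize (c : Par) (t : ℝ) (u : ℝ × ℝ → ℝ) (z : ℝ × ℝ) (i : ℕ) (g0 g1 h0 h1 : ℝ) :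
    Prop where
  low : ∀ F ∈ ([kbar (c.beta t), dX (kbar (c.betaBg t)), dY (kbar (c.betaBg t)), dX (c.beta t),
    dY (c.beta t)] : List (ℝ × ℝ → ℝ)), ∀ q ≤ 8, |dX^[q] F (pt u z)| ≤ g0
  all : ∀ F ∈ ([kbar (c.beta t), dX (kbar (c.betaBg t)), dY (kbar (c.betaBg t)), dX (c.beta t),
    dY (c.beta t)] : List (ℝ × ℝ → ℝ)), ∀ q ≤ i, |dX^[q] F (pt u z)| ≤ g1
  lowF : ∀ F ∈ ([dX (kbar (c.betaF t)), dY (kbar (c.betaF t))] : List (ℝ × ℝ → ℝ)),
    ∀ q ≤ 8, |dX^[q] F (pt u z)| ≤ h0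
  allF : ∀ F ∈ ([dX (kbar (c.betaF t)), dY (kbar (c.betaF t))] : List (ℝ × ℝ → ℝ)),
    ∀ q ≤ i, |dX^[q] F (pt u z)| ≤ h1
  supB : ∀ q, q + 5 ≤ i → |dX^[q] (kbar (c.beta t)) (pt u z)| ≤ (t⁻¹) ^ (i + 3) ∧
    |dX^[q] (dX (c.beta t)) (pt u z)| ≤ (t⁻¹) ^ (i + 3) ∧
    |dX^[q] (dY (c.beta t)) (pt u z)| ≤ (t⁻¹) ^ (i + 3)

theorem Par.coef_size (c : Par) (hP : 1 ≤ c.Pe) (hj : 12 ≤ c.j) (hQ : 2 ≤ c.Qe) (i : ℕ)
    (hi : i ≤ c.j + 5) :
    ∃ C : ℝ, 1 ≤ C ∧ ∀ᶠ t in 𝓝[>] (0 : ℝ), ∀ u b : ℝ × ℝ → ℝ, c.Sol t u b → ∀ z ∈ c.rect t 1,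
      CoefSize c t u z i (C * (c.om t z.2 * c.sA t * (t⁻¹) ^ 9))
        (c.om t z.2 * c.sA t * (t⁻¹) ^ (i + 3) + c.indB t z * t⁻¹ * (c.ε t / c.δ t ^ i))
        (c.indB t z * t⁻¹ * (c.ε t / c.δ t ^ 9))
        (c.indB t z * t⁻¹ * (c.ε t / c.δ t ^ (i + 1))) := by
  have hb : ∀ q, ∃ C, 0 ≤ C ∧ ∀ t : ℝ, 0 < t → t ≤ 1 → ∀ z ∈ sq (c.r t),
      |dX^[q] (dX (c.betaBg t)) z| ≤ C * (c.om t z.2 * c.sA t) / t ^ (q + 1) ∧
      |dX^[q] (dY (c.betaBg t)) z| ≤ C * (c.om t z.2 * c.sA t) / t ^ (q + 1) ∧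
      |dX^[q] (kbar (c.betaBg t)) z| ≤ C * (c.om t z.2 * c.sA t) / t ^ (q + 1) ∧
      |dX^[q] (dX (kbar (c.betaBg t))) z| ≤ C * (c.om t z.2 * c.sA t) / t ^ (q + 1) ∧
      |dX^[q] (dY (kbar (c.betaBg t))) z| ≤ C * (c.om t z.2 * c.sA t) / t ^ (q + 1) := fun q =>
    c.betaBg_bounds q
  choose Cb hCb0 hCb using hb
  set C : ℝ := 2 + ∑ q ∈ range 9, Cb q with hC
  have hC1 : 1 ≤ C := by
    have : 0 ≤ ∑ q ∈ range 9, Cb q := sum_nonneg fun q _ => hCb0 q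
    linarith
  refine ⟨C, hC1, ?_⟩
  filter_upwards [bxEv_pos, (Set.finite_Iic (i + 8)).eventually_all.2 fun q _ => c.pert_at q,
    (Set.finite_Iic 8).eventually_all.2 fun q _ => c.f_bound q,
    c.bump_small hj 1 (by omega), c.W_le_one hP, bxEv_T 2]
    with t ⟨ht, ht1⟩ hp hf hbs hW hT2 u b h z hz
  obtain ⟨hW1, ho1, hWa, -⟩ := hW z.2 (c.rect_small ht.le le_rfl hz).2
  have hm := h.mem z (c.rect_sub_sq ht hz)
  have hd := c.bxδ_pos ht
  have hd1 : c.δ t ≤ 1 := (c.bxδ_le ht ht1).trans ht1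
  have he := c.ε_pos ht
  have hT1 : (1 : ℝ) ≤ t⁻¹ := (one_le_inv₀ ht).2 ht1
  have hι := c.indB_nonneg t z
  have hι1 := c.indB_le_one t z
  have ho := c.om_pos ht z.2
  have hA := c.sA_pos ht
  set w : ℝ := c.om t z.2 * c.sA t with hw
  have hw0 : 0 ≤ w := by positivity
  -- the bump is negligible at low order
  have small : t⁻¹ * (c.ε t / c.δ t ^ 9) ≤ w := by
    calc t⁻¹ * (c.ε t / c.δ t ^ 9) = c.ε t / c.δ t ^ 9 * t⁻¹ ^ 1 := by ring
      _ ≤ c.sa t ^ 2 * c.sA t * t := hbs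
      _ ≤ c.om t z.2 * c.sA t * 1 := by
          gcongr
          exact hWa.trans (by rw [← c.om_sq ht, pow_two]; exact mul_le_of_le_one_left ho.le ho1)
      _ = w := mul_one _
  have dmon : ∀ {a k : ℕ}, a ≤ k → c.ε t / c.δ t ^ a ≤ c.ε t / c.δ t ^ k := fun hak =>
    div_le_div_of_nonneg_left he.le (pow_pos hd _) (pow_le_pow_of_le_one hd.le hd1 hak)
  have eδ : ∀ q, c.ε t * c.δ t / c.δ t ^ q ≤ c.ε t / c.δ t ^ q := fun q => by
    gcongr; exact mul_le_of_le_one_right he.le hd1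
  have mx : ∀ q, c.indB t z * t⁻¹ * (c.ε t * c.δ t) / c.δ t ^ q ≤
      c.indB t z * t⁻¹ * (c.ε t / c.δ t ^ q) := fun q => by
    rw [mul_div_assoc]; exact mul_le_mul_of_nonneg_left (eδ q) (by positivity)
  have mk : ∀ q, c.indB t z * t⁻¹ * c.ε t / c.δ t ^ q =
      c.indB t z * t⁻¹ * (c.ε t / c.δ t ^ q) := fun q => mul_div_assoc _ _ _
  have m1 : ∀ q, c.indB t z * t⁻¹ * (c.ε t / c.δ t) / c.δ t ^ q =
      c.indB t z * t⁻¹ * (c.ε t / c.δ t ^ (q + 1)) := fun q => by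
    rw [pow_succ']; field_simp
  have P : ∀ q ≤ i + 8, c.PertBd t (pt u z) q (c.om t z.2 * c.sA t * t⁻¹ ^ (q + 2))
      (c.indB t z * t⁻¹) := fun q hq => hp q hq u b h z hz
  obtain ⟨s1, s2, s3, -, -⟩ := c.pert_split t
  have hB := c.contDiff_betaBg t
  have hF := c.contDiff_betaF t
  -- raw low order bound for the background
  have raw : ∀ q ≤ 8, ∀ x : ℝ, x ≤ Cb q * (c.om t z.2 * c.sA t) / t ^ (q + 1) →
      x + t⁻¹ * (c.ε t / c.δ t ^ 9) ≤ C * (w * t⁻¹ ^ 9) := by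
    intro q hq x hx
    have hq' : Cb q ≤ C - 2 := by
      have := single_le_sum (f := Cb) (fun k _ => hCb0 k) (mem_range.2 (by omega : q < 9))
      linarith
    have e : Cb q * (c.om t z.2 * c.sA t) / t ^ (q + 1) ≤ (C - 2) * (w * t⁻¹ ^ 9) := by
      rw [div_eq_mul_inv, ← inv_pow, mul_assoc]
      refine mul_le_mul hq' (mul_le_mul_of_nonneg_left (pow_le_pow_right₀ hT1 (by omega)) hw0)
        (by positivity) (by linarith [hCb0 q])
    have : w ≤ 2 * (w * t⁻¹ ^ 9) := by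
      have := le_mul_of_one_le_right hw0 (one_le_pow₀ hT1 (n := 9))
      linarith
    linarith
  have fι : ∀ q ≤ 8, c.indB t z * t⁻¹ * (c.ε t / c.δ t ^ q) ≤ t⁻¹ * (c.ε t / c.δ t ^ 9) :=
    fun q hq => by
      refine mul_le_mul ?_ (dmon (by omega)) (by positivity) (by positivity)
      exact mul_le_of_le_one_left (by positivity) hι1
  have hfl : ∀ q ≤ 8,
      |dX^[q] (dX (c.betaF t)) (pt u z)| ≤ c.indB t z * t⁻¹ * (c.ε t / c.δ t ^ q) ∧
      |dX^[q] (dY (c.betaF t)) (pt u z)| ≤ c.indB t z * t⁻¹ * (c.ε t / c.δ t ^ q) ∧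
      |dX^[q] (kbar (c.betaF t)) (pt u z)| ≤ c.indB t z * t⁻¹ * (c.ε t / c.δ t ^ q) := by
    intro q hq
    by_cases hb : z ∈ c.bumpSet t
    · obtain ⟨f1, f2, f3, -, -⟩ := hf q hq (pt u z)
      rw [c.indB_mem hb, one_mul, mul_div_assoc] at *
      exact ⟨f1.trans (mul_le_mul_of_nonneg_left (eδ q) (by positivity)),
        f2.trans (mul_le_mul_of_nonneg_left (eδ q) (by positivity)), f3⟩
    · obtain ⟨v1, v2, v3, -, -⟩ := c.f_vanish ht (h.off_bump ht hz hb) q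
      rw [v1, v2, v3, abs_zero]
      exact ⟨by positivity, by positivity, by positivity⟩
  refine ⟨?_, ?_, ?_, ?_, ?_⟩
  · intro F hF' q hq
    obtain ⟨b1, b2, b3, b4, b5⟩ := hCb q t ht ht1 _ hm
    have h0 : (0 : ℝ) ≤ t⁻¹ * (c.ε t / c.δ t ^ 9) := by positivity
    have split : ∀ {A B : ℝ × ℝ → ℝ} {x y : ℝ}, ContDiff ℝ ∞ A → ContDiff ℝ ∞ B →
        |dX^[q] A (pt u z)| ≤ x → |dX^[q] B (pt u z)| ≤ y →
        |dX^[q] (fun v => A v + B v) (pt u z)| ≤ x + y := fun hA' hB' hx hy => by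
      rw [bxIter_add hA' hB']; exact (abs_add_le _ _).trans (add_le_add hx hy)
    obtain ⟨g1, g2, g3⟩ := hfl q hq
    simp only [List.mem_cons, List.not_mem_nil, or_false] at hF'
    rcases hF' with rfl | rfl | rfl | rfl | rfl
    · rw [s3]
      exact le_trans (split (bxSmooth_kbar hB) (bxSmooth_kbar hF) b3 (g3.trans (fι q hq)))
        (raw q hq _ le_rfl)
    · exact le_trans (le_add_of_nonneg_right h0) (raw q hq _ b4)
    · exact le_trans (le_add_of_nonneg_right h0) (raw q hq _ b5)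
    · rw [s1]
      exact le_trans (split (bxSmooth_dX hB) (bxSmooth_dX hF) b1
        (g1.trans (fι q hq))) (raw q hq _ le_rfl)
    · rw [s2]
      exact le_trans (split (bxSmooth_dY hB) (bxSmooth_dY hF) b2
        (g2.trans (fι q hq))) (raw q hq _ le_rfl)
  · intro F hF' q hq
    have hp' := P q (by omega)
    have hwq : w * t⁻¹ ^ (q + 2) ≤ w * t⁻¹ ^ (i + 3) :=
      mul_le_mul_of_nonneg_left (pow_le_pow_right₀ hT1 (by omega)) hw0
    have hq' : c.indB t z * t⁻¹ * (c.ε t / c.δ t ^ q) ≤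
        c.indB t z * t⁻¹ * (c.ε t / c.δ t ^ i) :=
      mul_le_mul_of_nonneg_left (dmon hq) (by positivity)
    have hn : 0 ≤ c.indB t z * t⁻¹ * (c.ε t / c.δ t ^ i) := by positivity
    simp only [List.mem_cons, List.not_mem_nil, or_false] at hF'
    rcases hF' with rfl | rfl | rfl | rfl | rfl
    · exact hp'.k.trans (add_le_add hwq ((mk q).trans_le hq'))
    · exact hp'.kxBg.trans (hwq.trans (le_add_of_nonneg_right hn))
    · exact hp'.kyBg.trans (hwq.trans (le_add_of_nonneg_right hn))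
    · exact hp'.cx.trans (add_le_add hwq ((mx q).trans hq'))
    · exact hp'.cy.trans (add_le_add hwq ((mx q).trans hq'))
  · intro F hF' q hq
    have hp' := P q (by omega)
    have e : c.indB t z * t⁻¹ * (c.ε t / c.δ t ^ (q + 1)) ≤
        c.indB t z * t⁻¹ * (c.ε t / c.δ t ^ 9) :=
      mul_le_mul_of_nonneg_left (dmon (by omega)) (by positivity)
    simp only [List.mem_cons, List.not_mem_nil, or_false] at hF'
    rcases hF' with rfl | rfl
    · exact hp'.kxF.trans ((m1 q).trans_le e)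
    · exact hp'.kyF.trans ((m1 q).trans_le e)
  · intro F hF' q hq
    have hp' := P q (by omega)
    have e : c.indB t z * t⁻¹ * (c.ε t / c.δ t ^ (q + 1)) ≤
        c.indB t z * t⁻¹ * (c.ε t / c.δ t ^ (i + 1)) :=
      mul_le_mul_of_nonneg_left (dmon (by omega)) (by positivity)
    simp only [List.mem_cons, List.not_mem_nil, or_false] at hF'
    rcases hF' with rfl | rfl
    · exact hp'.kxF.trans ((m1 q).trans_le e)
    · exact hp'.kyF.trans ((m1 q).trans_le e)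
  · intro q hq
    have hp' := P q (by omega)
    have hεq : c.ε t / c.δ t ^ q ≤ 1 := by
      rw [div_le_one (pow_pos hd _)]
      exact pow_le_pow_of_le_one hd.le hd1 (by omega)
    have hAle : c.sA t ≤ 1 := pow_le_one₀ ht.le ht1
    have hwle : w ≤ 1 := mul_le_one₀ ho1 hA.le hAle
    have e : w * t⁻¹ ^ (q + 2) + c.indB t z * t⁻¹ * (c.ε t / c.δ t ^ q) ≤ t⁻¹ ^ (i + 3) := by
      calc _ ≤ 1 * t⁻¹ ^ (i + 2) + 1 * t⁻¹ ^ (i + 2) * 1 := by
            gcongr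
            · omega
            · exact le_self_pow₀ hT1 (by omega)
        _ = 2 * t⁻¹ ^ (i + 2) := by ring
        _ ≤ t⁻¹ * t⁻¹ ^ (i + 2) := by gcongr
        _ = _ := by ring
    exact ⟨hp'.k.trans ((add_le_add le_rfl (mk q).le).trans e),
      hp'.cx.trans ((add_le_add le_rfl (mx q)).trans e),
      hp'.cy.trans ((add_le_add le_rfl (mx q)).trans e)⟩

end Vale.Agent.P229
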