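import Vale.Agent.P229.BoxEnergy
import Vale.Agent.P229.BoxCtrl

/-!
# P229: supremum bounds and the sources in the bump
-/

open scoped ContDiff Topology
open MeasureTheory Set Filter

namespace Vale.Agent.P229

theorem bxInt_sq {g : ℝ × ℝ → ℝ} (hg : Continuous g) (hs : HasCompactSupport g) :
    Integrable fun z => g z ^ 2 :=
  (hg.pow 2).integrable_of_hasCompactSupport
    (HasCompactSupport.intro hs fun z hz => by simp [image_eq_zero_of_notMem_tsupport hz])

/-- The Cauchy-Schwarz inequality for integrals. -/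
theorem bxCS {g F : ℝ × ℝ → ℝ} {A H : ℝ} (hg : Integrable fun z => g z ^ 2)
    (hF : Integrable fun z => F z ^ 2) (hA : 0 ≤ A) (hH : 0 ≤ H) (hgA : ∫ z, g z ^ 2 ≤ A ^ 2)
    (hFH : ∫ z, F z ^ 2 ≤ H ^ 2) : |∫ z, g z * F z| ≤ A * H := by
  refine le_of_forall_pos_le_add fun η hη => ?_
  set ε := min 1 (η / (A + H + 1)) with hε
  have hε0 : 0 < ε := by positivity
  have key : |∫ z, g z * F z| ≤ (A + ε) * (H + ε) := by
    have hl : 0 < (H + ε) / (2 * (A + ε)) := by positivity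
    have hb : ∀ z, ‖g z * F z‖ ≤
        (H + ε) / (2 * (A + ε)) * g z ^ 2 + (A + ε) / (2 * (H + ε)) * F z ^ 2 := fun z => by
      rw [Real.norm_eq_abs, abs_mul]
      have := bxYoung (a := |g z|) (b := |F z|) hl
      rw [sq_abs, sq_abs] at this
      refine this.trans (le_of_eq ?_)
      field_simp
      ring
    have h1 := norm_integral_le_of_norm_le ((hg.const_mul _).add (hF.const_mul _))
      (.of_forall hb)
    simp only [Pi.add_apply] at h1
    rw [Real.norm_eq_abs, integral_add (hg.const_mul _) (hF.const_mul _), integral_const_mul,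
      integral_const_mul] at h1
    refine h1.trans ?_
    have a1 := mul_le_mul_of_nonneg_left (hgA.trans (show A ^ 2 ≤ (A + ε) ^ 2 by gcongr; linarith))
      hl.le
    have a2 := mul_le_mul_of_nonneg_left (hFH.trans (show H ^ 2 ≤ (H + ε) ^ 2 by gcongr; linarith))
      (show 0 ≤ (A + ε) / (2 * (H + ε)) by positivity)
    refine (add_le_add a1 a2).trans (le_of_eq ?_)
    field_simp
    ring
  refine key.trans ?_
  have h1 : ε * (A + H + 1) ≤ η := (le_div_iff₀ (by positivity)).1 (min_le_right _ _)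
  have h2 : ε * ε ≤ ε * 1 := mul_le_mul_of_nonneg_left (min_le_left _ _) hε0.le
  linarith

/-- The Cauchy-Schwarz inequality on a set outside of which the first factor vanishes. -/
theorem bxCS_on {S : Set (ℝ × ℝ)} (hS : MeasurableSet S) {g F : ℝ × ℝ → ℝ} {A H : ℝ}
    (hg : IntegrableOn (fun z => g z ^ 2) S) (hF : IntegrableOn (fun z => F z ^ 2) S)
    (hA : 0 ≤ A) (hH : 0 ≤ H) (hgA : ∫ z in S, g z ^ 2 ≤ A ^ 2)
    (hFH : ∫ z in S, F z ^ 2 ≤ H ^ 2) : |∫ z in S, g z * F z| ≤ A * H := by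
  have e1 : ∀ h : ℝ × ℝ → ℝ, (fun z => S.indicator h z ^ 2) = S.indicator (fun z => h z ^ 2) :=
    fun h => funext fun z => by by_cases hz : z ∈ S <;> simp [hz]
  have e2 : (fun z => S.indicator g z * S.indicator F z) = S.indicator (fun z => g z * F z) :=
    funext fun z => by by_cases hz : z ∈ S <;> simp [hz]
  have := bxCS (g := S.indicator g) (F := S.indicator F)
    (by rw [e1]; exact (integrable_indicator_iff hS).2 hg)
    (by rw [e1]; exact (integrable_indicator_iff hS).2 hF) hA hH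
    (by rw [e1, integral_indicator hS]; exact hgA) (by rw [e1, integral_indicator hS]; exact hFH)
  rwa [e2, integral_indicator hS] at this

namespace Par

variable (c : Par)

theorem bxBump_compact (t : ℝ) : IsCompact (c.bumpSet t) := by
  have e : c.bumpSet t = Icc (-(2 * c.K * (c.K + 1) * c.δ t)) (2 * c.K * (c.K + 1) * c.δ t) ×ˢ
      Icc (-(2 * c.δ t)) (2 * c.δ t) := by
    ext z; simp only [bumpSet, mem_ofPred_eq, abs_le, mem_prod, mem_Icc]
  rw [e]
  exact isCompact_Icc.prod isCompact_Icc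

theorem bxδ_sa {t : ℝ} (ht : 0 < t) (ht1 : t ≤ 1) :
    c.δ t / c.sa t ≤ c.ym t ∧ c.δ t ≤ c.ym t ∧ c.δ t * t ≤ c.ym t ^ 2 := by
  obtain ⟨k, hk⟩ : ∃ k, c.Qe = c.Pe + k := ⟨c.Qe - c.Pe, by have := c.Pe_le; omega⟩
  have h1 : c.ym t = t ^ k := by unfold ym; rw [hk, Nat.add_sub_cancel_left]
  have h2 : c.δ t = c.c1 * t ^ (c.Pe + k + k) := by
    unfold δ; rw [hk, show 2 * (c.Pe + k) - c.Pe = c.Pe + k + k by omega]
  have h3 : c.sa t = t ^ (c.Pe + k) := by unfold sa; rw [hk]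
  have hc := c.bxc1_le
  rw [h1, h2, h3]
  refine ⟨?_, ?_, ?_⟩
  · rw [div_le_iff₀ (pow_pos ht _)]
    calc c.c1 * t ^ (c.Pe + k + k) ≤ 1 * t ^ (c.Pe + k + k) := by gcongr
      _ = t ^ k * t ^ (c.Pe + k) := by rw [one_mul, ← pow_add]; congr 1; omega
  · calc c.c1 * t ^ (c.Pe + k + k) ≤ 1 * t ^ k := by
          gcongr ?_ * ?_
          exact pow_le_pow_of_le_one ht.le ht1 (by omega)
      _ = t ^ k := one_mul _
  · calc c.c1 * t ^ (c.Pe + k + k) * t ≤ 1 * t ^ (k + k) * 1 :=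
          mul_le_mul (mul_le_mul hc (pow_le_pow_of_le_one ht.le ht1 (by omega)) (by positivity)
            zero_le_one) ht1 ht.le (by positivity)
      _ = (t ^ k) ^ 2 := by rw [one_mul, mul_one, ← pow_mul, Nat.mul_two]

/-- Supremum from square integrals of the mixed derivative. -/
theorem rect_sup : ∀ s s' : ℝ, 0 ≤ s → s < s' → s' ≤ 1 → ∀ᶠ t in 𝓝[>] (0 : ℝ),
    ∀ f : ℝ × ℝ → ℝ, ContDiff ℝ ∞ f → ∀ z ∈ c.rect t s,
      f z ^ 2 ≤ (t⁻¹) ^ 6 * ∫ w in c.rect t s',
        (f w ^ 2 + dX f w ^ 2 + dY f w ^ 2 + dX (dY f) w ^ 2) := by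
  intro s s' hs hss hs'
  have hp := c.bxpOut_pos
  obtain ⟨C, hC0, hC⟩ := bxScaled_bound (c.bxCutP_smooth s s') (c.bxCutP_support hs hss) 2
  filter_upwards [bxEv_pos, bxEv_T (48 * c.pOut * (C + 1) ^ 2)]
    with t ⟨ht, ht1⟩ hT f hf z hz
  set φ := c.cut t s s' with hφdef
  have hφ : ContDiff ℝ ∞ φ := c.bxCut_smooth t s s'
  have hT1 : 1 ≤ t⁻¹ := (one_le_inv₀ ht).2 ht1
  have hb : ∀ w, ∀ a b : ℕ, a + b ≤ 2 → |dX^[a] (dY^[b] φ) w| ≤ (C + 1) * t⁻¹ ^ 2 := fun w a b hab => by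
    refine (abs_dX_iterate_dY_iterate_le hφ a b w).trans ?_
    rw [hφdef, c.bxCut_eq]
    refine (hC t ht _ hab w).trans (mul_le_mul (by linarith) ?_ (by positivity) (by linarith))
    exact pow_le_pow_right₀ hT1 hab
  have hR : IsCompact (c.rect t s') := c.bxRect_isCompact t s'
  have hφR : ∀ w, w ∉ c.rect t s' → φ w = 0 := fun w hw => c.bxCut_zero_off ht hs hss hw
  have hg : ContDiff ℝ ∞ fun w => φ w * f w := hφ.mul hf
  have hgR : ∀ w, w ∉ c.rect t s' → φ w * f w = 0 := fun w hw => by simp [hφR w hw]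
  have key := abs_le_sqrt_area_mul (hg.of_le (WithTop.coe_le_coe.2 le_top))
    (a := -(c.pOut * (2 + s') * t)) (b := c.pOut * (2 + s') * t)
    (c := -((1 + s') / 2 * t)) (d := (1 + s') / 2 * t)
    (by have := mul_pos (mul_pos hp (show (0 : ℝ) < 2 + s' by linarith)) ht; linarith)
    (by have := mul_pos (show (0 : ℝ) < (1 + s') / 2 by linarith) ht; linarith)
    (fun w hw => hgR w fun h => hw ⟨abs_le.1 h.1, abs_le.1 h.2⟩) z
  rw [hφdef, c.bxCut_one ht hs hss hz, one_mul, ← hφdef] at key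
  obtain ⟨J, hJ⟩ : ∃ J, J = ∫ w, dX (dY fun w => φ w * f w) w ^ 2 := ⟨_, rfl⟩
  rw [← hJ] at key
  have hJ0 : 0 ≤ J := hJ ▸ integral_nonneg fun w => sq_nonneg _
  have harea : (c.pOut * (2 + s') * t - -(c.pOut * (2 + s') * t))
      * ((1 + s') / 2 * t - -((1 + s') / 2 * t)) ≤ 12 * c.pOut * t ^ 2 := by
    have : (2 + s') * (1 + s') ≤ 3 * 2 := by gcongr <;> linarith
    have := mul_le_mul_of_nonneg_right this (by positivity : 0 ≤ c.pOut * t ^ 2)
    linarith
  have k2 : f z ^ 2 ≤ 12 * c.pOut * t ^ 2 * J := by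
    calc f z ^ 2 = |f z| ^ 2 := (sq_abs _).symm
      _ ≤ _ := pow_le_pow_left₀ (abs_nonneg _) key 2
      _ ≤ _ := by
          rw [mul_pow, Real.sq_sqrt hJ0]
          refine mul_le_mul_of_nonneg_right ?_ hJ0
          rw [Real.sq_sqrt]
          · exact harea
          · have := mul_nonneg (mul_nonneg hp.le (show (0 : ℝ) ≤ 2 + s' by linarith)) ht.le
            have := mul_nonneg (show (0 : ℝ) ≤ (1 + s') / 2 by linarith) ht.le
            exact mul_nonneg (by linarith) (by linarith)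
  have hcl := hR.isClosed
  have d : ∀ {g : ℝ × ℝ → ℝ}, ContDiff ℝ ∞ g → ∀ w, DifferentiableAt ℝ g w := fun hg w =>
    hg.differentiable (by simp) w
  have e : dX (dY fun w => φ w * f w) = fun w => dX (dY φ) w * f w + dY φ w * dX f w
      + (dX φ w * dY f w + φ w * dX (dY f) w) := by
    have e1 : dY (fun w => φ w * f w) = fun w => dY φ w * f w + φ w * dY f w :=
      funext fun w => dY_mul (d hφ w) (d hf w)
    rw [e1]
    funext w
    rw [dX_add (d ((bxSmooth_dY hφ).mul hf) w) (d (hφ.mul (bxSmooth_dY hf)) w),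
      dX_mul (d (bxSmooth_dY hφ) w) (d hf w), dX_mul (d hφ w) (d (bxSmooth_dY hf) w)]
  have hfc := hf.continuous
  have := (bxSmooth_dX hf).continuous
  have := (bxSmooth_dY hf).continuous
  have := (bxSmooth_dX (bxSmooth_dY hf)).continuous
  have iS : IntegrableOn (fun w => f w ^ 2 + dX f w ^ 2 + dY f w ^ 2 + dX (dY f) w ^ 2)
      (c.rect t s') := (by fun_prop : Continuous _).continuousOn.integrableOn_compact hR
  have hpt : ∀ w, dX (dY fun w => φ w * f w) w ^ 2 ≤ (c.rect t s').indicator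
      (fun w => 4 * ((C + 1) * t⁻¹ ^ 2) ^ 2
        * (f w ^ 2 + dX f w ^ 2 + dY f w ^ 2 + dX (dY f) w ^ 2)) w := by
    intro w
    by_cases hw : w ∈ c.rect t s'
    · rw [indicator_of_mem hw, e]
      generalize hB : (C + 1) * t⁻¹ ^ 2 = B
      have b : ∀ a b : ℕ, a + b ≤ 2 → (dX^[a] (dY^[b] φ) w) ^ 2 ≤ B ^ 2 := fun a b hab => by
        rw [← sq_abs, ← hB]; exact pow_le_pow_left₀ (abs_nonneg _) (hb w a b hab) 2
      have four : ∀ x y z v : ℝ, (x + y + (z + v)) ^ 2 ≤ 4 * (x ^ 2 + y ^ 2 + z ^ 2 + v ^ 2) :=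
        fun x y z v => by nlinarith [sq_nonneg (x - y), sq_nonneg (z - v), sq_nonneg (x + y - z - v)]
      refine (four _ _ _ _).trans ?_
      rw [mul_assoc]
      gcongr
      rw [mul_pow, mul_pow, mul_pow, mul_pow]
      have b1 := mul_le_mul_of_nonneg_right (b 1 1 le_rfl) (sq_nonneg (f w))
      have b2 := mul_le_mul_of_nonneg_right (b 0 1 (by norm_num)) (sq_nonneg (dX f w))
      have b3 := mul_le_mul_of_nonneg_right (b 1 0 (by norm_num)) (sq_nonneg (dY f w))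
      have b4 := mul_le_mul_of_nonneg_right (b 0 0 (by norm_num)) (sq_nonneg (dX (dY f) w))
      simp only [Function.iterate_one, Function.iterate_zero, id_eq] at b1 b2 b3 b4
      linarith
    · rw [indicator_of_notMem hw]
      simp [dX_eq_zero_off hcl (fun v hv => dY_eq_zero_off hcl hgR hv) hw]
  have k3 : J ≤ 4 * ((C + 1) * t⁻¹ ^ 2) ^ 2
      * ∫ w in c.rect t s', (f w ^ 2 + dX f w ^ 2 + dY f w ^ 2 + dX (dY f) w ^ 2) := by
    rw [hJ, ← integral_const_mul, ← integral_indicator hR.measurableSet]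
    exact integral_mono (((bxSmooth_dX (bxSmooth_dY hg)).continuous.pow 2)
      |>.integrable_of_hasCompactSupport (HasCompactSupport.intro hR fun w hw => by
        simp [dX_eq_zero_off hcl (fun v hv => dY_eq_zero_off hcl hgR hv) hw]))
      ((integrable_indicator_iff hR.measurableSet).2 (iS.const_mul _)) hpt
  obtain ⟨I, hI⟩ : ∃ I, I = ∫ w in c.rect t s', (f w ^ 2 + dX f w ^ 2 + dY f w ^ 2
    + dX (dY f) w ^ 2) := ⟨_, rfl⟩
  rw [← hI] at k3 ⊢
  have hI0 : 0 ≤ I := hI ▸ setIntegral_nonneg hR.measurableSet fun w _ => by positivity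
  calc f z ^ 2 ≤ 12 * c.pOut * t ^ 2 * (4 * ((C + 1) * t⁻¹ ^ 2) ^ 2 * I) :=
        k2.trans (mul_le_mul_of_nonneg_left k3 (by positivity))
    _ = 48 * c.pOut * (C + 1) ^ 2 * t⁻¹ ^ 2 * I * (t * t⁻¹) ^ 2 := by ring
    _ ≤ t⁻¹ * t⁻¹ ^ 2 * I * (t * t⁻¹) ^ 2 := by gcongr
    _ = t⁻¹ ^ 3 * I := by rw [mul_inv_cancel₀ ht.ne']; ring
    _ ≤ _ := by gcongr; norm_num

theorem bxEnergy_ge {t : ℝ} (_ht : 0 < t) {W : ℝ × ℝ → ℝ} (hW : ContDiff ℝ ∞ W)
    (hs : HasCompactSupport W) :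
    (∫ z, dY W z ^ 2) ≤ c.energy t W ∧ c.sa t ^ 2 * ∫ z, dX W z ^ 2 ≤ c.energy t W ∧
      t⁻¹ ^ 2 * ∫ z, W z ^ 2 ≤ c.energy t W ∧ 0 ≤ c.energy t W := by
  have ia := bxInt_sq (bxSmooth_dY hW).continuous (hasCompactSupport_dY hs)
  have ix := bxInt_sq (bxSmooth_dX hW).continuous (hasCompactSupport_dX hs)
  have iq := bxInt_sq hW.continuous hs
  have ib : Integrable fun z => c.W t z.2 * dX W z ^ 2 :=
    ((c.bxW_continuous t).mul ((bxSmooth_dX hW).continuous.pow 2)).integrable_of_hasCompactSupport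
      (HasCompactSupport.intro (hasCompactSupport_dX hs) fun z hz => by
        simp [image_eq_zero_of_notMem_tsupport hz])
  have hE : c.energy t W
      = (∫ z, dY W z ^ 2) + (∫ z, c.W t z.2 * dX W z ^ 2) + (t⁻¹) ^ 2 * ∫ z, W z ^ 2 := by
    rw [energy, integral_add (f := fun z => dY W z ^ 2 + c.W t z.2 * dX W z ^ 2)
      (ia.add ib) (iq.const_mul _), integral_add ia ib, integral_const_mul]
  have hm : c.sa t ^ 2 * ∫ z, dX W z ^ 2 ≤ ∫ z, c.W t z.2 * dX W z ^ 2 := by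
    rw [← integral_const_mul]
    exact integral_mono (ix.const_mul _) ib fun z => mul_le_mul_of_nonneg_right
      (le_add_of_nonneg_right (by positivity)) (sq_nonneg _)
  have a0 : 0 ≤ ∫ z, dY W z ^ 2 := integral_nonneg fun z => sq_nonneg _
  have x0 : 0 ≤ c.sa t ^ 2 * ∫ z, dX W z ^ 2 :=
    mul_nonneg (sq_nonneg _) (integral_nonneg fun z => sq_nonneg _)
  have q0 : 0 ≤ t⁻¹ ^ 2 * ∫ z, W z ^ 2 :=
    mul_nonneg (sq_nonneg _) (integral_nonneg fun z => sq_nonneg _)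
  refine ⟨?_, ?_, ?_, ?_⟩ <;> linarith

/-- The mass of a function in the bump. -/
theorem bxBump_mass {t h : ℝ} (ht : 0 < t) (hh : 0 < h) (hd : c.δ t ≤ h) {W : ℝ × ℝ → ℝ}
    (hW : ContDiff ℝ ∞ W) (hs : HasCompactSupport W) :
    ∫ z in c.bumpSet t, W z ^ 2 ≤ 6 * c.δ t * (1 / h * (∫ z, W z ^ 2) + h * ∫ z, dY W z ^ 2) := by
  have iq : Integrable fun z => W z ^ 2 :=
    bxInt_sq hW.continuous hs
  have hδ := (c.bxδ_pos ht).le
  refine le_trans (setIntegral_mono_set iq.integrableOn (.of_forall fun _ => sq_nonneg _)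
    (LE.le.eventuallyLE (show c.bumpSet t ⊆ {w | |w.2| ≤ 2 * c.δ t} from fun w hw => hw.2))) ?_
  refine (strip_estimate (hW.of_le (by simp)) hs (h := h) (by linarith) hh (by linarith)).trans ?_
  rw [show 3 * (2 * c.δ t) = 6 * c.δ t by ring]
  refine mul_le_mul_of_nonneg_left (add_le_add (mul_le_mul_of_nonneg_left ?_ (by positivity))
    le_rfl) (by linarith)
  exact setIntegral_le_integral iq (.of_forall fun _ => sq_nonneg _)

theorem bxBump_bound {t : ℝ} (ht : 0 < t) {ζ : ℝ × ℝ → ℝ} (hbr : c.bumpSet t ⊆ c.rect t 1)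
    (hζ : ∀ z ∈ c.rect t 1, |ζ z| ≤ |z.1| + |z.2|) {z : ℝ × ℝ} (hz : z ∈ c.bumpSet t) :
    |z.1| ≤ 2 * (c.K + 1) ^ 2 * c.δ t ∧ |ζ z| ≤ 4 * (c.K + 1) ^ 2 * c.δ t := by
  have hK := c.one_le_K
  have hδ := (c.bxδ_pos ht).le
  have e : 0 ≤ (c.K + 1) * c.δ t := by positivity
  have e2 : 1 * c.δ t ≤ (c.K + 1) ^ 2 * c.δ t :=
    mul_le_mul_of_nonneg_right (one_le_pow₀ (by linarith)) hδ
  have h1 : |z.1| ≤ 2 * (c.K + 1) ^ 2 * c.δ t := hz.1.trans (by linarith)
  exact ⟨h1, (hζ z (hbr hz)).trans (by linarith [hz.2])⟩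

/-- A source in the bump, crude bound. -/
theorem bump_crude : ∀ s s' : ℝ, 0 ≤ s → s < s' → s' ≤ 1 → ∀ᶠ t in 𝓝[>] (0 : ℝ),
    ∀ ζ lam w F : ℝ × ℝ → ℝ, ∀ H : ℝ,
      (∀ z ∈ c.rect t 1, |ζ z| ≤ |z.1| + |z.2|) → (∀ z ∈ c.rect t 1, |lam z| ≤ 1) →
      ContDiff ℝ ∞ ζ → ContDiff ℝ ∞ lam → ContDiff ℝ ∞ w → Integrable F →
      Integrable (fun z => F z ^ 2) → (∀ z, z ∉ c.bumpSet t → F z = 0) →
      0 ≤ H → ∫ z, F z ^ 2 ≤ H ^ 2 →
      |∫ z, multM 1 ζ lam w z * F z| ≤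
        t⁻¹ * c.ym t * Real.sqrt (c.energy t (fun z => c.cut t s s' z * w z)) * H := by
  intro s s' hs hss hs'
  have hK := c.one_le_K
  filter_upwards [bxEv_pos, c.bxBump_core, bxEv_T (11 * (c.K + 1) ^ 2)]
    with t ⟨ht, ht1⟩ hcore hT ζ lam w F H hζb hlb hζ hlam hw hF hF2 hF0 hH hFH
  set W := fun z => c.cut t s s' z * w z with hWdef
  have hW : ContDiff ℝ ∞ W := (c.bxCut_smooth t s s').mul hw
  have hWs : HasCompactSupport W := HasCompactSupport.intro (c.bxRect_isCompact t s') fun z hz => by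
    simp [hWdef, c.bxCut_zero_off ht hs hss hz]
  have hB := c.bxBump_compact t
  have hbr : c.bumpSet t ⊆ c.rect t 1 := fun z hz =>
    mem_of_mem_nhds (c.bxCore_nhds ht zero_le_one (hcore hz))
  obtain ⟨e1, e2, e3, e0⟩ := c.bxEnergy_ge ht hW hWs
  obtain ⟨d1, d2, d3⟩ := c.bxδ_sa ht ht1
  obtain ⟨E, hE⟩ : ∃ E, E = c.energy t W := ⟨_, rfl⟩
  rw [← hE] at e1 e2 e3 e0 ⊢
  have hδ := c.bxδ_pos ht
  have hsa : 0 < c.sa t := pow_pos ht _
  have hym : 0 ≤ c.ym t := pow_nonneg ht.le _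
  have hWy := (bxSmooth_dY hW).continuous
  have hWx := (bxSmooth_dX hW).continuous
  have hWc := hW.continuous
  have hζc := hζ.continuous
  have hlc := hlam.continuous
  have hMc : Continuous (multM 1 ζ lam W) := by unfold multM; fun_prop
  have hA : ∫ z in c.bumpSet t, multM 1 ζ lam W z ^ 2
      ≤ (11 * (c.K + 1) ^ 2 * c.ym t * Real.sqrt E) ^ 2 := by
    have hpt : ∀ z ∈ c.bumpSet t, multM 1 ζ lam W z ^ 2 ≤
        3 * ((2 * (c.K + 1) ^ 2 * c.δ t) ^ 2 * dX W z ^ 2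
          + (4 * (c.K + 1) ^ 2 * c.δ t) ^ 2 * dY W z ^ 2 + W z ^ 2) := by
      intro z hz
      obtain ⟨p1, p2⟩ := c.bxBump_bound ht hbr hζb hz
      rw [multM, one_mul]
      refine (bxSq3 _ _ _).trans ?_
      rw [mul_pow, mul_pow, mul_pow, ← sq_abs z.1, ← sq_abs (ζ z), ← sq_abs (lam z)]
      gcongr
      exact mul_le_of_le_one_left (sq_nonneg _) (pow_le_one₀ (abs_nonneg _) (hlb z (hbr hz)))
    have iM : IntegrableOn (fun z => multM 1 ζ lam W z ^ 2) (c.bumpSet t) :=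
      (hMc.pow 2).continuousOn.integrableOn_compact hB
    have iR : IntegrableOn (fun z => 3 * ((2 * (c.K + 1) ^ 2 * c.δ t) ^ 2 * dX W z ^ 2
        + (4 * (c.K + 1) ^ 2 * c.δ t) ^ 2 * dY W z ^ 2 + W z ^ 2)) (c.bumpSet t) :=
      (by fun_prop : Continuous _).continuousOn.integrableOn_compact hB
    refine (setIntegral_mono_on iM iR hB.measurableSet hpt).trans ?_
    have i : ∀ {g : ℝ × ℝ → ℝ}, Continuous g → IntegrableOn g (c.bumpSet t) := fun hg =>
      hg.continuousOn.integrableOn_compact hB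
    have ix : IntegrableOn (fun z => (2 * (c.K + 1) ^ 2 * c.δ t) ^ 2 * dX W z ^ 2) (c.bumpSet t) :=
      i (by fun_prop)
    have iy : IntegrableOn (fun z => (4 * (c.K + 1) ^ 2 * c.δ t) ^ 2 * dY W z ^ 2) (c.bumpSet t) :=
      i (by fun_prop)
    have iw : IntegrableOn (fun z => W z ^ 2) (c.bumpSet t) := i (by fun_prop)
    have ixy : IntegrableOn (fun z => (2 * (c.K + 1) ^ 2 * c.δ t) ^ 2 * dX W z ^ 2
        + (4 * (c.K + 1) ^ 2 * c.δ t) ^ 2 * dY W z ^ 2) (c.bumpSet t) := ix.add iy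
    rw [integral_const_mul, integral_add ixy iw,
      integral_add ix iy, integral_const_mul, integral_const_mul]
    have sx : ∫ z in c.bumpSet t, dX W z ^ 2 ≤ E / c.sa t ^ 2 := by
      rw [le_div_iff₀ (by positivity), mul_comm]
      refine le_trans (mul_le_mul_of_nonneg_left (setIntegral_le_integral
        (bxInt_sq hWx (hasCompactSupport_dX hWs)) (.of_forall fun _ => sq_nonneg _))
        (sq_nonneg _)) e2
    have sy : ∫ z in c.bumpSet t, dY W z ^ 2 ≤ E := by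
      refine le_trans (setIntegral_le_integral
        (bxInt_sq hWy (hasCompactSupport_dY hWs)) (.of_forall fun _ => sq_nonneg _)) e1
    have sw : ∫ z in c.bumpSet t, W z ^ 2 ≤ 12 * c.ym t ^ 2 * E := by
      refine (c.bxBump_mass ht ht (c.bxδ_le ht ht1) hW hWs).trans ?_
      have hq : ∫ z, W z ^ 2 ≤ t ^ 2 * E := by
        have := mul_le_mul_of_nonneg_left e3 (sq_nonneg t)
        rwa [← mul_assoc, ← mul_pow, mul_inv_cancel₀ ht.ne', one_pow, one_mul] at this
      calc 6 * c.δ t * (1 / t * (∫ z, W z ^ 2) + t * ∫ z, dY W z ^ 2)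
          ≤ 6 * c.δ t * (1 / t * (t ^ 2 * E) + t * E) := by gcongr
        _ = 12 * (c.δ t * t) * E := by field_simp; ring
        _ ≤ _ := by gcongr
    calc 3 * ((2 * (c.K + 1) ^ 2 * c.δ t) ^ 2 * (∫ z in c.bumpSet t, dX W z ^ 2)
          + (4 * (c.K + 1) ^ 2 * c.δ t) ^ 2 * (∫ z in c.bumpSet t, dY W z ^ 2)
          + ∫ z in c.bumpSet t, W z ^ 2)
        ≤ 3 * ((2 * (c.K + 1) ^ 2 * c.δ t) ^ 2 * (E / c.sa t ^ 2)
          + (4 * (c.K + 1) ^ 2 * c.δ t) ^ 2 * E + 12 * c.ym t ^ 2 * E) := by gcongr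
      _ = (12 * ((c.K + 1) ^ 2) ^ 2 * (c.δ t / c.sa t) ^ 2
          + 48 * ((c.K + 1) ^ 2) ^ 2 * c.δ t ^ 2 + 36 * 1 ^ 2 * c.ym t ^ 2) * E := by ring
      _ ≤ (12 * ((c.K + 1) ^ 2) ^ 2 * c.ym t ^ 2 + 48 * ((c.K + 1) ^ 2) ^ 2 * c.ym t ^ 2
          + 36 * ((c.K + 1) ^ 2) ^ 2 * c.ym t ^ 2) * E := by
          gcongr
          exact one_le_pow₀ (by linarith)
      _ ≤ _ := by
          rw [mul_pow (11 * (c.K + 1) ^ 2 * c.ym t), Real.sq_sqrt e0]
          have : 0 ≤ ((c.K + 1) ^ 2) ^ 2 * c.ym t ^ 2 * E := by positivity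
          linarith
  have heq : ∫ z, multM 1 ζ lam w z * F z = ∫ z in c.bumpSet t, multM 1 ζ lam W z * F z := by
    rw [← setIntegral_eq_integral_of_forall_compl_eq_zero (s := c.bumpSet t) (μ := volume)
      fun z hz => by simp [hF0 z hz]]
    refine setIntegral_congr_fun hB.measurableSet fun z hz => ?_
    have he : W =ᶠ[𝓝 z] w := by
      filter_upwards [c.bxCut_core ht hs hss (hcore hz)] with v hv
      simp [hWdef, hv]
    simp only [multM, dX_congr he, dY_congr he, he.eq_of_nhds]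
  rw [heq]
  refine (bxCS_on hB.measurableSet ((hMc.pow 2).continuousOn.integrableOn_compact hB)
    hF2.integrableOn (by positivity) hH hA
    ((setIntegral_le_integral hF2 (.of_forall fun _ => sq_nonneg _)).trans hFH)).trans ?_
  gcongr

/-- A source in the bump which is controlled with one more derivative. -/
theorem bump_improved : ∀ s s' : ℝ, 0 ≤ s → s < s' → s' ≤ 1 → ∀ᶠ t in 𝓝[>] (0 : ℝ),
    ∀ ζ lam w F : ℝ × ℝ → ℝ, ∀ H M : ℝ,
      (∀ z ∈ c.rect t 1, |ζ z| ≤ |z.1| + |z.2|) → (∀ z ∈ c.rect t 1, |lam z| ≤ 1) →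
      ContDiff ℝ ∞ ζ → ContDiff ℝ ∞ lam → ContDiff ℝ ∞ w → ContDiff ℝ ∞ F →
      (∀ z ∈ c.rect t 1, z ∉ c.bumpSet t → F z = 0) →
      0 ≤ H → ∫ z in c.bumpSet t, F z ^ 2 ≤ H ^ 2 →
      ∫ z in c.bumpSet t, (z.1 * dX F z) ^ 2 ≤ H ^ 2 →
      0 ≤ M → ∫ z in c.rect t s', c.W t z.2 * w z ^ 2 ≤ M ^ 2 →
      |∫ z in c.bumpSet t, multM 1 ζ lam w z * F z| ≤
        t⁻¹ * Real.sqrt (c.δ t) * H *
          (Real.sqrt (c.ym t) * Real.sqrt (c.energy t (fun z => c.cut t s s' z * w z)) +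
            M / (c.sa t * Real.sqrt (c.ym t))) := by
  intro s s' hs hss hs'
  have hK := c.one_le_K
  filter_upwards [bxEv_pos, c.bxBump_core, bxEv_T (13 * (c.K + 1) ^ 2)]
    with t ⟨ht, ht1⟩ hcore hT ζ lam w F H M hζb hlb hζ hlam hw hF hF0 hH hFH hPFH hM0 hMw
  set W := fun z => c.cut t s s' z * w z with hWdef
  have hW : ContDiff ℝ ∞ W := (c.bxCut_smooth t s s').mul hw
  have hR := c.bxRect_isCompact t s'
  have hW0 : ∀ z, z ∉ c.rect t s' → W z = 0 := fun z hz => by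
    simp [hWdef, c.bxCut_zero_off ht hs hss hz]
  have hWs : HasCompactSupport W := HasCompactSupport.intro hR hW0
  have hB := c.bxBump_compact t
  have hbr : c.bumpSet t ⊆ c.rect t 1 := fun z hz =>
    mem_of_mem_nhds (c.bxCore_nhds ht zero_le_one (hcore hz))
  obtain ⟨e1, e2, e3, e0⟩ := c.bxEnergy_ge ht hW hWs
  obtain ⟨d1, d2, -⟩ := c.bxδ_sa ht ht1
  obtain ⟨E, hE⟩ : ∃ E, E = c.energy t W := ⟨_, rfl⟩
  rw [← hE] at e1 e0 ⊢
  have hδ := c.bxδ_pos ht
  have hsa : 0 < c.sa t := pow_pos ht _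
  have hym : 0 < c.ym t := pow_pos ht _
  obtain ⟨A, hA⟩ : ∃ A, A = Real.sqrt (c.δ t) * (Real.sqrt (c.ym t) * Real.sqrt E
      + M / (c.sa t * Real.sqrt (c.ym t))) := ⟨_, rfl⟩
  have hA0 : 0 ≤ A := by rw [hA]; positivity
  have hWy := (bxSmooth_dY hW).continuous
  have hWx := (bxSmooth_dX hW).continuous
  have hWc := hW.continuous
  have hζc := hζ.continuous
  have hlc := hlam.continuous
  have hFc := hF.continuous
  have hFx := (bxSmooth_dX hF).continuous
  -- the mass in the bump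
  have iwW : IntegrableOn (fun z => c.W t z.2 * w z ^ 2) (c.rect t s') :=
    ((c.bxW_continuous t).mul (hw.continuous.pow 2)).continuousOn.integrableOn_compact hR
  have hq : ∫ z, W z ^ 2 ≤ M ^ 2 / c.sa t ^ 2 := by
    rw [le_div_iff₀ (by positivity), mul_comm, ← integral_const_mul]
    refine le_trans ?_ hMw
    rw [← integral_indicator hR.measurableSet]
    refine integral_mono ((bxInt_sq hWc hWs).const_mul _)
      ((integrable_indicator_iff hR.measurableSet).2 iwW) fun z => ?_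
    by_cases hz : z ∈ c.rect t s'
    · rw [indicator_of_mem hz]
      refine mul_le_mul (le_add_of_nonneg_right (by positivity)) ?_
        (sq_nonneg _) (c.bxW_pos ht _).le
      rw [hWdef]
      simp only [mul_pow]
      exact mul_le_of_le_one_left (sq_nonneg _)
        (pow_le_one₀ (c.bxCut_nonneg t s s' z) (c.bxCut_le_one t s s' z))
    · simp [indicator_of_notMem hz, hW0 z hz]
  have hmass : ∫ z in c.bumpSet t, W z ^ 2 ≤ (3 * A) ^ 2 := by
    refine (c.bxBump_mass ht hym d2 hW hWs).trans ?_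
    have h1 : Real.sqrt (c.δ t) ^ 2 = c.δ t := Real.sq_sqrt hδ.le
    have h2 : Real.sqrt (c.ym t) ^ 2 = c.ym t := Real.sq_sqrt hym.le
    have h3 : Real.sqrt E ^ 2 = E := Real.sq_sqrt e0
    have hX : 0 ≤ Real.sqrt (c.ym t) * Real.sqrt E := by positivity
    have hY : 0 ≤ M / (c.sa t * Real.sqrt (c.ym t)) := by positivity
    calc 6 * c.δ t * (1 / c.ym t * (∫ z, W z ^ 2) + c.ym t * ∫ z, dY W z ^ 2)
        ≤ 6 * c.δ t * (1 / c.ym t * (M ^ 2 / c.sa t ^ 2) + c.ym t * E) := by gcongr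
      _ = 6 * c.δ t * ((M / (c.sa t * Real.sqrt (c.ym t))) ^ 2
            + (Real.sqrt (c.ym t) * Real.sqrt E) ^ 2) := by
          rw [div_pow, mul_pow, mul_pow, h2, h3]; field_simp
      _ ≤ 9 * c.δ t * (Real.sqrt (c.ym t) * Real.sqrt E
            + M / (c.sa t * Real.sqrt (c.ym t))) ^ 2 := by
          have := mul_nonneg (mul_nonneg hδ.le hX) hY
          have := mul_nonneg hδ.le (sq_nonneg (Real.sqrt (c.ym t) * Real.sqrt E))
          have := mul_nonneg hδ.le (sq_nonneg (M / (c.sa t * Real.sqrt (c.ym t))))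
          linarith
      _ = _ := by rw [hA]; simp only [mul_pow, h1]; ring
  have cs : ∀ {g : ℝ × ℝ → ℝ}, Continuous g → ∀ {B' : ℝ}, 0 ≤ B' →
      ∫ z in c.bumpSet t, g z ^ 2 ≤ B' ^ 2 → ∀ {G : ℝ × ℝ → ℝ}, Continuous G →
      ∫ z in c.bumpSet t, G z ^ 2 ≤ H ^ 2 → |∫ z in c.bumpSet t, g z * G z| ≤ B' * H :=
    fun hg _ hB' hgB _ hG hGH => bxCS_on hB.measurableSet
      ((hg.pow 2).continuousOn.integrableOn_compact hB)
      ((hG.pow 2).continuousOn.integrableOn_compact hB) hB' hH hgB hGH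
  -- the three parts
  have p1 : |∫ z in c.bumpSet t, W z * (F z + z.1 * dX F z)| ≤ 6 * A * H := by
    have i1 : IntegrableOn (fun z => W z * F z) (c.bumpSet t) :=
      (hWc.mul hFc).continuousOn.integrableOn_compact hB
    have i2 : IntegrableOn (fun z => W z * (z.1 * dX F z)) (c.bumpSet t) :=
      (hWc.mul (continuous_fst.mul hFx)).continuousOn.integrableOn_compact hB
    simp only [mul_add]
    rw [integral_add i1 i2]
    refine (abs_add_le _ _).trans ?_
    have a1 := cs hWc (by positivity : 0 ≤ 3 * A) hmass hFc hFH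
    have hPc : Continuous fun z : ℝ × ℝ => z.1 * dX F z := continuous_fst.mul hFx
    have a2 := cs hWc (by positivity : 0 ≤ 3 * A) hmass hPc hPFH
    linarith
  have p2 : |∫ z in c.bumpSet t, ζ z * dY W z * F z| ≤ 4 * (c.K + 1) ^ 2 * A * H := by
    refine cs (hζc.mul hWy) (by positivity) ?_ hFc hFH
    have iy : Integrable fun z => dY W z ^ 2 := bxInt_sq hWy (hasCompactSupport_dY hWs)
    have h1 : ∫ z in c.bumpSet t, (ζ z * dY W z) ^ 2
        ≤ ∫ z in c.bumpSet t, (4 * (c.K + 1) ^ 2 * c.δ t) ^ 2 * dY W z ^ 2 := by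
      refine setIntegral_mono_on (((hζc.mul hWy).pow 2).continuousOn.integrableOn_compact hB)
        ((continuous_const.mul (hWy.pow 2)).continuousOn.integrableOn_compact hB) hB.measurableSet
        fun z hz => ?_
      rw [mul_pow, ← sq_abs (ζ z)]
      gcongr
      exact (c.bxBump_bound ht hbr hζb hz).2
    refine h1.trans ?_
    rw [integral_const_mul]
    refine (mul_le_mul_of_nonneg_left ((setIntegral_le_integral iy
      (.of_forall fun _ => sq_nonneg _)).trans e1) (sq_nonneg _)).trans ?_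
    have hAd : c.δ t * Real.sqrt E ≤ A := by
      rw [hA, mul_add]
      refine le_trans ?_ (le_add_of_nonneg_right (by positivity))
      rw [← mul_assoc, ← Real.sqrt_mul hδ.le]
      refine mul_le_mul_of_nonneg_right (Real.le_sqrt_of_sq_le ?_) (Real.sqrt_nonneg _)
      rw [pow_two]; exact mul_le_mul_of_nonneg_left d2 hδ.le
    calc (4 * (c.K + 1) ^ 2 * c.δ t) ^ 2 * E
        = (4 * (c.K + 1) ^ 2) ^ 2 * (c.δ t * Real.sqrt E) ^ 2 := by
          rw [mul_pow _ (Real.sqrt E), Real.sq_sqrt e0]; ring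
      _ ≤ (4 * (c.K + 1) ^ 2) ^ 2 * A ^ 2 := by gcongr
      _ = _ := by ring
  have p3 : |∫ z in c.bumpSet t, lam z * W z * F z| ≤ 3 * A * H := by
    have hc : Continuous fun z => lam z * W z := hlc.mul hWc
    refine cs hc (by positivity) (le_trans ?_ hmass) hFc hFH
    refine setIntegral_mono_on ((hc.pow 2).continuousOn.integrableOn_compact hB)
      ((hWc.pow 2).continuousOn.integrableOn_compact hB) hB.measurableSet fun z hz => ?_
    rw [mul_pow, ← sq_abs (lam z)]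
    exact mul_le_of_le_one_left (sq_nonneg _) (pow_le_one₀ (abs_nonneg _) (hlb z (hbr hz)))
  -- integration by parts
  have hvan : ∀ z, z ∉ c.bumpSet t → W z * (F z + z.1 * dX F z) = 0 := by
    intro z hz
    by_cases hin : |z.1| < c.pOut * (2 + s') * t ∧ |z.2| < (1 + s') / 2 * t
    · have hn : c.rect t 1 \ c.bumpSet t ∈ 𝓝 z := by
        refine Filter.mem_of_superset (((isOpen_lt continuous_fst.abs continuous_const).inter
          (isOpen_lt continuous_snd.abs continuous_const)).inter hB.isClosed.isOpen_compl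
          |>.mem_nhds ⟨⟨hin.1, hin.2⟩, hz⟩) ?_
        rintro v ⟨⟨v1, v2⟩, hv⟩
        exact ⟨c.bxRect_mono ht.le hs' ⟨le_of_lt v1, le_of_lt v2⟩, hv⟩
      have he : F =ᶠ[𝓝 z] fun _ => (0 : ℝ) :=
        eventually_of_mem hn fun v hv => hF0 v hv.1 hv.2
      simp [he.eq_of_nhds, dX_congr he, dX_const]
    · have : c.cutP s s' (t⁻¹ • z) = 0 := by
        refine c.bxCutP_zero hs hss ?_
        simp only [Prod.smul_fst, Prod.smul_snd, smul_eq_mul, abs_mul, abs_inv, abs_of_pos ht,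
          le_inv_mul_iff₀ ht]
        by_contra hh
        simp only [not_or, not_le] at hh
        exact hin ⟨by linarith [hh.1], by linarith [hh.2]⟩
      simp [hWdef, c.bxCut_eq, this]
  have ibp : ∫ z, z.1 * F z * dX W z = -∫ z in c.bumpSet t, W z * (F z + z.1 * dX F z) := by
    rw [integral_mul_dX (f := fun z => z.1 * F z) (g := W)
      ((contDiff_fst.mul hF).of_le (by simp)) (hW.of_le (by simp)) (.inr hWs),
      setIntegral_eq_integral_of_forall_compl_eq_zero hvan]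
    congr 1
    refine integral_congr_ae (.of_forall fun z => ?_)
    simp only [dX_mul (f := fun v : ℝ × ℝ => v.1) differentiableAt_fst
      (hF.differentiable (by simp) z), dX_fst]
    ring
  have hsupp : ∀ z, z ∉ c.bumpSet t → z.1 * F z * dX W z = 0 ∧ dY W z * F z = 0 ∧
      W z * F z = 0 := by
    intro z hz
    by_cases hzr : z ∈ c.rect t s'
    · simp [hF0 z (c.bxRect_mono ht.le hs' hzr) hz]
    · simp [hW0 z hzr, dX_eq_zero_off hR.isClosed hW0 hzr, dY_eq_zero_off hR.isClosed hW0 hzr]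
  have heq : ∫ z in c.bumpSet t, multM 1 ζ lam w z * F z = ∫ z in c.bumpSet t,
      (z.1 * F z * dX W z + ζ z * dY W z * F z + lam z * W z * F z) := by
    refine setIntegral_congr_fun hB.measurableSet fun z hz => ?_
    have he : W =ᶠ[𝓝 z] w := by
      filter_upwards [c.bxCut_core ht hs hss (hcore hz)] with v hv
      simp [hWdef, hv]
    simp only [multM, dX_congr he, dY_congr he, he.eq_of_nhds]
    ring
  have i : ∀ {g : ℝ × ℝ → ℝ}, Continuous g → IntegrableOn g (c.bumpSet t) := fun hg =>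
    hg.continuousOn.integrableOn_compact hB
  have i1 : IntegrableOn (fun z => z.1 * F z * dX W z) (c.bumpSet t) := i (by fun_prop)
  have i2 : IntegrableOn (fun z => ζ z * dY W z * F z) (c.bumpSet t) := i (by fun_prop)
  have i3 : IntegrableOn (fun z => lam z * W z * F z) (c.bumpSet t) := i (by fun_prop)
  have i12 : IntegrableOn (fun z => z.1 * F z * dX W z + ζ z * dY W z * F z) (c.bumpSet t) :=
    i1.add i2
  rw [heq, integral_add i12 i3,
    integral_add i1 i2,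
    setIntegral_eq_integral_of_forall_compl_eq_zero fun z hz => (hsupp z hz).1, ibp]
  refine (abs_add_three _ _ _).trans ?_
  rw [abs_neg]
  refine (add_le_add (add_le_add p1 p2) p3).trans ?_
  calc 6 * A * H + 4 * (c.K + 1) ^ 2 * A * H + 3 * A * H
      ≤ 6 * ((c.K + 1) ^ 2 * A * H) + 4 * ((c.K + 1) ^ 2 * A * H)
        + 3 * ((c.K + 1) ^ 2 * A * H) := by
        have : 1 * (A * H) ≤ (c.K + 1) ^ 2 * (A * H) :=
          mul_le_mul_of_nonneg_right (one_le_pow₀ (by linarith)) (mul_nonneg hA0 hH)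
        linarith
    _ = 13 * (c.K + 1) ^ 2 * (A * H) := by ring
    _ ≤ t⁻¹ * (A * H) := mul_le_mul_of_nonneg_right hT (mul_nonneg hA0 hH)
    _ = _ := by rw [hA]; ring

end Par

end Vale.Agent.P229
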