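import Vale.Agent.P229.BoxLev
import Vale.Agent.P229.BoxTools

/-!
# P229: supremum bounds from the levels
-/

open scoped ContDiff Topology
open MeasureTheory Set Filter

namespace Vale.Agent.P229

theorem bxiIntB (c : Par) (t s : ℝ) : IntegrableOn (c.indB t) (c.rect t s) := by
  have h : IntegrableOn (fun _ => (1 : ℝ)) (c.rect t s) :=
    continuousOn_const.integrableOn_compact (c.rect_compact t s)
  exact h.indicator ((isClosed_le continuous_fst.abs continuous_const).inter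
    (isClosed_le continuous_snd.abs continuous_const)).measurableSet

/-- Integral of a pointwise bound with three kinds of terms. -/
theorem bxiInt (c : Par) {t s : ℝ} {f g : ℝ × ℝ → ℝ} {a b d : ℝ} (hf : Continuous f)
    (hg : Continuous g) (h : ∀ z ∈ c.rect t s, f z ≤ a * g z + b + d * c.indB t z) :
    ∫ z in c.rect t s, f z ≤ a * (∫ z in c.rect t s, g z) + b * (∫ _ in c.rect t s, (1 : ℝ)) +
      d * ∫ z in c.rect t s, c.indB t z := by
  have i1 : IntegrableOn (fun z => a * g z) (c.rect t s) := c.intOn (continuous_const.mul hg) t s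
  have i2 : IntegrableOn (fun _ => b * 1) (c.rect t s) := c.intOn continuous_const t s
  have i3 : IntegrableOn (fun z => d * c.indB t z) (c.rect t s) := (bxiIntB c t s).const_mul d
  have hh : ∀ z ∈ c.rect t s, f z ≤ (a * g z + b * 1) + d * c.indB t z := fun z hz => by
    simpa using h z hz
  refine (bxSetInt_le c hf ((i1.add i2).add i3) hh).trans_eq ?_
  rw [integral_add' (i1.add i2) i3, integral_add' i1 i2, integral_const_mul, integral_const_mul,
    integral_const_mul]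

theorem bxiLev_sum (c : Par) {t s : ℝ} {u b : ℝ × ℝ → ℝ} (hu : ContDiff ℝ ∞ u)
    (hb : ContDiff ℝ ∞ b) {i : ℕ} {X : ℝ}
    (h : ∀ q < i, ∫ z in c.rect t s, c.lev t u b q z ≤ X) (hi : 1 ≤ i) :
    ∫ z in c.rect t s, ∑ m ∈ Finset.range 4, c.lev t u b (i - 1 - m) z ≤ 4 * X := by
  rw [integral_finsetSum _ fun m _ => c.intOn (c.lev_cont hu hb t _) t s]
  refine (Finset.sum_le_sum (g := fun _ => X) fun m _ => h _ (by omega)).trans ?_
  simp

/-- The low levels are bounded pointwise. -/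
theorem bxiBase (c : Par) (hP : 1 ≤ c.Pe) : ∀ᶠ t in 𝓝[>] (0 : ℝ), ∀ u b : ℝ × ℝ → ℝ,
    c.Sol t u b → ∀ s, 0 ≤ s → s ≤ 1 → ∀ q ≤ 14, ∫ z in c.rect t s, c.lev t u b q z ≤ (t⁻¹) ^ 2 := by
  filter_upwards [bxEv_pos, c.W_le_one hP, c.rect_area,
    bxEv_T (5 * (c.K * (4 * c.pOut + 1)) ^ 2)] with t ⟨ht, ht1⟩ hW hA hT u b h s hs0 hs1 q hq
  have hp := c.bxpOut_ge
  have hK := c.one_le_K
  set M : ℝ := c.K * (4 * c.pOut + 1) with hM
  have hKM : c.K ≤ M := le_mul_of_one_le_right (by linarith) (by linarith)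
  have pt : ∀ z ∈ c.rect t s, c.lev t u b q z ≤ 5 * M ^ 2 := by
    intro z hz
    have hz1 := c.rect_subset ht.le hs1 hz
    have hm := c.rect_sub_sq ht hz1
    obtain ⟨hW1, -, -, -⟩ := hW z.2 (c.rect_small ht.le le_rfl hz1).2
    have hW0 := (c.W_pos ht z.2).le
    have sqb : ∀ x : ℝ, |x| ≤ M → x ^ 2 ≤ M ^ 2 := fun x hx =>
      sq_le_sq' (abs_le.1 hx).1 (abs_le.1 hx).2
    have q1 : |dX^[q] (dY u) z| ≤ M :=
      ((h.iter_bound hm q 1 (by omega)).1 (by omega)).trans hKM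
    have q2 : |dX^[q + 1] u z| ≤ M :=
      ((h.iter_bound hm (q + 1) 0 (by omega)).1 (by omega)).trans hKM
    have q3 : |dX^[q] u z| ≤ M := by
      rcases Nat.eq_zero_or_pos q with rfl | hq0
      · obtain ⟨s1, s2⟩ := c.rect_small ht.le le_rfl hz1
        refine (h.lipschitz ht hz1).1.trans (mul_le_mul_of_nonneg_left ?_ (by linarith))
        have : 3 * c.pOut * t ≤ 3 * c.pOut := mul_le_of_le_one_right (by linarith) ht1
        linarith
      · exact ((h.iter_bound hm q 0 (by omega)).1 (by omega)).trans hKM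
    have q4 : |dX^[q] b z| ≤ M := ((h.iter_bound hm q 0 (by omega)).2).trans hKM
    have q5 : |dX^[q - 1] (dY (dY u)) z| ≤ M :=
      ((h.iter_bound hm (q - 1) 2 (by omega)).1 (by omega)).trans hKM
    have := sqb _ q1; have := sqb _ q3; have := sqb _ q4; have := sqb _ q5
    have : c.W t z.2 * dX^[q + 1] u z ^ 2 ≤ M ^ 2 :=
      (mul_le_of_le_one_left (sq_nonneg _) hW1).trans (sqb _ q2)
    unfold Par.lev
    linarith
  refine (bxSetInt_le c (c.lev_cont h.smu h.smb t q)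
    (c.intOn (continuous_const (y := 5 * M ^ 2 * 1)) t s) (by simpa using pt)).trans ?_
  rw [integral_const_mul, pow_two t⁻¹]
  exact mul_le_mul hT (hA s hs0 hs1).1 (integral_nonneg fun _ => zero_le_one) (inv_nonneg.2 ht.le)

/-- Supremum bounds on `b` follow from those on `u`. -/
theorem bxiSupB (K : ℝ) (hK : 1 ≤ K) (i M0 : ℕ) (k : ℕ) : ∃ M : ℕ, M0 ≤ M ∧ ∀ c : Par, c.K = K →
    10 ≤ c.Pe → 12 ≤ c.j → 4 ≤ c.Qe → ∀ᶠ t in 𝓝[>] (0 : ℝ), ∀ u b : ℝ × ℝ → ℝ, c.Sol t u b →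
    ∀ z ∈ c.rect t 1,
      (∀ p, 1 ≤ p → p + 4 ≤ i → |dX^[p] u z| ≤ (t⁻¹) ^ M0) →
      (∀ p, p + 5 ≤ i → |dX^[p] (dY u) z| ≤ (t⁻¹) ^ M0) →
      ∀ q < k, q + 5 ≤ i → q ≤ c.j + 1 → |dX^[q] b z| ≤ (t⁻¹) ^ M := by
  induction k with
  | zero =>
    exact ⟨M0, le_rfl, fun c _ _ _ _ =>
      Eventually.of_forall fun t u b _ z _ _ _ q hq => absurd hq (Nat.not_lt_zero q)⟩
  | succ k ih =>
    obtain ⟨M, hM0, hM⟩ := ih
    rcases le_or_gt k 14 with hk | hk
    · refine ⟨M + 1, by omega, fun c hcK hP hj hQ => ?_⟩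
      filter_upwards [bxEv_pos, hM c hcK hP hj hQ, bxEv_T c.K]
        with t ⟨ht, ht1⟩ hM' hT u b h z hz hu hy q hq hqi hqj
      have hT1 : (1 : ℝ) ≤ t⁻¹ := (one_le_inv₀ ht).2 ht1
      rcases Nat.lt_or_ge q k with hqk | hqk
      · exact (hM' u b h z hz hu hy q hqk hqi hqj).trans (pow_le_pow_right₀ hT1 (by omega))
      · exact ((h.iter_bound (c.rect_sub_sq ht hz) q 0 (by omega)).2).trans
          (hT.trans (le_self_pow₀ hT1 (by omega)))
    · obtain ⟨Nc, hNc⟩ := bxSrc_b K hK k (by omega) M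
      refine ⟨Nc + M + 3, by omega, fun c hcK hP hj hQ => ?_⟩
      rcases le_or_gt k (c.j + 1) with hkj | hkj
      swap
      · filter_upwards [bxEv_pos, hM c hcK hP hj hQ]
          with t ⟨ht, ht1⟩ hM' u b h z hz hu hy q hq hqi hqj
        exact (hM' u b h z hz hu hy q (by omega) hqi hqj).trans
          (pow_le_pow_right₀ ((one_le_inv₀ ht).2 ht1) (by omega))
      filter_upwards [bxEv_pos, hM c hcK hP hj hQ, hNc c hcK hP hj (by omega) hQ, bxEv_T 13]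
        with t ⟨ht, ht1⟩ hM' hN hT u b h z hz hu hy q hq hqi hqj
      have hT1 : (1 : ℝ) ≤ t⁻¹ := (one_le_inv₀ ht).2 ht1
      have up : ∀ a, a ≤ M → (t⁻¹) ^ a ≤ (t⁻¹) ^ M := fun a ha => pow_le_pow_right₀ hT1 ha
      rcases Nat.lt_or_ge q k with hqk | hqk
      · exact (hM' u b h z hz hu hy q hqk hqi hqj).trans (pow_le_pow_right₀ hT1 (by omega))
      obtain rfl : q = k := by omega
      have hb := hN u b h z hz
        ⟨fun p h1 h2 => (hu p h1 (by omega)).trans (up _ hM0), fun p hp =>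
          ⟨(hy p (by omega)).trans (up _ hM0),
            hM' u b h z hz hu hy p (by omega) (by omega) (by omega)⟩⟩
      have hJ : topJ u b q z ≤ 13 * (t⁻¹) ^ M := by
        have a : ∑ m ∈ Finset.range 5, |dX^[q - m] u z| ≤ ∑ _m ∈ Finset.range 5, (t⁻¹) ^ M :=
          Finset.sum_le_sum fun m hm => by
            have := Finset.mem_range.1 hm
            exact (hu _ (by omega) (by omega)).trans (up _ hM0)
        have b' : ∑ m ∈ Finset.range 4,
              (|dX^[q - 1 - m] (dY u) z| + |dX^[q - 1 - m] b z|) ≤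
            ∑ _m ∈ Finset.range 4, ((t⁻¹) ^ M + (t⁻¹) ^ M) :=
          Finset.sum_le_sum fun m hm => by
            have := Finset.mem_range.1 hm
            exact add_le_add ((hy _ (by omega)).trans (up _ hM0))
              (hM' u b h z hz hu hy _ (by omega) (by omega) (by omega))
        simp only [Finset.sum_const, Finset.card_range, nsmul_eq_mul] at a b'
        unfold topJ
        push_cast at a b'
        linarith
      have h1 : c.indB t z * (c.ε t / c.δ t ^ q) ≤ 1 := mul_le_one₀ (c.indB_le_one t z)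
        (div_nonneg (c.ε_pos ht).le (pow_nonneg (c.bxδ_pos ht).le _)) (c.εδ_le_one ht ht1 hqj)
      have p1 : (t⁻¹) ^ Nc ≤ (t⁻¹) ^ (Nc + M + 2) := pow_le_pow_right₀ hT1 (by omega)
      have p2 : (t⁻¹) ^ (M + 2) ≤ (t⁻¹) ^ (Nc + M + 2) := pow_le_pow_right₀ hT1 (by omega)
      calc |dX^[q] b z| ≤ (t⁻¹) ^ Nc * (1 + c.indB t z * (c.ε t / c.δ t ^ q)) +
            t⁻¹ * topJ u b q z := hb
        _ ≤ (t⁻¹) ^ Nc * 2 + t⁻¹ * (t⁻¹ * (t⁻¹) ^ M) := by
            have : 13 * (t⁻¹) ^ M ≤ t⁻¹ * (t⁻¹) ^ M := by gcongr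
            gcongr
            · linarith
            · exact hJ.trans this
        _ ≤ (t⁻¹) ^ (Nc + M + 2) * 2 + (t⁻¹) ^ (Nc + M + 2) := by
            rw [show t⁻¹ * (t⁻¹ * (t⁻¹) ^ M) = (t⁻¹) ^ (M + 2) by ring]; gcongr
        _ = 3 * (t⁻¹) ^ (Nc + M + 2) := by ring
        _ ≤ t⁻¹ * (t⁻¹) ^ (Nc + M + 2) := by gcongr; linarith
        _ = _ := by ring

/-- Supremum bounds from the levels of lower order. -/
theorem bxiSup (K : ℝ) (hK : 1 ≤ K) (i N0 : ℕ) : ∃ N : ℕ, ∀ c : Par, c.K = K → 10 ≤ c.Pe →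
    12 ≤ c.j → 4 ≤ c.Qe → i ≤ c.j + 4 → ∀ s s' : ℝ, 0 ≤ s → s < s' → s' ≤ 1 →
    ∀ᶠ t in 𝓝[>] (0 : ℝ), ∀ u b : ℝ × ℝ → ℝ, c.Sol t u b →
      (∀ q < i, ∫ z in c.rect t s', c.lev t u b q z ≤ ((t⁻¹) ^ N0 * c.rBd t q) ^ 2) →
      ∀ z ∈ c.rect t s, SupAt t u b i N z := by
  obtain ⟨M, hM0, hMb⟩ := bxiSupB K hK i (N0 + 5) i
  refine ⟨M, fun c hcK hP hj hQ hij s s' hs hss hs' => ?_⟩
  filter_upwards [bxEv_pos, hMb c hcK hP hj hQ, c.rect_sup s s' hs hss hs', bxEv_T 2]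
    with t ⟨ht, ht1⟩ hMb hsup hT u b h hl z hz
  have hT1 : (1 : ℝ) ≤ t⁻¹ := (one_le_inv₀ ht).2 ht1
  set X : ℝ := (2 * (t⁻¹) ^ N0) ^ 2 with hX
  have key : ∀ q, q + 3 ≤ i → ∫ w in c.rect t s', c.lev t u b q w ≤ X := fun q hq => by
    refine (hl q (by omega)).trans (pow_le_pow_left₀ ?_ ?_ 2)
    · have := c.rBd_ge_one ht q; positivity
    · rw [mul_comm (2 : ℝ)]
      exact mul_le_mul_of_nonneg_left (c.rBd_le_two ht ht1 (by omega)) (by positivity)
  have main : ∀ f : ℝ × ℝ → ℝ, ContDiff ℝ ∞ f → ∀ a d e, a + 3 ≤ i → d + 3 ≤ i → e + 3 ≤ i →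
      (∀ w, f w ^ 2 + dX f w ^ 2 + dY f w ^ 2 + dX (dY f) w ^ 2 ≤
        c.lev t u b a w + c.lev t u b d w + c.lev t u b e w) →
      |f z| ≤ (t⁻¹) ^ (N0 + 5) := by
    intro f hf a d e ha hd he hpt
    have la : ∀ q, IntegrableOn (c.lev t u b q) (c.rect t s') := fun q =>
      c.intOn (c.lev_cont h.smu h.smb t q) t s'
    have fc : Continuous fun w => f w ^ 2 + dX f w ^ 2 + dY f w ^ 2 + dX (dY f) w ^ 2 :=
      (((hf.continuous.pow 2).add ((bxSmooth_dX hf).continuous.pow 2)).add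
        ((bxSmooth_dY hf).continuous.pow 2)).add ((bxSmooth_dX (bxSmooth_dY hf)).continuous.pow 2)
    have h1 : f z ^ 2 ≤ (t⁻¹) ^ 6 * (X + X + X) := by
      refine (hsup f hf z hz).trans (mul_le_mul_of_nonneg_left ?_ (by positivity))
      refine (bxSetInt_le c fc (((la a).add (la d)).add (la e)) fun w _ => hpt w).trans ?_
      rw [integral_add' ((la a).add (la d)) (la e), integral_add' (la a) (la d)]
      exact add_le_add (add_le_add (key a ha) (key d hd)) (key e he)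
    have h2 : (t⁻¹) ^ 6 * (X + X + X) ≤ ((t⁻¹) ^ (N0 + 5)) ^ 2 := by
      rw [hX]
      calc (t⁻¹) ^ 6 * ((2 * t⁻¹ ^ N0) ^ 2 + (2 * t⁻¹ ^ N0) ^ 2 + (2 * t⁻¹ ^ N0) ^ 2)
          = (2 * 2 * 3) * (t⁻¹ ^ 6 * (t⁻¹ ^ N0) ^ 2) := by ring
        _ ≤ (t⁻¹ * t⁻¹ * (t⁻¹ * t⁻¹)) * (t⁻¹ ^ 6 * (t⁻¹ ^ N0) ^ 2) := by gcongr; nlinarith
        _ = _ := by ring
    exact abs_le_of_sq_le_sq (h1.trans h2) (by positivity)
  have eX : ∀ (f : ℝ × ℝ → ℝ) (q : ℕ), dX (dX^[q] f) = dX^[q + 1] f := fun f q =>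
    (Function.iterate_succ_apply' dX q f).symm
  have su : ∀ q, 1 ≤ q → q + 4 ≤ i → |dX^[q] u z| ≤ (t⁻¹) ^ (N0 + 5) := fun q _ hq => by
    refine main _ (bxSmooth_iter h.smu q) q (q + 1) (q + 1) (by omega) (by omega) (by omega)
      fun w => ?_
    rw [eX, bxMixed_iter h.smu q, eX]
    have := mul_nonneg (c.W_pos ht w.2).le (sq_nonneg (dX^[q + 1] u w))
    have := mul_nonneg (c.W_pos ht w.2).le (sq_nonneg (dX^[q + 1 + 1] u w))
    unfold Par.lev
    linarith [sq_nonneg (dX^[q] b w), sq_nonneg (dX^[q + 1] b w),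
      sq_nonneg (dX^[q - 1] (dY (dY u)) w), sq_nonneg (dX^[q + 1 - 1] (dY (dY u)) w),
      sq_nonneg (dX^[q + 1] u w), sq_nonneg (dX^[q + 1] (dY u) w)]
  have sy : ∀ q, q + 5 ≤ i → |dX^[q] (dY u) z| ≤ (t⁻¹) ^ (N0 + 5) := fun q hq => by
    refine main _ (bxSmooth_iter (bxSmooth_dY h.smu) q) q (q + 1) (q + 2) (by omega) (by omega)
      (by omega) fun w => ?_
    rw [eX, bxMixed_iter (bxSmooth_dY h.smu) q, eX]
    have := mul_nonneg (c.W_pos ht w.2).le (sq_nonneg (dX^[q + 1] u w))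
    have := mul_nonneg (c.W_pos ht w.2).le (sq_nonneg (dX^[q + 1 + 1] u w))
    have := mul_nonneg (c.W_pos ht w.2).le (sq_nonneg (dX^[q + 2 + 1] u w))
    unfold Par.lev
    simp only [show q + 1 - 1 = q by omega, show q + 2 - 1 = q + 1 by omega]
    linarith [sq_nonneg (dX^[q] b w), sq_nonneg (dX^[q + 1] b w), sq_nonneg (dX^[q + 2] b w),
      sq_nonneg (dX^[q] u w), sq_nonneg (dX^[q + 1] u w), sq_nonneg (dX^[q + 2] u w),
      sq_nonneg (dX^[q + 2] (dY u) w), sq_nonneg (dX^[q - 1] (dY (dY u)) w)]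
  have up : (t⁻¹) ^ (N0 + 5) ≤ (t⁻¹) ^ M := pow_le_pow_right₀ hT1 hM0
  exact ⟨fun q h1 h2 => (su q h1 h2).trans up, fun q hq => ⟨(sy q hq).trans up,
    hMb u b h z (c.rect_subset ht.le (by linarith) hz) su sy q (by omega) hq (by omega)⟩⟩

end Vale.Agent.P229
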