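import Mathlib.Analysis.Calculus.Deriv.Inv
import Mathlib.Analysis.InnerProductSpace.Calculus
import Vale.Agent.P229.GeoBD

/-!
# P229, geometry: the pointwise equations of the chart
-/

open scoped ContDiff Topology RealInnerProductSpace
open Set Filter

namespace Vale.Agent.P229

/-- `A = ⟪F_x, e⟫`. -/
noncomputable def geoA (F : ℝ × ℝ → E3) (e : E3) : ℝ × ℝ → ℝ := fun z => ⟪dX F z, e⟫

/-- `b = ⟪F_y, e⟫ / (1+β)`. -/
noncomputable def geoB (β : ℝ × ℝ → ℝ) (F : ℝ × ℝ → E3) (e : E3) : ℝ × ℝ → ℝ :=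
  fun z => ⟪dY F z, e⟫ / (1 + β z)

/-- `P = (A² + b²)/2 - 1/4`. -/
noncomputable def geoP (β : ℝ × ℝ → ℝ) (F : ℝ × ℝ → E3) (e : E3) : ℝ × ℝ → ℝ :=
  fun z => (geoA F e z ^ 2 + geoB β F e z ^ 2) / 2 - 1 / 4

section rules

variable {β f g : ℝ × ℝ → ℝ} {G H : ℝ × ℝ → E3} {z v : ℝ × ℝ}

theorem geo_fderiv_inner (hG : DifferentiableAt ℝ G z) (hH : DifferentiableAt ℝ H z) :
    fderiv ℝ (fun y => ⟪G y, H y⟫) z v = ⟪G z, fderiv ℝ H z v⟫ + ⟪fderiv ℝ G z v, H z⟫ :=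
  fderiv_inner_apply ℝ hG hH v

theorem geo_fderiv_div (hf : DifferentiableAt ℝ f z) (hg : DifferentiableAt ℝ g z) (h0 : g z ≠ 0) :
    fderiv ℝ (fun y => f y / g y) z v =
      fderiv ℝ f z v / g z - f z * fderiv ℝ g z v / g z ^ 2 := by
  have h1 := hf.hasFDerivAt.mul ((hasDerivAt_inv h0).comp_hasFDerivAt z hg.hasFDerivAt)
  simp only [Function.comp_def, Pi.mul_def] at h1
  simp only [div_eq_mul_inv]
  rw [h1.fderiv]
  simp
  ring

theorem geo_fderiv_one_add : fderiv ℝ (fun y => 1 + β y) z v = fderiv ℝ β z v := by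
  rw [fderiv_const_add]

theorem geo_fderiv_sq_sum (hf : DifferentiableAt ℝ f z) (hg : DifferentiableAt ℝ g z) :
    fderiv ℝ (fun y => (f y ^ 2 + g y ^ 2) / 2 - 1 / 4) z v =
      f z * fderiv ℝ f z v + g z * fderiv ℝ g z v := by
  have h := ((((hf.hasFDerivAt.fun_mul hf.hasFDerivAt).fun_add
    (hg.hasFDerivAt.fun_mul hg.hasFDerivAt)).fun_mul
      (hasFDerivAt_const (2 : ℝ)⁻¹ z))).sub_const (1 / 4 : ℝ)
  simp only [pow_two, div_eq_mul_inv] at h ⊢
  rw [h.fderiv]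
  simp
  ring

end rules

/-- A unit normal completing the frame `F_x, F_y/(1+β)`. -/
theorem geo_frame {β : ℝ × ℝ → ℝ} {F : ℝ × ℝ → E3} {z : ℝ × ℝ}
    (i1 : ⟪dX F z, dX F z⟫ = 1) (i2 : ⟪dX F z, dY F z⟫ = 0)
    (i3 : ⟪dY F z, dY F z⟫ = (1 + β z) ^ 2) (hC : 1 + β z ≠ 0) :
    ∃ ν : E3, ‖ν‖ = 1 ∧ ⟪dX F z, ν⟫ = 0 ∧ ⟪dY F z, ν⟫ = 0 ∧
      ∀ x y : E3, ⟪x, y⟫ = ⟪x, dX F z⟫ * ⟪y, dX F z⟫ +
        ⟪x, dY F z⟫ * ⟪y, dY F z⟫ / (1 + β z) ^ 2 + ⟪x, ν⟫ * ⟪y, ν⟫ := by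
  have hon : Orthonormal ℝ (({0, 1} : Set (Fin 3)).domRestrict
      ![dX F z, (1 + β z)⁻¹ • dY F z, 0]) := by
    rw [orthonormal_iff_ite]
    have i2' : ⟪dY F z, dX F z⟫ = 0 := by rw [real_inner_comm]; exact i2
    rintro ⟨a, rfl | rfl⟩ ⟨b, rfl | rfl⟩
    · rw [if_pos rfl]; exact i1
    · rw [if_neg (fun e => absurd (congrArg Subtype.val e) (by simp))]
      simp [Set.domRestrict, real_inner_smul_right, i2]
    · rw [if_neg (fun e => absurd (congrArg Subtype.val e) (by simp))]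
      simp [Set.domRestrict, real_inner_smul_left, i2']
    · rw [if_pos rfl]
      show ⟪(1 + β z)⁻¹ • dY F z, (1 + β z)⁻¹ • dY F z⟫ = 1
      rw [real_inner_smul_left, real_inner_smul_right, i3]
      field_simp
  obtain ⟨B, hB⟩ := hon.exists_orthonormalBasis_extension_of_card_eq (by simp)
  have hB0 : B 0 = dX F z := by simpa using hB 0 (by simp)
  have hB1 : B 1 = (1 + β z)⁻¹ • dY F z := by simpa using hB 1 (by simp)
  set ν := B 2 with hν
  refine ⟨ν, B.orthonormal.1 2, ?_, ?_, ?_⟩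
  · rw [← hB0]; exact B.orthonormal.2 (by decide)
  · have h12 : ⟪B 1, B 2⟫ = 0 := B.orthonormal.2 (by decide)
    rw [hB1, real_inner_smul_left] at h12
    exact (mul_eq_zero.1 h12).resolve_left (inv_ne_zero hC)
  have expand : ∀ x y : E3, ⟪x, y⟫ = ⟪x, dX F z⟫ * ⟪y, dX F z⟫ +
      ⟪x, dY F z⟫ * ⟪y, dY F z⟫ / (1 + β z) ^ 2 + ⟪x, ν⟫ * ⟪y, ν⟫ := by
    intro x y
    rw [← B.sum_inner_mul_inner x y, Fin.sum_univ_three, hB0, hB1, real_inner_smul_right,
      real_inner_smul_left, real_inner_comm y (dX F z), real_inner_comm y (dY F z),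
      ← hν, real_inner_comm y ν]
    field_simp
  exact expand

/-- `F_xx` is normal to the surface. -/
theorem geo_fxx_orth {β : ℝ × ℝ → ℝ} {U : Set (ℝ × ℝ)} {F : ℝ × ℝ → E3} (hU : IsOpen U)
    (hF : IsBoxImm β U F) {w : ℝ × ℝ} (hw : w ∈ U) :
    ⟪dX (dX F) w, dX F w⟫ = 0 ∧ ⟪dX (dX F) w, dY F w⟫ = 0 := by
  obtain ⟨hsm, hiso⟩ := hF
  have hat := hsm.contDiffAt (hU.mem_nhds hw)
  have hX : DifferentiableAt ℝ (dX F) w :=
    (((hat.fderiv_right (m := ∞) le_rfl).clm_apply contDiffAt_const)).differentiableAt (by simp)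
  have hY : DifferentiableAt ℝ (dY F) w :=
    (((hat.fderiv_right (m := ∞) le_rfl).clm_apply contDiffAt_const)).differentiableAt (by simp)
  have e1 : (fun y => ⟪dX F y, dX F y⟫) =ᶠ[𝓝 w] fun _ => (1 : ℝ) :=
    Filter.eventuallyEq_of_mem (hU.mem_nhds hw) fun y hy => (hiso y hy).1
  have e2 : (fun y => ⟪dX F y, dY F y⟫) =ᶠ[𝓝 w] fun _ => (0 : ℝ) :=
    Filter.eventuallyEq_of_mem (hU.mem_nhds hw) fun y hy => (hiso y hy).2.1
  have h1 : ∀ v, ⟪dX F w, fderiv ℝ (dX F) w v⟫ = 0 := fun v => by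
    have h := congrArg (fun L : ℝ × ℝ →L[ℝ] ℝ => L v) e1.fderiv_eq
    simp only [geo_fderiv_inner hX hX, fderiv_const_apply, ContinuousLinearMap.zero_apply,
      real_inner_comm (dX F w) (fderiv ℝ (dX F) w v)] at h
    linarith
  have h2 := congrArg (fun L : ℝ × ℝ →L[ℝ] ℝ => L (1, 0)) e2.fderiv_eq
  simp only [geo_fderiv_inner hX hY, fderiv_const_apply, ContinuousLinearMap.zero_apply] at h2
  refine ⟨by rw [real_inner_comm]; exact h1 (1, 0), ?_⟩
  have h3 := h1 (0, 1)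
  rw [show fderiv ℝ (dX F) w (0, 1) = dY (dX F) w from rfl, dY_dX_eq_dX_dY hat] at h3
  rw [show fderiv ℝ (dY F) w (1, 0) = dX (dY F) w from rfl, h3, zero_add] at h2
  exact h2

/-- The equations satisfied by `A`, `b`, `P` at a point. -/
theorem geo_chart {β : ℝ × ℝ → ℝ} {U : Set (ℝ × ℝ)} {F : ℝ × ℝ → E3} (hβ : ContDiff ℝ ∞ β)
    (hU : IsOpen U) (hF : IsBoxImm β U F) (e : E3) (he : ⟪e, e⟫ = 1) {z : ℝ × ℝ} (hz : z ∈ U)
    (hC : 1 + β z ≠ 0) :
    dY (geoA F e) z = dX β z * geoB β F e z + (1 + β z) * dX (geoB β F e) z ∧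
      dX (geoA F e) z * dY (geoB β F e) z - dY (geoA F e) z * dX (geoB β F e) z =
        (1 - geoA F e z ^ 2 - geoB β F e z ^ 2) * kbar β z -
          dX β z * dX (geoP β F e) z ∧
      dX (geoP β F e) z =
        geoA F e z * dX (geoA F e) z + geoB β F e z * dX (geoB β F e) z ∧
      dY (geoP β F e) z =
        geoA F e z * dY (geoA F e) z + geoB β F e z * dY (geoB β F e) z := by
  obtain ⟨hsm, hiso⟩ := hF
  have hat : ∀ w ∈ U, ContDiffAt ℝ ∞ F w := fun w hw => hsm.contDiffAt (hU.mem_nhds hw)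
  have hX : ∀ w ∈ U, ContDiffAt ℝ ∞ (dX F) w := fun w hw =>
    ((hat w hw).fderiv_right le_rfl).clm_apply contDiffAt_const
  have hY : ∀ w ∈ U, ContDiffAt ℝ ∞ (dY F) w := fun w hw =>
    ((hat w hw).fderiv_right le_rfl).clm_apply contDiffAt_const
  have hXX : ∀ w ∈ U, ContDiffAt ℝ ∞ (dX (dX F)) w := fun w hw =>
    ((hX w hw).fderiv_right le_rfl).clm_apply contDiffAt_const
  have hXY : ∀ w ∈ U, ContDiffAt ℝ ∞ (dX (dY F)) w := fun w hw =>
    ((hY w hw).fderiv_right le_rfl).clm_apply contDiffAt_const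
  have d : ∀ {E' : Type} [NormedAddCommGroup E'] [NormedSpace ℝ E'] {f : ℝ × ℝ → E'} {w},
      ContDiffAt ℝ ∞ f w → DifferentiableAt ℝ f w := fun h => h.differentiableAt (by simp)
  have hβd : ∀ w, DifferentiableAt ℝ β w := fun w => d hβ.contDiffAt
  have hβX : ContDiff ℝ ∞ (dX β) := (hβ.fderiv_right le_rfl).clm_apply contDiff_const
  have nh : ∀ᶠ w in 𝓝 z, w ∈ U := hU.mem_nhds hz
  have xy : ∀ w ∈ U, dY (dX F) w = dX (dY F) w := fun w hw => dY_dX_eq_dX_dY (hat w hw)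
  -- the second derivatives against the frame
  have f1 : ∀ w ∈ U, ∀ v, ⟪dX F w, fderiv ℝ (dX F) w v⟫ = 0 := by
    intro w hw v
    have e1 : (fun y => ⟪dX F y, dX F y⟫) =ᶠ[𝓝 w] fun _ => (1 : ℝ) :=
      Filter.eventuallyEq_of_mem (hU.mem_nhds hw) fun y hy => (hiso y hy).1
    have h := congrArg (fun L : ℝ × ℝ →L[ℝ] ℝ => L v) e1.fderiv_eq
    simp only [geo_fderiv_inner (d (hX w hw)) (d (hX w hw)), fderiv_const_apply,
      ContinuousLinearMap.zero_apply, real_inner_comm (dX F w) (fderiv ℝ (dX F) w v)] at h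
    linarith
  have f2 : ∀ w ∈ U, ∀ v, ⟪dX F w, fderiv ℝ (dY F) w v⟫ + ⟪fderiv ℝ (dX F) w v, dY F w⟫ = 0 := by
    intro w hw v
    have e1 : (fun y => ⟪dX F y, dY F y⟫) =ᶠ[𝓝 w] fun _ => (0 : ℝ) :=
      Filter.eventuallyEq_of_mem (hU.mem_nhds hw) fun y hy => (hiso y hy).2.1
    have h := congrArg (fun L : ℝ × ℝ →L[ℝ] ℝ => L v) e1.fderiv_eq
    simpa only [geo_fderiv_inner (d (hX w hw)) (d (hY w hw)), fderiv_const_apply,
      ContinuousLinearMap.zero_apply] using h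
  have f3 : ∀ w ∈ U, ∀ v, ⟪dY F w, fderiv ℝ (dY F) w v⟫ = (1 + β w) * fderiv ℝ β w v := by
    intro w hw v
    have e1 : (fun y => ⟪dY F y, dY F y⟫) =ᶠ[𝓝 w] fun y => (1 + β y) * (1 + β y) :=
      Filter.eventuallyEq_of_mem (hU.mem_nhds hw) fun y hy => by
        rw [(hiso y hy).2.2]; ring
    have h := congrArg (fun L : ℝ × ℝ →L[ℝ] ℝ => L v) e1.fderiv_eq
    simp only [geo_fderiv_inner (d (hY w hw)) (d (hY w hw)),
      real_inner_comm (dY F w) (fderiv ℝ (dY F) w v)] at h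
    rw [fderiv_fun_mul ((hβd w).const_add 1) ((hβd w).const_add 1)] at h
    simp only [ContinuousLinearMap.add_apply, ContinuousLinearMap.smul_apply, smul_eq_mul,
      geo_fderiv_one_add] at h
    linarith
  have gxx_y : ∀ w ∈ U, ⟪dX (dX F) w, dY F w⟫ = 0 := by
    intro w hw
    have h := f2 w hw (1, 0)
    have h' := f1 w hw (0, 1)
    rw [show fderiv ℝ (dX F) w (0, 1) = dY (dX F) w from rfl, xy w hw] at h'
    rw [show fderiv ℝ (dY F) w (1, 0) = dX (dY F) w from rfl, h', zero_add] at h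
    exact h
  have gxy_y : ∀ w ∈ U, ⟪dX (dY F) w, dY F w⟫ = (1 + β w) * dX β w := fun w hw => by
    rw [real_inner_comm]; exact f3 w hw (1, 0)
  -- Gauss equation
  have hgauss : ⟪dX (dX F) z, dY (dY F) z⟫ - ⟪dX (dY F) z, dX (dY F) z⟫ =
      -(dX β z) ^ 2 - (1 + β z) * dX (dX β) z := by
    have e1 : (fun y => ⟪dX (dX F) y, dY F y⟫) =ᶠ[𝓝 z] fun _ => (0 : ℝ) :=
      nh.mono gxx_y
    have h1 := congrArg (fun L : ℝ × ℝ →L[ℝ] ℝ => L (0, 1)) e1.fderiv_eq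
    simp only [geo_fderiv_inner (d (hXX z hz)) (d (hY z hz)), fderiv_const_apply,
      ContinuousLinearMap.zero_apply] at h1
    have e2 : (fun y => ⟪dX (dY F) y, dY F y⟫) =ᶠ[𝓝 z] fun y => (1 + β y) * dX β y :=
      nh.mono gxy_y
    have h2 := congrArg (fun L : ℝ × ℝ →L[ℝ] ℝ => L (1, 0)) e2.fderiv_eq
    simp only [geo_fderiv_inner (d (hXY z hz)) (d (hY z hz))] at h2
    rw [fderiv_fun_mul ((hβd z).const_add 1) (d hβX.contDiffAt)] at h2
    simp only [ContinuousLinearMap.add_apply, ContinuousLinearMap.smul_apply, smul_eq_mul,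
      geo_fderiv_one_add] at h2
    have e3 : dX (dY F) =ᶠ[𝓝 z] dY (dX F) := nh.mono fun y hy => (xy y hy).symm
    have h3 : fderiv ℝ (dX (dY F)) z (1, 0) = fderiv ℝ (dX (dX F)) z (0, 1) := by
      rw [e3.fderiv_eq]; exact (dY_dX_eq_dX_dY (hX z hz)).symm
    rw [h3] at h2
    change _ + _ = _ at h1
    simp only [dX, dY] at h1 h2 ⊢
    linarith [h1, h2]
  -- an orthonormal frame at `z`
  obtain ⟨i1, i2, i3⟩ := hiso z hz
  obtain ⟨ν, -, -, -, expand⟩ := geo_frame i1 i2 i3 hC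
  -- the first derivatives
  have hA : ∀ v, fderiv ℝ (geoA F e) z v = ⟪fderiv ℝ (dX F) z v, e⟫ := fun v => by
    show fderiv ℝ (fun y => ⟪dX F y, e⟫) z v = _
    rw [geo_fderiv_inner (d (hX z hz)) (differentiableAt_const e)]; simp
  have hB' : ∀ v, fderiv ℝ (geoB β F e) z v = ⟪fderiv ℝ (dY F) z v, e⟫ / (1 + β z) -
      ⟪dY F z, e⟫ * fderiv ℝ β z v / (1 + β z) ^ 2 := fun v => by
    show fderiv ℝ (fun y => ⟪dY F y, e⟫ / (1 + β y)) z v = _
    rw [geo_fderiv_div ((d (hY z hz)).inner ℝ (differentiableAt_const e))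
      ((hβd z).const_add 1) hC, geo_fderiv_one_add,
      geo_fderiv_inner (d (hY z hz)) (differentiableAt_const e)]
    simp
  have dA : DifferentiableAt ℝ (geoA F e) z := (d (hX z hz)).inner ℝ (differentiableAt_const e)
  have dB : DifferentiableAt ℝ (geoB β F e) z :=
    ((d (hY z hz)).inner ℝ (differentiableAt_const e)).mul
      (((hβd z).const_add 1).inv hC)
  have hPv : ∀ v, fderiv ℝ (geoP β F e) z v = geoA F e z * fderiv ℝ (geoA F e) z v +
      geoB β F e z * fderiv ℝ (geoB β F e) z v := fun v => geo_fderiv_sq_sum dA dB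
  have hPx := hPv (1, 0)
  have hPy := hPv (0, 1)
  have c1 : ⟪dX (dX F) z, dX F z⟫ = 0 := by rw [real_inner_comm]; exact f1 z hz (1, 0)
  have c2 := gxx_y z hz
  have c3 : ⟪dX (dY F) z, dX F z⟫ = 0 := by
    rw [real_inner_comm, ← xy z hz]; exact f1 z hz (0, 1)
  have c4 := gxy_y z hz
  have c5 : ⟪dY (dY F) z, dX F z⟫ = -((1 + β z) * dX β z) := by
    have h := f2 z hz (0, 1)
    rw [show fderiv ℝ (dX F) z (0, 1) = dY (dX F) z from rfl, xy z hz,
      show fderiv ℝ (dY F) z (0, 1) = dY (dY F) z from rfl, c4] at h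
    rw [real_inner_comm]; linarith
  have c6 : ⟪dY (dY F) z, dY F z⟫ = (1 + β z) * dY β z := by
    rw [real_inner_comm]; exact f3 z hz (0, 1)
  have ax : dX (geoA F e) z = ⟪dX (dX F) z, e⟫ := hA (1, 0)
  have ay : dY (geoA F e) z = ⟪dX (dY F) z, e⟫ := by rw [← xy z hz]; exact hA (0, 1)
  have bx : dX (geoB β F e) z = ⟪dX (dY F) z, e⟫ / (1 + β z) -
      ⟪dY F z, e⟫ * dX β z / (1 + β z) ^ 2 := hB' (1, 0)
  have byy : dY (geoB β F e) z = ⟪dY (dY F) z, e⟫ / (1 + β z) -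
      ⟪dY F z, e⟫ * dY β z / (1 + β z) ^ 2 := hB' (0, 1)
  refine ⟨?_, ?_, hPx, hPy⟩
  · rw [ay, bx]
    unfold geoB
    field_simp
    ring
  · have g := hgauss
    rw [expand (dX (dX F) z) (dY (dY F) z), expand (dX (dY F) z) (dX (dY F) z),
      c1, c2, c3, c4] at g
    have exx := expand (dX (dX F) z) e
    have exy := expand (dX (dY F) z) e
    have eyy := expand (dY (dY F) z) e
    rw [c1, c2] at exx
    rw [c3, c4] at exy
    rw [c5, c6] at eyy
    have hc := expand e e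
    rw [he, real_inner_comm (dX F z) e, real_inner_comm (dY F z) e] at hc
    rw [real_inner_comm (dX F z) e, real_inner_comm (dY F z) e] at exx exy eyy
    rw [show kbar β z = -dX (dX β) z from rfl]
    show _ = _ - dX β z * fderiv ℝ (geoP β F e) z (1, 0)
    rw [hPx]
    change _ = _ - dX β z * (geoA F e z * dX (geoA F e) z +
      geoB β F e z * dX (geoB β F e) z)
    rw [ax, ay, bx, byy, exx, exy, eyy]
    unfold geoA geoB
    revert g hc
    generalize ⟪dX (dX F) z, ν⟫ = h11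
    generalize ⟪dX (dY F) z, ν⟫ = h12
    generalize ⟪dY (dY F) z, ν⟫ = h22
    generalize ⟪e, ν⟫ = c
    generalize ⟪dX F z, e⟫ = a
    generalize ⟪dY F z, e⟫ = q
    intro g hc
    have g' : h11 * h22 - h12 * h12 = -(1 + β z) * dX (dX β) z := by
      field_simp at g
      apply mul_left_cancel₀ (pow_ne_zero 2 hC)
      linear_combination g
    linear_combination (norm := (field_simp; ring)) (c ^ 2 / (1 + β z)) * g' +
      dX (dX β) z * hc

end Vale.Agent.P229
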