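import Mathlib.Analysis.Calculus.MeanValue
import Vale.Agent.P229.GeoBD

/-!
# P229, stages: an edge whose sampled curvature vectors are short is nearly straight
-/

open scoped ContDiff Topology
open Set Filter

namespace Vale.Agent.P229

variable {E : Type*} [NormedAddCommGroup E] [NormedSpace ℝ E]

lemma hasDerivAt_lineX {f : ℝ × ℝ → E} {s y : ℝ} (hf : DifferentiableAt ℝ f (s, y)) :
    HasDerivAt (fun t => f (t, y)) (dX f (s, y)) s :=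
  hf.hasFDerivAt.comp_hasDerivAt s ((hasDerivAt_id s).prodMk (hasDerivAt_const s y))

lemma hasDerivAt_lineY {f : ℝ × ℝ → E} {x s : ℝ} (hf : DifferentiableAt ℝ f (x, s)) :
    HasDerivAt (fun t => f (x, t)) (dY f (x, s)) s :=
  hf.hasFDerivAt.comp_hasDerivAt s ((hasDerivAt_const s x).prodMk (hasDerivAt_id s))

/-- Short curvature vectors at `N - 1` equally spaced interior points make the edge straight. -/
theorem edge_straight {G : ℝ × ℝ → E} {ℓ M η : ℝ} {N : ℕ} (hℓ : 0 < ℓ) (hN : 2 ≤ N)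
    (hG : ∀ s ∈ Icc (0 : ℝ) ℓ, GeoBD 20 M G (s, 0))
    (hs : ∀ k : ℕ, 1 ≤ k → k < N → ‖dX (dX G) ((k : ℝ) * (ℓ / N), 0)‖ ≤ η) :
    ‖G (ℓ, 0) - G (0, 0) - ℓ • dX G (0, 0)‖ ≤ (η + M * (ℓ / N)) * ℓ ^ 2 := by
  set d := ℓ / (N : ℝ) with hd
  have hNr : (2 : ℝ) ≤ N := by exact_mod_cast hN
  have hd0 : 0 < d := div_pos hℓ (by linarith)
  have hNd : (N : ℝ) * d = ℓ := by rw [hd]; field_simp
  have hM0 : 0 ≤ M := (hG 0 ⟨le_rfl, hℓ.le⟩).nonneg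
  have h1 : ∀ s ∈ Icc (0 : ℝ) ℓ, GeoBD 19 M (dX G) (s, 0) := fun s hs => (hG s hs).dX
  have h2 : ∀ s ∈ Icc (0 : ℝ) ℓ, GeoBD 18 M (dX (dX G)) (s, 0) := fun s hs => (h1 s hs).dX
  have h3 : ∀ s ∈ Icc (0 : ℝ) ℓ, ‖dX (dX (dX G)) (s, 0)‖ ≤ M := fun s hs => (h2 s hs).dX.norm_le
  have hd0' : ∀ s ∈ Icc (0 : ℝ) ℓ, HasDerivAt (fun t => G (t, 0)) (dX G (s, 0)) s :=
    fun s hs => hasDerivAt_lineX ((hG s hs).1.differentiableAt (by simp))
  have hd1 : ∀ s ∈ Icc (0 : ℝ) ℓ, HasDerivAt (fun t => dX G (t, 0)) (dX (dX G) (s, 0)) s :=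
    fun s hs => hasDerivAt_lineX ((h1 s hs).1.differentiableAt (by simp))
  have hd2 : ∀ s ∈ Icc (0 : ℝ) ℓ,
      HasDerivAt (fun t => dX (dX G) (t, 0)) (dX (dX (dX G)) (s, 0)) s :=
    fun s hs => hasDerivAt_lineX ((h2 s hs).1.differentiableAt (by simp))
  -- the curvature vector is small everywhere
  have hsmall : ∀ s ∈ Icc (0 : ℝ) ℓ, ‖dX (dX G) (s, 0)‖ ≤ η + M * d := by
    intro s hsI
    obtain ⟨hs0, hsℓ⟩ := hsI
    obtain ⟨k, hk1, hkN, hks⟩ : ∃ k : ℕ, 1 ≤ k ∧ k < N ∧ |s - k * d| ≤ d := by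
      have hf1 : (⌊s / d⌋₊ : ℝ) * d ≤ s := by
        rw [← le_div_iff₀ hd0]; exact Nat.floor_le (div_nonneg hs0 hd0.le)
      have hf2 : s < ((⌊s / d⌋₊ : ℝ) + 1) * d := by
        rw [← div_lt_iff₀ hd0]; exact Nat.lt_floor_add_one _
      rcases Nat.eq_zero_or_pos ⌊s / d⌋₊ with h | h
      · refine ⟨1, le_rfl, by omega, ?_⟩
        rw [h] at hf2
        push_cast at hf2 ⊢
        rw [abs_le]; constructor <;> linarith
      rcases Nat.lt_or_ge ⌊s / d⌋₊ N with h' | h'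
      · exact ⟨⌊s / d⌋₊, h, h', by rw [abs_le]; constructor <;> linarith⟩
      · refine ⟨N - 1, by omega, by omega, ?_⟩
        have h'' : (N : ℝ) * d ≤ (⌊s / d⌋₊ : ℝ) * d :=
          mul_le_mul_of_nonneg_right (by exact_mod_cast h') hd0.le
        rw [Nat.cast_sub (by omega), Nat.cast_one, abs_le]
        constructor <;> linarith
    have hkI : (k : ℝ) * d ∈ Icc (0 : ℝ) ℓ := by
      refine ⟨by positivity, ?_⟩
      rw [← hNd]
      exact mul_le_mul_of_nonneg_right (by exact_mod_cast hkN.le) hd0.le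
    have hlip : ‖dX (dX G) (s, 0) - dX (dX G) ((k : ℝ) * d, 0)‖ ≤ M * ‖s - k * d‖ :=
      (convex_Icc (0 : ℝ) ℓ).norm_image_sub_le_of_norm_hasDerivWithin_le
        (fun x hx => (hd2 x hx).hasDerivWithinAt) h3 hkI ⟨hs0, hsℓ⟩
    rw [Real.norm_eq_abs] at hlip
    have := norm_le_norm_add_norm_sub' (dX (dX G) (s, 0)) (dX (dX G) ((k : ℝ) * d, 0))
    have h4 := hs k hk1 hkN
    have h5 := mul_le_mul_of_nonneg_left hks hM0
    linarith
  have hE0 : 0 ≤ η + M * d := (norm_nonneg _).trans (hsmall 0 ⟨le_rfl, hℓ.le⟩)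
  have hvel : ∀ s ∈ Icc (0 : ℝ) ℓ, ‖dX G (s, 0) - dX G (0, 0)‖ ≤ (η + M * d) * ℓ := by
    intro s hsI
    refine ((convex_Icc (0 : ℝ) ℓ).norm_image_sub_le_of_norm_hasDerivWithin_le
      (fun x hx => (hd1 x hx).hasDerivWithinAt) hsmall ⟨le_rfl, hℓ.le⟩ hsI).trans ?_
    rw [Real.norm_eq_abs, sub_zero, abs_of_nonneg hsI.1]
    exact mul_le_mul_of_nonneg_left hsI.2 hE0
  have hdiff : ∀ s ∈ Icc (0 : ℝ) ℓ, HasDerivWithinAt (fun t => G (t, 0) - t • dX G (0, 0))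
      (dX G (s, 0) - dX G (0, 0)) (Icc (0 : ℝ) ℓ) s := fun s hsI => by
    have := (hd0' s hsI).sub ((hasDerivAt_id s).smul_const (dX G (0, 0)))
    simp only [one_smul, id_eq] at this
    exact this.hasDerivWithinAt
  have := (convex_Icc (0 : ℝ) ℓ).norm_image_sub_le_of_norm_hasDerivWithin_le hdiff hvel
    ⟨le_rfl, hℓ.le⟩ ⟨hℓ.le, le_rfl⟩
  rw [Real.norm_eq_abs, sub_zero, abs_of_pos hℓ, zero_smul, sub_zero] at this
  calc ‖G (ℓ, 0) - G (0, 0) - ℓ • dX G (0, 0)‖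
      = ‖G (ℓ, 0) - ℓ • dX G (0, 0) - G (0, 0)‖ := by rw [sub_right_comm]
    _ ≤ (η + M * d) * ℓ * ℓ := this
    _ = (η + M * d) * ℓ ^ 2 := by ring

end Vale.Agent.P229
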