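import Mathlib.Analysis.Calculus.Deriv.MeanValue
import Mathlib.Analysis.SpecialFunctions.SmoothTransition
import Mathlib.Analysis.Calculus.BumpFunction.InnerProduct
import Vale.Agent.P229.StageEdge

/-!
# P229, stages: the three charts along the edges of a right triangle

The first leg is parametrized by arc length of `S'(x)² dx²`, where `S` stretches a middle piece
of that leg.
-/

open scoped ContDiff Topology
open Set Filter

namespace Vale.Agent.P229

/-- `1 / √2`. -/
noncomputable def rhalf : ℝ := (Real.sqrt 2)⁻¹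

lemma rhalf_sq : rhalf * rhalf = 1 / 2 := by
  rw [rhalf, ← mul_inv, Real.mul_self_sqrt (by norm_num)]; norm_num

lemma rhalf_pos : 0 < rhalf := by unfold rhalf; positivity

lemma rhalf_le_one : rhalf ≤ 1 := by nlinarith [rhalf_sq, rhalf_pos]

lemma half_le_rhalf : 1 / 2 ≤ rhalf := by nlinarith [rhalf_sq, rhalf_pos, rhalf_le_one]

/-- The step profile on the first leg. -/
noncomputable def stepFun (L x : ℝ) : ℝ := Real.smoothTransition (4 * x / L - 1)

/-- The stretched coordinate. -/
noncomputable def stretch (L ε x : ℝ) : ℝ := x + ε * L * stepFun L x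

lemma contDiff_stepFun (L : ℝ) : ContDiff ℝ ∞ (stepFun L) :=
  Real.smoothTransition.contDiff.comp ((contDiff_const.mul contDiff_id).div_const L |>.sub
    contDiff_const)

lemma contDiff_deriv_stepFun (L : ℝ) : ContDiff ℝ ∞ (deriv (stepFun L)) :=
  (contDiff_infty_iff_deriv.1 (contDiff_stepFun L)).2

lemma stepFun_of_le {L x : ℝ} (hL : 0 < L) (h : x ≤ L / 4) : stepFun L x = 0 := by
  refine Real.smoothTransition.zero_of_nonpos ?_
  rw [sub_nonpos, div_le_one hL]
  linarith

lemma stepFun_of_ge {L x : ℝ} (hL : 0 < L) (h : L / 2 ≤ x) : stepFun L x = 1 := by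
  refine Real.smoothTransition.one_of_one_le ?_
  rw [le_sub_iff_add_le, le_div_iff₀ hL]
  linarith

lemma deriv_stepFun_of_lt {L x : ℝ} (hL : 0 < L) (h : x < L / 4 ∨ L / 2 < x) :
    deriv (stepFun L) x = 0 := by
  rcases h with h | h
  · have : stepFun L =ᶠ[𝓝 x] fun _ => 0 :=
      eventually_of_mem (Iio_mem_nhds h) fun y hy => stepFun_of_le hL (le_of_lt hy)
    rw [this.deriv_eq, deriv_const]
  · have : stepFun L =ᶠ[𝓝 x] fun _ => 1 :=
      eventually_of_mem (Ioi_mem_nhds h) fun y hy => stepFun_of_ge hL (le_of_lt hy)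
    rw [this.deriv_eq, deriv_const]

lemma exists_deriv_stepFun_bound {L : ℝ} (hL : 0 < L) :
    ∃ C : ℝ, ∀ x, |deriv (stepFun L) x| ≤ C := by
  obtain ⟨C, hC⟩ := isCompact_Icc.exists_bound_of_continuousOn (s := Icc (L / 4) (L / 2))
    (contDiff_deriv_stepFun L).continuous.continuousOn
  refine ⟨max C 0, fun x => ?_⟩
  by_cases hx : x ∈ Icc (L / 4) (L / 2)
  · exact (Real.norm_eq_abs _).symm.le.trans ((hC x hx).trans (le_max_left _ _))
  · rw [deriv_stepFun_of_lt hL, abs_zero]
    · exact le_max_right _ _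
    · simp only [Set.mem_Icc, not_and, not_le] at hx
      exact (lt_or_ge x (L / 4)).imp_right hx

lemma hasDerivAt_stretch (L ε x : ℝ) :
    HasDerivAt (stretch L ε) (1 + ε * L * deriv (stepFun L) x) x :=
  ((hasDerivAt_id x).add
    ((((contDiff_stepFun L).differentiable (by simp) x).hasDerivAt).const_mul (ε * L))).congr_of_eventuallyEq
    (Eventually.of_forall fun _ => rfl)

lemma contDiff_stretch (L ε : ℝ) : ContDiff ℝ ∞ (stretch L ε) :=
  contDiff_id.add (contDiff_const.mul (contDiff_stepFun L))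

/-- The smooth inverse of the stretched coordinate, with the bounds used later. -/
lemma exists_unstretch {L ε : ℝ} (hL : 0 < L) (hε0 : 0 ≤ ε) (hε1 : ε ≤ 1 / 4)
    (hd : ∀ x, |ε * L * deriv (stepFun L) x| ≤ 1 / 2) :
    ∃ R R' : ℝ → ℝ, ContDiff ℝ ∞ R ∧ StrictMono R ∧
      (∀ X, stretch L ε (R X) = X) ∧ R 0 = 0 ∧ R (L * (1 + ε)) = L ∧
      (∀ X, HasDerivAt R (R' X) X) ∧
      (∀ X, R' X * (1 + ε * L * deriv (stepFun L) (R X)) = 1) ∧
      (∀ X, |R X - X| ≤ ε * L) ∧ (∀ X, 0 ≤ X → X / 2 ≤ R X) ∧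
      ∀ X a, 0 ≤ a → a ≤ L / 2 → X ≤ L * (1 + ε) - a → R X ≤ L - a := by
  have hpos : ∀ x, 0 < 1 + ε * L * deriv (stepFun L) x := fun x => by
    linarith [(abs_le.1 (hd x)).1]
  have hbox : ∀ x, 0 ≤ stepFun L x ∧ stepFun L x ≤ 1 := fun x =>
    ⟨Real.smoothTransition.nonneg _, Real.smoothTransition.le_one _⟩
  have hmono : StrictMono (stretch L ε) :=
    strictMono_of_deriv_pos fun x => by rw [(hasDerivAt_stretch L ε x).deriv]; exact hpos x
  have hsurj : Function.Surjective (stretch L ε) := by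
    refine (contDiff_stretch L ε).continuous.surjective ?_ ?_
    · exact tendsto_atTop_mono (fun x => le_add_of_nonneg_right
        (mul_nonneg (by positivity) (hbox x).1)) tendsto_id
    · refine tendsto_atBot_mono (fun x => ?_) (tendsto_atBot_add_const_right _ (ε * L) tendsto_id)
      simp only [stretch, id_eq]
      exact add_le_add le_rfl (mul_le_of_le_one_right (by positivity) (hbox x).2)
  set H : ℝ ≃ₜ ℝ := (hmono.orderIsoOfSurjective (stretch L ε) hsurj).toHomeomorph with hH
  have happ : ∀ x, H x = stretch L ε x := fun x => rfl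
  have hR : ∀ X, stretch L ε (H.symm X) = X := fun X => by rw [← happ]; exact H.apply_symm_apply X
  have hRm : StrictMono H.symm := fun a b hab => by
    by_contra hle
    have := hmono.monotone (not_lt.1 hle)
    rw [hR, hR] at this
    linarith
  have hderiv : ∀ x, HasDerivAt H (1 + ε * L * deriv (stepFun L) x) x := hasDerivAt_stretch L ε
  have hRd : ∀ X, HasDerivAt H.symm (1 + ε * L * deriv (stepFun L) (H.symm X))⁻¹ X := fun X =>
    (hderiv (H.symm X)).of_local_left_inverse H.symm.continuous.continuousAt (hpos _).ne'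
      (Eventually.of_forall fun y => H.apply_symm_apply y)
  have hinv : ∀ x, H.symm (stretch L ε x) = x := fun x => by rw [← happ]; exact H.symm_apply_apply x
  refine ⟨H.symm, fun X => (1 + ε * L * deriv (stepFun L) (H.symm X))⁻¹, ?_, hRm, hR, ?_, ?_, hRd,
    fun X => inv_mul_cancel₀ (hpos _).ne', fun X => ?_, fun X hX => ?_, fun X a ha0 ha hX => ?_⟩
  · exact H.contDiff_symm_deriv (fun x => (hpos x).ne') hderiv (contDiff_stretch L ε)
  · have := hinv 0
    rwa [stretch, stepFun_of_le hL (by linarith), mul_zero, add_zero] at this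
  · have := hinv L
    rwa [stretch, stepFun_of_ge hL (by linarith), mul_one,
      show L + ε * L = L * (1 + ε) by ring] at this
  · have h1 := hR X
    unfold stretch at h1
    have h2 := hbox (H.symm X)
    have h3 : 0 ≤ ε * L * stepFun L (H.symm X) := mul_nonneg (by positivity) h2.1
    have h4 : ε * L * stepFun L (H.symm X) ≤ ε * L := mul_le_of_le_one_right (by positivity) h2.2
    rw [abs_le]
    constructor <;> linarith
  · by_contra hlt
    push Not at hlt
    have h1 := hmono hlt
    rw [hR] at h1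
    rcases le_or_gt (X / 2) (L / 4) with h2 | h2
    · rw [stretch, stepFun_of_le hL h2, mul_zero, add_zero] at h1
      linarith
    · have h3 : ε * L * stepFun L (X / 2) ≤ ε * L :=
        mul_le_of_le_one_right (by positivity) (hbox _).2
      have h4 : ε * L ≤ 1 / 4 * L := mul_le_mul_of_nonneg_right hε1 hL.le
      unfold stretch at h1
      linarith
  · by_contra hlt
    push Not at hlt
    have h1 := hmono hlt
    rw [hR, stretch, stepFun_of_ge hL (by linarith), mul_one] at h1
    linarith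

/-- The charts along the edges: coordinates to points. -/
noncomputable def edgeIn (L : ℝ) (R : ℝ → ℝ) (e : Fin 3) (z : ℝ × ℝ) : ℝ × ℝ :=
  ![(R z.1, z.2), (z.2, z.1), (L + rhalf * (z.2 - z.1), rhalf * (z.1 + z.2))] e

/-- The charts along the edges: points to coordinates. -/
noncomputable def edgeOut (L ε : ℝ) (e : Fin 3) (w : ℝ × ℝ) : ℝ × ℝ :=
  ![(stretch L ε w.1, w.2), (w.2, w.1),
    (rhalf * (w.2 - (w.1 - L)), rhalf * (w.1 - L + w.2))] e

/-- The lengths of the edges. -/
noncomputable def edgeLen (L ε : ℝ) (e : Fin 3) : ℝ := ![L * (1 + ε), L, 2 * rhalf * L] e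

/-- The covector `dY` of each chart. -/
noncomputable def edgeEta (e : Fin 3) : Fin 2 → ℝ := ![![0, 1], ![1, 0], ![rhalf, rhalf]] e

lemma abs_edgeEta_le (e : Fin 3) (i : Fin 2) : |edgeEta e i| ≤ 1 := by
  fin_cases e <;> fin_cases i <;>
    simp [edgeEta, abs_of_pos rhalf_pos, rhalf_le_one]

lemma contDiff_edgeOut (L ε : ℝ) (e : Fin 3) : ContDiff ℝ ∞ (edgeOut L ε e) := by
  fin_cases e
  · exact ((contDiff_stretch L ε).comp contDiff_fst).prodMk contDiff_snd
  · exact contDiff_snd.prodMk contDiff_fst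
  · exact (contDiff_const.mul (contDiff_snd.sub (contDiff_fst.sub contDiff_const))).prodMk
      (contDiff_const.mul ((contDiff_fst.sub contDiff_const).add contDiff_snd))

lemma contDiff_edgeIn (L : ℝ) {R : ℝ → ℝ} (hR : ContDiff ℝ ∞ R) (e : Fin 3) :
    ContDiff ℝ ∞ (edgeIn L R e) := by
  fin_cases e
  · exact (hR.comp contDiff_fst).prodMk contDiff_snd
  · exact contDiff_snd.prodMk contDiff_fst
  · exact (contDiff_const.add (contDiff_const.mul (contDiff_snd.sub contDiff_fst))).prodMk
      (contDiff_const.mul (contDiff_fst.add contDiff_snd))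

lemma edgeOut_edgeIn {L ε : ℝ} {R : ℝ → ℝ} (hR : ∀ X, stretch L ε (R X) = X) (e : Fin 3)
    (z : ℝ × ℝ) : edgeOut L ε e (edgeIn L R e z) = z := by
  have h := rhalf_sq
  fin_cases e
  · simp [edgeOut, edgeIn, hR]
  · simp [edgeOut, edgeIn]
  · simp only [edgeOut, edgeIn, Fin.reduceFinMk, Matrix.cons_val]
    ext
    · linear_combination (2 * z.1) * h
    · linear_combination (2 * z.2) * h

lemma edgeLen_pos {L ε : ℝ} (hL : 0 < L) (hε : 0 ≤ ε) (e : Fin 3) : 0 < edgeLen L ε e := by
  have := rhalf_pos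
  fin_cases e <;> simp [edgeLen] <;> positivity

lemma edgeLen_bounds {L ε : ℝ} (hL : 0 < L) (hε0 : 0 ≤ ε) (hε1 : ε ≤ 1 / 4) (e : Fin 3) :
    L ≤ edgeLen L ε e ∧ edgeLen L ε e ≤ 2 * L := by
  have := rhalf_pos
  have := rhalf_le_one
  have := half_le_rhalf
  fin_cases e <;> simp [edgeLen] <;> (try constructor) <;> nlinarith

end Vale.Agent.P229
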