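import Mathlib.Analysis.Calculus.SmoothSeries
import Mathlib.Analysis.Calculus.ContDiff.CPolynomial
import Vale.Agent.P229.GeoBD

/-!
# P229, stages: gluing stages with disjoint supports accumulating at the origin
-/

open scoped ContDiff RealInnerProductSpace Topology
open Set Filter

namespace Vale.Agent.P229

/-- The frame `(F_x, F_y)`. -/
noncomputable def frame (F : ℝ × ℝ → E3) (z : ℝ × ℝ) : Fin 2 → E3 := ![dX F z, dY F z]

/-- The entries of the Euclidean metric. -/
def kron (i j : Fin 2) : ℝ := if i = j then 1 else 0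

/-- A perturbation `h` of the Euclidean metric, supported in `sq (2L)` and small in `C^m`, which
excludes immersions with derivatives bounded by `m`. -/
def StageSpec : Prop :=
  ∀ (m : ℕ) (L : ℝ), 0 < L → ∃ h : Fin 2 → Fin 2 → ℝ × ℝ → ℝ,
    (∀ i j, ContDiff ℝ ∞ (h i j)) ∧ (∀ i j, h i j = h j i) ∧
    (∀ i j z, z ∉ sq (2 * L) → h i j z = 0) ∧ (∀ i j z, |h i j z| ≤ 1 / 10) ∧
    (∀ i j, ∀ k ≤ m, ∀ z, ‖iteratedFDeriv ℝ k (h i j) z‖ ≤ (1 / 2) ^ m) ∧
    ∀ (V : Set (ℝ × ℝ)) (F : ℝ × ℝ → E3), IsOpen V → sq (2 * L) ⊆ V → ContDiffOn ℝ ∞ F V →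
      (∀ z ∈ V, ∀ i j, ⟪frame F z i, frame F z j⟫ = kron i j + h i j z) →
      (∀ i ≤ 20, ∀ z ∈ sq (2 * L), ‖iteratedFDeriv ℝ i F z‖ ≤ (m : ℝ)) → False

/-- The size of stage `m`. -/
noncomputable def stageLen (m : ℕ) : ℝ := (1 / 2) ^ m / 10

/-- The centre of stage `m`. -/
noncomputable def stageCtr (m : ℕ) : ℝ × ℝ := ((1 / 2) ^ m, 0)

lemma stageLen_pos (m : ℕ) : 0 < stageLen m := by unfold stageLen; positivity

lemma mem_sq {r : ℝ} {z : ℝ × ℝ} : z ∈ sq r ↔ |z.1| ≤ r ∧ |z.2| ≤ r := by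
  simp only [sq, mem_prod, Set.mem_Icc, abs_le]

lemma isCompact_sq (r : ℝ) : IsCompact (sq r) := isCompact_Icc.prod isCompact_Icc

lemma isClosed_sq (r : ℝ) : IsClosed (sq r) := (isCompact_sq r).isClosed

lemma stage_disjoint {m n : ℕ} {z : ℝ × ℝ} (hm : z - stageCtr m ∈ sq (2 * stageLen m))
    (hn : z - stageCtr n ∈ sq (2 * stageLen n)) : m = n := by
  have key : ∀ a b : ℕ, a < b → |z.1 - (1 / 2) ^ a| ≤ 2 * ((1 / 2 : ℝ) ^ a / 10) →
      |z.1 - (1 / 2) ^ b| ≤ 2 * ((1 / 2 : ℝ) ^ b / 10) → False := by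
    intro a b hab ha hb
    have h2 : (1 / 2 : ℝ) ^ b ≤ (1 / 2) ^ (a + 1) :=
      pow_le_pow_of_le_one (by norm_num) (by norm_num) hab
    rw [pow_succ] at h2
    have : (0 : ℝ) < (1 / 2) ^ a := by positivity
    rw [abs_le] at ha hb
    linarith [ha.1, hb.2]
  simp only [mem_sq, stageCtr, stageLen, Prod.fst_sub] at hm hn
  rcases lt_trichotomy m n with h | h | h
  · exact (key m n h hm.1 hn.1).elim
  · exact h
  · exact (key n m h hn.1 hm.1).elim

/-- Translating the immersion. -/
lemma frame_translate (F : ℝ × ℝ → E3) (c z : ℝ × ℝ) :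
    frame (fun w => F (w + c)) z = frame F (z + c) := by
  simp [frame, dX, dY, fderiv_comp_add_right]

/-- Stages glued at points tending to the origin give a metric without local immersions. -/
theorem noLocalImmersion_of_stage (hstage : StageSpec) : NoLocalImmersion := by
  classical
  choose h hsm hsymm hsupp hsmall hder hno using fun m => hstage m (stageLen m) (stageLen_pos m)
  set f : Fin 2 → Fin 2 → ℕ → ℝ × ℝ → ℝ := fun i j m z => h m i j (z - stageCtr m) with hf
  have hfsm : ∀ i j m, ContDiff ℝ ∞ (f i j m) := fun i j m =>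
    (hsm m i j).comp (contDiff_id.sub contDiff_const)
  have hbd : ∀ i j m k, ∃ C : ℝ, ∀ z, ‖iteratedFDeriv ℝ k (h m i j) z‖ ≤ C := by
    intro i j m k
    obtain ⟨C, hC⟩ := geoBD_fixed isOpen_univ (hsm m i j).contDiffOn
      (isCompact_sq (2 * stageLen m + 1)) (subset_univ _) k
    refine ⟨max C 0, fun z => ?_⟩
    by_cases hz : z ∈ sq (2 * stageLen m + 1)
    · exact ((hC z hz).2 k le_rfl).trans (le_max_left _ _)
    · have hev : h m i j =ᶠ[𝓝 z] fun _ => 0 := by
        refine eventually_of_mem ((isClosed_sq (2 * stageLen m)).isOpen_compl.mem_nhds fun hin => hz ?_)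
          fun w hw => hsupp m i j w hw
        rw [mem_sq] at hin ⊢
        constructor <;> linarith
      rw [(hev.iteratedFDeriv ℝ k).eq_of_nhds, iteratedFDeriv_fun_zero]
      simp
  choose C hC using hbd
  have hcontr : ∀ i j, ContDiff ℝ ∞ fun z => ∑' m, f i j m z := by
    intro i j
    refine contDiff_tsum (v := fun k m => if k ≤ m then (1 / 2 : ℝ) ^ m else C i j m k) (hfsm i j)
      (fun k _ => ?_) fun k m z _ => ?_
    · refine (summable_geometric_two).of_norm_bounded_eventually ?_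
      rw [Nat.cofinite_eq_atTop]
      filter_upwards [eventually_ge_atTop k] with m hm
      simp [hm]
    · simp only [hf]
      rw [iteratedFDeriv_comp_sub]
      split_ifs with hkm
      · exact hder m i j k hkm _
      · exact hC i j m k _
  set g : ℝ × ℝ → Matrix (Fin 2) (Fin 2) ℝ :=
    fun z => Matrix.of fun i j => kron i j + ∑' m, f i j m z with hg
  have hone : ∀ z : ℝ × ℝ, (∃ m, ∀ i j, ∑' n, f i j n z = f i j m z) := by
    intro z
    by_cases hz : ∃ m, z - stageCtr m ∈ sq (2 * stageLen m)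
    · obtain ⟨m, hm⟩ := hz
      exact ⟨m, fun i j => tsum_eq_single m fun n hn =>
        hsupp n i j _ fun hin => hn (stage_disjoint hin hm)⟩
    · push Not at hz
      refine ⟨0, fun i j => tsum_eq_single 0 fun n _ => hsupp n i j _ (hz n)⟩
  refine ⟨g, fun i j => ?_, fun z i j => ?_, fun z v hv => ?_, fun U hU h0 ⟨F, hF, himm⟩ => ?_⟩
  · simpa [hg] using contDiff_const.add (hcontr i j)
  · simp only [hg, Matrix.of_apply, hf, kron, hsymm _ i j, eq_comm]
  · obtain ⟨m, hm⟩ := hone z
    have hb : ∀ i j, |∑' n, f i j n z| ≤ 1 / 10 := fun i j => by rw [hm]; exact hsmall m i j _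
    simp only [hg, Matrix.of_apply, Fin.sum_univ_two, kron]
    have hv' : 0 < v 0 ^ 2 + v 1 ^ 2 := by
      by_contra hle
      push Not at hle
      have h0 : v 0 ^ 2 = 0 := le_antisymm (by nlinarith [sq_nonneg (v 1)]) (sq_nonneg _)
      have h1 : v 1 ^ 2 = 0 := le_antisymm (by nlinarith [sq_nonneg (v 0)]) (sq_nonneg _)
      exact hv (funext fun i => by
        fin_cases i
        · exact pow_eq_zero_iff two_ne_zero |>.1 h0
        · exact pow_eq_zero_iff two_ne_zero |>.1 h1)
    obtain ⟨a1, a2⟩ := abs_le.1 (hb 0 0)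
    obtain ⟨d1, d2⟩ := abs_le.1 (hb 1 1)
    obtain ⟨b1, b2⟩ := abs_le.1 (hb 0 1)
    obtain ⟨c1, c2⟩ := abs_le.1 (hb 1 0)
    simp only [if_true, Fin.zero_ne_one, Fin.one_eq_zero_iff, if_false, zero_add, OfNat.ofNat_ne_one]
    nlinarith [mul_nonneg (sub_nonneg.2 a1) (sq_nonneg (v 0)),
      mul_nonneg (sub_nonneg.2 d1) (sq_nonneg (v 1)),
      mul_nonneg (sub_nonneg.2 b1) (sq_nonneg (v 0 + v 1)),
      mul_nonneg (sub_nonneg.2 b2) (sq_nonneg (v 0 - v 1)),
      mul_nonneg (sub_nonneg.2 c1) (sq_nonneg (v 0 + v 1)),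
      mul_nonneg (sub_nonneg.2 c2) (sq_nonneg (v 0 - v 1))]
  · obtain ⟨r, hr, hball⟩ := Metric.isOpen_iff.1 hU 0 h0
    obtain ⟨M, hM⟩ := geoBD_fixed hU hF (isCompact_closedBall (0 : ℝ × ℝ) (r / 2))
      ((Metric.closedBall_subset_ball (by linarith)).trans hball) 20
    obtain ⟨m, hmM, hmr⟩ : ∃ m : ℕ, M ≤ m ∧ 2 * (1 / 2 : ℝ) ^ m ≤ r / 2 := by
      have h1 : ∀ᶠ m : ℕ in atTop, M ≤ m := (tendsto_natCast_atTop_atTop).eventually_ge_atTop M
      have h2 : Tendsto (fun m : ℕ => 2 * (1 / 2 : ℝ) ^ m) atTop (𝓝 0) := by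
        simpa using (tendsto_pow_atTop_nhds_zero_of_lt_one (by norm_num : (0 : ℝ) ≤ 1 / 2)
          (by norm_num)).const_mul 2
      exact (h1.and (h2.eventually (eventually_le_nhds (by linarith)))).exists
    have hin : ∀ z ∈ sq (2 * stageLen m), z + stageCtr m ∈ Metric.closedBall (0 : ℝ × ℝ) (r / 2) := by
      intro z hz
      rw [mem_sq, stageLen] at hz
      have : (0 : ℝ) < (1 / 2) ^ m := by positivity
      rw [mem_closedBall_zero_iff, Prod.norm_def, stageCtr]
      simp only [Prod.fst_add, Prod.snd_add, Real.norm_eq_abs, max_le_iff, add_zero]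
      refine ⟨(abs_add_le _ _).trans ?_, hz.2.trans (by linarith)⟩
      rw [abs_of_pos this]
      linarith [hz.1]
    refine hno m (interior ((fun z => z + stageCtr m) ⁻¹'
        (U ∩ {w | ∀ n, n ≠ m → w - stageCtr n ∉ sq (2 * stageLen n)})))
      (fun z => F (z + stageCtr m)) isOpen_interior ?_ ?_ ?_ ?_
    · intro z hz
      rw [mem_sq] at hz
      have hpos := stageLen_pos m
      -- a slightly larger square still avoids the other stages
      refine mem_interior.2 ⟨(fun w => w + stageCtr m) ⁻¹' U ∩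
        {w | |w.1| < 21 / 10 * stageLen m ∧ |w.2| < 21 / 10 * stageLen m}, ?_, ?_, ?_⟩
      · rintro w ⟨hwU, hw1, hw2⟩
        refine ⟨hwU, fun n hn hmem => ?_⟩
        rw [mem_sq] at hmem
        simp only [stageCtr, stageLen, Prod.fst_add, Prod.fst_sub] at hmem hw1
        obtain ⟨h1, h2⟩ := abs_le.1 hmem.1
        obtain ⟨h3, h4⟩ := abs_lt.1 hw1
        have hpn : (0 : ℝ) < (1 / 2) ^ n := by positivity
        have hpm : (0 : ℝ) < (1 / 2) ^ m := by positivity
        rcases lt_or_gt_of_ne hn with hlt | hlt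
        · have h5 : (1 / 2 : ℝ) ^ m ≤ (1 / 2) ^ (n + 1) :=
            pow_le_pow_of_le_one (by norm_num) (by norm_num) hlt
          rw [pow_succ] at h5
          linarith
        · have h5 : (1 / 2 : ℝ) ^ n ≤ (1 / 2) ^ (m + 1) :=
            pow_le_pow_of_le_one (by norm_num) (by norm_num) hlt
          rw [pow_succ] at h5
          linarith
      · exact (hU.preimage (continuous_id.add continuous_const)).inter
          ((isOpen_lt continuous_fst.abs continuous_const).inter
            (isOpen_lt continuous_snd.abs continuous_const))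
      · refine ⟨hball ?_, by linarith, by linarith⟩
        exact Metric.closedBall_subset_ball (by linarith) (hin z (mem_sq.2 hz))
    · exact hF.comp (contDiff_id.add contDiff_const).contDiffOn fun z hz => (interior_subset hz).1
    · intro z hz i j
      obtain ⟨hzU, hzn⟩ := interior_subset hz
      rw [frame_translate]
      rw [show ⟪frame F (z + stageCtr m) i, frame F (z + stageCtr m) j⟫ = g (z + stageCtr m) i j from
        himm _ hzU i j]
      simp only [hg, Matrix.of_apply]
      rw [tsum_eq_single m fun n hn => hsupp n i j _ (hzn n hn)]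
      simp
    · intro i hi z hz
      rw [iteratedFDeriv_comp_add_right]
      exact ((hM _ (hin z hz)).2 i hi).trans hmM

end Vale.Agent.P229
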