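import Mathlib.Analysis.Calculus.Deriv.Prod
import Vale.Agent.P229.StageChart
import Vale.Agent.P229.StageGlue

/-!
# P229, stages: a stretched right triangle with boxes along its edges
-/

open scoped ContDiff RealInnerProductSpace Topology
open Set Filter

namespace Vale.Agent.P229

lemma dX_of_comp {F : ℝ × ℝ → E3} {Ψ : ℝ × ℝ → ℝ × ℝ} {z v : ℝ × ℝ}
    (hF : DifferentiableAt ℝ F (Ψ z)) (hΨ : DifferentiableAt ℝ Ψ z)
    (hv : HasDerivAt (fun t => Ψ (t, z.2)) v z.1) :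
    dX (fun w => F (Ψ w)) z = v.1 • dX F (Ψ z) + v.2 • dY F (Ψ z) := by
  rw [← fderiv_prod_apply]
  refine (hasDerivAt_lineX (f := fun w => F (Ψ w)) (hF.comp z hΨ)).unique ?_
  exact hF.hasFDerivAt.comp_hasDerivAt z.1 hv

lemma dY_of_comp {F : ℝ × ℝ → E3} {Ψ : ℝ × ℝ → ℝ × ℝ} {z v : ℝ × ℝ}
    (hF : DifferentiableAt ℝ F (Ψ z)) (hΨ : DifferentiableAt ℝ Ψ z)
    (hv : HasDerivAt (fun t => Ψ (z.1, t)) v z.2) :
    dY (fun w => F (Ψ w)) z = v.1 • dX F (Ψ z) + v.2 • dY F (Ψ z) := by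
  rw [← fderiv_prod_apply]
  refine (hasDerivAt_lineY (f := fun w => F (Ψ w)) (hF.comp z hΨ)).unique ?_
  exact hF.hasFDerivAt.comp_hasDerivAt z.2 hv

/-- Pulling a metric back to a chart. -/
lemma inner_comb (P Q : E3) (a b c d : ℝ) :
    ⟪a • P + b • Q, c • P + d • Q⟫ = a * c * ⟪P, P⟫ + (a * d + b * c) * ⟪P, Q⟫ + b * d * ⟪Q, Q⟫ := by
  simp only [inner_add_left, inner_add_right, real_inner_smul_left, real_inner_smul_right,
    real_inner_comm P Q]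
  ring

/-- The frame of the immersion in one of the edge charts. -/
lemma edge_frame {L : ℝ} {R R' : ℝ → ℝ} (hR : ContDiff ℝ ∞ R)
    (hR' : ∀ X, HasDerivAt R (R' X) X) {F : ℝ × ℝ → E3} (e : Fin 3) {z : ℝ × ℝ}
    (hF : DifferentiableAt ℝ F (edgeIn L R e z)) :
    dX (fun w => F (edgeIn L R e w)) z
        = (![R' z.1, 0, -rhalf] e) • dX F (edgeIn L R e z)
          + (![0, 1, rhalf] e) • dY F (edgeIn L R e z) ∧
      dY (fun w => F (edgeIn L R e w)) z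
        = (![0, 1, rhalf] e) • dX F (edgeIn L R e z)
          + (![1, 0, rhalf] e) • dY F (edgeIn L R e z) := by
  have hd := (contDiff_edgeIn L hR e).differentiable (by simp) z
  constructor
  · refine dX_of_comp (v := (![R' z.1, 0, -rhalf] e, ![0, 1, rhalf] e)) hF hd ?_
    fin_cases e
    · exact (hR' z.1).prodMk (hasDerivAt_const z.1 z.2)
    · exact (hasDerivAt_const z.1 z.2).prodMk (hasDerivAt_id z.1)
    · have h1 := (((hasDerivAt_id z.1).const_sub z.2).const_mul rhalf).const_add L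
      have h2 := ((hasDerivAt_id z.1).add_const z.2).const_mul rhalf
      exact (HasDerivAt.prodMk h1 h2).congr_deriv (by simp)
  · refine dY_of_comp (v := (![0, 1, rhalf] e, ![1, 0, rhalf] e)) hF hd ?_
    fin_cases e
    · exact (hasDerivAt_const z.2 (R z.1)).prodMk (hasDerivAt_id z.2)
    · exact (hasDerivAt_id z.2).prodMk (hasDerivAt_const z.2 z.1)
    · have h1 := (((hasDerivAt_id z.2).sub_const z.1).const_mul rhalf).const_add L
      have h2 := ((hasDerivAt_id z.2).const_add z.1).const_mul rhalf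
      exact (HasDerivAt.prodMk h1 h2).congr_deriv (by simp)

/-- The gap of the stretched right triangle. -/
lemma triangle_gap {ε : ℝ} (hε : 0 < ε) :
    0 < Real.sqrt ((1 + ε) ^ 2 + 1) - 2 * rhalf := by
  have h : 2 * rhalf = Real.sqrt 2 := by
    rw [rhalf, ← div_eq_mul_inv]; exact Real.div_sqrt
  rw [h, sub_pos]
  exact Real.sqrt_lt_sqrt (by norm_num) (by nlinarith)

/-- Almost straight edges contradict the lengths of the stretched triangle. -/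
lemma triangle_contra {L ε E : ℝ} (hL : 0 < L) (hε : 0 ≤ ε) (hε1 : ε ≤ 1 / 4)
    (hE : 7 * E * L < Real.sqrt ((1 + ε) ^ 2 + 1) - 2 * rhalf)
    {O B C P Q T : E3} (hP : ⟪P, P⟫ = 1) (hPQ : ⟪P, Q⟫ = 0) (hQ : ⟪Q, Q⟫ = 1) (hT : ⟪T, T⟫ = 1)
    (h0 : ‖B - O - (L * (1 + ε)) • P‖ ≤ E * (L * (1 + ε)) ^ 2)
    (h1 : ‖C - O - L • Q‖ ≤ E * L ^ 2)
    (h2 : ‖C - B - (2 * rhalf * L) • T‖ ≤ E * (2 * rhalf * L) ^ 2) : False := by
  set S := Real.sqrt ((1 + ε) ^ 2 + 1) with hS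
  have hS0 : 0 ≤ S := Real.sqrt_nonneg _
  have hlen : ‖(L * (1 + ε)) • P - L • Q‖ = L * S := by
    have hsq : ‖(L * (1 + ε)) • P - L • Q‖ ^ 2 = (L * S) ^ 2 := by
      rw [← real_inner_self_eq_norm_sq, mul_pow L S, hS, Real.sq_sqrt (by positivity)]
      simp only [inner_sub_left, inner_sub_right, real_inner_smul_left, real_inner_smul_right,
        real_inner_comm P Q, hP, hPQ, hQ]
      ring
    calc ‖(L * (1 + ε)) • P - L • Q‖ = Real.sqrt (‖(L * (1 + ε)) • P - L • Q‖ ^ 2) :=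
          (Real.sqrt_sq (norm_nonneg _)).symm
      _ = L * S := by rw [hsq, Real.sqrt_sq (by positivity)]
  have hT' : ‖(2 * rhalf * L) • T‖ = 2 * rhalf * L := by
    rw [real_inner_self_eq_norm_sq] at hT
    have : ‖T‖ = 1 := (sq_eq_sq₀ (norm_nonneg _) zero_le_one).1 (by rw [hT, one_pow])
    have := rhalf_pos
    rw [norm_smul, ‹‖T‖ = 1›, mul_one, Real.norm_eq_abs, abs_of_pos (by positivity)]
  have hsplit : (L * (1 + ε)) • P - L • Q
      = (C - O - L • Q) - (B - O - (L * (1 + ε)) • P) - (C - B - (2 * rhalf * L) • T)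
        - (2 * rhalf * L) • T := by abel
  have htri : L * S ≤ E * L ^ 2 + E * (L * (1 + ε)) ^ 2 + E * (2 * rhalf * L) ^ 2
      + 2 * rhalf * L := by
    rw [← hlen, hsplit]
    refine (norm_sub_le _ _).trans (add_le_add ?_ hT'.le)
    refine (norm_sub_le _ _).trans (add_le_add ?_ h2)
    exact (norm_sub_le _ _).trans (add_le_add h1 h0)
  have hE0 : 0 ≤ E * L ^ 2 := (norm_nonneg _).trans h1
  have e1 : E * (2 * rhalf * L) ^ 2 = 2 * (E * L ^ 2) := by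
    linear_combination (4 * E * L ^ 2) * rhalf_sq
  have e2 : E * (L * (1 + ε)) ^ 2 ≤ 4 * (E * L ^ 2) := by
    have : (1 + ε) ^ 2 ≤ 4 := by nlinarith
    calc E * (L * (1 + ε)) ^ 2 = E * L ^ 2 * (1 + ε) ^ 2 := by ring
      _ ≤ E * L ^ 2 * 4 := mul_le_mul_of_nonneg_left this hE0
      _ = _ := by ring
  have := mul_lt_mul_of_pos_right hE hL
  nlinarith

/-- The parameters of a stage: size, stretching, number of samples, size of the boxes and the
inverse of the stretched coordinate. -/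
structure TriData where
  L : ℝ
  ε : ℝ
  σ : ℝ
  N : ℕ
  R : ℝ → ℝ
  R' : ℝ → ℝ
  L_pos : 0 < L
  ε_pos : 0 < ε
  ε_le : ε ≤ 1 / 4
  two_le_N : 2 ≤ N
  σ_pos : 0 < σ
  σ_le : σ ≤ L / N / 100
  R_smooth : ContDiff ℝ ∞ R
  stretch_R : ∀ X, stretch L ε (R X) = X
  R_zero : R 0 = 0
  R_len : R (L * (1 + ε)) = L
  hasDeriv_R : ∀ X, HasDerivAt R (R' X) X
  R'_mul : ∀ X, R' X * (1 + ε * L * deriv (stepFun L) (R X)) = 1
  R_near : ∀ X, |R X - X| ≤ ε * L
  R_low : ∀ X, 0 ≤ X → X / 2 ≤ R X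
  R_high : ∀ X a, 0 ≤ a → a ≤ L / 2 → X ≤ L * (1 + ε) - a → R X ≤ L - a

namespace TriData

variable (T : TriData)

/-- The length of an edge. -/
noncomputable def len (e : Fin 3) : ℝ := edgeLen T.L T.ε e

/-- The spacing of the samples. -/
noncomputable def step (e : Fin 3) : ℝ := T.len e / (T.N : ℝ)

/-- The position of a sample. -/
noncomputable def pos (e : Fin 3) (k : ℕ) : ℝ × ℝ := ((k : ℝ) * T.step e, 0)

/-- The stretching of the first leg, cut off away from it. -/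
noncomputable def pert (χ : ℝ → ℝ) (z : ℝ × ℝ) : ℝ :=
  T.ε * (2 * (T.L * deriv (stepFun T.L) z.1) * χ z.2) +
    T.ε ^ 2 * ((T.L * deriv (stepFun T.L) z.1) * (T.L * deriv (stepFun T.L) z.1) * χ z.2)

/-- The box around a sample. -/
noncomputable def box (ψ : ℝ × ℝ → ℝ) (e : Fin 3) (k : ℕ) (w : ℝ × ℝ) : ℝ :=
  ψ (edgeOut T.L T.ε e w - T.pos e k)

/-- The perturbation of the Euclidean metric. -/
noncomputable def metric (χ : ℝ → ℝ) (ψ : ℝ × ℝ → ℝ) (i j : Fin 2) (w : ℝ × ℝ) : ℝ :=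
  (if i = 0 ∧ j = 0 then 1 else 0) * T.pert χ w
    + ∑ e, edgeEta e i * edgeEta e j * ∑ k ∈ Finset.Ico 1 T.N, T.box ψ e k w

/-- The spacing along the shorter legs. -/
noncomputable def gapLen : ℝ := T.L / (T.N : ℝ)

lemma N_pos : (0 : ℝ) < T.N := by
  have : (2 : ℝ) ≤ T.N := by exact_mod_cast T.two_le_N
  linarith

lemma gapLen_pos : 0 < T.gapLen := div_pos T.L_pos T.N_pos

lemma gapLen_le : T.gapLen ≤ T.L / 2 :=
  div_le_div_of_nonneg_left T.L_pos.le two_pos (by exact_mod_cast T.two_le_N)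

lemma sigma_le : T.σ ≤ T.gapLen / 100 := T.σ_le

lemma len_bounds (e : Fin 3) : T.L ≤ T.len e ∧ T.len e ≤ 2 * T.L :=
  edgeLen_bounds T.L_pos T.ε_pos.le T.ε_le e

lemma gapLen_le_step (e : Fin 3) : T.gapLen ≤ T.step e :=
  div_le_div_of_nonneg_right (T.len_bounds e).1 T.N_pos.le

lemma step_pos (e : Fin 3) : 0 < T.step e := T.gapLen_pos.trans_le (T.gapLen_le_step e)

lemma pos_bounds (e : Fin 3) {k : ℕ} (hk : k ∈ Finset.Ico 1 T.N) :
    T.step e ≤ (k : ℝ) * T.step e ∧ (k : ℝ) * T.step e ≤ T.len e - T.step e := by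
  rw [Finset.mem_Ico] at hk
  have h1 : (1 : ℝ) ≤ k := by exact_mod_cast hk.1
  have h2 : (k : ℝ) ≤ T.N - 1 := by
    have : (k : ℝ) + 1 ≤ T.N := by exact_mod_cast hk.2
    linarith
  have h3 : (T.N : ℝ) * T.step e = T.len e := by
    have := T.N_pos
    simp only [step]; field_simp
  have hde := (T.step_pos e).le
  constructor
  · exact le_mul_of_one_le_left hde h1
  · have := mul_le_mul_of_nonneg_right h2 hde
    linarith

lemma box_supp {ψ : ℝ × ℝ → ℝ} (hψ0 : ∀ z : ℝ × ℝ, (T.σ < |z.1| ∨ T.σ < |z.2|) → ψ z = 0)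
    (e : Fin 3) {k : ℕ} (hk : k ∈ Finset.Ico 1 T.N) {w : ℝ × ℝ} (hw : w ∉ sq (2 * T.L)) :
    T.box ψ e k w = 0 := by
  apply hψ0
  obtain ⟨hk1, hk2⟩ := T.pos_bounds e hk
  by_contra hcon
  push Not at hcon
  obtain ⟨hc1, hc2⟩ := hcon
  simp only [pos, Prod.fst_sub, Prod.snd_sub, sub_zero, abs_le] at hc1 hc2
  apply hw
  have hae := T.gapLen_le_step e
  have hlb := T.len_bounds e
  have := T.gapLen_le
  have := T.gapLen_pos
  have := T.sigma_le
  have := T.σ_pos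
  have := rhalf_pos
  have := half_le_rhalf
  rw [mem_sq, abs_le, abs_le]
  fin_cases e
  · simp [edgeOut, len, edgeLen, stretch] at hc1 hc2 hk1 hk2 hae hlb ⊢
    have h0 : 0 ≤ T.ε * T.L * stepFun T.L w.1 :=
      mul_nonneg (mul_nonneg T.ε_pos.le T.L_pos.le) (Real.smoothTransition.nonneg _)
    have h1 : T.ε * T.L * stepFun T.L w.1 ≤ T.ε * T.L :=
      mul_le_of_le_one_right (mul_nonneg T.ε_pos.le T.L_pos.le) (Real.smoothTransition.le_one _)
    have : T.ε * T.L ≤ 1 / 4 * T.L := mul_le_mul_of_nonneg_right T.ε_le T.L_pos.le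
    refine ⟨⟨?_, ?_⟩, ?_, ?_⟩ <;> linarith
  · simp [edgeOut, len, edgeLen] at hc1 hc2 hk1 hk2 hae hlb ⊢
    refine ⟨⟨?_, ?_⟩, ?_, ?_⟩ <;> linarith
  · simp [edgeOut, len, edgeLen] at hc1 hc2 hk1 hk2 hae hlb ⊢
    have hr := rhalf_sq
    refine ⟨⟨?_, ?_⟩, ?_, ?_⟩ <;> nlinarith

lemma rect (e : Fin 3) {z : ℝ × ℝ} (h1 : -(2 * T.σ) ≤ z.1) (h2 : z.1 ≤ T.len e + 2 * T.σ)
    (h3 : |z.2| ≤ 2 * T.σ) : edgeIn T.L T.R e z ∈ sq (2 * T.L) ∧ z ∈ sq (3 * T.L) := by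
  obtain ⟨h3a, h3b⟩ := abs_le.1 h3
  have hlb := T.len_bounds e
  have := T.gapLen_le
  have := T.gapLen_pos
  have := T.sigma_le
  have := T.σ_pos
  refine ⟨?_, by rw [mem_sq, abs_le, abs_le]; refine ⟨⟨?_, ?_⟩, ?_, ?_⟩ <;> linarith⟩
  rw [mem_sq, abs_le, abs_le]
  have := rhalf_pos
  have := rhalf_le_one
  fin_cases e
  · obtain ⟨hi1, hi2⟩ := abs_le.1 (T.R_near z.1)
    have : T.ε * T.L ≤ 1 / 4 * T.L := mul_le_mul_of_nonneg_right T.ε_le T.L_pos.le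
    simp [edgeIn, len, edgeLen] at h2 hlb ⊢
    refine ⟨⟨?_, ?_⟩, ?_, ?_⟩ <;> linarith
  · simp [edgeIn, len, edgeLen] at h2 hlb ⊢
    refine ⟨⟨?_, ?_⟩, ?_, ?_⟩ <;> linarith
  · simp [edgeIn, len, edgeLen] at h2 hlb ⊢
    have hr := rhalf_sq
    refine ⟨⟨?_, ?_⟩, ?_, ?_⟩ <;> nlinarith

/-- Near an interior sample only its own box is present. -/
lemma box_sep {ψ : ℝ × ℝ → ℝ} (hψ0 : ∀ z : ℝ × ℝ, (T.σ < |z.1| ∨ T.σ < |z.2|) → ψ z = 0)
    (e : Fin 3) {k : ℕ} (hk : k ∈ Finset.Ico 1 T.N) {z : ℝ × ℝ} (hz1 : |z.1| ≤ 2 * T.σ)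
    (hz2 : |z.2| ≤ 2 * T.σ) (e' : Fin 3) :
    ∑ k' ∈ Finset.Ico 1 T.N, T.box ψ e' k' (edgeIn T.L T.R e (z + T.pos e k))
      = if e' = e then ψ z else 0 := by
  obtain ⟨hk1, hk2⟩ := T.pos_bounds e hk
  obtain ⟨hz1a, hz1b⟩ := abs_le.1 hz1
  obtain ⟨hz2a, hz2b⟩ := abs_le.1 hz2
  have hde := T.gapLen_le_step e
  have := T.gapLen_le
  have := T.gapLen_pos
  have := T.sigma_le
  have := T.σ_pos
  set a := T.gapLen with ha
  set X := z.1 + (k : ℝ) * T.step e with hX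
  have hw : z + T.pos e k = (X, z.2) := by ext <;> simp [pos, hX]
  rw [hw]
  have hXlo : a / 2 ≤ X := by linarith
  have hXhi : X ≤ T.len e - a / 2 := by linarith
  by_cases he : e' = e
  · subst he
    rw [if_pos rfl, Finset.sum_eq_single k]
    · simp only [box, edgeOut_edgeIn T.stretch_R]
      congr 1
      ext <;> simp [pos, hX]
    · intro k' _ hne
      simp only [box, edgeOut_edgeIn T.stretch_R]
      refine hψ0 _ (Or.inl ?_)
      simp only [pos, Prod.fst_sub, hX]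
      have hdd : T.step e' ≤ |(k : ℝ) * T.step e' - k' * T.step e'| := by
        rw [← sub_mul, abs_mul, abs_of_pos (T.step_pos e')]
        refine le_mul_of_one_le_left (T.step_pos e').le ?_
        rcases lt_or_gt_of_ne hne with hlt | hlt
        · have : (k' : ℝ) + 1 ≤ k := by exact_mod_cast hlt
          rw [abs_of_nonneg] <;> linarith
        · have : (k : ℝ) + 1 ≤ k' := by exact_mod_cast hlt
          rw [abs_of_neg] <;> linarith
      have := abs_sub_abs_le_abs_sub ((k : ℝ) * T.step e' - k' * T.step e') (-z.1)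
      rw [abs_neg, sub_neg_eq_add] at this
      rw [show z.1 + (k : ℝ) * T.step e' - k' * T.step e'
        = (k : ℝ) * T.step e' - k' * T.step e' + z.1 by ring]
      linarith
    · exact fun hk' => absurd hk hk'
  · rw [if_neg he]
    have := rhalf_pos
    have := half_le_rhalf
    have := rhalf_le_one
    have := rhalf_sq
    refine Finset.sum_eq_zero fun k' _ => hψ0 _ (Or.inr ?_)
    simp only [pos, Prod.snd_sub, sub_zero]
    rw [lt_abs]
    fin_cases e <;> fin_cases e' <;> simp at he <;>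
      simp [edgeOut, edgeIn, len, edgeLen] at hXhi ⊢
    · left; linarith [T.R_low X (by linarith)]
    · right
      have := T.R_high X (a / 2) (by linarith) (by linarith) hXhi
      nlinarith
    · left; linarith
    · right; nlinarith
    · left; nlinarith
    · left; nlinarith

lemma pert_sep {χ : ℝ → ℝ} (hχ1 : ∀ y, |y| ≤ T.L / 16 → χ y = 1)
    (hχ0 : ∀ y, T.L / 8 ≤ |y| → χ y = 0) (e : Fin 3) {k : ℕ} (hk : k ∈ Finset.Ico 1 T.N)
    {z : ℝ × ℝ} (hz1 : |z.1| ≤ 2 * T.σ) (hz2 : |z.2| ≤ 2 * T.σ) :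
    T.pert χ (edgeIn T.L T.R e (z + T.pos e k))
      = if e = 0 then
          (1 + T.ε * T.L * deriv (stepFun T.L) (T.R (z.1 + (k : ℝ) * T.step e))) ^ 2 - 1
        else 0 := by
  obtain ⟨hk1, hk2⟩ := T.pos_bounds e hk
  obtain ⟨hz1a, hz1b⟩ := abs_le.1 hz1
  obtain ⟨hz2a, hz2b⟩ := abs_le.1 hz2
  have hde := T.gapLen_le_step e
  have := T.gapLen_le
  have := T.gapLen_pos
  have := T.sigma_le
  have := T.L_pos
  set X := z.1 + (k : ℝ) * T.step e with hX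
  have hw : z + T.pos e k = (X, z.2) := by ext <;> simp [pos, hX]
  rw [hw]
  have hXhi : X ≤ T.len e := by linarith
  have := rhalf_pos
  have := rhalf_le_one
  have := rhalf_sq
  fin_cases e <;> simp [edgeIn, len, edgeLen, pert] at hXhi ⊢
  · rw [hχ1 _ (hz2.trans (by linarith))]
    ring
  · rw [deriv_stepFun_of_lt T.L_pos (Or.inl (by linarith))]
    ring
  · rcases le_or_gt (T.L + rhalf * (z.2 - X)) (T.L / 2) with h' | h'
    · rw [hχ0 _ (le_trans (by nlinarith) (le_abs_self _))]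
      ring
    · rw [deriv_stepFun_of_lt T.L_pos (Or.inr h')]
      ring

lemma metric_at_vertex {χ : ℝ → ℝ} {ψ : ℝ × ℝ → ℝ}
    (hψ0 : ∀ z : ℝ × ℝ, (T.σ < |z.1| ∨ T.σ < |z.2|) → ψ z = 0) {w : ℝ × ℝ}
    (hw : w = (0, 0) ∨ w = (T.L, 0)) (i j : Fin 2) : T.metric χ ψ i j w = 0 := by
  have hpert : T.pert χ w = 0 := by
    have := T.L_pos
    rcases hw with rfl | rfl
    · simp [pert, deriv_stepFun_of_lt T.L_pos (Or.inl (by linarith : (0 : ℝ) < T.L / 4))]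
    · simp [pert, deriv_stepFun_of_lt T.L_pos (Or.inr (by linarith : T.L / 2 < T.L))]
  simp only [metric, hpert, mul_zero, zero_add]
  refine Finset.sum_eq_zero fun e _ => ?_
  rw [Finset.sum_eq_zero fun k hk => ?_, mul_zero]
  obtain ⟨hk1, hk2⟩ := T.pos_bounds e hk
  have hde := T.gapLen_le_step e
  have := T.gapLen_le
  have := T.gapLen_pos
  have := T.sigma_le
  have := half_le_rhalf
  have := rhalf_pos
  apply hψ0
  simp only [pos, Prod.fst_sub, Prod.snd_sub, sub_zero]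
  rcases hw with rfl | rfl <;> fin_cases e <;>
    simp [edgeOut, stretch, stepFun_of_le T.L_pos (show (0 : ℝ) ≤ T.L / 4 by linarith [T.L_pos]),
      stepFun_of_ge T.L_pos (show T.L / 2 ≤ T.L by linarith [T.L_pos]), len, edgeLen]
      at hk1 hk2 hde ⊢
  all_goals try simp only [abs_of_pos (T.step_pos _), abs_of_pos T.L_pos, abs_of_pos rhalf_pos]
  all_goals first
    | (left; nlinarith) | (right; nlinarith) | (left; rw [lt_abs]; left; linarith)

lemma chart_bound {m : ℕ} {V : Set (ℝ × ℝ)} {F : ℝ × ℝ → E3} {R0 : ℝ}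
    (hV : IsOpen V) (hsub : sq (2 * T.L) ⊆ V) (hF : ContDiffOn ℝ ∞ F V)
    (hFb : ∀ i ≤ 20, ∀ z ∈ sq (2 * T.L), ‖iteratedFDeriv ℝ i F z‖ ≤ (m : ℝ)) (hm : (m : ℝ) ≤ R0)
    (hC : ∀ e, ∀ z ∈ sq (3 * T.L), GeoBD 20 R0 (edgeIn T.L T.R e) z) (e : Fin 3) {z : ℝ × ℝ}
    (h1 : -(2 * T.σ) ≤ z.1) (h2 : z.1 ≤ T.len e + 2 * T.σ) (h3 : |z.2| ≤ 2 * T.σ) :
    GeoBD 20 (geoBDComp 20 R0) (fun w => F (edgeIn T.L T.R e w)) z := by
  obtain ⟨hw, hz⟩ := T.rect e h1 h2 h3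
  have hFw : GeoBD 20 R0 F (edgeIn T.L T.R e z) :=
    ⟨hF.contDiffAt (hV.mem_nhds (hsub hw)), fun i hi => (hFb i hi _ hw).trans hm⟩
  exact hFw.comp (hC e z hz)

/-- In the chart of an edge the metric near a sample is the box metric. -/
lemma chart_boxImm {χ : ℝ → ℝ} (hχ1 : ∀ y, |y| ≤ T.L / 16 → χ y = 1)
    (hχ0 : ∀ y, T.L / 8 ≤ |y| → χ y = 0) {β : ℝ × ℝ → ℝ} (hβ : ∀ z, z ∉ sq T.σ → β z = 0)
    {V : Set (ℝ × ℝ)} {F : ℝ × ℝ → E3} (hV : IsOpen V) (hF : ContDiffOn ℝ ∞ F V)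
    (himm : ∀ z ∈ V, ∀ i j, ⟪frame F z i, frame F z j⟫
      = kron i j + T.metric χ (fun z => 2 * β z + β z * β z) i j z)
    (e : Fin 3) {k : ℕ} (hk : k ∈ Finset.Ico 1 T.N) :
    IsBoxImm β ((fun z => z + T.pos e k) ⁻¹' (edgeIn T.L T.R e ⁻¹' V) ∩
        {z | |z.1| < 2 * T.σ ∧ |z.2| < 2 * T.σ})
      (fun w => F (edgeIn T.L T.R e (w + T.pos e k))) := by
  set ψ : ℝ × ℝ → ℝ := fun z => 2 * β z + β z * β z with hψ
  have hψ0 : ∀ z : ℝ × ℝ, (T.σ < |z.1| ∨ T.σ < |z.2|) → ψ z = 0 := by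
    intro z hz
    have : z ∉ sq T.σ := by
      rw [mem_sq]
      rintro ⟨h1, h2⟩
      rcases hz with h | h <;> linarith
    simp [hψ, hβ z this]
  refine ⟨hF.comp (((contDiff_edgeIn T.L T.R_smooth e).comp
    (contDiff_id.add contDiff_const)).contDiffOn) fun z hz => hz.1, ?_⟩
  rintro z ⟨hzV, hz1, hz2⟩
  have hsum := T.box_sep hψ0 e hk hz1.le hz2.le
  have hqv := T.pert_sep hχ1 hχ0 e hk hz1.le hz2.le
  set c := T.pos e k with hc
  have hd : DifferentiableAt ℝ F (edgeIn T.L T.R e (z + c)) :=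
    (hF.contDiffAt (hV.mem_nhds hzV)).differentiableAt (by simp)
  obtain ⟨hX, hY⟩ := edge_frame T.R_smooth T.hasDeriv_R e hd
  have hX' : dX (fun w => F (edgeIn T.L T.R e (w + c))) z
      = dX (fun w => F (edgeIn T.L T.R e w)) (z + c) := by
    simp [dX, fderiv_comp_add_right (f := fun w => F (edgeIn T.L T.R e w))]
  have hY' : dY (fun w => F (edgeIn T.L T.R e (w + c))) z
      = dY (fun w => F (edgeIn T.L T.R e w)) (z + c) := by
    simp [dY, fderiv_comp_add_right (f := fun w => F (edgeIn T.L T.R e w))]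
  have g00 := himm _ hzV 0 0
  have g01 := himm _ hzV 0 1
  have g11 := himm _ hzV 1 1
  simp only [frame, Matrix.cons_val_zero, Matrix.cons_val_one] at g00 g01 g11
  rw [hX', hY', hX, hY, inner_comb, inner_comb, inner_comb, g00, g01, g11]
  simp only [metric, hsum, hqv, mul_ite, mul_zero, Finset.sum_ite_eq', Finset.mem_univ, if_true]
  have hrr := T.R'_mul (z + c).1
  have hr := rhalf_sq
  simp only [hψ]
  fin_cases e <;> simp [edgeEta, kron, hc, pos] at hrr ⊢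
  · exact ⟨by linear_combination (T.R' (z.1 + (k : ℝ) * T.step 0) *
      (1 + T.ε * T.L * deriv (stepFun T.L) (T.R (z.1 + (k : ℝ) * T.step 0))) + 1) * hrr, by ring⟩
  · ring
  · exact ⟨by linear_combination 2 * hr,
      by linear_combination (2 + 2 * (2 * β z + β z * β z) * (2 * rhalf * rhalf + 1)) * hr⟩

/-- A sample has a short curvature vector. -/
lemma sample_short {χ : ℝ → ℝ} (hχ1 : ∀ y, |y| ≤ T.L / 16 → χ y = 1)
    (hχ0 : ∀ y, T.L / 8 ≤ |y| → χ y = 0) {β : ℝ × ℝ → ℝ} (hβ : ∀ z, z ∉ sq T.σ → β z = 0)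
    {M η0 : ℝ} (hno : ∀ (U : Set (ℝ × ℝ)) (G : ℝ × ℝ → E3), IsOpen U → sq T.σ ⊆ U →
      IsBoxImm β U G → (∀ i ≤ 20, ∀ z ∈ sq T.σ, ‖iteratedFDeriv ℝ i G z‖ ≤ M) →
      η0 ≤ ‖dX (dX G) 0‖ → False)
    {V : Set (ℝ × ℝ)} {F : ℝ × ℝ → E3} (hV : IsOpen V) (hsub : sq (2 * T.L) ⊆ V)
    (hF : ContDiffOn ℝ ∞ F V)
    (himm : ∀ z ∈ V, ∀ i j, ⟪frame F z i, frame F z j⟫
      = kron i j + T.metric χ (fun z => 2 * β z + β z * β z) i j z)
    (hbd : ∀ e (z : ℝ × ℝ), -(2 * T.σ) ≤ z.1 → z.1 ≤ T.len e + 2 * T.σ → |z.2| ≤ 2 * T.σ →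
      GeoBD 20 M (fun w => F (edgeIn T.L T.R e w)) z)
    (e : Fin 3) {k : ℕ} (hk : k ∈ Finset.Ico 1 T.N) :
    ‖dX (dX fun w => F (edgeIn T.L T.R e w)) ((k : ℝ) * T.step e, 0)‖ ≤ η0 := by
  obtain ⟨hs1, hs2⟩ := T.pos_bounds e hk
  have hde := T.step_pos e
  have := T.σ_pos
  set c := T.pos e k with hc
  by_contra hbad
  push Not at hbad
  have hin : ∀ z ∈ sq T.σ,
      -(2 * T.σ) ≤ (z + c).1 ∧ (z + c).1 ≤ T.len e + 2 * T.σ ∧ |(z + c).2| ≤ 2 * T.σ := by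
    intro z hz
    rw [mem_sq] at hz
    obtain ⟨h1, h2⟩ := abs_le.1 hz.1
    simp only [hc, pos, Prod.fst_add, Prod.snd_add, add_zero]
    exact ⟨by linarith, by linarith, by linarith [hz.2]⟩
  refine hno _ _ ?_ ?_ (T.chart_boxImm hχ1 hχ0 hβ hV hF himm e hk) ?_ ?_
  · exact ((hV.preimage (contDiff_edgeIn T.L T.R_smooth e).continuous).preimage
      (continuous_id.add continuous_const)).inter
        ((isOpen_lt continuous_fst.abs continuous_const).inter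
          (isOpen_lt continuous_snd.abs continuous_const))
  · intro z hz
    refine ⟨hsub (T.rect e (hin z hz).1 (hin z hz).2.1 (hin z hz).2.2).1, ?_⟩
    rw [mem_sq] at hz
    exact ⟨by linarith [hz.1], by linarith [hz.2]⟩
  · intro i hi z hz
    obtain ⟨h1, h2, h3⟩ := hin z hz
    rw [← hc, iteratedFDeriv_comp_add_right (f := fun w => F (edgeIn T.L T.R e w))]
    exact (hbd e _ h1 h2 h3).2 i hi
  · have hshiftX : ∀ (f : ℝ × ℝ → E3), dX (fun w => f (w + c)) = fun w => dX f (w + c) := by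
      intro f; funext w; simp [dX, fderiv_comp_add_right]
    rw [← hc, hshiftX (fun w => F (edgeIn T.L T.R e w)), hshiftX]
    simp only [zero_add]
    exact hbad.le

/-- The second leg and the hypotenuse end at the same vertex. -/
lemma vertex_top : edgeIn T.L T.R 2 (T.len 2, 0) = ((0 : ℝ), T.L) := by
  simp [edgeIn, len, edgeLen]
  constructor
  · linear_combination (-2 * T.L) * rhalf_sq
  · linear_combination (2 * T.L) * rhalf_sq

/-- The velocities of the edges at their first vertices. -/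
lemma vertex_frames {χ : ℝ → ℝ} {β : ℝ × ℝ → ℝ} (hβ : ∀ z, z ∉ sq T.σ → β z = 0)
    {V : Set (ℝ × ℝ)} {F : ℝ × ℝ → E3} (hV : IsOpen V) (hsub : sq (2 * T.L) ⊆ V)
    (hF : ContDiffOn ℝ ∞ F V)
    (himm : ∀ z ∈ V, ∀ i j, ⟪frame F z i, frame F z j⟫
      = kron i j + T.metric χ (fun z => 2 * β z + β z * β z) i j z) :
    ⟪dX (fun w => F (edgeIn T.L T.R 0 w)) (0, 0), dX (fun w => F (edgeIn T.L T.R 0 w)) (0, 0)⟫ = 1 ∧
    ⟪dX (fun w => F (edgeIn T.L T.R 0 w)) (0, 0), dX (fun w => F (edgeIn T.L T.R 1 w)) (0, 0)⟫ = 0 ∧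
    ⟪dX (fun w => F (edgeIn T.L T.R 1 w)) (0, 0), dX (fun w => F (edgeIn T.L T.R 1 w)) (0, 0)⟫ = 1 ∧
    ⟪dX (fun w => F (edgeIn T.L T.R 2 w)) (0, 0), dX (fun w => F (edgeIn T.L T.R 2 w)) (0, 0)⟫ = 1 := by
  have hL := T.L_pos
  have hψ0 : ∀ z : ℝ × ℝ, (T.σ < |z.1| ∨ T.σ < |z.2|) → 2 * β z + β z * β z = 0 := by
    intro z hz
    have : z ∉ sq T.σ := by
      rw [mem_sq]
      rintro ⟨h1, h2⟩
      rcases hz with h | h <;> linarith
    simp [hβ z this]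
  have hmem : ∀ w : ℝ × ℝ, w = (0, 0) ∨ w = (T.L, 0) → w ∈ V := by
    intro w hw
    refine hsub (mem_sq.2 ?_)
    rcases hw with rfl | rfl <;> simp [abs_of_pos hL] <;> (try constructor) <;> linarith
  have hg : ∀ w : ℝ × ℝ, w = (0, 0) ∨ w = (T.L, 0) →
      ⟪dX F w, dX F w⟫ = 1 ∧ ⟪dX F w, dY F w⟫ = 0 ∧ ⟪dY F w, dY F w⟫ = 1 := by
    intro w hw
    have h := himm w (hmem w hw)
    simp only [T.metric_at_vertex hψ0 hw, add_zero] at h
    exact ⟨by simpa [frame, kron] using h 0 0, by simpa [frame, kron] using h 0 1,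
      by simpa [frame, kron] using h 1 1⟩
  have hdiff : ∀ e, edgeIn T.L T.R e (0, 0) = (0, 0) ∨ edgeIn T.L T.R e (0, 0) = (T.L, 0) →
      DifferentiableAt ℝ F (edgeIn T.L T.R e (0, 0)) := fun e he =>
    (hF.contDiffAt (hV.mem_nhds (hmem _ he))).differentiableAt (by simp)
  have hO : edgeIn T.L T.R 0 (0, 0) = ((0 : ℝ), (0 : ℝ)) := by simp [edgeIn, T.R_zero]
  have hO' : edgeIn T.L T.R 1 (0, 0) = ((0 : ℝ), (0 : ℝ)) := by simp [edgeIn]
  have hB' : edgeIn T.L T.R 2 (0, 0) = (T.L, (0 : ℝ)) := by simp [edgeIn]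
  have hR'0 : T.R' 0 = 1 := by
    have := T.R'_mul 0
    rwa [T.R_zero, deriv_stepFun_of_lt hL (Or.inl (by linarith : (0 : ℝ) < T.L / 4)), mul_zero,
      add_zero, mul_one] at this
  have f0 := (edge_frame T.R_smooth T.hasDeriv_R 0 (hdiff 0 (Or.inl hO))).1
  have f1 := (edge_frame T.R_smooth T.hasDeriv_R 1 (hdiff 1 (Or.inl hO'))).1
  have f2 := (edge_frame T.R_smooth T.hasDeriv_R 2 (hdiff 2 (Or.inr hB'))).1
  rw [hO] at f0
  rw [hO'] at f1
  rw [hB'] at f2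
  obtain ⟨gO0, gO1, gO2⟩ := hg _ (Or.inl rfl)
  obtain ⟨gB0, gB1, gB2⟩ := hg _ (Or.inr rfl)
  rw [f0, f1, f2, inner_comb, inner_comb, inner_comb, inner_comb, gO0, gO1, gO2, gB0, gB1, gB2]
  refine ⟨?_, ?_, ?_, ?_⟩ <;> simp [hR'0]
  linear_combination 2 * rhalf_sq

/-- No immersion with the given bounds. -/
lemma no_immersion {χ : ℝ → ℝ} (hχ1 : ∀ y, |y| ≤ T.L / 16 → χ y = 1)
    (hχ0 : ∀ y, T.L / 8 ≤ |y| → χ y = 0) {β : ℝ × ℝ → ℝ} (hβ : ∀ z, z ∉ sq T.σ → β z = 0)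
    {M η0 : ℝ} (hno : ∀ (U : Set (ℝ × ℝ)) (G : ℝ × ℝ → E3), IsOpen U → sq T.σ ⊆ U →
      IsBoxImm β U G → (∀ i ≤ 20, ∀ z ∈ sq T.σ, ‖iteratedFDeriv ℝ i G z‖ ≤ M) →
      η0 ≤ ‖dX (dX G) 0‖ → False)
    (hη : 7 * (2 * η0) * T.L < Real.sqrt ((1 + T.ε) ^ 2 + 1) - 2 * rhalf)
    (hN : |M| * (2 * T.L / T.N) ≤ η0)
    {V : Set (ℝ × ℝ)} {F : ℝ × ℝ → E3} (hV : IsOpen V) (hsub : sq (2 * T.L) ⊆ V)
    (hF : ContDiffOn ℝ ∞ F V)
    (himm : ∀ z ∈ V, ∀ i j, ⟪frame F z i, frame F z j⟫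
      = kron i j + T.metric χ (fun z => 2 * β z + β z * β z) i j z)
    (hbd : ∀ e (z : ℝ × ℝ), -(2 * T.σ) ≤ z.1 → z.1 ≤ T.len e + 2 * T.σ → |z.2| ≤ 2 * T.σ →
      GeoBD 20 M (fun w => F (edgeIn T.L T.R e w)) z) : False := by
  have hL := T.L_pos
  have hσ := T.σ_pos
  have hedge : ∀ e, ‖F (edgeIn T.L T.R e (T.len e, 0)) - F (edgeIn T.L T.R e (0, 0))
      - T.len e • dX (fun w => F (edgeIn T.L T.R e w)) (0, 0)‖ ≤ (2 * η0) * T.len e ^ 2 := by
    intro e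
    have hlpos : 0 < T.len e := hL.trans_le (T.len_bounds e).1
    have hle := edge_straight (G := fun w => F (edgeIn T.L T.R e w)) (M := M) (η := η0) (N := T.N)
      hlpos T.two_le_N
      (fun s hs => hbd e (s, 0) (by simp; linarith [hs.1]) (by simp; linarith [hs.2])
        (by simp; linarith))
      (fun k hk1 hkN => T.sample_short hχ1 hχ0 hβ hno hV hsub hF himm hbd e
        (Finset.mem_Ico.2 ⟨hk1, hkN⟩))
    refine hle.trans (mul_le_mul_of_nonneg_right ?_ (sq_nonneg _))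
    have hM' : M * (T.len e / T.N) ≤ |M| * (2 * T.L / T.N) :=
      mul_le_mul (le_abs_self _) (div_le_div_of_nonneg_right (T.len_bounds e).2 T.N_pos.le)
        (div_nonneg hlpos.le T.N_pos.le) (abs_nonneg _)
    linarith
  have hO : edgeIn T.L T.R 0 (0, 0) = ((0 : ℝ), (0 : ℝ)) := by simp [edgeIn, T.R_zero]
  have hO' : edgeIn T.L T.R 1 (0, 0) = ((0 : ℝ), (0 : ℝ)) := by simp [edgeIn]
  have hB : edgeIn T.L T.R 0 (T.len 0, 0) = (T.L, (0 : ℝ)) := by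
    simp [edgeIn, len, edgeLen, T.R_len]
  have hB' : edgeIn T.L T.R 2 (0, 0) = (T.L, (0 : ℝ)) := by simp [edgeIn]
  have hC : edgeIn T.L T.R 1 (T.len 1, 0) = ((0 : ℝ), T.L) := by simp [edgeIn, len, edgeLen]
  have hC' := T.vertex_top
  obtain ⟨p0, p1, p2, p3⟩ := T.vertex_frames hβ hV hsub hF himm
  have e0 := hedge 0
  have e1 := hedge 1
  have e2 := hedge 2
  rw [hB, hO] at e0
  rw [hC, hO'] at e1
  rw [hC', hB'] at e2
  exact triangle_contra (E := 2 * η0) hL T.ε_pos.le T.ε_le hη p0 p1 p2 p3 e0 e1 e2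

end TriData

end Vale.Agent.P229
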